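import Vale.Agent.P120.MathlibUsed
import Vale.Agent.P120.Final
attribute [-instance] ProperSMul.toContinuousSMul IsTopologicalTorsor.toContinuousSMul IdemSemiring.toCanonicallyOrderedAdd IdemSemiring.toMulLeftMono IdemSemiring.toMulRightMono AddQuantale.instAddLeftMono AddQuantale.instAddRightMono Quantale.instMulLeftMono Quantale.instMulRightMono FiniteDimensional.rclike_to_real IsScalarTower.complexToReal FiniteDimensional.complexToReal

set_option linter.all false

section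

section

open MeasureTheory Metric Set Filter Topology
open scoped ENNReal NNReal

namespace Vale.Agent.P120

variable {d : ℕ}

/-- Working regularity class: upper bound at all centres and radii, lower bound on the support
for radii at most `D`. -/
structure AR (n : ℕ) (c C : ℝ) (D : ℝ≥0∞) (μ : Measure (Eu d)) : Prop where
  c_pos : 0 < c
  C_pos : 0 < C
  upper : ∀ (x : Eu d) (r : ℝ), 0 < r → μ (closedBall x r) ≤ ENNReal.ofReal (C * r ^ n)
  lower : ∀ x ∈ μ.support, ∀ r : ℝ, 0 < r → ENNReal.ofReal r ≤ D →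
    ENNReal.ofReal (c * r ^ n) ≤ μ (ball x r)

/-- scalar kernel `(|z|^2+e^2)^{-(n+1)/2}` -/
noncomputable def sK (n : ℕ) (e : ℝ) (z : Eu d) : ℝ := ((Real.sqrt (‖z‖ ^ 2 + e ^ 2)) ^ (n + 1))⁻¹

/-- regularised Riesz kernel; `rK n 0` is the Riesz kernel -/
noncomputable def rK (n : ℕ) (e : ℝ) (z : Eu d) : Eu d := sK n e z • z

/-- Lipschitz with compact support -/
def LipC (ψ : Eu d → ℝ) : Prop := (∃ L : ℝ≥0, LipschitzWith L ψ) ∧ HasCompactSupport ψ

/-- the antisymmetric form `⟨R θ, ψ⟩` -/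
noncomputable def form (n : ℕ) (e : ℝ) (μ : Measure (Eu d)) (ψ θ : Eu d → ℝ) : Eu d :=
  (1 / 2 : ℝ) • ∫ p, (ψ p.1 * θ p.2 - ψ p.2 * θ p.1) • rK n e (p.1 - p.2) ∂(μ.prod μ)

/-- `L^2` boundedness of the regularised forms, uniformly in the regularisation -/
def RB (n : ℕ) (C₁ : ℝ) (μ : Measure (Eu d)) : Prop :=
  0 ≤ C₁ ∧ ∀ e : ℝ, 0 < e → ∀ ψ θ : Eu d → ℝ, Continuous ψ → HasCompactSupport ψ →
    Continuous θ → HasCompactSupport θ →
    ‖form n e μ ψ θ‖ ≤ C₁ * Real.sqrt (∫ x, ψ x ^ 2 ∂μ) * Real.sqrt (∫ x, θ x ^ 2 ∂μ)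

/-- `M`-good balls with respect to the cutoff `θ` -/
def Good (n : ℕ) (M : ℝ) (μ : Measure (Eu d)) (θ : Eu d → ℝ) (a : Eu d) (r : ℝ) : Prop :=
  ∀ ψ : Eu d → ℝ, (∀ x y, |ψ x - ψ y| ≤ M / r * dist x y) → (∀ x, M * r ≤ dist x a → ψ x = 0) →
    ∫ x, ψ x ∂μ = 0 → ‖form n 0 μ ψ θ‖ ≤ r ^ n / M

/-- exactly reflectionless measures, quantitative form -/
def ER (n : ℕ) (C₂ : ℝ) (ν : Measure (Eu d)) : Prop :=
  0 ≤ C₂ ∧ ∀ (a : Eu d) (R S : ℝ) (ψ θ : Eu d → ℝ), 0 < R → 2 * R ≤ S → LipC ψ →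
    (∀ x, R < dist x a → ψ x = 0) → ∫ x, ψ x ∂ν = 0 → LipC θ → (∀ x, 0 ≤ θ x ∧ θ x ≤ 1) →
    (∀ x, dist x a ≤ S → θ x = 1) → ‖form n 0 ν ψ θ‖ ≤ C₂ * (R / S) * ∫ x, |ψ x| ∂ν

/-- the limit class -/
structure Lim (n : ℕ) (c C C₁ C₂ : ℝ) (ν : Measure (Eu d)) : Prop where
  ar : AR n c C ⊤ ν
  rb : RB n C₁ ν
  er : ER n C₂ ν

/-- distance from `x` to the affine plane `b + W` -/
noncomputable def dP (W : Submodule ℝ (Eu d)) (b x : Eu d) : ℝ := ‖Wᗮ.starProjection (x - b)‖

/-- sup-flatness at `(a,r)`: the support in `B(a,r)` is within `δ r` of an `m`-plane -/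
def Flat (m : ℕ) (μ : Measure (Eu d)) (a : Eu d) (r δ : ℝ) : Prop :=
  ∃ (W : Submodule ℝ (Eu d)) (b : Eu d), Module.finrank ℝ W = m ∧
    ∀ x ∈ μ.support, dist x a < r → dP W b x ≤ δ * r

/-- `L^2`-flatness at `(0,R)` -/
def FlatL2 (n : ℕ) (μ : Measure (Eu d)) (R t : ℝ) : Prop :=
  ∃ (W : Submodule ℝ (Eu d)) (b : Eu d), Module.finrank ℝ W = n ∧
    ∫ x in ball (0 : Eu d) R, dP W b x ^ 2 ∂μ ≤ t ^ 2 * R ^ (n + 2)

/-- near-flatness: closeness to `g` times Lebesgue measure on the plane `b + range ι` -/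
def NF (n : ℕ) (μ : Measure (Eu d)) (a : Eu d) (r K ε : ℝ) (b : Eu d) (ι : Eu n →ₗᵢ[ℝ] Eu d)
    (g : ℝ) : Prop :=
  ∀ φ : Eu d → ℝ, (∀ x y, |φ x - φ y| ≤ dist x y / r) → (∀ x, K * r ≤ dist x a → φ x = 0) →
    |∫ x, φ x ∂μ - g * ∫ v, φ (b + ι v)| ≤ ε * r ^ n

/-- existence of a near-flat approximation with density in `[g₀, g₁]` -/
def NearFlat (n : ℕ) (μ : Measure (Eu d)) (g₀ g₁ : ℝ) (a : Eu d) (r K ε : ℝ) : Prop :=
  ∃ (b : Eu d) (ι : Eu n →ₗᵢ[ℝ] Eu d) (g : ℝ), g₀ ≤ g ∧ g ≤ g₁ ∧ NF n μ a r K ε b ι g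

/-- truncated Riesz transform of `1` -/
noncomputable def Trunc (n : ℕ) (μ : Measure (Eu d)) (s S : ℝ) (x : Eu d) : Eu d :=
  ∫ y in {y | s < dist y x ∧ dist y x ≤ S}, rK n 0 (x - y) ∂μ

/-- tent function of radius `s` at `x` -/
noncomputable def tent (x : Eu d) (s : ℝ) (y : Eu d) : ℝ := max 0 (1 - dist y x / s)

/-- standard cutoff: `1` on `B(a,S)`, `0` off `B(a,2S)` -/
noncomputable def cut (a : Eu d) (S : ℝ) (y : Eu d) : ℝ := max 0 (min 1 (2 - dist y a / S))

/-- vague convergence along an ultrafilter -/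
def VagueLim (𝒰 : Ultrafilter ℕ) (μ : ℕ → Measure (Eu d)) (ν : Measure (Eu d)) : Prop :=
  ∀ f : Eu d → ℝ, Continuous f → HasCompactSupport f →
    Tendsto (fun k => ∫ x, f x ∂(μ k)) (𝒰 : Filter ℕ) (𝓝 (∫ x, f x ∂ν))

end Vale.Agent.P120
end
end

section

section

/-! Kernel estimates and basic integral estimates.  Owner module: K -/

open MeasureTheory Metric Set Filter Topology
open scoped ENNReal NNReal

namespace Vale.Agent.P120

variable {d : ℕ}

theorem sK_nonneg (n : ℕ) (e : ℝ) (z : Eu d) : 0 ≤ sK n e z := by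
  unfold sK; positivity

theorem sK_neg (n : ℕ) (e : ℝ) (z : Eu d) : sK n e (-z) = sK n e z := by
  simp only [sK, norm_neg]

theorem rK_neg (n : ℕ) (e : ℝ) (z : Eu d) : rK n e (-z) = - rK n e z := by
  simp [rK, sK_neg]

theorem sK_zero_eq (n : ℕ) (z : Eu d) : sK n 0 z = (‖z‖ ^ (n + 1))⁻¹ := by
  simp [sK, Real.sqrt_sq (norm_nonneg z)]

theorem rK_zero_eq (n : ℕ) (z : Eu d) : rK n 0 z = rieszKernel n z := by
  simp [rK, rieszKernel, sK_zero_eq]

/-- auxiliary: the regularised distance -/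
theorem le_sqrt_aux (e : ℝ) (z : Eu d) : ‖z‖ ≤ Real.sqrt (‖z‖ ^ 2 + e ^ 2) := by
  apply Real.le_sqrt_of_sq_le
  nlinarith [sq_nonneg e]

theorem le_sqrt_aux' (e : ℝ) (_he : 0 ≤ e) (z : Eu d) :
    e ≤ Real.sqrt (‖z‖ ^ 2 + e ^ 2) := by
  apply Real.le_sqrt_of_sq_le
  nlinarith only [sq_nonneg ‖z‖]

/-- `|√(a²+e²) - √(b²+e²)| ≤ |a - b|` for nonnegative `a`, `b` -/
theorem sqrt_lip_aux (a b e : ℝ) (ha : 0 ≤ a) (hb : 0 ≤ b) :
    |Real.sqrt (a ^ 2 + e ^ 2) - Real.sqrt (b ^ 2 + e ^ 2)| ≤ |a - b| := by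
  wlog hab : b ≤ a generalizing a b
  · rw [abs_sub_comm, abs_sub_comm a b]
    exact this b a hb ha (le_of_not_ge hab)
  have h1 : Real.sqrt (b ^ 2 + e ^ 2) ≤ Real.sqrt (a ^ 2 + e ^ 2) := by
    apply Real.sqrt_le_sqrt
    nlinarith only [ha, hb, hab]
  rw [abs_of_nonneg (by linarith), abs_of_nonneg (by linarith)]
  have hs : b ≤ Real.sqrt (b ^ 2 + e ^ 2) := by
    apply Real.le_sqrt_of_sq_le
    nlinarith only [sq_nonneg e]
  have : Real.sqrt (a ^ 2 + e ^ 2) ≤ (a - b) + Real.sqrt (b ^ 2 + e ^ 2) := by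
    rw [Real.sqrt_le_left (by linarith)]
    have hsq : Real.sqrt (b ^ 2 + e ^ 2) ^ 2 = b ^ 2 + e ^ 2 :=
      Real.sq_sqrt (by positivity)
    nlinarith only [hab, hs, hsq]
  linarith only [this]

theorem inv_pow_sub_aux (m : ℕ) (s t : ℝ) (ρ : ℝ) (hρ : 0 < ρ) (hs : ρ ≤ s) (ht : ρ ≤ t) :
    |(s ^ m)⁻¹ - (t ^ m)⁻¹| ≤ m * |s - t| * (ρ ^ (m + 1))⁻¹ := by
  have hs0 : 0 < s := lt_of_lt_of_le hρ hs
  have ht0 : 0 < t := lt_of_lt_of_le hρ ht
  induction m with
  | zero => simp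
  | succ m ih =>
    have e1 : (s ^ (m + 1))⁻¹ - (t ^ (m + 1))⁻¹
        = (s⁻¹) * ((s ^ m)⁻¹ - (t ^ m)⁻¹) + (t ^ m)⁻¹ * (s⁻¹ - t⁻¹) := by
      rw [pow_succ, pow_succ, mul_inv, mul_inv]; ring
    have e2 : |s⁻¹ - t⁻¹| ≤ |s - t| * (ρ ^ 2)⁻¹ := by
      have : s⁻¹ - t⁻¹ = (t - s) * (s * t)⁻¹ := by
        (clear * - hs0 ht0; field_simp)
      rw [this, abs_mul, abs_sub_comm t s, abs_of_pos (by positivity : 0 < (s * t)⁻¹)]
      apply mul_le_mul_of_nonneg_left _ (abs_nonneg _)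
      apply inv_anti₀ (by positivity)
      nlinarith only [hρ, hs, ht]
    have e3 : s⁻¹ ≤ ρ⁻¹ := inv_anti₀ hρ hs
    have e4 : (t ^ m)⁻¹ ≤ (ρ ^ m)⁻¹ := inv_anti₀ (by positivity) (by gcongr)
    calc |(s ^ (m + 1))⁻¹ - (t ^ (m + 1))⁻¹|
        ≤ s⁻¹ * |(s ^ m)⁻¹ - (t ^ m)⁻¹| + (t ^ m)⁻¹ * |s⁻¹ - t⁻¹| := by
          rw [e1]
          refine (abs_add_le _ _).trans ?_
          rw [abs_mul, abs_mul, abs_of_pos (by positivity : 0 < s⁻¹),
            abs_of_pos (by positivity : 0 < (t ^ m)⁻¹)]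
      _ ≤ ρ⁻¹ * (m * |s - t| * (ρ ^ (m + 1))⁻¹) + (ρ ^ m)⁻¹ * (|s - t| * (ρ ^ 2)⁻¹) := by
          gcongr
      _ = ((m + 1 : ℕ) : ℝ) * |s - t| * (ρ ^ (m + 1 + 1))⁻¹ := by
          push_cast
          field_simp
          ring

theorem sK_le (n : ℕ) (e : ℝ) (z : Eu d) (hz : z ≠ 0) : sK n e z ≤ (‖z‖ ^ (n + 1))⁻¹ := by
  unfold sK
  have hz' : 0 < ‖z‖ := norm_pos_iff.mpr hz
  apply inv_anti₀ (by positivity)
  gcongr
  exact le_sqrt_aux e z

theorem norm_rK_le (n : ℕ) (e : ℝ) (z : Eu d) : ‖rK n e z‖ ≤ (‖z‖ ^ n)⁻¹ := by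
  by_cases hz : z = 0
  · subst hz
    simp only [rK, smul_zero, norm_zero]
    positivity
  · have hz' : 0 < ‖z‖ := norm_pos_iff.mpr hz
    rw [rK, norm_smul, Real.norm_of_nonneg (sK_nonneg n e z)]
    calc sK n e z * ‖z‖ ≤ (‖z‖ ^ (n + 1))⁻¹ * ‖z‖ := by
          gcongr; exact sK_le n e z hz
      _ = (‖z‖ ^ n)⁻¹ := by
          rw [pow_succ]; field_simp

theorem norm_rK_le_e (n : ℕ) (e : ℝ) (he : 0 < e) (z : Eu d) : ‖rK n e z‖ ≤ (e ^ n)⁻¹ := by
  rw [rK, norm_smul, Real.norm_of_nonneg (sK_nonneg n e z), sK]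
  set s := Real.sqrt (‖z‖ ^ 2 + e ^ 2) with hs
  have h1 : ‖z‖ ≤ s := le_sqrt_aux e z
  have h2 : e ≤ s := le_sqrt_aux' e he.le z
  have h3 : 0 < s := lt_of_lt_of_le he h2
  calc (s ^ (n + 1))⁻¹ * ‖z‖ ≤ (s ^ (n + 1))⁻¹ * s := by gcongr
    _ = (s ^ n)⁻¹ := by rw [pow_succ]; field_simp
    _ ≤ (e ^ n)⁻¹ := by
        apply inv_anti₀ (by positivity)
        gcongr

theorem continuous_sK (n : ℕ) (e : ℝ) (he : 0 < e) : Continuous (sK (d := d) n e) := by
  unfold sK
  apply Continuous.inv₀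
  · fun_prop
  · intro z
    have : 0 < Real.sqrt (‖z‖ ^ 2 + e ^ 2) := Real.sqrt_pos.mpr (by positivity)
    positivity

theorem continuous_rK (n : ℕ) (e : ℝ) (he : 0 < e) : Continuous (rK (d := d) n e) := by
  unfold rK
  exact (continuous_sK n e he).smul continuous_id

theorem measurable_sK (n : ℕ) (e : ℝ) : Measurable (sK (d := d) n e) := by
  unfold sK
  fun_prop

theorem measurable_rK (n : ℕ) (e : ℝ) : Measurable (rK (d := d) n e) := by
  unfold rK
  exact (measurable_sK n e).smul measurable_id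

theorem sK_sub_aux (n : ℕ) (e : ℝ) (z z' : Eu d)
    (h : ‖z - z'‖ ≤ ‖z‖ / 2) (hz : z ≠ 0) :
    |sK n e z - sK n e z'| ≤ ((n + 1 : ℕ) * 2 ^ (n + 2)) * ‖z - z'‖ * (‖z‖ ^ (n + 2))⁻¹ := by
  have hz' : 0 < ‖z‖ := norm_pos_iff.mpr hz
  have h1 : ‖z‖ / 2 ≤ ‖z'‖ := by
    have := norm_sub_norm_le z z'
    linarith only [h, this]
  have h2 := inv_pow_sub_aux (n + 1) (Real.sqrt (‖z‖ ^ 2 + e ^ 2)) (Real.sqrt (‖z'‖ ^ 2 + e ^ 2))
    (‖z‖ / 2) (by positivity) (by linarith only [le_sqrt_aux e z, hz']) (by linarith only [le_sqrt_aux e z',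
                                                                    h1])
  have h3 := sqrt_lip_aux ‖z‖ ‖z'‖ e (norm_nonneg _) (norm_nonneg _)
  have h4 : |‖z‖ - ‖z'‖| ≤ ‖z - z'‖ := abs_norm_sub_norm_le z z'
  unfold sK
  refine h2.trans ?_
  calc ((n + 1 : ℕ) : ℝ) * |Real.sqrt (‖z‖ ^ 2 + e ^ 2) - Real.sqrt (‖z'‖ ^ 2 + e ^ 2)|
        * ((‖z‖ / 2) ^ (n + 1 + 1))⁻¹
      ≤ ((n + 1 : ℕ) : ℝ) * ‖z - z'‖ * ((‖z‖ / 2) ^ (n + 1 + 1))⁻¹ := by
        gcongr; exact h3.trans h4
    _ = ((n + 1 : ℕ) * 2 ^ (n + 2)) * ‖z - z'‖ * (‖z‖ ^ (n + 2))⁻¹ := by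
        rw [div_pow]
        field_simp

/-- smoothness of the vector kernel -/
theorem rK_sub_le (n : ℕ) : ∃ C : ℝ, 0 < C ∧ ∀ (d : ℕ) (e : ℝ) (z z' : Eu d),
    ‖z - z'‖ ≤ ‖z‖ / 2 → z ≠ 0 → ‖rK n e z - rK n e z'‖ ≤ C * ‖z - z'‖ * (‖z‖ ^ (n + 1))⁻¹ := by
  refine ⟨2 ^ (n + 1) + (n + 1 : ℕ) * 2 ^ (n + 2), by positivity, ?_⟩
  intro d e z z' h hz
  have hz' : 0 < ‖z‖ := norm_pos_iff.mpr hz
  have h1 : ‖z‖ / 2 ≤ ‖z'‖ := by
    have := norm_sub_norm_le z z'
    linarith only [h, this]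
  have hz0 : z' ≠ 0 := by
    rw [← norm_pos_iff]; linarith only [hz', h1]
  have key : rK n e z - rK n e z' = (sK n e z - sK n e z') • z + sK n e z' • (z - z') := by
    simp only [rK, sub_smul, smul_sub]; abel
  rw [key]
  refine (norm_add_le _ _).trans ?_
  rw [norm_smul, norm_smul, Real.norm_eq_abs, Real.norm_of_nonneg (sK_nonneg n e z')]
  have h2 := sK_sub_aux n e z z' h hz
  have h3 : sK n e z' ≤ ((‖z‖ / 2) ^ (n + 1))⁻¹ := by
    refine (sK_le n e z' hz0).trans ?_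
    apply inv_anti₀ (by positivity)
    gcongr
  calc |sK n e z - sK n e z'| * ‖z‖ + sK n e z' * ‖z - z'‖
      ≤ (((n + 1 : ℕ) * 2 ^ (n + 2)) * ‖z - z'‖ * (‖z‖ ^ (n + 2))⁻¹) * ‖z‖
          + ((‖z‖ / 2) ^ (n + 1))⁻¹ * ‖z - z'‖ := by (clear * - hz h2 h3; gcongr)
    _ = (2 ^ (n + 1) + (n + 1 : ℕ) * 2 ^ (n + 2)) * ‖z - z'‖ * (‖z‖ ^ (n + 1))⁻¹ := by
        rw [div_pow, pow_succ ‖z‖ (n + 1)]
        field_simp
        ring

/-- smoothness of the scalar kernel -/
theorem sK_sub_le (n : ℕ) : ∃ C : ℝ, 0 < C ∧ ∀ (d : ℕ) (e : ℝ) (z z' : Eu d),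
    ‖z - z'‖ ≤ ‖z‖ / 2 → z ≠ 0 → |sK n e z - sK n e z'| ≤ C * ‖z - z'‖ * (‖z‖ ^ (n + 2))⁻¹ := by
  refine ⟨(n + 1 : ℕ) * 2 ^ (n + 2), by positivity, ?_⟩
  intro d e z z' h hz
  exact sK_sub_aux n e z z' h hz

/-- comparison with the unregularised kernel -/
theorem rK_reg_le (n : ℕ) : ∃ C : ℝ, 0 < C ∧ ∀ (d : ℕ) (e : ℝ) (z : Eu d), z ≠ 0 →
    ‖rK n 0 z - rK n e z‖ ≤ C * (‖z‖ ^ n)⁻¹ * min 1 (e ^ 2 / ‖z‖ ^ 2) ∧
    |sK n 0 z - sK n e z| ≤ C * (‖z‖ ^ (n + 1))⁻¹ * min 1 (e ^ 2 / ‖z‖ ^ 2) ∧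
    sK n e z ≤ sK n 0 z := by
  refine ⟨(n + 1 : ℕ), by positivity, ?_⟩
  intro d e z hz
  have hz' : 0 < ‖z‖ := norm_pos_iff.mpr hz
  have hle : sK n e z ≤ sK n 0 z := by
    rw [sK_zero_eq]; exact sK_le n e z hz
  have hmain : |sK n 0 z - sK n e z|
      ≤ (n + 1 : ℕ) * (‖z‖ ^ (n + 1))⁻¹ * min 1 (e ^ 2 / ‖z‖ ^ 2) := by
    rw [abs_of_nonneg (by linarith only [hle])]
    rcases min_choice (1 : ℝ) (e ^ 2 / ‖z‖ ^ 2) with hm | hm
    · rw [hm, sK_zero_eq, mul_one]
      have h0 := sK_nonneg n e z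
      have h1 : (1 : ℝ) ≤ ((n + 1 : ℕ) : ℝ) := by
        push_cast; linarith only []
      nlinarith only [show 0 < (‖z‖ ^ (n + 1))⁻¹ by positivity, hz, h0, h1]
    · rw [hm]
      set s := Real.sqrt (‖z‖ ^ 2 + e ^ 2) with hs
      have hs1 : ‖z‖ ≤ s := le_sqrt_aux e z
      have hsq : s ^ 2 = ‖z‖ ^ 2 + e ^ 2 := Real.sq_sqrt (by positivity)
      have h2 := inv_pow_sub_aux (n + 1) ‖z‖ s ‖z‖ hz' le_rfl hs1
      rw [sK_zero_eq, sK, ← hs]
      refine (le_abs_self _).trans (h2.trans ?_)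
      have h3 : |‖z‖ - s| ≤ e ^ 2 / ‖z‖ := by
        rw [abs_sub_comm, abs_of_nonneg (by linarith only [hs1]), le_div_iff₀ hz']
        nlinarith only [hs1, hsq]
      calc ((n + 1 : ℕ) : ℝ) * |‖z‖ - s| * (‖z‖ ^ (n + 1 + 1))⁻¹
          ≤ ((n + 1 : ℕ) : ℝ) * (e ^ 2 / ‖z‖) * (‖z‖ ^ (n + 1 + 1))⁻¹ := by gcongr
        _ = ((n + 1 : ℕ) : ℝ) * (‖z‖ ^ (n + 1))⁻¹ * (e ^ 2 / ‖z‖ ^ 2) := by
            rw [pow_succ ‖z‖ (n + 1)]
            (clear * - hz; field_simp)
  refine ⟨?_, hmain, hle⟩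
  have key : rK n 0 z - rK n e z = (sK n 0 z - sK n e z) • z := by
    simp only [rK, sub_smul]
  rw [key, norm_smul, Real.norm_eq_abs]
  calc |sK n 0 z - sK n e z| * ‖z‖
      ≤ ((n + 1 : ℕ) * (‖z‖ ^ (n + 1))⁻¹ * min 1 (e ^ 2 / ‖z‖ ^ 2)) * ‖z‖ := by gcongr
    _ = (n + 1 : ℕ) * (‖z‖ ^ n)⁻¹ * min 1 (e ^ 2 / ‖z‖ ^ 2) := by
        rw [pow_succ]; field_simp

variable {n : ℕ} {c C : ℝ} {D : ℝ≥0∞} {μ : Measure (Eu d)}

theorem AR.measure_ball_lt_top (h : AR n c C D μ) (x : Eu d) (r : ℝ) :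
    μ (closedBall x r) < ⊤ := by
  have h1 : closedBall x r ⊆ closedBall x (max r 1) := closedBall_subset_closedBall (le_max_left _ _)
  refine (measure_mono h1).trans_lt ?_
  exact (h.upper x (max r 1) (lt_max_of_lt_right one_pos)).trans_lt ENNReal.ofReal_lt_top

theorem AR.isLocallyFiniteMeasure (h : AR n c C D μ) : IsLocallyFiniteMeasure μ := by
  refine ⟨fun x => ⟨closedBall x 1, closedBall_mem_nhds x one_pos, h.measure_ball_lt_top x 1⟩⟩

/-- `∫_{B(x,r)} |x-y|^{1-n} ≤ C r` -/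
theorem lintegral_near (n : ℕ) (hn : 1 ≤ n) (C : ℝ) (hC : 0 < C) : ∃ C' : ℝ, 0 < C' ∧
    ∀ (d : ℕ) (μ : Measure (Eu d)),
      (∀ (x : Eu d) (r : ℝ), 0 < r → μ (closedBall x r) ≤ ENNReal.ofReal (C * r ^ n)) →
      ∀ (x : Eu d) (r : ℝ), 0 < r →
        ∫⁻ y in closedBall x r, ENNReal.ofReal ((‖x - y‖ ^ (n - 1))⁻¹) ∂μ
          ≤ ENNReal.ofReal (C' * r) := by
  refine ⟨C * 2 ^ n, by positivity, ?_⟩
  intro d μ hμ x r hr
  -- annuli
  let A : ℕ → Set (Eu d) := fun k => {y | r / 2 ^ (k + 1) < dist y x ∧ dist y x ≤ r / 2 ^ k}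
  have hsub : closedBall x r ⊆ {x} ∪ ⋃ k, A k := by
    intro y hy
    by_cases hyx : y = x
    · left; exact hyx
    · right
      have hpos : 0 < dist y x := dist_pos.mpr hyx
      have hy' : dist y x ≤ r := mem_closedBall.mp hy
      have hlim : Tendsto (fun k : ℕ => r / 2 ^ k) atTop (𝓝 0) := by
        have := tendsto_pow_atTop_nhds_zero_of_lt_one (r := (1/2 : ℝ)) (by norm_num) (by norm_num)
        have h2 := this.const_mul r
        simp only [mul_zero] at h2
        refine h2.congr (fun k => ?_)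
        rw [one_div, inv_pow]; rfl
      have hex : ∃ k : ℕ, r / 2 ^ k < dist y x := by
        have := (hlim.eventually (gt_mem_nhds hpos)).exists
        exact this
      classical
      let k₀ := Nat.find hex
      have hk₀ : r / 2 ^ k₀ < dist y x := Nat.find_spec hex
      have hk₀pos : k₀ ≠ 0 := by
        intro h0
        rw [h0] at hk₀
        simp at hk₀
        linarith only [hy', hk₀]
      obtain ⟨k, hk⟩ := Nat.exists_eq_succ_of_ne_zero hk₀pos
      rw [mem_iUnion]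
      refine ⟨k, ?_, ?_⟩
      · rw [hk] at hk₀; exact hk₀
      · by_contra hcon
        push Not at hcon
        have : k₀ ≤ k := Nat.find_min' hex hcon
        omega
  have hzero : μ {x} = 0 := by
    have h1 : ∀ k : ℕ, μ {x} ≤ ENNReal.ofReal (C * (1 / ((k : ℝ) + 1)) ^ n) := by
      intro k
      have : ({x} : Set (Eu d)) ⊆ closedBall x (1 / ((k : ℝ) + 1)) := by
        intro y hy
        rw [mem_singleton_iff] at hy
        rw [hy]
        exact mem_closedBall_self (by (clear * -; positivity))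
      exact (measure_mono this).trans (hμ x _ (by positivity))
    have h2 : Tendsto (fun k : ℕ => ENNReal.ofReal (C * (1 / ((k : ℝ) + 1)) ^ n)) atTop (𝓝 0) := by
      have h3 : Tendsto (fun k : ℕ => C * (1 / ((k : ℝ) + 1)) ^ n) atTop (𝓝 (C * 0 ^ n)) :=
        (tendsto_one_div_add_atTop_nhds_zero_nat.pow n).const_mul C
      rw [zero_pow (by omega), mul_zero] at h3
      have h4 := ENNReal.tendsto_ofReal h3
      simpa only [one_div, inv_pow, ENNReal.ofReal_zero] using h4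
    exact le_antisymm (ge_of_tendsto' h2 h1) bot_le
  calc ∫⁻ y in closedBall x r, ENNReal.ofReal ((‖x - y‖ ^ (n - 1))⁻¹) ∂μ
      ≤ ∫⁻ y in {x} ∪ ⋃ k, A k, ENNReal.ofReal ((‖x - y‖ ^ (n - 1))⁻¹) ∂μ :=
        lintegral_mono_set hsub
    _ ≤ ∫⁻ y in {x}, ENNReal.ofReal ((‖x - y‖ ^ (n - 1))⁻¹) ∂μ
        + ∫⁻ y in ⋃ k, A k, ENNReal.ofReal ((‖x - y‖ ^ (n - 1))⁻¹) ∂μ :=
        lintegral_union_le _ _ _
    _ = ∫⁻ y in ⋃ k, A k, ENNReal.ofReal ((‖x - y‖ ^ (n - 1))⁻¹) ∂μ := by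
        rw [setLIntegral_measure_zero _ _ hzero, zero_add]
    _ ≤ ∑' k, ∫⁻ y in A k, ENNReal.ofReal ((‖x - y‖ ^ (n - 1))⁻¹) ∂μ :=
        lintegral_iUnion_le _ _
    _ ≤ ∑' k : ℕ, ENNReal.ofReal (C * 2 ^ (n - 1) * r * (1 / 2) ^ k) := by
        apply ENNReal.tsum_le_tsum
        intro k
        have hrk : 0 < r / 2 ^ (k + 1) := by positivity
        calc ∫⁻ y in A k, ENNReal.ofReal ((‖x - y‖ ^ (n - 1))⁻¹) ∂μ
            ≤ ∫⁻ _ in A k, ENNReal.ofReal (((r / 2 ^ (k + 1)) ^ (n - 1))⁻¹) ∂μ := by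
              apply setLIntegral_mono measurable_const
              intro y hy
              apply ENNReal.ofReal_le_ofReal
              apply inv_anti₀ (by positivity)
              have : r / 2 ^ (k + 1) ≤ ‖x - y‖ := by
                rw [← dist_eq_norm, dist_comm]; exact hy.1.le
              gcongr
          _ = ENNReal.ofReal (((r / 2 ^ (k + 1)) ^ (n - 1))⁻¹) * μ (A k) := by
              rw [setLIntegral_const]
          _ ≤ ENNReal.ofReal (((r / 2 ^ (k + 1)) ^ (n - 1))⁻¹)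
                * ENNReal.ofReal (C * (r / 2 ^ k) ^ n) := by
              gcongr
              refine (measure_mono ?_).trans (hμ x _ (by positivity))
              intro y hy
              exact mem_closedBall.mpr hy.2
          _ = ENNReal.ofReal (C * 2 ^ (n - 1) * r * (1 / 2) ^ k) := by
              rw [← ENNReal.ofReal_mul (by positivity)]
              congr 1
              obtain ⟨m, rfl⟩ : ∃ m, n = m + 1 := ⟨n - 1, by omega⟩
              simp only [Nat.add_sub_cancel]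
              rw [pow_succ (r / 2 ^ k) m, div_pow, div_pow, one_div, inv_pow]
              have h2 : (2 : ℝ) ^ (k + 1) = 2 ^ k * 2 := pow_succ _ _
              rw [h2, mul_pow]
              field_simp
    _ = ENNReal.ofReal (C * 2 ^ n * r) := by
        rw [← ENNReal.ofReal_tsum_of_nonneg]
        · congr 1
          rw [tsum_mul_left, tsum_geometric_of_lt_one (by norm_num) (by norm_num)]
          obtain ⟨m, rfl⟩ : ∃ m, n = m + 1 := ⟨n - 1, by omega⟩
          simp only [Nat.add_sub_cancel, pow_succ]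
          norm_num
          ring
        · intro k; positivity
        · exact (summable_geometric_of_lt_one (by norm_num) (by norm_num)).mul_left _

/-- `∫_{|x-y| ≥ r} |x-y|^{-n-p} ≤ C r^{-p}`, `p ≥ 1` -/
theorem lintegral_far (n p : ℕ) (hp : 1 ≤ p) (C : ℝ) (hC : 0 < C) : ∃ C' : ℝ, 0 < C' ∧
    ∀ (d : ℕ) (μ : Measure (Eu d)),
      (∀ (x : Eu d) (r : ℝ), 0 < r → μ (closedBall x r) ≤ ENNReal.ofReal (C * r ^ n)) →
      ∀ (x : Eu d) (r : ℝ), 0 < r →
        ∫⁻ y in {y | r ≤ dist y x}, ENNReal.ofReal ((‖x - y‖ ^ (n + p))⁻¹) ∂μ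
          ≤ ENNReal.ofReal (C' * (r ^ p)⁻¹) := by
  refine ⟨C * 2 ^ (n + 1), by positivity, ?_⟩
  intro d μ hμ x r hr
  let A : ℕ → Set (Eu d) := fun k => {y | r * 2 ^ k ≤ dist y x ∧ dist y x ≤ r * 2 ^ (k + 1)}
  have hsub : {y | r ≤ dist y x} ⊆ ⋃ k, A k := by
    intro y hy
    have hy' : r ≤ dist y x := hy
    have hlim : Tendsto (fun k : ℕ => r * 2 ^ k) atTop atTop := by
      apply Tendsto.const_mul_atTop hr
      exact tendsto_pow_atTop_atTop_of_one_lt (by norm_num)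
    have hex : ∃ k : ℕ, dist y x < r * 2 ^ k := (hlim.eventually_gt_atTop _).exists
    classical
    let k₀ := Nat.find hex
    have hk₀ : dist y x < r * 2 ^ k₀ := Nat.find_spec hex
    have hk₀pos : k₀ ≠ 0 := by
      intro h0
      rw [h0] at hk₀
      simp at hk₀
      linarith only [hy', hk₀]
    obtain ⟨k, hk⟩ := Nat.exists_eq_succ_of_ne_zero hk₀pos
    rw [mem_iUnion]
    refine ⟨k, ?_, ?_⟩
    · by_contra hcon
      push Not at hcon
      have : k₀ ≤ k := Nat.find_min' hex hcon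
      omega
    · rw [hk] at hk₀; exact hk₀.le
  calc ∫⁻ y in {y | r ≤ dist y x}, ENNReal.ofReal ((‖x - y‖ ^ (n + p))⁻¹) ∂μ
      ≤ ∫⁻ y in ⋃ k, A k, ENNReal.ofReal ((‖x - y‖ ^ (n + p))⁻¹) ∂μ :=
        lintegral_mono_set hsub
    _ ≤ ∑' k, ∫⁻ y in A k, ENNReal.ofReal ((‖x - y‖ ^ (n + p))⁻¹) ∂μ :=
        lintegral_iUnion_le _ _
    _ ≤ ∑' k : ℕ, ENNReal.ofReal (C * 2 ^ n * (r ^ p)⁻¹ * (1 / 2) ^ k) := by
        apply ENNReal.tsum_le_tsum
        intro k
        have hrk : 0 < r * 2 ^ k := by positivity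
        calc ∫⁻ y in A k, ENNReal.ofReal ((‖x - y‖ ^ (n + p))⁻¹) ∂μ
            ≤ ∫⁻ _ in A k, ENNReal.ofReal (((r * 2 ^ k) ^ (n + p))⁻¹) ∂μ := by
              apply setLIntegral_mono measurable_const
              intro y hy
              apply ENNReal.ofReal_le_ofReal
              apply inv_anti₀ (by positivity)
              have : r * 2 ^ k ≤ ‖x - y‖ := by
                rw [← dist_eq_norm, dist_comm]; exact hy.1
              gcongr
          _ = ENNReal.ofReal (((r * 2 ^ k) ^ (n + p))⁻¹) * μ (A k) := by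
              rw [setLIntegral_const]
          _ ≤ ENNReal.ofReal (((r * 2 ^ k) ^ (n + p))⁻¹)
                * ENNReal.ofReal (C * (r * 2 ^ (k + 1)) ^ n) := by
              gcongr
              refine (measure_mono ?_).trans (hμ x _ (by positivity))
              intro y hy
              exact mem_closedBall.mpr hy.2
          _ = ENNReal.ofReal (C * 2 ^ n * (r ^ p)⁻¹ * ((2 ^ k) ^ p)⁻¹) := by
              rw [← ENNReal.ofReal_mul (by positivity)]
              congr 1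
              have h2 : (2 : ℝ) ^ (k + 1) = 2 ^ k * 2 := pow_succ _ _
              rw [h2, pow_add, mul_pow, mul_pow, mul_pow, mul_pow]
              field_simp
          _ ≤ ENNReal.ofReal (C * 2 ^ n * (r ^ p)⁻¹ * (1 / 2) ^ k) := by
              apply ENNReal.ofReal_le_ofReal
              apply mul_le_mul_of_nonneg_left _ (by positivity)
              rw [one_div, inv_pow]
              apply inv_anti₀ (by positivity)
              have h1 : (1 : ℝ) ≤ 2 ^ k := one_le_pow₀ (by norm_num)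
              calc (2 : ℝ) ^ k = (2 ^ k) ^ 1 := (pow_one _).symm
                _ ≤ (2 ^ k) ^ p := pow_le_pow_right₀ h1 hp
    _ = ENNReal.ofReal (C * 2 ^ (n + 1) * (r ^ p)⁻¹) := by
        rw [← ENNReal.ofReal_tsum_of_nonneg]
        · congr 1
          rw [tsum_mul_left, tsum_geometric_of_lt_one (by norm_num) (by norm_num)]
          norm_num
          ring
        · intro k; positivity
        · exact (summable_geometric_of_lt_one (by norm_num) (by norm_num)).mul_left _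

/-- `∫_{B(x,r)} |x-y|^{1-n} min(1, e^2/|x-y|^2) ≤ C e` (used for `e → 0`) -/
theorem lintegral_near_reg (n : ℕ) (hn : 1 ≤ n) (C : ℝ) (hC : 0 < C) : ∃ C' : ℝ, 0 < C' ∧
    ∀ (d : ℕ) (μ : Measure (Eu d)),
      (∀ (x : Eu d) (r : ℝ), 0 < r → μ (closedBall x r) ≤ ENNReal.ofReal (C * r ^ n)) →
      ∀ (x : Eu d) (e : ℝ), 0 < e →
        ∫⁻ y, ENNReal.ofReal ((‖x - y‖ ^ (n - 1))⁻¹ * min 1 (e ^ 2 / ‖x - y‖ ^ 2)) ∂μ
          ≤ ENNReal.ofReal (C' * e) := by
  obtain ⟨C₁, hC₁, h₁⟩ := lintegral_near n hn C hC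
  obtain ⟨C₂, hC₂, h₂⟩ := lintegral_far n 1 le_rfl C hC
  refine ⟨C₁ + C₂, by positivity, ?_⟩
  intro d μ hμ x e he
  have hcov : (univ : Set (Eu d)) ⊆ closedBall x e ∪ {y | e ≤ dist y x} := by
    intro y _
    rcases le_total (dist y x) e with h | h
    · left; exact h
    · right; exact h
  calc ∫⁻ y, ENNReal.ofReal ((‖x - y‖ ^ (n - 1))⁻¹ * min 1 (e ^ 2 / ‖x - y‖ ^ 2)) ∂μ
      = ∫⁻ y in univ, ENNReal.ofReal ((‖x - y‖ ^ (n - 1))⁻¹ * min 1 (e ^ 2 / ‖x - y‖ ^ 2)) ∂μ := by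
        rw [setLIntegral_univ]
    _ ≤ ∫⁻ y in closedBall x e ∪ {y | e ≤ dist y x},
          ENNReal.ofReal ((‖x - y‖ ^ (n - 1))⁻¹ * min 1 (e ^ 2 / ‖x - y‖ ^ 2)) ∂μ :=
        lintegral_mono_set hcov
    _ ≤ ∫⁻ y in closedBall x e,
          ENNReal.ofReal ((‖x - y‖ ^ (n - 1))⁻¹ * min 1 (e ^ 2 / ‖x - y‖ ^ 2)) ∂μ
        + ∫⁻ y in {y | e ≤ dist y x},
          ENNReal.ofReal ((‖x - y‖ ^ (n - 1))⁻¹ * min 1 (e ^ 2 / ‖x - y‖ ^ 2)) ∂μ :=
        lintegral_union_le _ _ _
    _ ≤ ∫⁻ y in closedBall x e, ENNReal.ofReal ((‖x - y‖ ^ (n - 1))⁻¹) ∂μ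
        + ∫⁻ y in {y | e ≤ dist y x},
          ENNReal.ofReal (e ^ 2) * ENNReal.ofReal ((‖x - y‖ ^ (n + 1))⁻¹) ∂μ := by
        have hmeas : MeasurableSet {y : Eu d | e ≤ dist y x} :=
          measurableSet_le measurable_const (measurable_id.dist measurable_const)
        gcongr ?_ + ?_
        · apply lintegral_mono
          intro y
          apply ENNReal.ofReal_le_ofReal
          calc (‖x - y‖ ^ (n - 1))⁻¹ * min 1 (e ^ 2 / ‖x - y‖ ^ 2)
              ≤ (‖x - y‖ ^ (n - 1))⁻¹ * 1 := by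
                gcongr; exact min_le_left _ _
            _ = _ := mul_one _
        · apply setLIntegral_mono' hmeas
          intro y hy
          rw [← ENNReal.ofReal_mul (by positivity)]
          apply ENNReal.ofReal_le_ofReal
          have hpos : 0 < ‖x - y‖ := by
            rw [← dist_eq_norm, dist_comm]; exact lt_of_lt_of_le he hy
          calc (‖x - y‖ ^ (n - 1))⁻¹ * min 1 (e ^ 2 / ‖x - y‖ ^ 2)
              ≤ (‖x - y‖ ^ (n - 1))⁻¹ * (e ^ 2 / ‖x - y‖ ^ 2) := by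
                gcongr; exact min_le_right _ _
            _ = e ^ 2 * (‖x - y‖ ^ (n + 1))⁻¹ := by
                obtain ⟨m, rfl⟩ : ∃ m, n = m + 1 := ⟨n - 1, by omega⟩
                simp only [Nat.add_sub_cancel]
                rw [show m + 1 + 1 = m + 2 from rfl, pow_add]
                field_simp
    _ ≤ ENNReal.ofReal (C₁ * e) + ENNReal.ofReal (e ^ 2) * ENNReal.ofReal (C₂ * (e ^ 1)⁻¹) := by
        gcongr
        · exact h₁ d μ hμ x e he
        · rw [lintegral_const_mul' _ _ ENNReal.ofReal_ne_top]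
          gcongr
          exact h₂ d μ hμ x e he
    _ = ENNReal.ofReal ((C₁ + C₂) * e) := by
        rw [← ENNReal.ofReal_mul (by positivity), ← ENNReal.ofReal_add (by positivity) (by positivity)]
        congr 1
        field_simp

end Vale.Agent.P120
end
end

section

section

/-! The antisymmetric form.  Owner module: F -/

open MeasureTheory Metric Set Filter Topology
open scoped ENNReal NNReal

namespace Vale.Agent.P120

variable {d n : ℕ} {c C : ℝ} {D : ℝ≥0∞} {μ : Measure (Eu d)}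

theorem LipC.continuous {ψ : Eu d → ℝ} (h : LipC ψ) : Continuous ψ := h.1.choose_spec.continuous

/-- real form of the Lipschitz bound -/
theorem LipC.exists_lip {ψ : Eu d → ℝ} (h : LipC ψ) :
    ∃ L : ℝ, 0 ≤ L ∧ ∀ x y, |ψ x - ψ y| ≤ L * dist x y := by
  obtain ⟨L, hL⟩ := h.1
  refine ⟨L, L.2, fun x y => ?_⟩
  have := hL.dist_le_mul x y
  rwa [Real.dist_eq] at this

theorem LipC.exists_bound {ψ : Eu d → ℝ} (h : LipC ψ) : ∃ B : ℝ, 0 ≤ B ∧ ∀ x, |ψ x| ≤ B := by
  obtain ⟨B, hB⟩ := h.2.exists_bound_of_continuous h.continuous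
  refine ⟨max B 0, le_max_right _ _, fun x => ?_⟩
  have := hB x
  rw [Real.norm_eq_abs] at this
  exact this.trans (le_max_left _ _)

theorem LipC.exists_ball {ψ : Eu d → ℝ} (h : LipC ψ) (a : Eu d) :
    ∃ R : ℝ, 0 < R ∧ ∀ x, R < dist x a → ψ x = 0 := by
  obtain ⟨R, hR⟩ := h.2.isCompact.isBounded.subset_closedBall a
  refine ⟨max R 1, lt_max_of_lt_right one_pos, fun x hx => ?_⟩
  apply image_eq_zero_of_notMem_tsupport
  intro hx'
  have := hR hx'
  rw [mem_closedBall] at this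
  have := le_max_left R 1
  linarith

theorem lipC_of_bound {ψ : Eu d → ℝ} {L R : ℝ} {a : Eu d} (hL : ∀ x y, |ψ x - ψ y| ≤ L * dist x y)
    (hR : ∀ x, R ≤ dist x a → ψ x = 0) : LipC ψ := by
  constructor
  · refine ⟨Real.toNNReal L, LipschitzWith.of_dist_le_mul fun x y => ?_⟩
    rw [Real.dist_eq]
    refine (hL x y).trans ?_
    apply mul_le_mul_of_nonneg_right _ dist_nonneg
    exact Real.le_coe_toNNReal L
  · apply HasCompactSupport.intro (isCompact_closedBall a R)
    intro x hx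
    apply hR
    rw [mem_closedBall, not_le] at hx
    exact hx.le

theorem LipC.add {ψ φ : Eu d → ℝ} (h : LipC ψ) (h' : LipC φ) : LipC (fun x => ψ x + φ x) := by
  obtain ⟨L, hL⟩ := h.1
  obtain ⟨L', hL'⟩ := h'.1
  exact ⟨⟨L + L', hL.add hL'⟩, h.2.add h'.2⟩

theorem LipC.const_mul {ψ : Eu d → ℝ} (h : LipC ψ) (t : ℝ) : LipC (fun x => t * ψ x) := by
  obtain ⟨L, hL0, hL⟩ := h.exists_lip
  obtain ⟨R, hR0, hR⟩ := h.exists_ball 0
  refine lipC_of_bound (L := |t| * L) (R := R + 1) (a := 0) ?_ ?_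
  · intro x y
    rw [← mul_sub, abs_mul, mul_assoc]
    exact mul_le_mul_of_nonneg_left (hL x y) (abs_nonneg t)
  · intro x hx
    rw [hR x (by linarith only [hx]), mul_zero]

theorem LipC.sub {ψ φ : Eu d → ℝ} (h : LipC ψ) (h' : LipC φ) : LipC (fun x => ψ x - φ x) := by
  have := h.add (h'.const_mul (-1))
  simpa [sub_eq_add_neg] using this

theorem LipC.mul {ψ φ : Eu d → ℝ} (h : LipC ψ) (h' : LipC φ) : LipC (fun x => ψ x * φ x) := by
  obtain ⟨L, hL0, hL⟩ := h.exists_lip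
  obtain ⟨L', hL0', hL'⟩ := h'.exists_lip
  obtain ⟨B, hB0, hB⟩ := h.exists_bound
  obtain ⟨B', hB0', hB'⟩ := h'.exists_bound
  obtain ⟨R, hR0, hR⟩ := h.exists_ball 0
  refine lipC_of_bound (L := B * L' + B' * L) (R := R + 1) (a := 0) ?_ ?_
  · intro x y
    have e : ψ x * φ x - ψ y * φ y = ψ x * (φ x - φ y) + φ y * (ψ x - ψ y) := by ring
    rw [e, add_mul, mul_assoc, mul_assoc]
    refine (abs_add_le _ _).trans ?_
    rw [abs_mul, abs_mul]
    apply add_le_add
    · exact mul_le_mul (hB x) (hL' x y) (abs_nonneg _) hB0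
    · exact mul_le_mul (hB' y) (hL x y) (abs_nonneg _) hB0'
  · intro x hx
    rw [hR x (by linarith), zero_mul]

theorem lipC_tent (x : Eu d) (s : ℝ) (hs : 0 < s) : LipC (tent x s) := by
  refine lipC_of_bound (L := s⁻¹) (R := s) (a := x) ?_ ?_
  · intro y z
    unfold tent
    rw [max_comm, max_comm (0:ℝ)]
    refine (abs_max_sub_max_le_abs _ _ _).trans ?_
    have e : 1 - dist y x / s - (1 - dist z x / s) = s⁻¹ * (dist z x - dist y x) := by
      field_simp
      ring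
    rw [e, abs_mul, abs_of_pos (by positivity : 0 < s⁻¹)]
    gcongr
    have := abs_dist_sub_le z y x
    rwa [dist_comm z y] at this
  · intro y hy
    unfold tent
    apply max_eq_left
    have : 1 ≤ dist y x / s := by
      rw [le_div_iff₀ hs]; linarith
    linarith

theorem lipC_cut (a : Eu d) (S : ℝ) (hS : 0 < S) : LipC (cut a S) := by
  refine lipC_of_bound (L := S⁻¹) (R := 2 * S) (a := a) ?_ ?_
  · intro y z
    unfold cut
    rw [max_comm, max_comm (0:ℝ)]
    refine (abs_max_sub_max_le_abs _ _ _).trans ?_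
    rw [min_comm, min_comm (1:ℝ)]
    refine (abs_min_sub_min_le_max _ _ _ _).trans ?_
    have e : 2 - dist y a / S - (2 - dist z a / S) = S⁻¹ * (dist z a - dist y a) := by
      field_simp
      ring
    rw [e, abs_mul, abs_of_pos (by positivity : 0 < S⁻¹), sub_self, abs_zero]
    have h2 : S⁻¹ * |dist z a - dist y a| ≤ S⁻¹ * dist y z := by
      gcongr
      have := abs_dist_sub_le z y a
      rwa [dist_comm z y] at this
    exact max_le h2 (by positivity)
  · intro y hy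
    unfold cut
    apply max_eq_left
    apply min_le_of_right_le
    have : 2 ≤ dist y a / S := by
      rw [le_div_iff₀ hS]; linarith
    linarith

/-- a double integral of a kernel supported in `B × B` -/
theorem lintegral_prod_le [SFinite μ] {F : Eu d × Eu d → ℝ≥0∞} (hF : Measurable F) (B : Set (Eu d))
    (hB : MeasurableSet B) (A : ℝ≥0∞) (h1 : ∀ x ∈ B, ∫⁻ y, F (x, y) ∂μ ≤ A)
    (h2 : ∀ x, x ∉ B → ∀ y, F (x, y) = 0) : ∫⁻ p, F p ∂(μ.prod μ) ≤ A * μ B := by
  rw [lintegral_prod _ hF.aemeasurable]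
  calc ∫⁻ x, ∫⁻ y, F (x, y) ∂μ ∂μ ≤ ∫⁻ x, B.indicator (fun _ => A) x ∂μ := by
        apply lintegral_mono
        intro x
        by_cases hx : x ∈ B
        · simp only [indicator_of_mem hx]; exact h1 x hx
        · simp only [indicator_of_notMem hx, h2 x hx, lintegral_zero, le_refl]
    _ = A * μ B := by
        rw [lintegral_indicator hB, setLIntegral_const]

/-- measurability of the integrand -/
theorem measurable_form_integrand {ψ θ : Eu d → ℝ} (hψ : Continuous ψ) (hθ : Continuous θ)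
    (e : ℝ) : Measurable (fun p : Eu d × Eu d =>
      (ψ p.1 * θ p.2 - ψ p.2 * θ p.1) • rK n e (p.1 - p.2)) := by
  have h1 : Continuous fun p : Eu d × Eu d => ψ p.1 * θ p.2 - ψ p.2 * θ p.1 := by fun_prop
  have h2 : Measurable fun p : Eu d × Eu d => rK n e (p.1 - p.2) :=
    (measurable_rK n e).comp (measurable_fst.sub measurable_snd)
  exact h1.measurable.smul h2

theorem exists_cross_lip {ψ θ : Eu d → ℝ} (hψ : LipC ψ) (hθ : LipC θ) :
    ∃ L : ℝ, 0 ≤ L ∧ ∀ x y, |ψ x * θ y - ψ y * θ x| ≤ L * dist x y := by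
  obtain ⟨L, hL0, hL⟩ := hψ.exists_lip
  obtain ⟨L', hL0', hL'⟩ := hθ.exists_lip
  obtain ⟨B, hB0, hB⟩ := hψ.exists_bound
  obtain ⟨B', hB0', hB'⟩ := hθ.exists_bound
  refine ⟨B * L' + B' * L, by (clear * - hL0 hL0' hB0 hB0'; positivity), fun x y => ?_⟩
  have e : ψ x * θ y - ψ y * θ x = ψ x * (θ y - θ x) + θ x * (ψ x - ψ y) := by ring
  rw [e, add_mul, mul_assoc, mul_assoc]
  refine (abs_add_le _ _).trans ?_
  rw [abs_mul, abs_mul]
  apply add_le_add
  · have := hL' y x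
    rw [dist_comm] at this
    exact mul_le_mul (hB x) this (abs_nonneg _) hB0
  · exact mul_le_mul (hB' x) (hL x y) (abs_nonneg _) hB0'

/-- the integrand of `form` is integrable -/
theorem integrable_form (hn : 1 ≤ n) (h : AR n c C D μ) {ψ θ : Eu d → ℝ} (hψ : LipC ψ)
    (hθ : LipC θ) (e : ℝ) (he : 0 ≤ e) :
    Integrable (fun p : Eu d × Eu d =>
      (ψ p.1 * θ p.2 - ψ p.2 * θ p.1) • rK n e (p.1 - p.2)) (μ.prod μ) := by
  have := h.isLocallyFiniteMeasure
  obtain ⟨L, hL0, hL⟩ := exists_cross_lip hψ hθ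
  obtain ⟨R₁, hR₁, h₁⟩ := hψ.exists_ball 0
  obtain ⟨R₂, hR₂, h₂⟩ := hθ.exists_ball 0
  obtain ⟨C', hC', hnear⟩ := lintegral_near n hn C h.C_pos
  set R := max R₁ R₂ with hR
  have hR0 : 0 < R := lt_max_of_lt_left hR₁
  have hψ0 : ∀ x, R < dist x 0 → ψ x = 0 := fun x hx => h₁ x ((le_max_left _ _).trans_lt hx)
  have hθ0 : ∀ x, R < dist x 0 → θ x = 0 := fun x hx => h₂ x ((le_max_right _ _).trans_lt hx)
  refine ⟨(measurable_form_integrand hψ.continuous hθ.continuous e).aestronglyMeasurable, ?_⟩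
  rw [hasFiniteIntegral_iff_enorm]
  have hF : Measurable fun p : Eu d × Eu d =>
      ‖(ψ p.1 * θ p.2 - ψ p.2 * θ p.1) • rK n e (p.1 - p.2)‖ₑ :=
    (measurable_form_integrand hψ.continuous hθ.continuous e).enorm
  refine (lintegral_prod_le hF (closedBall 0 R) isClosed_closedBall.measurableSet
    (ENNReal.ofReal L * ENNReal.ofReal (C' * (2 * R))) ?_ ?_).trans_lt ?_
  · intro x hx
    have hx' : dist x 0 ≤ R := hx
    have hpt : ∀ y, ‖(ψ x * θ y - ψ y * θ x) • rK n e (x - y)‖ₑ ≤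
        (closedBall x (2 * R)).indicator
          (fun y => ENNReal.ofReal L * ENNReal.ofReal ((‖x - y‖ ^ (n - 1))⁻¹)) y := by
      intro y
      by_cases hy : y ∈ closedBall x (2 * R)
      · rw [indicator_of_mem hy, ← ENNReal.ofReal_mul hL0, ← ofReal_norm]
        apply ENNReal.ofReal_le_ofReal
        rw [norm_smul, Real.norm_eq_abs]
        by_cases hxy : x = y
        · subst hxy
          rw [sub_self, abs_zero, zero_mul]
          (clear * - hL0; positivity)
        · have hpos : 0 < ‖x - y‖ := norm_pos_iff.mpr (sub_ne_zero.mpr hxy)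
          calc |ψ x * θ y - ψ y * θ x| * ‖rK n e (x - y)‖
              ≤ (L * dist x y) * (‖x - y‖ ^ n)⁻¹ := by
                apply mul_le_mul (hL x y) (norm_rK_le n e _) (norm_nonneg _)
                exact mul_nonneg hL0 dist_nonneg
            _ = L * (‖x - y‖ ^ (n - 1))⁻¹ := by
                rw [dist_eq_norm]
                obtain ⟨m, rfl⟩ : ∃ m, n = m + 1 := ⟨n - 1, by omega⟩
                rw [Nat.add_sub_cancel, pow_succ]
                (clear * - hpos; field_simp)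
      · rw [indicator_of_notMem hy]
        rw [mem_closedBall, not_le] at hy
        have : R < dist y 0 := by
          have := dist_triangle_right y x 0
          linarith only [hx', hy, this]
        rw [hψ0 y this, hθ0 y this]
        simp
    calc ∫⁻ y, ‖(ψ x * θ y - ψ y * θ x) • rK n e (x - y)‖ₑ ∂μ
        ≤ ∫⁻ y, (closedBall x (2 * R)).indicator
          (fun y => ENNReal.ofReal L * ENNReal.ofReal ((‖x - y‖ ^ (n - 1))⁻¹)) y ∂μ :=
          lintegral_mono hpt
      _ = ENNReal.ofReal L * ∫⁻ y in closedBall x (2 * R),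
            ENNReal.ofReal ((‖x - y‖ ^ (n - 1))⁻¹) ∂μ := by
          rw [lintegral_indicator isClosed_closedBall.measurableSet,
            lintegral_const_mul' _ _ ENNReal.ofReal_ne_top]
      _ ≤ ENNReal.ofReal L * ENNReal.ofReal (C' * (2 * R)) := by
          gcongr
          exact hnear d μ h.upper x (2 * R) (by positivity)
  · intro x hx y
    rw [mem_closedBall, not_le] at hx
    simp only [hψ0 x hx, hθ0 x hx]
    simp only [zero_mul, mul_zero, sub_self, zero_smul, enorm_zero]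
  · exact ENNReal.mul_lt_top (ENNReal.mul_lt_top ENNReal.ofReal_lt_top ENNReal.ofReal_lt_top)
      (h.measure_ball_lt_top 0 R)

theorem form_add_left (hn : 1 ≤ n) (h : AR n c C D μ) {ψ φ θ : Eu d → ℝ} (hψ : LipC ψ)
    (hφ : LipC φ) (hθ : LipC θ) (e : ℝ) (he : 0 ≤ e) :
    form n e μ (fun x => ψ x + φ x) θ = form n e μ ψ θ + form n e μ φ θ := by
  unfold form
  rw [← smul_add, ← integral_add (integrable_form hn h hψ hθ e he)
    (integrable_form hn h hφ hθ e he)]
  congr 1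
  apply integral_congr_ae
  filter_upwards with p
  rw [← add_smul]
  congr 1
  ring

theorem form_smul_left (n : ℕ) (e : ℝ) (μ : Measure (Eu d)) (t : ℝ) (ψ θ : Eu d → ℝ) :
    form n e μ (fun x => t * ψ x) θ = t • form n e μ ψ θ := by
  unfold form
  rw [smul_comm t]
  have h1 : t • ∫ p, (ψ p.1 * θ p.2 - ψ p.2 * θ p.1) • rK n e (p.1 - p.2) ∂(μ.prod μ) =
      ∫ p, t • ((ψ p.1 * θ p.2 - ψ p.2 * θ p.1) • rK n e (p.1 - p.2)) ∂(μ.prod μ) :=
    (integral_smul _ _).symm
  rw [h1]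
  congr 1
  apply integral_congr_ae
  filter_upwards with p
  rw [smul_smul]
  congr 1
  ring

theorem form_sub_left (hn : 1 ≤ n) (h : AR n c C D μ) {ψ φ θ : Eu d → ℝ} (hψ : LipC ψ)
    (hφ : LipC φ) (hθ : LipC θ) (e : ℝ) (he : 0 ≤ e) :
    form n e μ (fun x => ψ x - φ x) θ = form n e μ ψ θ - form n e μ φ θ := by
  have h1 := form_add_left hn h hψ (hφ.const_mul (-1)) hθ e he
  have h2 := form_smul_left n e μ (-1) φ θ
  rw [h2] at h1
  have e1 : (fun x => ψ x - φ x) = fun x => ψ x + -1 * φ x := by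
    funext x; ring
  rw [e1, h1]
  simp only [neg_smul, one_smul, sub_eq_add_neg]

theorem form_antisymm (n : ℕ) (e : ℝ) (μ : Measure (Eu d)) (ψ θ : Eu d → ℝ) :
    form n e μ θ ψ = - form n e μ ψ θ := by
  unfold form
  rw [← smul_neg, ← integral_neg]
  congr 1
  apply integral_congr_ae
  filter_upwards with p
  rw [← neg_smul]
  congr 1
  ring

theorem form_sub_right (hn : 1 ≤ n) (h : AR n c C D μ) {ψ φ θ : Eu d → ℝ} (hψ : LipC ψ)
    (hφ : LipC φ) (hθ : LipC θ) (e : ℝ) (he : 0 ≤ e) :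
    form n e μ θ (fun x => ψ x - φ x) = form n e μ θ ψ - form n e μ θ φ := by
  rw [form_antisymm n e μ _ θ, form_sub_left hn h hψ hφ hθ e he, form_antisymm n e μ ψ θ,
    form_antisymm n e μ φ θ]
  abel

/-- if the two halves are integrable, the form is the plain double integral -/
theorem form_eq_of_integrable [SFinite μ] {ψ θ : Eu d → ℝ} (e : ℝ)
    (hint : Integrable (fun p : Eu d × Eu d => (ψ p.1 * θ p.2) • rK n e (p.1 - p.2))
      (μ.prod μ)) :
    form n e μ ψ θ = ∫ p, (ψ p.1 * θ p.2) • rK n e (p.1 - p.2) ∂(μ.prod μ) := by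
  have hsw : (fun p : Eu d × Eu d => (ψ p.2 * θ p.1) • rK n e (p.1 - p.2)) =
      fun p => - (fun p : Eu d × Eu d => (ψ p.1 * θ p.2) • rK n e (p.1 - p.2)) p.swap := by
    funext p
    simp only [Prod.fst_swap, Prod.snd_swap]
    rw [← neg_sub p.2 p.1, rK_neg, smul_neg]
  have hint' : Integrable (fun p : Eu d × Eu d => (ψ p.2 * θ p.1) • rK n e (p.1 - p.2))
      (μ.prod μ) := by
    rw [hsw]
    exact hint.swap.neg
  have h2 : ∫ p, (ψ p.2 * θ p.1) • rK n e (p.1 - p.2) ∂(μ.prod μ) =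
      - ∫ p, (ψ p.1 * θ p.2) • rK n e (p.1 - p.2) ∂(μ.prod μ) := by
    rw [hsw, integral_neg]
    congr 1
    exact integral_prod_swap (fun p : Eu d × Eu d => (ψ p.1 * θ p.2) • rK n e (p.1 - p.2))
  unfold form
  have h3 : ∫ p, (ψ p.1 * θ p.2 - ψ p.2 * θ p.1) • rK n e (p.1 - p.2) ∂(μ.prod μ) =
      (2 : ℝ) • ∫ p, (ψ p.1 * θ p.2) • rK n e (p.1 - p.2) ∂(μ.prod μ) := by
    simp_rw [sub_smul]
    rw [integral_sub hint hint', h2, sub_neg_eq_add, two_smul]
  rw [h3, smul_smul]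
  norm_num

/-- for `e > 0` (bounded kernel) the form is the plain double integral; no Lipschitz needed -/
theorem form_eq_of_pos (h : AR n c C D μ) {ψ θ : Eu d → ℝ} (e : ℝ) (he : 0 < e)
    (hψ : Integrable ψ μ) (hθ : Integrable θ μ) :
    form n e μ ψ θ = ∫ p, (ψ p.1 * θ p.2) • rK n e (p.1 - p.2) ∂(μ.prod μ) := by
  have := h.isLocallyFiniteMeasure
  apply form_eq_of_integrable
  have h1 : Integrable (fun p : Eu d × Eu d => ψ p.1 * θ p.2) (μ.prod μ) := hψ.mul_prod hθ
  refine Integrable.mono' (h1.norm.mul_const ((e ^ n)⁻¹)) ?_ ?_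
  · exact h1.aestronglyMeasurable.smul
      (((measurable_rK n e).comp (measurable_fst.sub measurable_snd)).aestronglyMeasurable)
  · filter_upwards with p
    rw [norm_smul]
    gcongr
    exact norm_rK_le_e n e he _

/-- integrability for separated supports -/
theorem integrable_of_sep (h : AR n c C D μ) {ψ θ : Eu d → ℝ} (hψ : LipC ψ)
    (hθ : LipC θ) (a : Eu d) (R S : ℝ) (hR : 0 < R) (hS : 2 * R ≤ S)
    (h1 : ∀ x, R < dist x a → ψ x = 0) (h2 : ∀ x, dist x a ≤ S → θ x = 0) (e : ℝ) :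
    Integrable (fun p : Eu d × Eu d => (ψ p.1 * θ p.2) • rK n e (p.1 - p.2)) (μ.prod μ) := by
  have := h.isLocallyFiniteMeasure
  have hi1 : Integrable ψ μ := hψ.continuous.integrable_of_hasCompactSupport hψ.2
  have hi2 : Integrable θ μ := hθ.continuous.integrable_of_hasCompactSupport hθ.2
  have h3 : Integrable (fun p : Eu d × Eu d => ψ p.1 * θ p.2) (μ.prod μ) := hi1.mul_prod hi2
  refine Integrable.mono' (h3.norm.mul_const ((R ^ n)⁻¹)) ?_ ?_
  · exact h3.aestronglyMeasurable.smul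
      (((measurable_rK n e).comp (measurable_fst.sub measurable_snd)).aestronglyMeasurable)
  · filter_upwards with p
    rw [norm_smul]
    by_cases hp1 : R < dist p.1 a
    · rw [h1 _ hp1]; simp
    by_cases hp2 : dist p.2 a ≤ S
    · rw [h2 _ hp2]; simp
    push Not at hp1 hp2
    gcongr
    refine (norm_rK_le n e _).trans ?_
    apply inv_anti₀ (by positivity)
    gcongr
    rw [← dist_eq_norm]
    have := dist_triangle_left p.2 a p.1
    linarith only [hS, hp1, hp2, this]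

/-- disjoint supports: the form is an iterated absolutely convergent integral -/
theorem form_eq_of_sep (hn : 1 ≤ n) (h : AR n c C D μ) {ψ θ : Eu d → ℝ} (hψ : LipC ψ)
    (hθ : LipC θ) (a : Eu d) (R S : ℝ) (hR : 0 < R) (hS : 2 * R ≤ S)
    (h1 : ∀ x, R < dist x a → ψ x = 0) (h2 : ∀ x, dist x a ≤ S → θ x = 0) (e : ℝ) (he : 0 ≤ e) :
    form n e μ ψ θ = ∫ x, ψ x • (∫ y, θ y • rK n e (x - y) ∂μ) ∂μ := by
  have := h.isLocallyFiniteMeasure
  have hint := integrable_of_sep (n := n) h hψ hθ a R S hR hS h1 h2 e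
  rw [form_eq_of_integrable e hint, integral_prod _ hint]
  apply integral_congr_ae
  filter_upwards with x
  rw [← integral_smul]
  apply integral_congr_ae
  filter_upwards with y
  rw [smul_smul]

/-- far field bound for mean-zero functions: `|A(ψ,θ)| ≤ C' (R/S) ∫|ψ|` -/
theorem form_far (n : ℕ) (hn : 1 ≤ n) (C : ℝ) (hC : 0 < C) : ∃ C' : ℝ, 0 < C' ∧
    ∀ (d : ℕ) (c : ℝ) (D : ℝ≥0∞) (μ : Measure (Eu d)), AR n c C D μ →
    ∀ (ψ θ : Eu d → ℝ) (a : Eu d) (R S e : ℝ), LipC ψ → LipC θ → 0 < R → 2 * R ≤ S → 0 ≤ e →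
      (∀ x, R < dist x a → ψ x = 0) → (∀ x, dist x a ≤ S → θ x = 0) → (∀ x, |θ x| ≤ 1) →
      ∫ x, ψ x ∂μ = 0 → ‖form n e μ ψ θ‖ ≤ C' * (R / S) * ∫ x, |ψ x| ∂μ := by
  obtain ⟨C₁, hC₁, hK⟩ := rK_sub_le n
  obtain ⟨C₂, hC₂, hfar⟩ := lintegral_far n 1 le_rfl C hC
  refine ⟨C₁ * C₂, by positivity, ?_⟩
  intro d c D μ h ψ θ a R S e hψ hθ hR hS he h1 h2 h3 h0
  have := h.isLocallyFiniteMeasure
  have hS0 : 0 < S := by linarith only [hR, hS]
  have hi1 : Integrable ψ μ := hψ.continuous.integrable_of_hasCompactSupport hψ.2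
  have hi2 : Integrable θ μ := hθ.continuous.integrable_of_hasCompactSupport hθ.2
  -- integrability of the inner integrand
  have hin : ∀ x, dist x a ≤ R → Integrable (fun y => θ y • rK n e (x - y)) μ := by
    intro x hx
    refine Integrable.mono' (hi2.norm.mul_const ((R ^ n)⁻¹)) ?_ ?_
    · exact hi2.aestronglyMeasurable.smul
        (((measurable_rK n e).comp (measurable_const.sub measurable_id)).aestronglyMeasurable)
    · filter_upwards with y
      rw [norm_smul]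
      by_cases hy : dist y a ≤ S
      · rw [h2 _ hy]; simp
      push Not at hy
      gcongr
      refine (norm_rK_le n e _).trans ?_
      apply inv_anti₀ (by positivity)
      gcongr
      rw [← dist_eq_norm]
      have := dist_triangle_left y a x
      linarith only [hS, hx, hy, this]
  set G : Eu d → Eu d := fun x => ∫ y, θ y • rK n e (x - y) ∂μ with hG
  have hform : form n e μ ψ θ = ∫ x, ψ x • G x ∂μ :=
    form_eq_of_sep hn h hψ hθ a R S hR hS h1 h2 e he
  have hGdiff : ∀ x, dist x a ≤ R → ‖G x - G a‖ ≤ C₁ * C₂ * (R / S) := by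
    intro x hx
    have hsub : G x - G a = ∫ y, θ y • (rK n e (x - y) - rK n e (a - y)) ∂μ := by
      simp only [hG]
      rw [← integral_sub (hin x hx) (hin a (by rw [dist_self]; exact hR.le))]
      apply integral_congr_ae
      filter_upwards with y
      rw [smul_sub]
    rw [hsub]
    have hle : ∀ y, ‖θ y • (rK n e (x - y) - rK n e (a - y))‖ₑ ≤
        {y | S ≤ dist y a}.indicator
          (fun y => ENNReal.ofReal (C₁ * R) * ENNReal.ofReal ((‖a - y‖ ^ (n + 1))⁻¹)) y := by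
      intro y
      by_cases hy : dist y a ≤ S
      · rw [h2 _ hy]; simp only [zero_smul, enorm_zero, zero_le]
      push Not at hy
      rw [indicator_of_mem (show y ∈ {y | S ≤ dist y a} from hy.le),
        ← ENNReal.ofReal_mul (by positivity), ← ofReal_norm]
      apply ENNReal.ofReal_le_ofReal
      rw [norm_smul, Real.norm_eq_abs, norm_sub_rev]
      have hay : ‖a - y‖ = dist y a := by rw [← dist_eq_norm, dist_comm]
      have hax : ‖a - y - (x - y)‖ = dist x a := by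
        rw [dist_eq_norm, ← norm_neg]; congr 1; abel
      have hk := hK d e (a - y) (x - y) (by rw [hay, hax]; linarith only [hS, hx, hy])
        (by rw [← norm_pos_iff, hay]; linarith only [hR, hS, hy])
      rw [hax] at hk
      calc |θ y| * ‖rK n e (a - y) - rK n e (x - y)‖
          ≤ 1 * (C₁ * dist x a * (‖a - y‖ ^ (n + 1))⁻¹) :=
            mul_le_mul (h3 y) hk (norm_nonneg _) zero_le_one
        _ ≤ C₁ * R * (‖a - y‖ ^ (n + 1))⁻¹ := by
            rw [one_mul]; (clear * - hC₁ hx; gcongr)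
    have hl : ‖∫ y, θ y • (rK n e (x - y) - rK n e (a - y)) ∂μ‖ₑ ≤
        ENNReal.ofReal (C₁ * R) * ENNReal.ofReal (C₂ * (S ^ 1)⁻¹) := by
      refine (enorm_integral_le_lintegral_enorm _).trans ?_
      refine (lintegral_mono hle).trans ?_
      have hms : MeasurableSet {y : Eu d | S ≤ dist y a} :=
        (isClosed_le continuous_const (by fun_prop)).measurableSet
      rw [lintegral_indicator hms, lintegral_const_mul' _ _ ENNReal.ofReal_ne_top]
      gcongr
      exact hfar d μ h.upper a S hS0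
    rw [← ENNReal.ofReal_mul (by positivity), ← ofReal_norm,
      ENNReal.ofReal_le_ofReal_iff (by positivity)] at hl
    refine hl.trans (le_of_eq ?_)
    rw [pow_one]; ring
  have hform2 : form n e μ ψ θ = ∫ x, ψ x • (G x - G a) ∂μ := by
    have hiG : Integrable (fun x => ψ x • G x) μ := by
      have hint := integrable_of_sep (n := n) h hψ hθ a R S hR hS h1 h2 e
      have := hint.integral_prod_left
      refine this.congr ?_
      filter_upwards with x
      simp only [hG]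
      rw [← integral_smul]
      apply integral_congr_ae
      filter_upwards with y
      rw [smul_smul]
    have hiGa : Integrable (fun x => ψ x • G a) μ := hi1.smul_const _
    simp_rw [smul_sub]
    rw [integral_sub hiG hiGa, integral_smul_const, h0, zero_smul, sub_zero, hform]
  rw [hform2]
  calc ‖∫ x, ψ x • (G x - G a) ∂μ‖ ≤ ∫ x, |ψ x| * (C₁ * C₂ * (R / S)) ∂μ := by
        apply norm_integral_le_of_norm_le (hi1.abs.mul_const _)
        filter_upwards with x
        rw [norm_smul, Real.norm_eq_abs]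
        by_cases hx : dist x a ≤ R
        · gcongr; exact hGdiff x hx
        · push Not at hx
          rw [h1 x hx]; simp
    _ = C₁ * C₂ * (R / S) * ∫ x, |ψ x| ∂μ := by
        rw [integral_mul_const]; ring

/-- convergence of the regularised form, uniform over the class -/
theorem form_reg (n : ℕ) (hn : 1 ≤ n) (C : ℝ) (hC : 0 < C) : ∃ C' : ℝ, 0 < C' ∧
    ∀ (d : ℕ) (c : ℝ) (D : ℝ≥0∞) (μ : Measure (Eu d)), AR n c C D μ →
    ∀ (ψ θ : Eu d → ℝ) (a : Eu d) (R L e : ℝ), LipC ψ → LipC θ → 0 < R → 0 ≤ L → 0 < e →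
      (∀ x, R < dist x a → ψ x = 0 ∧ θ x = 0) →
      (∀ x y, |ψ x * θ y - ψ y * θ x| ≤ L * dist x y) →
      ‖form n 0 μ ψ θ - form n e μ ψ θ‖ ≤ C' * L * R ^ n * e := by
  obtain ⟨C₁, hC₁, hK⟩ := rK_reg_le n
  obtain ⟨C₂, hC₂, hnear⟩ := lintegral_near_reg n hn C hC
  refine ⟨C₁ * C₂ * C, by positivity, ?_⟩
  intro d c D μ h ψ θ a R L e hψ hθ hR hL0 he hsupp hL
  have := h.isLocallyFiniteMeasure
  unfold form
  rw [← smul_sub, ← integral_sub (integrable_form hn h hψ hθ 0 le_rfl)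
    (integrable_form hn h hψ hθ e he.le), norm_smul]
  have hmeas : Measurable fun p : Eu d × Eu d =>
      (ψ p.1 * θ p.2 - ψ p.2 * θ p.1) • rK n 0 (p.1 - p.2) -
        (ψ p.1 * θ p.2 - ψ p.2 * θ p.1) • rK n e (p.1 - p.2) :=
    (measurable_form_integrand hψ.continuous hθ.continuous 0).sub
      (measurable_form_integrand hψ.continuous hθ.continuous e)
  have key : ‖∫ p, ((ψ p.1 * θ p.2 - ψ p.2 * θ p.1) • rK n 0 (p.1 - p.2) -
        (ψ p.1 * θ p.2 - ψ p.2 * θ p.1) • rK n e (p.1 - p.2)) ∂(μ.prod μ)‖ₑ ≤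
      ENNReal.ofReal (L * C₁) * ENNReal.ofReal (C₂ * e) * ENNReal.ofReal (C * R ^ n) := by
    refine (enorm_integral_le_lintegral_enorm _).trans ?_
    refine (lintegral_prod_le hmeas.enorm (closedBall a R) isClosed_closedBall.measurableSet
      (ENNReal.ofReal (L * C₁) * ENNReal.ofReal (C₂ * e)) ?_ ?_).trans ?_
    · intro x _
      have hpt : ∀ y, ‖(ψ x * θ y - ψ y * θ x) • rK n 0 (x - y) -
          (ψ x * θ y - ψ y * θ x) • rK n e (x - y)‖ₑ ≤
          ENNReal.ofReal (L * C₁) *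
            ENNReal.ofReal ((‖x - y‖ ^ (n - 1))⁻¹ * min 1 (e ^ 2 / ‖x - y‖ ^ 2)) := by
        intro y
        rw [← ENNReal.ofReal_mul (by (clear * - hC₁ hL0; positivity)), ← ofReal_norm]
        apply ENNReal.ofReal_le_ofReal
        rw [← smul_sub, norm_smul, Real.norm_eq_abs]
        by_cases hxy : x = y
        · subst hxy
          rw [sub_self, abs_zero, zero_mul]
          (clear * - hC₁ hL0 he; positivity)
        · have hne : x - y ≠ 0 := sub_ne_zero.mpr hxy
          have hpos : 0 < ‖x - y‖ := norm_pos_iff.mpr hne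
          calc |ψ x * θ y - ψ y * θ x| * ‖rK n 0 (x - y) - rK n e (x - y)‖
              ≤ (L * dist x y) * (C₁ * (‖x - y‖ ^ n)⁻¹ * min 1 (e ^ 2 / ‖x - y‖ ^ 2)) := by
                apply mul_le_mul (hL x y) (hK d e _ hne).1 (norm_nonneg _)
                exact mul_nonneg hL0 dist_nonneg
            _ = L * C₁ * ((‖x - y‖ ^ (n - 1))⁻¹ * min 1 (e ^ 2 / ‖x - y‖ ^ 2)) := by
                rw [dist_eq_norm]
                obtain ⟨m, rfl⟩ : ∃ m, n = m + 1 := ⟨n - 1, by omega⟩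
                have e1 : (‖x - y‖ ^ (m + 1))⁻¹ = ‖x - y‖⁻¹ * (‖x - y‖ ^ m)⁻¹ := by
                  rw [pow_succ, mul_inv, mul_comm]
                rw [Nat.add_sub_cancel, e1]
                have e2 : ‖x - y‖ * ‖x - y‖⁻¹ = 1 := mul_inv_cancel₀ hpos.ne'
                calc L * ‖x - y‖ * (C₁ * (‖x - y‖⁻¹ * (‖x - y‖ ^ m)⁻¹) *
                      min 1 (e ^ 2 / ‖x - y‖ ^ 2))
                    = L * C₁ * ((‖x - y‖ * ‖x - y‖⁻¹) * (‖x - y‖ ^ m)⁻¹ *
                      min 1 (e ^ 2 / ‖x - y‖ ^ 2)) := by ring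
                  _ = _ := by rw [e2, one_mul]
      refine (lintegral_mono hpt).trans ?_
      rw [lintegral_const_mul' _ _ ENNReal.ofReal_ne_top]
      gcongr
      exact hnear d μ h.upper x e he
    · intro x hx y
      rw [mem_closedBall, not_le] at hx
      obtain ⟨e1, e2⟩ := hsupp x hx
      simp only [e1, zero_mul, e2, mul_zero, sub_self, zero_smul, enorm_zero]
    · gcongr
      exact h.upper a R hR
  rw [← ENNReal.ofReal_mul (by positivity), ← ENNReal.ofReal_mul (by (clear * - hC₁ hC₂ hL0 he; positivity)), ← ofReal_norm,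
    ENNReal.ofReal_le_ofReal_iff (by have := h.C_pos; (clear * - hC hC₁ hC₂ hR hL0 he; positivity))] at key
  have hC0 := h.C_pos
  calc ‖(1 / 2 : ℝ)‖ * _ ≤ 1 * (L * C₁ * (C₂ * e) * (C * R ^ n)) := by
        apply mul_le_mul _ key (norm_nonneg _) zero_le_one
        rw [Real.norm_eq_abs, abs_of_pos] <;> norm_num
    _ = C₁ * C₂ * C * L * R ^ n * e := by ring

theorem form_tendsto (hn : 1 ≤ n) (h : AR n c C D μ) {ψ θ : Eu d → ℝ} (hψ : LipC ψ)
    (hθ : LipC θ) : Tendsto (fun e : ℝ => form n e μ ψ θ) (𝓝[>] 0) (𝓝 (form n 0 μ ψ θ)) := by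
  obtain ⟨C', hC', hreg⟩ := form_reg n hn C h.C_pos
  obtain ⟨L, hL0, hL⟩ := exists_cross_lip hψ hθ
  obtain ⟨R₁, hR₁, h₁⟩ := hψ.exists_ball 0
  obtain ⟨R₂, hR₂, h₂⟩ := hθ.exists_ball 0
  have hb : ∀ e : ℝ, 0 < e → dist (form n e μ ψ θ) (form n 0 μ ψ θ) ≤
      C' * L * (max R₁ R₂) ^ n * e := by
    intro e he
    rw [dist_comm, dist_eq_norm]
    exact hreg d c D μ h ψ θ 0 (max R₁ R₂) L e hψ hθ (lt_max_of_lt_left hR₁) hL0 he
      (fun x hx => ⟨h₁ x ((le_max_left _ _).trans_lt hx), h₂ x ((le_max_right _ _).trans_lt hx)⟩)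
      hL
  rw [tendsto_iff_dist_tendsto_zero]
  refine squeeze_zero' (g := fun e : ℝ => C' * L * (max R₁ R₂) ^ n * e) ?_ ?_ ?_
  · filter_upwards with e using dist_nonneg
  · filter_upwards [self_mem_nhdsWithin] with e he using hb e he
  · have : Tendsto (fun e : ℝ => C' * L * (max R₁ R₂) ^ n * e) (𝓝 0)
        (𝓝 (C' * L * (max R₁ R₂) ^ n * 0)) := tendsto_id.const_mul _
    rw [mul_zero] at this
    exact this.mono_left nhdsWithin_le_nhds

/-- `RB` at `e = 0` for Lipschitz functions -/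
theorem RB.zero (hn : 1 ≤ n) (h : AR n c C D μ) {C₁ : ℝ} (hb : RB n C₁ μ) {ψ θ : Eu d → ℝ}
    (hψ : LipC ψ) (hθ : LipC θ) :
    ‖form n 0 μ ψ θ‖ ≤ C₁ * Real.sqrt (∫ x, ψ x ^ 2 ∂μ) * Real.sqrt (∫ x, θ x ^ 2 ∂μ) := by
  have ht := (form_tendsto hn h hψ hθ).norm
  refine le_of_tendsto ht ?_
  filter_upwards [self_mem_nhdsWithin] with e he
  exact hb.2 e he ψ θ hψ.continuous hψ.2 hθ.continuous hθ.2

end Vale.Agent.P120
end
end

section

section

/-! Geometry of planes, packing and covering (pure geometry, used in the touching argument). -/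

open MeasureTheory Metric Set Filter Topology
open scoped ENNReal NNReal

namespace Vale.Agent.P120.TouchAux

variable {d : ℕ}

/-- an isometric parametrisation of a subspace -/
theorem exists_isometry_range {k : ℕ} (W : Submodule ℝ (Eu d)) (h : Module.finrank ℝ W = k) :
    ∃ ι : Eu k →ₗᵢ[ℝ] Eu d, ∀ x, x ∈ W ↔ ∃ v, ι v = x := by
  subst h
  refine ⟨W.subtypeₗᵢ.comp (stdOrthonormalBasis ℝ W).repr.symm.toLinearIsometry, fun x => ?_⟩
  constructor
  · intro hx
    refine ⟨(stdOrthonormalBasis ℝ W).repr ⟨x, hx⟩, ?_⟩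
    simp
  · rintro ⟨v, rfl⟩
    simp

theorem Eu_norm_le_sum {k : ℕ} (v : Eu k) : ‖v‖ ≤ ∑ i, |v i| := by
  rw [EuclideanSpace.norm_eq]
  apply Real.sqrt_le_iff.2
  refine ⟨Finset.sum_nonneg fun i _ => abs_nonneg _, ?_⟩
  have := Finset.sum_sq_le_sq_sum_of_nonneg (s := Finset.univ) (f := fun i => |v i|)
    (fun i _ => abs_nonneg _)
  simpa only [Real.norm_eq_abs, sq_abs, ge_iff_le] using this

theorem Eu_norm_le_of_abs_le {k : ℕ} (v : Eu k) {t : ℝ} (h : ∀ i, |v i| ≤ t) : ‖v‖ ≤ k * t := by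
  refine (Eu_norm_le_sum v).trans ?_
  calc ∑ i, |v i| ≤ ∑ _i : Fin k, t := Finset.sum_le_sum fun i _ => h i
    _ = k * t := by simp only [Finset.sum_const, Finset.card_univ, Fintype.card_fin, nsmul_eq_mul]

theorem Eu_abs_le_norm {k : ℕ} (v : Eu k) (i : Fin k) : |v i| ≤ ‖v‖ := by
  have := PiLp.norm_apply_le v i
  simpa only [ge_iff_le, Real.norm_eq_abs] using this

variable {n : ℕ} {c C : ℝ} {D : ℝ≥0∞} {μ : Measure (Eu d)}

/-- packing bound: a `2s`-separated family in `supp μ ∩ closedBall a R` -/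
theorem card_le_of_AR (h : AR n c C D μ) {ι : Type*} [Fintype ι] (y : ι → Eu d) (a : Eu d)
    {s R : ℝ} (hs : 0 < s) (hR : 0 ≤ R) (hD : ENNReal.ofReal s ≤ D)
    (hy : ∀ i, y i ∈ μ.support) (hya : ∀ i, dist (y i) a ≤ R)
    (hsep : ∀ i j, i ≠ j → 2 * s ≤ dist (y i) (y j)) :
    (Fintype.card ι : ℝ) * (c * s ^ n) ≤ C * (R + s) ^ n := by
  have hc := h.c_pos
  have hC := h.C_pos
  have hdisj : Pairwise (Function.onFun Disjoint fun i => ball (y i) s) := by
    intro i j hij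
    apply ball_disjoint_ball
    have := hsep i j hij
    linarith only [this]
  have h1 : μ (⋃ i, ball (y i) s) = ∑ i, μ (ball (y i) s) := by
    rw [measure_iUnion hdisj (fun i => measurableSet_ball), tsum_fintype]
  have h2 : (⋃ i, ball (y i) s) ⊆ closedBall a (R + s) := by
    refine iUnion_subset fun i z hz => ?_
    rw [mem_ball] at hz
    rw [mem_closedBall]
    have := dist_triangle z (y i) a
    have := hya i
    linarith
  have h3 : ∑ i, μ (ball (y i) s) ≤ ENNReal.ofReal (C * (R + s) ^ n) := by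
    rw [← h1]
    exact (measure_mono h2).trans (h.upper a (R + s) (by positivity))
  have h4 : ENNReal.ofReal ((Fintype.card ι : ℝ) * (c * s ^ n)) ≤ ∑ i, μ (ball (y i) s) := by
    calc ENNReal.ofReal ((Fintype.card ι : ℝ) * (c * s ^ n))
        = ∑ _i : ι, ENNReal.ofReal (c * s ^ n) := by
          rw [Finset.sum_const, Finset.card_univ, nsmul_eq_mul, ENNReal.ofReal_mul (by (clear * -; positivity)),
            ENNReal.ofReal_natCast]
      _ ≤ _ := Finset.sum_le_sum fun i _ => h.lower (y i) (hy i) s hs hD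
  exact (ENNReal.ofReal_le_ofReal_iff (by positivity)).1 (h4.trans h3)

/-- a hole in the projection of the support to a plane of dimension `m > n` -/
theorem exists_hole (n m : ℕ) (hnm : n < m) (c C : ℝ) (hc : 0 < c) (hC : 0 < C) :
    ∃ ρ₁ : ℝ, 0 < ρ₁ ∧ ρ₁ ≤ 1 / 8 ∧ ∀ (d : ℕ) (μ : Measure (Eu d)) (D : ℝ≥0∞), AR n c C D μ →
      ∀ (a : Eu d) (r : ℝ), 0 < r → ENNReal.ofReal r ≤ D →
      ∀ (W : Submodule ℝ (Eu d)) (b : Eu d), Module.finrank ℝ W = m →
      ∃ w ∈ W, ‖W.starProjection (a - b) - w‖ ≤ r / 8 ∧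
        ∀ y ∈ μ.support, dist y a ≤ r / 2 → ρ₁ * r ≤ ‖W.starProjection (y - b) - w‖ := by
  have hm : (1 : ℝ) ≤ m := by
    have : 1 ≤ m := by omega
    exact_mod_cast this
  obtain ⟨N, hN⟩ := exists_nat_gt (C * (32 * m) ^ n / c)
  have hN0 : (0 : ℝ) < N := lt_of_le_of_lt (by positivity) hN
  have hN1 : (1 : ℝ) ≤ N := by
    have : 0 < N := by exact_mod_cast hN0
    exact_mod_cast this
  refine ⟨1 / (32 * m * N), by positivity, ?_, ?_⟩
  · rw [div_le_div_iff₀ (by positivity) (by norm_num)]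
    nlinarith only [hm, hN1]
  intro d μ D hAR a r hr hrD W b hW
  by_contra hcon
  push Not at hcon
  obtain ⟨ι, hι⟩ := exists_isometry_range W hW
  set ρ₁ : ℝ := 1 / (32 * m * N) with hρ₁
  have hρ0 : 0 < ρ₁ := by (clear * - hm hN0; positivity)
  have hρm : m * N * (4 * ρ₁ * r) = r / 8 := by
    rw [hρ₁]; field_simp; norm_num
  -- grid
  let g : (Fin m → Fin N) → Eu m := fun κ => WithLp.toLp 2 fun i => (κ i : ℝ) * (4 * ρ₁ * r)
  have hg : ∀ κ i, g κ i = (κ i : ℝ) * (4 * ρ₁ * r) := fun κ i => rfl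
  have hgn : ∀ κ, ‖g κ‖ ≤ r / 8 := by
    intro κ
    rw [← hρm, mul_assoc]
    apply Eu_norm_le_of_abs_le
    intro i
    rw [hg, abs_of_nonneg (by (clear * - hm hN0 hr; positivity))]
    apply mul_le_mul_of_nonneg_right _ (by positivity)
    have := (κ i).isLt
    exact Nat.cast_le.2 this.le
  have hgs : ∀ κ κ', κ ≠ κ' → 4 * ρ₁ * r ≤ ‖g κ - g κ'‖ := by
    intro κ κ' hne
    obtain ⟨i, hi⟩ := Function.ne_iff.1 hne
    refine le_trans ?_ (Eu_abs_le_norm (g κ - g κ') i)
    have h1 : (g κ - g κ') i = ((κ i : ℝ) - (κ' i : ℝ)) * (4 * ρ₁ * r) := by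
      rw [PiLp.sub_apply, hg, hg]; ring
    rw [h1, abs_mul, abs_of_nonneg (show 0 ≤ 4 * ρ₁ * r by (clear * - hm hN0 hr; positivity))]
    have h2 : (1 : ℝ) ≤ |(κ i : ℝ) - (κ' i : ℝ)| := by
      have h3 : ((κ i : ℕ) : ℤ) - ((κ' i : ℕ) : ℤ) ≠ 0 := by
        intro h4
        apply hi
        apply Fin.ext
        omega
      have h4 : (1 : ℤ) ≤ |((κ i : ℕ) : ℤ) - ((κ' i : ℕ) : ℤ)| := Int.one_le_abs h3
      exact_mod_cast h4
    nlinarith only [show 0 < 4 * ρ₁ * r by positivity, hm, hN0, hr, h2]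
  have key : ∀ κ : Fin m → Fin N, ∃ y ∈ μ.support, dist y a ≤ r / 2 ∧
      ‖W.starProjection (y - b) - (W.starProjection (a - b) + ι (g κ))‖ < ρ₁ * r := by
    intro κ
    apply hcon
    · apply W.add_mem (Submodule.starProjection_apply_mem W _)
      exact (hι _).2 ⟨_, rfl⟩
    · rw [sub_add_cancel_left, norm_neg, ι.norm_map]
      exact hgn κ
  choose y hys hya hyp using key
  have hsep : ∀ κ κ', κ ≠ κ' → 2 * (ρ₁ * r) ≤ dist (y κ) (y κ') := by
    intro κ κ' hne
    have h1 := hgs κ κ' hne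
    have h2 : ‖W.starProjection (y κ - y κ')‖ ≤ dist (y κ) (y κ') := by
      rw [dist_eq_norm]; exact Submodule.norm_starProjection_apply_le W _
    have h3 : ι (g κ - g κ') = W.starProjection (y κ - y κ')
        - (W.starProjection (y κ - b) - (W.starProjection (a - b) + ι (g κ)))
        + (W.starProjection (y κ' - b) - (W.starProjection (a - b) + ι (g κ'))) := by
      simp only [map_sub]; abel
    have h4 : ‖g κ - g κ'‖ ≤ ‖W.starProjection (y κ - y κ')‖ + ρ₁ * r + ρ₁ * r := by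
      rw [← ι.norm_map, h3]
      refine (norm_add_le _ _).trans ?_
      refine add_le_add ((norm_sub_le _ _).trans ?_) (hyp κ').le
      exact add_le_add le_rfl (hyp κ).le
    linarith only [h1, h2, h4]
  have hs1 : ρ₁ * r ≤ r / 2 := by
    have : ρ₁ ≤ 1 / 2 := by
      rw [hρ₁, div_le_div_iff₀ (by (clear * - hm hN0; positivity)) (by norm_num)]
      nlinarith only [hm, hN1]
    nlinarith only [hr, this]
  have hcard := card_le_of_AR hAR y a (s := ρ₁ * r) (R := r / 2) (by (clear * - hm hN0 hr; positivity)) (by positivity)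
    ((ENNReal.ofReal_le_ofReal (by linarith only [hr, hs1])).trans hrD) hys hya hsep
  have h5 : (Fintype.card (Fin m → Fin N) : ℝ) = (N : ℝ) ^ m := by
    simp only [Fintype.card_pi, Fintype.card_fin, Finset.prod_const, Finset.card_univ, Nat.cast_pow]
  rw [h5] at hcard
  have h6 : C * (r / 2 + ρ₁ * r) ^ n ≤ C * r ^ n := by
    apply mul_le_mul_of_nonneg_left _ hC.le
    exact pow_le_pow_left₀ (by (clear * - hm hN0 hr; positivity)) (by linarith only [hs1]) n
  have h7 : (N : ℝ) ^ m * (c * ρ₁ ^ n) ≤ C := by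
    have h8 : (N : ℝ) ^ m * (c * (ρ₁ * r) ^ n) = (N : ℝ) ^ m * (c * ρ₁ ^ n) * r ^ n := by
      rw [mul_pow]; ring
    rw [h8] at hcard
    exact le_of_mul_le_mul_right (hcard.trans h6) (by positivity)
  have h8 : ρ₁ ^ n = 1 / ((32 * m) ^ n * N ^ n) := by
    rw [hρ₁, div_pow, one_pow, mul_pow]
  rw [h8] at h7
  have h9 : (N : ℝ) ^ m * (c * (1 / ((32 * m) ^ n * N ^ n))) =
      (N : ℝ) ^ (m - n) * (c / (32 * m) ^ n) := by
    have : (N : ℝ) ^ m = N ^ (m - n) * N ^ n := by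
      rw [← pow_add]; congr 1; omega
    rw [this]; (clear * - hc hm hN0; field_simp)
  rw [h9] at h7
  have h10 : (N : ℝ) ≤ N ^ (m - n) := by
    calc (N : ℝ) = N ^ 1 := (pow_one _).symm
      _ ≤ N ^ (m - n) := pow_le_pow_right₀ hN1 (by omega)
  have h11 : (N : ℝ) * (c / (32 * m) ^ n) ≤ C :=
    (mul_le_mul_of_nonneg_right h10 (by (clear * - hc hm; positivity))).trans h7
  have h12 : C < (N : ℝ) * (c / (32 * m) ^ n) := by
    rw [div_lt_iff₀ hc] at hN
    rw [← mul_div_assoc, lt_div_iff₀ (by positivity)]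
    linarith only [hN]
  linarith only [h11, h12]

/-- measure of a thin neighbourhood of a plane of dimension `k < n` -/
theorem measure_slab_le (n k : ℕ) (hk : k < n) (C : ℝ) (hC : 0 < C) : ∃ C' : ℝ, 0 < C' ∧
    ∀ (d : ℕ) (μ : Measure (Eu d)),
      (∀ (x : Eu d) (r : ℝ), 0 < r → μ (closedBall x r) ≤ ENNReal.ofReal (C * r ^ n)) →
      ∀ (W : Submodule ℝ (Eu d)), Module.finrank ℝ W = k → ∀ (b x : Eu d) (R δ : ℝ), 0 < R →
        0 < δ → δ ≤ 1 →
        μ {y | dist y x < R ∧ dP W b y ≤ δ * R} ≤ ENNReal.ofReal (C' * δ * R ^ n) := by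
  refine ⟨5 ^ k * C * (k + 1) ^ n, by positivity, fun d μ hμ W hW b x R δ hR hδ hδ1 => ?_⟩
  obtain ⟨ι, hι⟩ := exists_isometry_range W hW
  set δ' : ℝ := δ * R with hδ'
  have hδ'0 : 0 < δ' := by positivity
  set M : ℕ := ⌈1 / δ⌉₊ with hM
  have hM1 : 1 / δ ≤ M := Nat.le_ceil _
  have hM2 : (M : ℝ) ≤ 2 / δ := by
    have h1 : (M : ℝ) < 1 / δ + 1 := Nat.ceil_lt_add_one (by positivity)
    have h2 : 1 ≤ 1 / δ := by rw [le_div_iff₀ hδ]; linarith only [hδ1]
    have h3 : 2 / δ = 1 / δ + 1 / δ := by ring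
    linarith only [h1, h2, h3]
  have hRM : R ≤ M * δ' := by
    have : 1 ≤ M * δ := by
      rw [div_le_iff₀ hδ] at hM1
      exact hM1
    calc R = 1 * R := (one_mul R).symm
      _ ≤ M * δ * R := mul_le_mul_of_nonneg_right this hR.le
      _ = M * δ' := by rw [hδ']; ring
  let g : (Fin k → Fin (2 * M + 1)) → Eu k := fun κ =>
    WithLp.toLp 2 fun i => ((κ i : ℝ) - M) * δ'
  have hg : ∀ κ i, g κ i = ((κ i : ℝ) - M) * δ' := fun κ i => rfl
  have hcover : {y | dist y x < R ∧ dP W b y ≤ δ * R} ⊆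
      ⋃ κ : Fin k → Fin (2 * M + 1), closedBall (b + W.starProjection (x - b) + ι (g κ))
        ((k + 1) * δ') := by
    rintro y ⟨hyx, hyW⟩
    have hmem : W.starProjection (y - x) ∈ W := Submodule.starProjection_apply_mem W _
    obtain ⟨v, hv⟩ := (hι _).1 hmem
    have hvn : ‖v‖ ≤ M * δ' := by
      rw [← ι.norm_map, hv]
      refine (Submodule.norm_starProjection_apply_le W _).trans ?_
      rw [← dist_eq_norm]
      linarith only [hRM, hyx]
    have hvi : ∀ i, |v i| ≤ M * δ' := fun i => (Eu_abs_le_norm v i).trans hvn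
    have hfl : ∀ i, 0 ≤ ⌊v i / δ'⌋ + M ∧ ⌊v i / δ'⌋ + M < (2 * M + 1 : ℕ) := by
      intro i
      have h1 := abs_le.1 (hvi i)
      constructor
      · have : (-(M : ℤ)) ≤ ⌊v i / δ'⌋ := by
          rw [Int.le_floor]
          push_cast
          rw [le_div_iff₀ hδ'0]
          linarith only [h1]
        linarith only [this]
      · have : (⌊v i / δ'⌋ : ℝ) ≤ M := by
          refine (Int.floor_le _).trans ?_
          rw [div_le_iff₀ hδ'0]
          exact h1.2
        have h2 : ⌊v i / δ'⌋ ≤ (M : ℤ) := by exact_mod_cast this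
        push_cast
        linarith only [h2]
    let κ : Fin k → Fin (2 * M + 1) := fun i =>
      ⟨(⌊v i / δ'⌋ + M).toNat, by
        have := hfl i
        (clear * - this; omega)⟩
    rw [mem_iUnion]
    refine ⟨κ, ?_⟩
    rw [mem_closedBall, dist_eq_norm]
    have hκ : ∀ i, ((κ i : ℕ) : ℝ) = (⌊v i / δ'⌋ : ℝ) + M := by
      intro i
      have h1 : ((κ i : ℕ) : ℤ) = ⌊v i / δ'⌋ + M := by
        show (((⌊v i / δ'⌋ + M).toNat : ℕ) : ℤ) = _
        exact Int.toNat_of_nonneg (hfl i).1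
      exact_mod_cast h1
    have hdiff : ‖v - g κ‖ ≤ k * δ' := by
      apply Eu_norm_le_of_abs_le
      intro i
      rw [PiLp.sub_apply, hg, hκ]
      have h1 : v i - ((⌊v i / δ'⌋ : ℝ) + M - M) * δ' = (v i / δ' - ⌊v i / δ'⌋) * δ' := by
        field_simp; ring
      rw [h1, abs_mul, abs_of_pos hδ'0]
      have h2 : |v i / δ' - ⌊v i / δ'⌋| ≤ 1 := by
        rw [abs_le]
        constructor
        · have := Int.floor_le (v i / δ'); linarith only [this]
        · have := Int.lt_floor_add_one (v i / δ'); linarith only [this]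
      nlinarith only [hδ'0, h2]
    have hsplit : y - (b + W.starProjection (x - b) + ι (g κ)) =
        ι (v - g κ) + Wᗮ.starProjection (y - b) := by
      have h1 : y - b = W.starProjection (y - b) + Wᗮ.starProjection (y - b) :=
        (Submodule.starProjection_add_starProjection_orthogonal _).symm
      have h2 : W.starProjection (y - b) = W.starProjection (y - x) + W.starProjection (x - b) := by
        rw [← map_add]; congr 1; abel
      have h3 : ι (v - g κ) = W.starProjection (y - x) - ι (g κ) := by rw [map_sub, hv]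
      rw [h3]
      calc y - (b + W.starProjection (x - b) + ι (g κ))
          = (y - b) - W.starProjection (x - b) - ι (g κ) := by abel
        _ = (W.starProjection (y - b) + Wᗮ.starProjection (y - b)) -
            W.starProjection (x - b) - ι (g κ) := by rw [← h1]
        _ = _ := by rw [h2]; abel
    rw [hsplit]
    refine (norm_add_le _ _).trans ?_
    rw [ι.norm_map]
    have : ‖Wᗮ.starProjection (y - b)‖ ≤ δ' := hyW
    linarith only [hdiff, this]
  refine (measure_mono hcover).trans ?_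
  refine (measure_iUnion_fintype_le _ _).trans ?_
  calc ∑ κ : Fin k → Fin (2 * M + 1), μ (closedBall (b + W.starProjection (x - b) + ι (g κ))
        ((k + 1) * δ'))
      ≤ ∑ _κ : Fin k → Fin (2 * M + 1), ENNReal.ofReal (C * ((k + 1) * δ') ^ n) :=
        Finset.sum_le_sum fun κ _ => hμ _ _ (by (clear * - hR hδ; positivity))
    _ = ENNReal.ofReal ((2 * M + 1 : ℝ) ^ k * (C * ((k + 1) * δ') ^ n)) := by
        rw [Finset.sum_const, Finset.card_univ, nsmul_eq_mul,
          ENNReal.ofReal_mul (p := (2 * M + 1 : ℝ) ^ k) (by positivity)]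
        congr 1
        rw [← ENNReal.ofReal_natCast]
        congr 1
        simp only [Fintype.card_pi, Fintype.card_fin, Finset.prod_const, Finset.card_univ,
          Nat.cast_pow, Nat.cast_add, Nat.cast_mul, Nat.cast_ofNat, Nat.cast_one]
    _ ≤ ENNReal.ofReal (5 ^ k * C * (k + 1) ^ n * δ * R ^ n) := by
        apply ENNReal.ofReal_le_ofReal
        have h1 : (2 * M + 1 : ℝ) ≤ 5 / δ := by
          have h2 : 1 ≤ 1 / δ := by rw [le_div_iff₀ hδ]; linarith only [hδ1]
          have h3 : 5 / δ = 2 * (2 / δ) + 1 / δ := by ring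
          linarith only [hM2, h2, h3]
        have h2 : (2 * M + 1 : ℝ) ^ k ≤ (5 / δ) ^ k := pow_le_pow_left₀ (by positivity) h1 k
        calc (2 * M + 1 : ℝ) ^ k * (C * ((k + 1) * δ') ^ n)
            ≤ (5 / δ) ^ k * (C * ((k + 1) * δ') ^ n) :=
              mul_le_mul_of_nonneg_right h2 (by positivity)
          _ = 5 ^ k * C * (k + 1) ^ n * δ ^ (n - k) * R ^ n := by
              have h3 : δ ^ n = δ ^ (n - k) * δ ^ k := by
                rw [← pow_add]; congr 1; omega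
              rw [hδ', mul_pow, mul_pow, h3, div_pow]
              (clear * - hC hR hδ; field_simp)
          _ ≤ 5 ^ k * C * (k + 1) ^ n * δ * R ^ n := by
              have h3 : δ ^ (n - k) ≤ δ := by
                calc δ ^ (n - k) ≤ δ ^ 1 := pow_le_pow_of_le_one hδ.le hδ1 (by omega)
                  _ = δ := pow_one δ
              apply mul_le_mul_of_nonneg_right _ (by positivity)
              exact mul_le_mul_of_nonneg_left h3 (by (clear * - hC; positivity))

/-- dropping one direction of a plane -/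
theorem exists_drop {m : ℕ} (W : Submodule ℝ (Eu d)) (hW : Module.finrank ℝ W = m + 1) (e : Eu d)
    (he : e ∈ W) (he1 : ‖e‖ = 1) :
    ∃ W' : Submodule ℝ (Eu d), W' ≤ W ∧ Module.finrank ℝ W' = m ∧
      ∀ v : Eu d, ‖W'ᗮ.starProjection v‖ ≤ ‖Wᗮ.starProjection v‖ + |inner ℝ e v| := by
  refine ⟨(ℝ ∙ e)ᗮ ⊓ W, inf_le_right, ?_, ?_⟩
  · have h1 := Submodule.finrank_add_inf_finrank_orthogonal (𝕜 := ℝ) (K₁ := ℝ ∙ e) (K₂ := W)
      (by rw [Submodule.span_singleton_le_iff_mem]; exact he)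
    have h2 : Module.finrank ℝ (ℝ ∙ e) = 1 := finrank_span_singleton (by
      intro h0; rw [h0, norm_zero] at he1; exact zero_ne_one he1)
    omega
  · intro v
    have hee : inner ℝ e e = (1 : ℝ) := by rw [real_inner_self_eq_norm_sq, he1]; norm_num
    have h1 : ((ℝ ∙ e)ᗮ ⊓ W).starProjection v = W.starProjection v - (inner ℝ e v : ℝ) • e := by
      apply Submodule.eq_starProjection_of_mem_of_inner_eq_zero
      · refine ⟨?_, W.sub_mem (Submodule.starProjection_apply_mem W _) (W.smul_mem _ he)⟩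
        rw [SetLike.mem_coe, Submodule.mem_orthogonal_singleton_iff_inner_right, inner_sub_right,
          inner_smul_right, hee, mul_one, ← Submodule.inner_starProjection_left_eq_right,
          Submodule.starProjection_eq_self_iff.2 he, sub_self]
      · rintro w ⟨hw1, hw2⟩
        have h3 : inner ℝ e w = (0 : ℝ) :=
          (Submodule.mem_orthogonal_singleton_iff_inner_right).1 hw1
        have h4 : inner ℝ (v - W.starProjection v) w = (0 : ℝ) :=
          Submodule.starProjection_inner_eq_zero v w hw2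
        have h5 : v - (W.starProjection v - (inner ℝ e v : ℝ) • e) =
            (v - W.starProjection v) + (inner ℝ e v : ℝ) • e := by abel
        rw [h5, inner_add_left, h4, inner_smul_left, h3]
        simp
    rw [Submodule.starProjection_orthogonal_val, h1, Submodule.starProjection_orthogonal_val]
    have h5 : v - (W.starProjection v - (inner ℝ e v : ℝ) • e) =
        (v - W.starProjection v) + (inner ℝ e v : ℝ) • e := by abel
    rw [h5]
    refine (norm_add_le _ _).trans ?_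
    rw [norm_smul, he1, mul_one, Real.norm_eq_abs]

end Vale.Agent.P120.TouchAux
end
end

section

section

/-! Part 2b: the touching argument (Lemma 3, Corollary 4). -/

open MeasureTheory Metric Set Filter Topology
open scoped ENNReal NNReal

namespace Vale.Agent.P120

namespace TouchAux

variable {d : ℕ}

/-- geometric part: the touching point -/
theorem exists_touch {μ : Measure (Eu d)} {a : Eu d} (ha : a ∈ μ.support) {r τ ρ₁ : ℝ}
    (hr : 0 < r) (W : Submodule ℝ (Eu d)) (b w : Eu d) (hw : w ∈ W)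
    (hτ : τ ≤ 1 / 100)
    (hflat : ∀ x ∈ μ.support, dist x a < r → dP W b x ≤ τ * r)
    (hwa : ‖W.starProjection (a - b) - w‖ ≤ r / 8) (hρ : 0 < ρ₁)
    (hhole : ∀ y ∈ μ.support, dist y a ≤ r / 2 →
      ρ₁ * r ≤ ‖W.starProjection (y - b) - w‖) :
    ∃ x' ∈ μ.support, ∃ e ∈ W, ‖e‖ = 1 ∧ dist x' a ≤ 3 / 10 * r ∧
      ∀ y ∈ μ.support, dist y x' ≤ r / 8 →
        -(dist y x') ^ 2 / (2 * ρ₁ * r) ≤ inner ℝ e (y - x') := by
  have hcomp : IsCompact (μ.support ∩ closedBall a (r / 2)) :=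
    (isCompact_closedBall a (r / 2)).inter_left Measure.isClosed_support
  have hne : (μ.support ∩ closedBall a (r / 2)).Nonempty :=
    ⟨a, ha, mem_closedBall_self (by positivity)⟩
  have hcont : ContinuousOn (fun y : Eu d => ‖W.starProjection (y - b) - w‖)
      (μ.support ∩ closedBall a (r / 2)) := by
    apply Continuous.continuousOn
    fun_prop
  obtain ⟨x', ⟨hx's, hx'b⟩, hmin⟩ := hcomp.exists_isMinOn hne hcont
  rw [mem_closedBall] at hx'b
  set t : ℝ := ‖W.starProjection (x' - b) - w‖ with ht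
  have htpos : 0 < t := lt_of_lt_of_le (by positivity) (hhole x' hx's hx'b)
  have hta : t ≤ ‖W.starProjection (a - b) - w‖ :=
    hmin ⟨ha, mem_closedBall_self (by positivity)⟩
  have htr : t ≤ r / 8 := hta.trans hwa
  -- distance from x' to a
  have hdist : dist x' a ≤ 3 / 10 * r := by
    have h1 : ‖x' - a‖ ^ 2 = ‖W.starProjection (x' - a)‖ ^ 2 + ‖Wᗮ.starProjection (x' - a)‖ ^ 2 :=
      Submodule.norm_sq_eq_add_norm_sq_starProjection (x' - a) W
    have h2 : ‖W.starProjection (x' - a)‖ ≤ r / 4 := by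
      have : W.starProjection (x' - a) = (W.starProjection (x' - b) - w) -
          (W.starProjection (a - b) - w) := by
        simp only [map_sub]; abel
      rw [this]
      calc _ ≤ ‖W.starProjection (x' - b) - w‖ + ‖W.starProjection (a - b) - w‖ :=
            norm_sub_le _ _
        _ ≤ r / 8 + r / 8 := add_le_add htr hwa
        _ = r / 4 := by ring
    have h3 : ‖Wᗮ.starProjection (x' - a)‖ ≤ r / 50 := by
      have : Wᗮ.starProjection (x' - a) = Wᗮ.starProjection (x' - b) -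
          Wᗮ.starProjection (a - b) := by
        simp only [map_sub]; abel
      rw [this]
      have e1 := hflat x' hx's (by linarith only [hwa, hx'b, htpos, hta])
      have e2 := hflat a ha (by simpa using hr)
      unfold dP at e1 e2
      calc _ ≤ ‖Wᗮ.starProjection (x' - b)‖ + ‖Wᗮ.starProjection (a - b)‖ := norm_sub_le _ _
        _ ≤ τ * r + τ * r := add_le_add e1 e2
        _ ≤ r / 50 := by nlinarith only [hr, hτ]
    rw [dist_eq_norm]
    have h4 : ‖x' - a‖ ^ 2 ≤ (3 / 10 * r) ^ 2 := by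
      rw [h1]
      have := norm_nonneg (W.starProjection (x' - a))
      have := norm_nonneg (Wᗮ.starProjection (x' - a))
      nlinarith
    exact le_of_sq_le_sq h4 (by positivity)
  have heW : W.starProjection (x' - b) - w ∈ W :=
    W.sub_mem (Submodule.starProjection_apply_mem W _) hw
  refine ⟨x', hx's, t⁻¹ • (W.starProjection (x' - b) - w), W.smul_mem _ heW, ?_, hdist, ?_⟩
  · rw [norm_smul, norm_inv, Real.norm_of_nonneg htpos.le, ← ht, inv_mul_cancel₀ htpos.ne']
  · intro y hy hyx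
    have hya : dist y a ≤ r / 2 := by
      have := dist_triangle y x' a
      linarith only [hwa, htpos, hta, hdist, hyx, this]
    have h1 : t ≤ ‖W.starProjection (y - b) - w‖ := hmin ⟨hy, mem_closedBall.2 hya⟩
    have h2 : W.starProjection (y - b) - w = (W.starProjection (x' - b) - w) +
        W.starProjection (y - x') := by
      simp only [map_sub]; abel
    rw [h2] at h1
    have h3 : t ^ 2 ≤ ‖(W.starProjection (x' - b) - w) + W.starProjection (y - x')‖ ^ 2 :=
      pow_le_pow_left₀ htpos.le h1 2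
    rw [norm_add_sq_real, ← ht] at h3
    have h4 : inner ℝ (W.starProjection (x' - b) - w) (W.starProjection (y - x')) =
        inner ℝ (W.starProjection (x' - b) - w) (y - x') := by
      rw [← Submodule.inner_starProjection_left_eq_right,
        Submodule.starProjection_eq_self_iff.2 heW]
    have h5 : ‖W.starProjection (y - x')‖ ≤ dist y x' := by
      rw [dist_eq_norm]; exact Submodule.norm_starProjection_apply_le W _
    have h6 : ‖W.starProjection (y - x')‖ ^ 2 ≤ (dist y x') ^ 2 :=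
      pow_le_pow_left₀ (norm_nonneg _) h5 2
    rw [h4] at h3
    have h7 : -(dist y x') ^ 2 / 2 ≤ inner ℝ (W.starProjection (x' - b) - w) (y - x') := by
      linarith only [h3, h6]
    rw [inner_smul_left]
    simp only [conj_trivial]
    have h8 : ρ₁ * r ≤ t := hhole x' hx's hx'b
    have h9 : 0 < ρ₁ * r := by positivity
    calc -(dist y x') ^ 2 / (2 * ρ₁ * r) = -((dist y x') ^ 2 / 2 / (ρ₁ * r)) := by
          (clear * - hr hρ; field_simp)
      _ ≤ -((dist y x') ^ 2 / 2 / t) := by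
          apply neg_le_neg
          exact div_le_div_of_nonneg_left (by (clear * -; positivity)) h9 h8
      _ = t⁻¹ * (-(dist y x') ^ 2 / 2) := by (clear * - htpos; field_simp)
      _ ≤ t⁻¹ * inner ℝ (W.starProjection (x' - b) - w) (y - x') :=
          mul_le_mul_of_nonneg_left h7 (by positivity)

/-- annulus -/
def Ann (x : Eu d) (s S : ℝ) : Set (Eu d) := {y | s < dist y x ∧ dist y x ≤ S}

theorem measurableSet_Ann (x : Eu d) (s S : ℝ) : MeasurableSet (Ann x s S) := by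
  unfold Ann
  apply MeasurableSet.inter
  · exact measurableSet_lt measurable_const (measurable_id.dist measurable_const)
  · exact measurableSet_le (measurable_id.dist measurable_const) measurable_const

theorem Ann_subset (x : Eu d) (s S : ℝ) : Ann x s S ⊆ closedBall x S := fun _ h => h.2

variable {n : ℕ} {c C : ℝ} {D : ℝ≥0∞} {μ : Measure (Eu d)}

theorem measure_Ann_lt_top (h : AR n c C D μ) (x : Eu d) (s S : ℝ) : μ (Ann x s S) < ⊤ :=
  (measure_mono (Ann_subset x s S)).trans_lt (h.measure_ball_lt_top x S)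

theorem integrableOn_Ann_rK (h : AR n c C D μ) (x : Eu d) {s S : ℝ} (hs : 0 < s) :
    IntegrableOn (fun y => rK n 0 (x - y)) (Ann x s S) μ := by
  apply Measure.integrableOn_of_bounded (M := (s ^ n)⁻¹) (measure_Ann_lt_top h x s S).ne
  · exact ((measurable_rK n 0).comp (measurable_const.sub measurable_id)).aestronglyMeasurable
  · rw [ae_restrict_iff' (measurableSet_Ann x s S)]
    refine Eventually.of_forall fun y hy => ?_
    refine (norm_rK_le n 0 _).trans ?_
    have : s ≤ ‖x - y‖ := by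
      have := hy.1
      rw [dist_comm, dist_eq_norm] at this
      exact this.le
    exact inv_anti₀ (by positivity) (pow_le_pow_left₀ hs.le this n)

theorem integrableOn_Ann_pow (h : AR n c C D μ) (x : Eu d) {s S : ℝ} (hs : 0 < s) (k : ℕ) :
    IntegrableOn (fun y => (‖x - y‖ ^ k)⁻¹) (Ann x s S) μ := by
  apply Measure.integrableOn_of_bounded (M := (s ^ k)⁻¹) (measure_Ann_lt_top h x s S).ne
  · have : Measurable (fun y : Eu d => (‖x - y‖ ^ k)⁻¹) :=
      ((measurable_const.sub measurable_id).norm.pow_const k).inv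
    exact this.aestronglyMeasurable
  · rw [ae_restrict_iff' (measurableSet_Ann x s S)]
    refine Eventually.of_forall fun y hy => ?_
    have : s ≤ ‖x - y‖ := by
      have := hy.1
      rw [dist_comm, dist_eq_norm] at this
      exact this.le
    rw [Real.norm_of_nonneg (by positivity)]
    exact inv_anti₀ (by positivity) (pow_le_pow_left₀ hs.le this k)

/-- near integral, real version over an annulus -/
theorem integral_Ann_near (n : ℕ) (hn : 1 ≤ n) (C : ℝ) (hC : 0 < C) : ∃ C' : ℝ, 0 < C' ∧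
    ∀ (d : ℕ) (c : ℝ) (D : ℝ≥0∞) (μ : Measure (Eu d)), AR n c C D μ →
      ∀ (x : Eu d) (s S : ℝ), 0 < s → 0 < S →
        ∫ y in Ann x s S, (‖x - y‖ ^ (n - 1))⁻¹ ∂μ ≤ C' * S := by
  obtain ⟨C', hC', H⟩ := lintegral_near n hn C hC
  refine ⟨C', hC', fun d c D μ hAR x s S hs hS => ?_⟩
  rw [integral_eq_lintegral_of_nonneg_ae]
  · apply ENNReal.toReal_le_of_le_ofReal (by positivity)
    exact (lintegral_mono_set (Ann_subset x s S)).trans (H d μ hAR.upper x S hS)
  · exact Eventually.of_forall fun y => by positivity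
  · exact (integrableOn_Ann_pow hAR x hs (n - 1)).aestronglyMeasurable

/-- the nonnegative integrand used in the touching argument -/
noncomputable def gT (n : ℕ) (e x : Eu d) (t : ℝ) (y : Eu d) : ℝ :=
  (‖x - y‖ ^ (n + 1))⁻¹ * inner ℝ e (y - x) + (‖x - y‖ ^ (n - 1))⁻¹ / t

theorem integrableOn_Ann_gT (h : AR n c C D μ) (e x : Eu d) (t : ℝ) {s S : ℝ} (hs : 0 < s) :
    IntegrableOn (gT n e x t) (Ann x s S) μ := by
  have h1 := (integrableOn_Ann_rK h x (S := S) hs)
  have h2 := (integrableOn_Ann_pow h x (S := S) hs (n - 1))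
  have h3 : IntegrableOn (fun y => inner ℝ (-e) (rK n 0 (x - y))) (Ann x s S) μ :=
    Integrable.const_inner (-e) h1
  have h4 : gT n e x t = fun y => inner ℝ (-e) (rK n 0 (x - y)) + (‖x - y‖ ^ (n - 1))⁻¹ / t := by
    funext y
    unfold gT rK
    rw [sK_zero_eq, inner_smul_right, ← neg_sub x y, inner_neg_right, inner_neg_left]
  rw [h4]
  exact h3.add (h2.div_const t)

theorem integral_gT_le (n : ℕ) (hn : 1 ≤ n) (C : ℝ) (hC : 0 < C) : ∃ C' : ℝ, 0 < C' ∧
    ∀ (d : ℕ) (c : ℝ) (D : ℝ≥0∞) (μ : Measure (Eu d)), AR n c C D μ →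
      ∀ (e x : Eu d) (t s S C'' : ℝ), ‖e‖ = 1 → 0 < t → 0 < s → 0 < S →
        ‖Trunc n μ s S x‖ ≤ C'' →
        ∫ y in Ann x s S, gT n e x t y ∂μ ≤ C'' + C' * S / t := by
  obtain ⟨C', hC', H⟩ := integral_Ann_near n hn C hC
  refine ⟨C', hC', fun d c D μ hAR e x t s S C'' he ht hs hS hT => ?_⟩
  have h1 := (integrableOn_Ann_rK hAR x (S := S) hs)
  have h2 := (integrableOn_Ann_pow hAR x (S := S) hs (n - 1))
  have h3 : IntegrableOn (fun y => inner ℝ (-e) (rK n 0 (x - y))) (Ann x s S) μ :=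
    Integrable.const_inner (-e) h1
  have h4 : gT n e x t = fun y => inner ℝ (-e) (rK n 0 (x - y)) + (‖x - y‖ ^ (n - 1))⁻¹ / t := by
    funext y
    unfold gT rK
    rw [sK_zero_eq, inner_smul_right, ← neg_sub x y, inner_neg_right, inner_neg_left]
  rw [h4, integral_add h3 (h2.div_const t), integral_inner h1, integral_div]
  have h5 : inner ℝ (-e) (∫ y in Ann x s S, rK n 0 (x - y) ∂μ) ≤ C'' := by
    refine (real_inner_le_norm _ _).trans ?_
    rw [norm_neg, he, one_mul]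
    exact hT
  have h6 := H d c D μ hAR x s S hs hS
  have h7 : (∫ y in Ann x s S, (‖x - y‖ ^ (n - 1))⁻¹ ∂μ) / t ≤ C' * S / t :=
    div_le_div_of_nonneg_right h6 ht.le
  linarith only [h5, h7]


theorem block_lower {D : ℝ≥0∞} (h : AR n c C D μ) {x y e : Eu d} {t τ' r' : ℝ} (ht : 0 < t)
    (hτ' : 0 < τ') (hτ1 : τ' ≤ 1) (hr' : 0 < r') (hD : ENNReal.ofReal r' ≤ D) (he : ‖e‖ = 1)
    (hpos : ∀ z ∈ μ.support, dist z x ≤ 2 * r' → 0 ≤ gT n e x t z)
    (hy : y ∈ μ.support) (hyx : dist y x < r') (hyi : τ' * r' / 2 < inner ℝ e (y - x)) :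
    c * (τ' / 8) ^ (n + 1) ≤ ∫ z in Ann x (τ' * r' / 4) (2 * r'), gT n e x t z ∂μ := by
  have hδ : 0 < τ' * r' / 4 := by positivity
  have hδr : τ' * r' / 4 ≤ r' := by nlinarith only [hτ1, hr']
  have hinner : ∀ z, dist z y < τ' * r' / 4 → τ' * r' / 4 < inner ℝ e (z - x) := by
    intro z hz
    have h1 : inner ℝ e (z - x) = inner ℝ e (z - y) + inner ℝ e (y - x) := by
      rw [← inner_add_right]; congr 1; abel
    have h2 : -(τ' * r' / 4) ≤ inner ℝ e (z - y) := by
      have := abs_real_inner_le_norm e (z - y)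
      rw [he, one_mul, ← dist_eq_norm] at this
      have := (abs_le.1 (this.trans hz.le)).1
      exact this
    linarith only [hyi, h1, h2]
  have hsub : ball y (τ' * r' / 4) ⊆ Ann x (τ' * r' / 4) (2 * r') := by
    intro z hz
    rw [mem_ball] at hz
    have h1 := hinner z hz
    refine ⟨?_, ?_⟩
    · have h2 := abs_real_inner_le_norm e (z - x)
      rw [he, one_mul, ← dist_eq_norm] at h2
      exact h1.trans_le ((le_abs_self _).trans h2)
    · have := dist_triangle z y x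
      linarith only [hyx, hδr, hz, this]
  have hint := integrableOn_Ann_gT h e x t (S := 2 * r') hδ
  have hsupp : ∀ᵐ z ∂μ, z ∈ μ.support := Measure.support_mem_ae
  have h0 : 0 ≤ᵐ[μ.restrict (Ann x (τ' * r' / 4) (2 * r'))] gT n e x t := by
    rw [EventuallyLE, ae_restrict_iff' (measurableSet_Ann _ _ _)]
    filter_upwards [hsupp] with z hz hzA
    exact hpos z hz hzA.2
  have h1 : ∫ z in ball y (τ' * r' / 4), gT n e x t z ∂μ ≤
      ∫ z in Ann x (τ' * r' / 4) (2 * r'), gT n e x t z ∂μ :=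
    setIntegral_mono_set hint h0 hsub.eventuallyLE
  refine le_trans ?_ h1
  have hμB : μ (ball y (τ' * r' / 4)) ≠ ⊤ :=
    ((measure_mono ball_subset_closedBall).trans_lt (h.measure_ball_lt_top y _)).ne
  set v : ℝ := ((2 * r') ^ (n + 1))⁻¹ * (τ' * r' / 4) with hv
  have h2 : ∫ z in ball y (τ' * r' / 4), v ∂μ ≤ ∫ z in ball y (τ' * r' / 4), gT n e x t z ∂μ := by
    apply setIntegral_mono_on _ (hint.mono_set hsub) measurableSet_ball
    · intro z hz
      rw [mem_ball] at hz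
      have h1 := hinner z hz
      have h3 := hsub (mem_ball.2 hz)
      unfold gT
      have h4 : ‖x - z‖ ≤ 2 * r' := by rw [← dist_eq_norm, dist_comm]; exact h3.2
      have h5 : 0 < ‖x - z‖ := by
        rw [← dist_eq_norm, dist_comm]; exact hδ.trans h3.1
      have h6 : ((2 * r') ^ (n + 1))⁻¹ ≤ (‖x - z‖ ^ (n + 1))⁻¹ :=
        inv_anti₀ (by (clear * - h5; positivity)) (pow_le_pow_left₀ h5.le h4 _)
      have h7 : v ≤ (‖x - z‖ ^ (n + 1))⁻¹ * inner ℝ e (z - x) := by
        rw [hv]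
        exact mul_le_mul h6 h1.le hδ.le (by (clear * - h5; positivity))
      have h8 : 0 ≤ (‖x - z‖ ^ (n - 1))⁻¹ / t := by (clear * - ht h5; positivity)
      linarith only [h7, h8]
    · exact integrableOn_const hμB
  refine le_trans ?_ h2
  rw [setIntegral_const, smul_eq_mul]
  have h3 : c * (τ' * r' / 4) ^ n ≤ μ.real (ball y (τ' * r' / 4)) := by
    have := h.lower y hy (τ' * r' / 4) hδ ((ENNReal.ofReal_le_ofReal hδr).trans hD)
    exact (ENNReal.ofReal_le_iff_le_toReal hμB).1 this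
  have hv0 : 0 ≤ v := by positivity
  calc c * (τ' / 8) ^ (n + 1) = c * (τ' * r' / 4) ^ n * v := by
        rw [hv]
        have : (τ' / 8) ^ (n + 1) = (τ' * r' / 4) ^ (n + 1) * ((2 * r') ^ (n + 1))⁻¹ := by
          rw [← div_eq_mul_inv, ← div_pow]
          congr 1
          field_simp
          norm_num
        rw [this]; ring
    _ ≤ μ.real (ball y (τ' * r' / 4)) * v := mul_le_mul_of_nonneg_right h3 hv0

theorem one_sided_scales (n : ℕ) (hn : 1 ≤ n) (c C C'' ρ₁ τ' : ℝ) (hc : 0 < c) (hC : 0 < C)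
    (_hC'' : 0 ≤ C'') (hρ₁ : 0 < ρ₁) (hτ' : 0 < τ') (hτ1 : τ' ≤ 1) :
    ∃ ρ : ℝ, 0 < ρ ∧ ρ ≤ 1 / 10 ∧ ∀ (d : ℕ) (μ : Measure (Eu d)) (D : ℝ≥0∞), AR n c C D μ →
      ∀ x ∈ μ.support, ∀ r : ℝ, 0 < r → ENNReal.ofReal r ≤ D → ∀ e : Eu d, ‖e‖ = 1 →
      (∀ y ∈ μ.support, dist y x ≤ r / 8 → -(dist y x) ^ 2 / (2 * ρ₁ * r) ≤ inner ℝ e (y - x)) →
      (∀ s S : ℝ, ρ * r ≤ s → s ≤ S → S ≤ r → ‖Trunc n μ s S x‖ ≤ C'') →
      ∃ r' : ℝ, ρ * r ≤ r' ∧ r' ≤ r / 10 ∧
        ∀ y ∈ μ.support, dist y x < r' → |inner ℝ e (y - x)| ≤ τ' * r' / 2 := by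
  obtain ⟨C', hC', H⟩ := integral_gT_le n hn C hC
  set κ : ℝ := min (1 / 10) (ρ₁ * τ') with hκ
  have hκ0 : 0 < κ := lt_min (by norm_num) (by positivity)
  have hκ1 : κ ≤ 1 / 10 := min_le_left _ _
  have hκ2 : κ ≤ ρ₁ * τ' := min_le_right _ _
  set q : ℝ := τ' / 8 with hq
  have hq0 : 0 < q := by positivity
  have hq1 : q ≤ 1 := by rw [hq]; linarith only [hτ1, hκ0, hκ1]
  set η : ℝ := c * q ^ (n + 1) with hη
  have hη0 : 0 < η := by positivity
  obtain ⟨N, hN⟩ := exists_nat_gt ((C'' + C' * κ / (2 * ρ₁)) / η)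
  rw [div_lt_iff₀ hη0] at hN
  refine ⟨q ^ N * κ / 2, by positivity, ?_, ?_⟩
  · have : q ^ N ≤ 1 := pow_le_one₀ hq0.le hq1
    nlinarith only [hτ', hτ1, hκ0, hκ1, hq, hq0, this]
  intro d μ D hAR x hx r hr hrD e he hone hT
  by_contra hcon
  push Not at hcon
  have ht : 0 < 2 * ρ₁ * r := by positivity
  have hqk : ∀ k : ℕ, 0 < q ^ k := fun k => pow_pos hq0 k
  have hqk1 : ∀ k : ℕ, q ^ k ≤ 1 := fun k => pow_le_one₀ hq0.le hq1
  -- positivity of the integrand
  have hpos : ∀ z ∈ μ.support, dist z x ≤ r / 8 → 0 ≤ gT n e x (2 * ρ₁ * r) z := by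
    intro z hz hzx
    have h1 := hone z hz hzx
    unfold gT
    have hzn : ‖x - z‖ = dist z x := by rw [dist_comm, dist_eq_norm]
    rw [hzn]
    rcases eq_or_lt_of_le (dist_nonneg (x := z) (y := x)) with h0 | h0
    · rw [← h0]
      have hz0 : z = x := dist_eq_zero.1 h0.symm
      rw [hz0]
      simp only [sub_self, inner_zero_right, mul_zero, zero_add]
      (clear * - hρ₁ hr; positivity)
    · set s := dist z x with hs
      have h2 : (s ^ (n + 1))⁻¹ * (-s ^ 2 / (2 * ρ₁ * r)) + (s ^ (n - 1))⁻¹ / (2 * ρ₁ * r) = 0 := by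
        have : s ^ (n + 1) = s ^ (n - 1) * s ^ 2 := by
          rw [← pow_add]; congr 1; omega
        rw [this]
        field_simp
        ring
      have h3 : (s ^ (n + 1))⁻¹ * (-s ^ 2 / (2 * ρ₁ * r)) ≤ (s ^ (n + 1))⁻¹ * inner ℝ e (z - x) :=
        mul_le_mul_of_nonneg_left h1 (by (clear * - h0; positivity))
      linarith only [h2, h3]
  -- lower bound on each block
  have hblock : ∀ k : ℕ, k < N → η ≤
      ∫ z in Ann x (q ^ (k + 1) * κ * r) (q ^ k * κ * r), gT n e x (2 * ρ₁ * r) z ∂μ := by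
    intro k hk
    set r' : ℝ := q ^ k * κ * r / 2 with hr'
    have hr'0 : 0 < r' := by have := hqk k; positivity
    have hkκ : q ^ k * κ ≤ 1 / 10 := by
      calc q ^ k * κ ≤ 1 * κ := mul_le_mul_of_nonneg_right (hqk1 k) hκ0.le
        _ ≤ 1 / 10 := by linarith only [hκ1]
    have hkκ' : q ^ k * κ ≤ ρ₁ * τ' := by
      calc q ^ k * κ ≤ 1 * κ := mul_le_mul_of_nonneg_right (hqk1 k) hκ0.le
        _ ≤ ρ₁ * τ' := by linarith only [hκ2]
    have hr'1 : r' ≤ r / 20 := by
      rw [hr']; nlinarith only [hr, hkκ]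
    have h1 : q ^ N * κ / 2 * r ≤ r' := by
      have : q ^ N ≤ q ^ k := pow_le_pow_of_le_one hq0.le hq1 hk.le
      rw [hr']
      have h2 : q ^ N * κ * r ≤ q ^ k * κ * r := by
        apply mul_le_mul_of_nonneg_right _ hr.le
        exact mul_le_mul_of_nonneg_right this hκ0.le
      linarith only [h2]
    obtain ⟨y, hy, hyx, hyi⟩ := hcon r' h1 (by linarith only [hr'0, hr'1])
    have hlow := hone y hy (by linarith only [hr'0, hr'1, hyx])
    have hyi' : τ' * r' / 2 < inner ℝ e (y - x) := by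
      rcases lt_abs.1 hyi with h | h
      · exact h
      · exfalso
        have h3 : (dist y x) ^ 2 ≤ r' ^ 2 := pow_le_pow_left₀ dist_nonneg hyx.le 2
        have h4 : (dist y x) ^ 2 / (2 * ρ₁ * r) ≤ τ' * r' / 2 := by
          rw [div_le_iff₀ ht]
          have h5 : r' ≤ ρ₁ * τ' * r := by
            rw [hr']
            have : q ^ k * κ * r ≤ ρ₁ * τ' * r := mul_le_mul_of_nonneg_right hkκ' hr.le
            have h6 : 0 < ρ₁ * τ' * r := by positivity
            linarith only [hr', hr'0, this]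
          calc (dist y x) ^ 2 ≤ r' * r' := by rw [← sq]; exact h3
            _ ≤ r' * (ρ₁ * τ' * r) := mul_le_mul_of_nonneg_left h5 hr'0.le
            _ = τ' * r' / 2 * (2 * ρ₁ * r) := by ring
        have h7 : -(dist y x) ^ 2 / (2 * ρ₁ * r) = -((dist y x) ^ 2 / (2 * ρ₁ * r)) := by ring
        rw [h7] at hlow
        linarith only [hlow, h, h4]
    have hD' : ENNReal.ofReal r' ≤ D :=
      (ENNReal.ofReal_le_ofReal (by linarith only [hr'0, hr'1])).trans hrD
    have h5 := block_lower hAR (x := x) (y := y) (e := e) (t := 2 * ρ₁ * r) (τ' := τ') (r' := r') ht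
      hτ' hτ1 hr'0 hD' he (fun z hz hzx => hpos z hz (by linarith only [hr'0, hr'1, hzx])) hy hyx hyi'
    have h6 : τ' * r' / 4 = q ^ (k + 1) * κ * r := by
      rw [hr', hq]; ring
    have h7 : 2 * r' = q ^ k * κ * r := by rw [hr']; ring
    rw [h6, h7] at h5
    exact h5
  -- sum of the blocks
  have hsum : ∀ k : ℕ, k ≤ N → (k : ℝ) * η ≤
      ∫ z in Ann x (q ^ k * κ * r) (κ * r), gT n e x (2 * ρ₁ * r) z ∂μ := by
    intro k
    induction k with
    | zero =>
      intro _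
      have : Ann x (q ^ 0 * κ * r) (κ * r) = ∅ := by
        ext y
        simp only [Ann, pow_zero, one_mul, mem_ofPred_eq, mem_empty_iff_false, iff_false, not_and,
          not_le]
        exact fun h => h
      rw [this]
      simp
    | succ k ih =>
      intro hk
      have hk' : k < N := hk
      have h1 := ih hk'.le
      have h2 := hblock k hk'
      have hle : q ^ (k + 1) * κ * r ≤ q ^ k * κ * r := by
        apply mul_le_mul_of_nonneg_right _ hr.le
        apply mul_le_mul_of_nonneg_right _ hκ0.le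
        exact pow_le_pow_of_le_one hq0.le hq1 (Nat.le_succ k)
      have hle2 : q ^ k * κ * r ≤ κ * r := by
        apply mul_le_mul_of_nonneg_right _ hr.le
        have := mul_le_mul_of_nonneg_right (hqk1 k) hκ0.le
        linarith only [this]
      have hun : Ann x (q ^ (k + 1) * κ * r) (κ * r) =
          Ann x (q ^ (k + 1) * κ * r) (q ^ k * κ * r) ∪ Ann x (q ^ k * κ * r) (κ * r) := by
        ext y
        simp only [Ann, mem_union, mem_ofPred_eq]
        constructor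
        · rintro ⟨h3, h4⟩
          rcases le_or_gt (dist y x) (q ^ k * κ * r) with h5 | h5
          · exact Or.inl ⟨h3, h5⟩
          · exact Or.inr ⟨h5, h4⟩
        · rintro (⟨h3, h4⟩ | ⟨h3, h4⟩)
          · exact ⟨h3, h4.trans hle2⟩
          · exact ⟨hle.trans_lt h3, h4⟩
      have hdisj : Disjoint (Ann x (q ^ (k + 1) * κ * r) (q ^ k * κ * r))
          (Ann x (q ^ k * κ * r) (κ * r)) := by
        rw [Set.disjoint_left]
        intro y h3 h4
        exact absurd h3.2 (not_le.2 h4.1)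
      have hq1' := hqk k
      have hq2' := hqk (k + 1)
      rw [hun, setIntegral_union hdisj (measurableSet_Ann _ _ _)
        (integrableOn_Ann_gT hAR _ _ _ (by (clear * - hρ₁ hτ' hr; positivity)))
        (integrableOn_Ann_gT hAR _ _ _ (by positivity))]
      push_cast
      linarith only [h1, h2]
  have h1 := hsum N le_rfl
  have hqN := hqk N
  have h2 := H d c D μ hAR e x (2 * ρ₁ * r) (q ^ N * κ * r) (κ * r) C'' he ht (by positivity)
    (by positivity) (hT _ _ ?_ ?_ ?_)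
  · have h3 : C' * (κ * r) / (2 * ρ₁ * r) = C' * κ / (2 * ρ₁) := by
      (clear * - hρ₁ hC' hκ0 hr; field_simp)
    rw [h3] at h2
    linarith only [hN, h1, h2]
  · have : 0 < q ^ N * κ * r := by positivity
    linarith only [this]
  · apply mul_le_mul_of_nonneg_right _ hr.le
    have := mul_le_mul_of_nonneg_right (hqk1 N) hκ0.le
    linarith only [this]
  · nlinarith only [hκ1, hr]


/-- core of the touching lemma -/
theorem touch_core (n : ℕ) (hn : 1 ≤ n) (c C C'' ρ₁ τ' : ℝ) (hc : 0 < c) (hC : 0 < C)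
    (hC'' : 0 ≤ C'') (hρ₁ : 0 < ρ₁) (hτ' : 0 < τ') (hτ1 : τ' ≤ 1) :
    ∃ ρ τ : ℝ, 0 < ρ ∧ ρ ≤ 1 / 10 ∧ 0 < τ ∧ τ ≤ 1 / 100 ∧
      ∀ (d : ℕ) (μ : Measure (Eu d)) (D : ℝ≥0∞), AR n c C D μ →
      ∀ a ∈ μ.support, ∀ r : ℝ, 0 < r → ENNReal.ofReal r ≤ D →
      ∀ (W : Submodule ℝ (Eu d)) (b w : Eu d), w ∈ W →
      (∀ x ∈ μ.support, dist x a < r → dP W b x ≤ τ * r) →
      (∀ x ∈ μ.support, dist x a < r → ∀ s S : ℝ, ρ * r ≤ s → s ≤ S → S ≤ r →
        ‖Trunc n μ s S x‖ ≤ C'') →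
      ‖W.starProjection (a - b) - w‖ ≤ r / 8 →
      (∀ y ∈ μ.support, dist y a ≤ r / 2 → ρ₁ * r ≤ ‖W.starProjection (y - b) - w‖) →
      ∃ x' ∈ μ.support, ∃ (r' : ℝ) (e : Eu d), e ∈ W ∧ ‖e‖ = 1 ∧ dist x' a ≤ 3 / 10 * r ∧
        ρ * r ≤ r' ∧ r' ≤ r / 10 ∧ ∀ y ∈ μ.support, dist y x' < r' →
          ‖Wᗮ.starProjection (y - x')‖ + |inner ℝ e (y - x')| ≤ τ' * r' := by
  obtain ⟨ρ, hρ0, hρ1, H⟩ := one_sided_scales n hn c C C'' ρ₁ τ' hc hC hC'' hρ₁ hτ' hτ1
  refine ⟨ρ, min (1 / 100) (τ' * ρ / 4), hρ0, hρ1, lt_min (by norm_num) (by positivity),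
    min_le_left _ _, ?_⟩
  intro d μ D hAR a ha r hr hrD W b w hw hflat hT hwa hhole
  obtain ⟨x', hx', e, heW, he1, hx'a, hone⟩ := exists_touch ha hr W b w hw (min_le_left _ _)
    hflat hwa hρ₁ hhole
  have hx'r : dist x' a < r := by linarith only [hr, hx'a]
  obtain ⟨r', h1, h2, h3⟩ := H d μ D hAR x' hx' r hr hrD e he1 hone (hT x' hx' hx'r)
  refine ⟨x', hx', r', e, heW, he1, hx'a, h1, h2, fun y hy hyx => ?_⟩
  have h4 := h3 y hy hyx
  have hya : dist y a < r := by
    have := dist_triangle y x' a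
    linarith only [hx'a, hx'r, h2, hyx, this]
  have h5 : ‖Wᗮ.starProjection (y - x')‖ ≤ τ' * r' / 2 := by
    have h6 : Wᗮ.starProjection (y - x') = Wᗮ.starProjection (y - b) -
        Wᗮ.starProjection (x' - b) := by
      simp only [map_sub]; abel
    have e1 := hflat y hy hya
    have e2 := hflat x' hx' hx'r
    unfold dP at e1 e2
    rw [h6]
    calc _ ≤ ‖Wᗮ.starProjection (y - b)‖ + ‖Wᗮ.starProjection (x' - b)‖ := norm_sub_le _ _
      _ ≤ min (1 / 100) (τ' * ρ / 4) * r + min (1 / 100) (τ' * ρ / 4) * r := add_le_add e1 e2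
      _ = 2 * (min (1 / 100) (τ' * ρ / 4)) * r := by ring
      _ ≤ 2 * (τ' * ρ / 4) * r := by
          apply mul_le_mul_of_nonneg_right _ hr.le
          exact mul_le_mul_of_nonneg_left (min_le_right _ _) (by norm_num)
      _ = τ' * (ρ * r) / 2 := by ring
      _ ≤ τ' * r' / 2 := by
          have := mul_le_mul_of_nonneg_left h1 hτ'.le
          linarith only [this]
  linarith only [h4, h5]

/-- Lemma 3 (i): a flat-to-`(m+1)`-planes ball with bounded truncations contains a smaller ball which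
is flat to an `m`-plane, if `m ≥ n` -/
theorem touching_drop (n m : ℕ) (hn : 1 ≤ n) (hnm : n ≤ m) (c C C'' τ' : ℝ) (hc : 0 < c)
    (hC : 0 < C) (hC'' : 0 ≤ C'') (hτ' : 0 < τ') (hτ1 : τ' ≤ 1) :
    ∃ ρ τ : ℝ, 0 < ρ ∧ ρ ≤ 1 / 10 ∧ 0 < τ ∧ τ ≤ 1 / 100 ∧
      ∀ (d : ℕ) (μ : Measure (Eu d)) (D : ℝ≥0∞), AR n c C D μ →
      ∀ a ∈ μ.support, ∀ r : ℝ, 0 < r → ENNReal.ofReal r ≤ D →
      ∀ (W : Submodule ℝ (Eu d)) (b : Eu d), Module.finrank ℝ W = m + 1 →
      (∀ x ∈ μ.support, dist x a < r → dP W b x ≤ τ * r) →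
      (∀ x ∈ μ.support, dist x a < r → ∀ s S : ℝ, ρ * r ≤ s → s ≤ S → S ≤ r →
        ‖Trunc n μ s S x‖ ≤ C'') →
      ∃ a' ∈ μ.support, ∃ r' : ℝ, dist a' a ≤ 3 / 10 * r ∧ ρ * r ≤ r' ∧ r' ≤ r / 10 ∧
        ∃ W' : Submodule ℝ (Eu d), W' ≤ W ∧ Module.finrank ℝ W' = m ∧
          ∀ x ∈ μ.support, dist x a' < r' → dP W' a' x ≤ τ' * r' := by
  obtain ⟨ρ₁, hρ₁, -, Hhole⟩ := exists_hole n (m + 1) (by omega) c C hc hC
  obtain ⟨ρ, τ, hρ0, hρ1, hτ0, hτ2, H⟩ := touch_core n hn c C C'' ρ₁ τ' hc hC hC'' hρ₁ hτ' hτ1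
  refine ⟨ρ, τ, hρ0, hρ1, hτ0, hτ2, ?_⟩
  intro d μ D hAR a ha r hr hrD W b hW hflat hT
  obtain ⟨w, hw, hwa, hhole⟩ := Hhole d μ D hAR a r hr hrD W b hW
  obtain ⟨x', hx', r', e, heW, he1, hx'a, h1, h2, h3⟩ :=
    H d μ D hAR a ha r hr hrD W b w hw hflat hT hwa hhole
  obtain ⟨W', hW'W, hW', hdrop⟩ := exists_drop W hW e heW he1
  refine ⟨x', hx', r', hx'a, h1, h2, W', hW'W, hW', fun x hx hxx => ?_⟩
  exact (hdrop _).trans (h3 x hx hxx)

/-- Lemma 3 (ii): an `n`-flat ball with bounded truncations has no holes -/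
theorem no_hole (n : ℕ) (hn : 1 ≤ n) (c C C'' τ' : ℝ) (hc : 0 < c)
    (hC : 0 < C) (hC'' : 0 ≤ C'') (hτ' : 0 < τ') :
    ∃ ρ τ : ℝ, 0 < ρ ∧ ρ ≤ 1 / 10 ∧ 0 < τ ∧ τ ≤ 1 / 100 ∧
      ∀ (d : ℕ) (μ : Measure (Eu d)) (D : ℝ≥0∞), AR n c C D μ →
      ∀ a ∈ μ.support, ∀ r : ℝ, 0 < r → ENNReal.ofReal r ≤ D →
      ∀ (W : Submodule ℝ (Eu d)) (b : Eu d), Module.finrank ℝ W = n →
      (∀ x ∈ μ.support, dist x a < r → dP W b x ≤ τ * r) →
      (∀ x ∈ μ.support, dist x a < r → ∀ s S : ℝ, ρ * r ≤ s → s ≤ S → S ≤ r →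
        ‖Trunc n μ s S x‖ ≤ C'') →
      ∀ v ∈ W, dist (b + v) a ≤ r / 8 → ∃ y ∈ μ.support, dist y (b + v) ≤ τ' * r := by
  obtain ⟨C', hC', Hslab⟩ := measure_slab_le n (n - 1) (by omega) C hC
  have hτ'' : 0 < min 1 (c / (2 * C')) := lt_min one_pos (by positivity)
  obtain ⟨ρ, τ, hρ0, hρ1, hτ0, hτ2, H⟩ := touch_core n hn c C C'' (τ' / 2) (min 1 (c / (2 * C')))
    hc hC hC'' (by positivity) hτ'' (min_le_left _ _)
  refine ⟨ρ, min τ (τ' / 2), hρ0, hρ1, lt_min hτ0 (by positivity), (min_le_left _ _).trans hτ2, ?_⟩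
  intro d μ D hAR a ha r hr hrD W b hW hflat hT v hv hva
  by_contra hcon
  push Not at hcon
  have hflat' : ∀ x ∈ μ.support, dist x a < r → dP W b x ≤ τ * r := fun x hx hxa =>
    (hflat x hx hxa).trans (mul_le_mul_of_nonneg_right (min_le_left _ _) hr.le)
  have hwa : ‖W.starProjection (a - b) - v‖ ≤ r / 8 := by
    have : W.starProjection (a - b) - v = W.starProjection (a - (b + v)) := by
      rw [← sub_sub, map_sub _ (a - b) v, Submodule.starProjection_eq_self_iff.2 hv]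
    rw [this]
    refine (Submodule.norm_starProjection_apply_le W _).trans ?_
    rw [← dist_eq_norm, dist_comm]
    exact hva
  obtain ⟨x', hx', r', e, heW, he1, hx'a, h1, h2, h3⟩ :=
    H d μ D hAR a ha r hr hrD W b v hv hflat' hT hwa (by
      intro y hy hya
      have h4 := hcon y hy
      rw [dist_eq_norm] at h4
      have h5 : y - (b + v) = (W.starProjection (y - b) - v) + Wᗮ.starProjection (y - b) := by
        have : y - b = W.starProjection (y - b) + Wᗮ.starProjection (y - b) :=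
          (Submodule.starProjection_add_starProjection_orthogonal _).symm
        calc y - (b + v) = (y - b) - v := by abel
          _ = (W.starProjection (y - b) + Wᗮ.starProjection (y - b)) - v := by rw [← this]
          _ = _ := by abel
      have h6 : ‖y - (b + v)‖ ≤ ‖W.starProjection (y - b) - v‖ + τ' / 2 * r := by
        rw [h5]
        refine (norm_add_le _ _).trans (add_le_add le_rfl ?_)
        have := hflat y hy (by linarith only [hr, hya])
        unfold dP at this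
        exact this.trans (mul_le_mul_of_nonneg_right (min_le_right _ _) hr.le)
      linarith only [h4, h6])
  have hr' : 0 < r' := lt_of_lt_of_le (by positivity) h1
  obtain ⟨W', hW'W, hW', hdrop⟩ := exists_drop (m := n - 1) W (by omega) e heW he1
  have h4 := Hslab d μ hAR.upper W' hW' x' x' r' (min 1 (c / (2 * C'))) hr' hτ'' (min_le_left _ _)
  have h5 : μ (ball x' r') ≤ μ {y | dist y x' < r' ∧ dP W' x' y ≤ min 1 (c / (2 * C')) * r'} := by
    apply measure_mono_ae
    have hsupp : ∀ᵐ z ∂μ, z ∈ μ.support := Measure.support_mem_ae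
    filter_upwards [hsupp] with z hz hzb
    exact ⟨hzb, (hdrop _).trans (h3 z hz hzb)⟩
  have h6 := hAR.lower x' hx' r' hr' ((ENNReal.ofReal_le_ofReal (by linarith only [h2, hr'])).trans hrD)
  have h7 := h6.trans (h5.trans h4)
  rw [ENNReal.ofReal_le_ofReal_iff (by (clear * - hc hC' hr'; positivity))] at h7
  have h8 : C' * min 1 (c / (2 * C')) * r' ^ n ≤ c / 2 * r' ^ n := by
    apply mul_le_mul_of_nonneg_right _ (by positivity)
    calc C' * min 1 (c / (2 * C')) ≤ C' * (c / (2 * C')) :=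
          mul_le_mul_of_nonneg_left (min_le_right _ _) hC'.le
      _ = c / 2 := by (clear * - hc hC'; field_simp)
  have h9 : 0 < c * r' ^ n := by (clear * - hc hr'; positivity)
  linarith only [h7, h8, h9]

/-- Corollary 4: abundance of flat balls -/
theorem abundance (n : ℕ) (hn : 1 ≤ n) (d : ℕ) (c C C'' δ : ℝ) (hc : 0 < c)
    (hC : 0 < C) (hC'' : 0 ≤ C'') (hδ : 0 < δ) (hδ1 : δ ≤ 1) :
    ∀ m : ℕ, n ≤ m → m ≤ d → ∃ ρ : ℝ, 0 < ρ ∧ ρ ≤ 1 ∧
      ∀ (μ : Measure (Eu d)) (D : ℝ≥0∞), AR n c C D μ →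
      ∀ a ∈ μ.support, ∀ r : ℝ, 0 < r → ENNReal.ofReal r ≤ D →
      (∀ x ∈ μ.support, dist x a < r → ∀ s S : ℝ, ρ * r ≤ s → s ≤ S → S ≤ r →
        ‖Trunc n μ s S x‖ ≤ C'') →
      ∃ a' ∈ μ.support, ∃ r' : ℝ, dist a' a + r' ≤ r ∧ ρ * r ≤ r' ∧
        ∃ W' : Submodule ℝ (Eu d), Module.finrank ℝ W' = m ∧
          ∀ x ∈ μ.support, dist x a' < r' → dP W' a' x ≤ δ * r' := by
  intro m hnm hmd
  -- induct on `d - m`
  induction hk : d - m generalizing m δ with
  | zero =>
    have hmd' : m = d := by omega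
    subst hmd'
    refine ⟨1, one_pos, le_rfl, ?_⟩
    intro μ D hAR a ha r hr hrD hT
    refine ⟨a, ha, r, by simp, by simp, ⊤, by simp only [finrank_top, finrank_euclideanSpace,
                                                Fintype.card_fin], ?_⟩
    intro x hx hxa
    have : dP (⊤ : Submodule ℝ (Eu m)) a x = 0 := by
      unfold dP
      rw [Submodule.starProjection_orthogonal_val, Submodule.starProjection_eq_self_iff.2 Submodule.mem_top,
        sub_self, norm_zero]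
    rw [this]
    positivity
  | succ k ih =>
    obtain ⟨ρ, τ, hρ0, hρ1, hτ0, hτ2, H⟩ := touching_drop n m hn hnm c C C'' δ hc hC hC'' hδ hδ1
    obtain ⟨ρ', hρ'0, hρ'1, H'⟩ := ih τ hτ0 (by linarith only [hτ0, hτ2]) (m + 1) (by omega) (by omega) (by omega)
    refine ⟨ρ * ρ', by positivity, by nlinarith only [hρ0, hρ1, hτ0, hτ2, hρ'1], ?_⟩
    intro μ D hAR a ha r hr hrD hT
    obtain ⟨a₁, ha₁, r₁, h1, h2, W, hW, hflat⟩ := H' μ D hAR a ha r hr hrD
      (fun x hx hxa s S hs hsS hS => hT x hx hxa s S (by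
        have : ρ * ρ' ≤ ρ' := by nlinarith only [hρ1, hρ'0]
        exact (mul_le_mul_of_nonneg_right this hr.le).trans hs) hsS hS)
    have hr₁ : 0 < r₁ := lt_of_lt_of_le (by positivity) h2
    have hr₁r : r₁ ≤ r := by
      have := dist_nonneg (x := a₁) (y := a)
      linarith only [h1, this]
    obtain ⟨a', ha', r', h3, h4, h5, W', hW'W, hW', hflat'⟩ := H d μ D hAR a₁ ha₁ r₁ hr₁
      ((ENNReal.ofReal_le_ofReal hr₁r).trans hrD) W a₁ hW hflat
      (fun x hx hxa s S hs hsS hS => hT x hx (by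
        have := dist_triangle x a₁ a
        linarith only [h1, hxa, this]) s S (by
          calc ρ * ρ' * r = ρ * (ρ' * r) := by ring
            _ ≤ ρ * r₁ := mul_le_mul_of_nonneg_left h2 hρ0.le
            _ ≤ s := hs) hsS (hS.trans hr₁r))
    refine ⟨a', ha', r', ?_, ?_, W', hW', hflat'⟩
    · have := dist_triangle a' a₁ a
      linarith only [h1, hr₁, h3, h5, this]
    · calc ρ * ρ' * r = ρ * (ρ' * r) := by ring
        _ ≤ ρ * r₁ := mul_le_mul_of_nonneg_left h2 hρ0.le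
        _ ≤ r' := h4

end TouchAux

/-- Corollary 4: abundance of flat balls at bounded depth, in every codimension. -/
theorem abundance (n d : ℕ) (hn : 1 ≤ n) (hnd : n ≤ d) (c C Ct : ℝ) (hc : 0 < c) (hC : 0 < C)
    (δ : ℝ) (hδ : 0 < δ) :
    ∃ ρ : ℝ, 0 < ρ ∧ ρ ≤ 1 ∧ ∀ (μ : Measure (Eu d)) (D : ℝ≥0∞), AR n c C D μ →
    ∀ a ∈ μ.support, ∀ r : ℝ, 0 < r → ENNReal.ofReal r ≤ D →
      (∀ x ∈ μ.support, dist x a < r → ∀ s S : ℝ, ρ * r ≤ s → s ≤ S → S ≤ r →
        ‖Trunc n μ s S x‖ ≤ Ct) →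
      ∃ a' ∈ μ.support, ∃ r' : ℝ, dist a' a < r ∧ ρ * r ≤ r' ∧ r' ≤ r ∧ Flat n μ a' r' δ := by
  obtain ⟨ρ, hρ0, hρ1, H⟩ := TouchAux.abundance n hn d c C (max Ct 0) (min δ 1) hc hC
    (le_max_right _ _) (lt_min hδ one_pos) (min_le_right _ _) n le_rfl hnd
  refine ⟨ρ, hρ0, hρ1, fun μ D hAR a ha r hr hrD hT => ?_⟩
  obtain ⟨a', ha', r', h1, h2, W', hW', hflat⟩ := H μ D hAR a ha r hr hrD
    (fun x hx hxa s S h3 h4 h5 => (hT x hx hxa s S h3 h4 h5).trans (le_max_left _ _))
  have hr' : 0 < r' := lt_of_lt_of_le (by positivity) h2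
  have hd : 0 ≤ dist a' a := dist_nonneg
  refine ⟨a', ha', r', by linarith only [h1, hr'], h2, by linarith only [h1, hd], W', a', hW', fun x hx hxa => ?_⟩
  exact (hflat x hx hxa).trans (mul_le_mul_of_nonneg_right (min_le_left _ _) hr'.le)

/-- Lemma 3 (ii): no holes. -/
theorem no_holes (n d : ℕ) (hn : 1 ≤ n) (hnd : n ≤ d) (c C Ct : ℝ) (hc : 0 < c) (hC : 0 < C)
    (δ : ℝ) (hδ : 0 < δ) :
    ∃ ρ τ : ℝ, 0 < ρ ∧ ρ ≤ 1 ∧ 0 < τ ∧ ∀ (μ : Measure (Eu d)) (D : ℝ≥0∞), AR n c C D μ →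
    ∀ a ∈ μ.support, ∀ r : ℝ, 0 < r → ENNReal.ofReal r ≤ D →
      (∀ x ∈ μ.support, dist x a < r → ∀ s S : ℝ, ρ * r ≤ s → s ≤ S → S ≤ r →
        ‖Trunc n μ s S x‖ ≤ Ct) →
      ∀ (W : Submodule ℝ (Eu d)) (b : Eu d), Module.finrank ℝ W = n →
        (∀ x ∈ μ.support, dist x a < r → dP W b x ≤ τ * r) →
        ∀ w ∈ W, dist (b + w) a ≤ r / 8 → ∃ x ∈ μ.support, dist x (b + w) ≤ δ * r := by
  obtain ⟨ρ, τ, hρ0, hρ1, hτ0, -, H⟩ := TouchAux.no_hole n hn c C (max Ct 0) δ hc hC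
    (le_max_right _ _) hδ
  refine ⟨ρ, τ, hρ0, by linarith only [hρ0, hρ1], hτ0, fun μ D hAR a ha r hr hrD hT W b hW hflat w hw hwa => ?_⟩
  exact H d μ D hAR a ha r hr hrD W b hW hflat
    (fun x hx hxa s S h3 h4 h5 => (hT x hx hxa s S h3 h4 h5).trans (le_max_left _ _)) w hw hwa

end Vale.Agent.P120
end
end

section

section

/-! Improvement of flatness (Lemma 10): common definitions.  Owner: helper892 -/

open MeasureTheory Metric Set Filter Topology
open scoped ENNReal NNReal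

namespace Vale.Agent.P120

variable {d : ℕ}

/-- scalar form attached to a height function `h` -/
noncomputable def hform (n : ℕ) (e : ℝ) (ν : Measure (Eu d)) (h ψ θ : Eu d → ℝ) : ℝ :=
  (1 / 2 : ℝ) * ∫ p, (h p.1 - h p.2) * (ψ p.1 * θ p.2 - ψ p.2 * θ p.1) *
    sK n e (p.1 - p.2) ∂(ν.prod ν)

/-- height functions: Lipschitz, `L^2` growth, weak equation -/
structure Ht (n : ℕ) (A : ℝ) (ν : Measure (Eu d)) (h : Eu d → ℝ) : Prop where
  A_nonneg : 0 ≤ A
  lip : ∃ L : ℝ≥0, LipschitzWith L h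
  growth : ∀ R : ℝ, 1 ≤ R → ∫ x in closedBall (0 : Eu d) R, h x ^ 2 ∂ν ≤ A * R ^ (n + 3)
  weak : ∀ ψ : Eu d → ℝ, LipC ψ → ∫ x, ψ x ∂ν = 0 →
    Tendsto (fun S : ℝ => hform n 0 ν h ψ (cut 0 S)) atTop (𝓝 0)

/-- energy of `h` on the closed ball of radius `R` -/
noncomputable def energy (n : ℕ) (ν : Measure (Eu d)) (h : Eu d → ℝ) (R : ℝ) : ℝ :=
  ∫ p in closedBall (0 : Eu d) R ×ˢ closedBall (0 : Eu d) R,
    (h p.1 - h p.2) ^ 2 * sK n 0 (p.1 - p.2) ∂(ν.prod ν)

end Vale.Agent.P120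
end
end

section

section

/-! Uniform convergence of potentials along vague ultrafilter limits.  Owner: helper892 -/

open MeasureTheory Metric Set Filter Topology
open scoped ENNReal NNReal

namespace Vale.Agent.P120

variable {d n : ℕ} {c C : ℝ}

theorem hasCompactSupport_of_ball {f : Eu d → ℝ} {R : ℝ} (h : ∀ x, R < ‖x‖ → f x = 0) :
    HasCompactSupport f := by
  refine HasCompactSupport.intro (isCompact_closedBall (0 : Eu d) R) ?_
  intro x hx
  apply h
  simpa only [mem_closedBall, dist_zero_right, not_le] using hx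

/-- a continuous function vanishing outside a ball is integrable if the ball has finite measure -/
theorem integrable_of_ball {μ : Measure (Eu d)} {f : Eu d → ℝ} {R : ℝ}
    (hf : Continuous f) (h : ∀ x, R < ‖x‖ → f x = 0) (hμ : μ (closedBall 0 R) < ⊤) :
    Integrable f μ := by
  have h1 : IntegrableOn f (closedBall 0 R) μ := by
    obtain ⟨K, hK⟩ := (isCompact_closedBall (0 : Eu d) R).exists_bound_of_continuousOn
      hf.continuousOn
    exact Measure.integrableOn_of_bounded (M := K) hμ.ne hf.aestronglyMeasurable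
      ((ae_restrict_iff' measurableSet_closedBall).2 (ae_of_all _ fun x hx => hK x hx))
  refine (integrableOn_iff_integrable_of_support_subset ?_).1 h1
  intro x hx
  by_contra hcon
  exact hx (h x (by simpa only [mem_closedBall, dist_zero_right, not_le] using hcon))

/-- uniform convergence of potentials with continuous compactly supported kernel -/
theorem tendstoUniformly_potential {𝒰 : Ultrafilter ℕ} {ν : ℕ → Measure (Eu d)}
    {ν' : Measure (Eu d)} [IsFiniteMeasureOnCompacts ν']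
    (hfin : ∀ R : ℝ, ∃ B : ℝ, ∀ k, ν k (closedBall 0 R) ≤ ENNReal.ofReal B)
    (hvl : VagueLim 𝒰 ν ν') (a : Eu d → Eu d → ℝ) (ha : Continuous (Function.uncurry a))
    (R : ℝ) (hR : ∀ x y, R < ‖x‖ ∨ R < ‖y‖ → a x y = 0) (ε : ℝ) (hε : 0 < ε) :
    ∀ᶠ k in (𝒰 : Filter ℕ), ∀ x, |(∫ y, a x y ∂(ν k)) - ∫ y, a x y ∂ν'| ≤ ε := by
  obtain ⟨B₀, hB₀⟩ := hfin R
  set B : ℝ := max B₀ 0 with hBdef
  have hB0 : 0 ≤ B := le_max_right _ _
  have hB : ∀ k, ν k (closedBall 0 R) ≤ ENNReal.ofReal B := fun k =>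
    (hB₀ k).trans (ENNReal.ofReal_le_ofReal (le_max_left _ _))
  set B' : ℝ := ν'.real (closedBall 0 R) with hB'def
  have hB'0 : 0 ≤ B' := measureReal_nonneg
  have hνfin : ν' (closedBall (0 : Eu d) R) < ⊤ := (isCompact_closedBall 0 R).measure_lt_top
  have hνkfin : ∀ k, ν k (closedBall (0 : Eu d) R) < ⊤ := fun k =>
    (hB k).trans_lt ENNReal.ofReal_lt_top
  -- uniform continuity
  have hcs : HasCompactSupport (Function.uncurry a) := by
    refine HasCompactSupport.intro ((isCompact_closedBall (0 : Eu d) R).prod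
      (isCompact_closedBall (0 : Eu d) R)) ?_
    rintro ⟨x, y⟩ hxy
    apply hR
    by_contra hcon
    push Not at hcon
    apply hxy
    constructor
    · simpa only [mem_closedBall, dist_zero_right] using hcon.1
    · simpa only [mem_closedBall, dist_zero_right] using hcon.2
  have huc : UniformContinuous (Function.uncurry a) :=
    hcs.uniformContinuous_of_continuous ha
  have hac : ∀ x, Continuous (a x) := fun x => ha.comp (Continuous.prodMk_right x)
  have hint : ∀ x k, Integrable (a x) (ν k) := fun x k =>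
    integrable_of_ball (hac x) (fun y hy => hR x y (Or.inr hy)) (hνkfin k)
  have hint' : ∀ x, Integrable (a x) ν' := fun x =>
    integrable_of_ball (hac x) (fun y hy => hR x y (Or.inr hy)) hνfin
  set η : ℝ := ε / (4 * (B + B' + 1)) with hη
  have hηpos : 0 < η := by (clear * - hε; positivity)
  obtain ⟨δ, hδ, hδa⟩ := Metric.uniformContinuous_iff.1 huc η hηpos
  have hclose : ∀ x x' : Eu d, dist x x' < δ → ∀ y, |a x y - a x' y| ≤ η := by
    intro x x' hxx y
    have h1 : dist ((x, y) : Eu d × Eu d) (x', y) < δ := by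
      simpa only [Prod.dist_eq, dist_self, dist_nonneg, sup_of_le_left] using hxx
    have := hδa h1
    simp only [Function.uncurry] at this
    rw [Real.dist_eq] at this
    exact this.le
  -- comparison of integrals for close points
  have hcmp : ∀ (μ : Measure (Eu d)) (b : ℝ), μ (closedBall (0 : Eu d) R) ≤ ENNReal.ofReal b →
      0 ≤ b → ∀ x x' : Eu d, dist x x' < δ → |(∫ y, a x y ∂μ) - ∫ y, a x' y ∂μ| ≤ η * b := by
    intro μ b hμ hb x x' hxx
    have hμfin : μ (closedBall (0 : Eu d) R) < ⊤ := hμ.trans_lt ENNReal.ofReal_lt_top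
    have i1 : Integrable (a x) μ :=
      integrable_of_ball (hac x) (fun y hy => hR x y (Or.inr hy)) hμfin
    have i2 : Integrable (a x') μ :=
      integrable_of_ball (hac x') (fun y hy => hR x' y (Or.inr hy)) hμfin
    rw [← integral_sub i1 i2]
    have h1 : ∫ y, (a x y - a x' y) ∂μ = ∫ y in closedBall (0 : Eu d) R, (a x y - a x' y) ∂μ := by
      symm
      apply setIntegral_eq_integral_of_forall_compl_eq_zero
      intro y hy
      have hy' : R < ‖y‖ := by simpa only [mem_closedBall, dist_zero_right, not_le] using hy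
      rw [hR x y (Or.inr hy'), hR x' y (Or.inr hy'), sub_zero]
    rw [h1]
    have h2 := norm_setIntegral_le_of_norm_le_const (μ := μ) (s := closedBall (0 : Eu d) R)
      (f := fun y => a x y - a x' y) (C := η) hμfin (fun y _ => by
        simpa [Real.norm_eq_abs] using hclose x x' hxx y)
    rw [Real.norm_eq_abs] at h2
    refine h2.trans ?_
    apply mul_le_mul_of_nonneg_left _ hηpos.le
    rw [Measure.real]
    exact ENNReal.toReal_le_of_le_ofReal hb hμ
  obtain ⟨t, ht, htfin, htc⟩ := (isCompact_closedBall (0 : Eu d) R).finite_cover_balls hδ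
  have hev : ∀ᶠ k in (𝒰 : Filter ℕ), ∀ x ∈ t,
      |(∫ y, a x y ∂(ν k)) - ∫ y, a x y ∂ν'| ≤ ε / 4 := by
    rw [eventually_all_finite htfin]
    intro x _
    have h1 := hvl (a x) (hac x) (hasCompactSupport_of_ball (fun y hy => hR x y (Or.inr hy)))
    have h2 := (Metric.tendsto_nhds.1 h1) (ε / 4) (by positivity)
    filter_upwards [h2] with k hk
    rw [Real.dist_eq] at hk
    exact hk.le
  filter_upwards [hev] with k hk x
  by_cases hx : x ∈ closedBall (0 : Eu d) R
  · obtain ⟨x', hx't, hxx'⟩ : ∃ x' ∈ t, x ∈ ball x' δ := by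
      simpa only [mem_ball, mem_iUnion, exists_prop] using htc hx
    have hd : dist x x' < δ := hxx'
    have e1 := hcmp (ν k) B (hB k) hB0 x x' hd
    have e2 := hcmp ν' B' (by rw [hB'def, Measure.real, ENNReal.ofReal_toReal hνfin.ne])
      hB'0 x x' hd
    have e3 := hk x' hx't
    have hηB : η * B + η * B' ≤ ε / 4 := by
      have : η * (B + B' + 1) = ε / 4 := by
        rw [hη]; (clear * - hε hB0 hB'0; field_simp)
      nlinarith only [hηpos, this]
    have t1 := abs_le.1 e1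
    have t2 := abs_le.1 e2
    have t3 := abs_le.1 e3
    rw [abs_le]
    constructor <;> linarith only [t1.1, t1.2, t2.1, t2.2, t3.1, t3.2, hε, hηB, t1, t2, t3]
  · have hx' : R < ‖x‖ := by simpa only [mem_closedBall, dist_zero_right, not_le] using hx
    have : ∀ y, a x y = 0 := fun y => hR x y (Or.inl hx')
    simp [this, hε.le]

end Vale.Agent.P120
end
end

section

section

/-! Abstract counting lemma on a finite nested family of partitions. Owner module: COUNT -/

open MeasureTheory Set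
open scoped ENNReal NNReal

namespace Vale.Agent.P120

/-- `cell S₀ p j y` is the set of `x ∈ S₀` in the same generation `j` cell as `y`. -/
def cell {X ι : Type*} (S₀ : Set X) (p : ℕ → X → ι) (j : ℕ) (y : X) : Set X :=
  {x | x ∈ S₀ ∧ p j x = p j y}

open Classical in
/-- number of generations `i ∈ [j, J]` at which the cell of `x` satisfies `P` -/
noncomputable def cnt {X ι : Type*} (p : ℕ → X → ι) (P : ℕ → ι → Prop) (j J : ℕ) (x : X) : ℝ :=
  ∑ i ∈ Finset.Icc j J, if P i (p i x) then 1 else 0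

section aux

variable {X ι : Type*} [MeasurableSpace X] {μ : Measure X} {S₀ : Set X} {J : ℕ} {p : ℕ → X → ι}

theorem cnt_nonneg (p : ℕ → X → ι) (P : ℕ → ι → Prop) (j J : ℕ) (x : X) : 0 ≤ cnt p P j J x := by
  unfold cnt
  apply Finset.sum_nonneg
  intro i _
  split_ifs <;> norm_num

theorem cnt_le (p : ℕ → X → ι) (P : ℕ → ι → Prop) (j J : ℕ) (x : X) :
    cnt p P j J x ≤ (J + 1 - j : ℕ) := by
  unfold cnt
  calc _ ≤ ∑ i ∈ Finset.Icc j J, (1 : ℝ) := by
        apply Finset.sum_le_sum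
        intro i _
        split_ifs <;> norm_num
    _ = _ := by simp only [Finset.sum_const, Nat.card_Icc, nsmul_eq_mul, mul_one]

theorem cnt_split (p : ℕ → X → ι) (P : ℕ → ι → Prop) {j i J : ℕ} (hji : j ≤ i) (hiJ : i ≤ J + 1)
    (hi : 1 ≤ i) (x : X) : cnt p P j J x = cnt p P j (i - 1) x + cnt p P i J x := by
  classical
  unfold cnt
  rw [← Finset.sum_union]
  · congr 1
    ext a
    simp only [Finset.mem_Icc, Finset.mem_union]
    omega
  · rw [Finset.disjoint_left]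
    intro a ha hb
    simp only [Finset.mem_Icc] at ha hb
    omega

theorem cnt_succ (p : ℕ → X → ι) (P : ℕ → ι → Prop) [∀ j x, Decidable (P j x)] {j J : ℕ}
    (hj : j ≤ J) (x : X) :
    cnt p P j J x = (if P j (p j x) then 1 else 0) + cnt p P (j + 1) J x := by
  unfold cnt
  rw [← Finset.insert_Icc_add_one_left_eq_Icc hj, Finset.sum_insert (by simp only [Finset.mem_Icc,
                                                                          add_le_iff_nonpos_right,
                                                                          nonpos_iff_eq_zero,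
                                                                          one_ne_zero, false_and,
                                                                          not_false_eq_true])]
  congr 1
  split_ifs <;> rfl

theorem measurable_S₀ (hfin : ∀ j, j ≤ J → (p j '' S₀).Finite)
    (hmeas : ∀ j, j ≤ J → ∀ z, MeasurableSet {x | x ∈ S₀ ∧ p j x = z}) : MeasurableSet S₀ := by
  have : S₀ = ⋃ z ∈ p 0 '' S₀, {x | x ∈ S₀ ∧ p 0 x = z} := by
    ext x
    simp only [mem_iUnion, mem_setOf_eq, exists_prop]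
    constructor
    · intro hx; exact ⟨p 0 x, ⟨x, hx, rfl⟩, hx, rfl⟩
    · rintro ⟨z, -, hx, -⟩; exact hx
  rw [this]
  exact (hfin 0 (Nat.zero_le _)).measurableSet_biUnion fun z _ => hmeas 0 (Nat.zero_le _) z

theorem measurable_pred (hfin : ∀ j, j ≤ J → (p j '' S₀).Finite)
    (hmeas : ∀ j, j ≤ J → ∀ z, MeasurableSet {x | x ∈ S₀ ∧ p j x = z}) (P : ℕ → ι → Prop)
    {i : ℕ} (hi : i ≤ J) : MeasurableSet {x | x ∈ S₀ ∧ P i (p i x)} := by
  have : {x | x ∈ S₀ ∧ P i (p i x)} =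
      ⋃ z ∈ (p i '' S₀) ∩ {z | P i z}, {x | x ∈ S₀ ∧ p i x = z} := by
    ext x
    simp only [mem_iUnion, mem_setOf_eq, exists_prop, mem_inter_iff]
    constructor
    · rintro ⟨hx, hP⟩; exact ⟨p i x, ⟨⟨x, hx, rfl⟩, hP⟩, hx, rfl⟩
    · rintro ⟨z, ⟨-, hP⟩, hx, rfl⟩; exact ⟨hx, hP⟩
  rw [this]
  exact ((hfin i hi).inter_of_left _).measurableSet_biUnion fun z _ => hmeas i hi z

theorem integrableOn_cnt [IsFiniteMeasure μ] (hfin : ∀ j, j ≤ J → (p j '' S₀).Finite)
    (hmeas : ∀ j, j ≤ J → ∀ z, MeasurableSet {x | x ∈ S₀ ∧ p j x = z}) (P : ℕ → ι → Prop)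
    {j k : ℕ} (hk : k ≤ J) {T : Set X} (hT : T ⊆ S₀) (hTm : MeasurableSet T) :
    IntegrableOn (cnt p P j k) T μ := by
  classical
  have h1 : IntegrableOn (cnt p P j k) S₀ μ := by
    unfold cnt
    apply integrable_finsetSum
    intro i hi
    rw [Finset.mem_Icc] at hi
    have h2 : IntegrableOn (Set.indicator {x | x ∈ S₀ ∧ P i (p i x)} (fun _ => (1 : ℝ))) S₀ μ :=
      (integrable_const (1 : ℝ)).indicator (measurable_pred hfin hmeas P (hi.2.trans hk))
    refine IntegrableOn.congr_fun h2 ?_ (measurable_S₀ hfin hmeas)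
    intro x hx
    by_cases hP : P i (p i x)
    · simp [Set.indicator, hx, hP]
    · simp [Set.indicator, hP]
  exact h1.mono_set hT

theorem measurable_cell (hmeas : ∀ j, j ≤ J → ∀ z, MeasurableSet {x | x ∈ S₀ ∧ p j x = z})
    {j : ℕ} (hj : j ≤ J) (y : X) : MeasurableSet (cell S₀ p j y) := hmeas j hj (p j y)

theorem cell_subset_S₀ (j : ℕ) (y : X) : cell S₀ p j y ⊆ S₀ := fun _ hx => hx.1

theorem nest_le (hnest : ∀ j, j + 1 ≤ J → ∀ x ∈ S₀, ∀ y ∈ S₀, p (j + 1) x = p (j + 1) y →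
    p j x = p j y) {i j : ℕ} (hij : i ≤ j) (hj : j ≤ J) {x y : X} (hx : x ∈ S₀) (hy : y ∈ S₀)
    (h : p j x = p j y) : p i x = p i y := by
  induction j, hij using Nat.le_induction with
  | base => exact h
  | succ j hij ih => exact ih (by omega) (hnest j hj x hx y hy h)

/-- decomposition of an integral over a cell into cells of a later generation -/
theorem integral_cell_eq (hfin : ∀ j, j ≤ J → (p j '' S₀).Finite)
    (hmeas : ∀ j, j ≤ J → ∀ z, MeasurableSet {x | x ∈ S₀ ∧ p j x = z})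
    (hnest : ∀ j, j + 1 ≤ J → ∀ x ∈ S₀, ∀ y ∈ S₀, p (j + 1) x = p (j + 1) y → p j x = p j y)
    {i j : ℕ} (hij : i ≤ j) (hj : j ≤ J) {y : X} (hy : y ∈ S₀) {f : X → ℝ}
    (hf : IntegrableOn f (cell S₀ p i y) μ) :
    ∫ x in cell S₀ p i y, f x ∂μ =
      ∑ z ∈ ((hfin j hj).subset (image_mono (cell_subset_S₀ (S₀ := S₀) (p := p) i y))).toFinset,
        ∫ x in {x | x ∈ S₀ ∧ p j x = z}, f x ∂μ := by
  have hU : cell S₀ p i y = ⋃ z ∈ ((hfin j hj).subset
      (image_mono (cell_subset_S₀ (S₀ := S₀) (p := p) i y))).toFinset,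
      {x | x ∈ S₀ ∧ p j x = z} := by
    ext x
    simp only [Set.Finite.mem_toFinset, mem_iUnion, mem_setOf_eq, exists_prop, mem_image]
    constructor
    · intro hx; exact ⟨p j x, ⟨x, hx, rfl⟩, hx.1, rfl⟩
    · rintro ⟨z, ⟨w, hw, rfl⟩, hx, hxw⟩
      exact ⟨hx, (nest_le hnest hij hj hx hw.1 hxw).trans hw.2⟩
  have hsub : ∀ z ∈ ((hfin j hj).subset
      (image_mono (cell_subset_S₀ (S₀ := S₀) (p := p) i y))).toFinset,
      {x | x ∈ S₀ ∧ p j x = z} ⊆ cell S₀ p i y := by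
    intro z hz x hx
    rw [hU]
    exact mem_biUnion (by simpa only [Finite.coe_toFinset, mem_image, Finite.mem_toFinset] using hz) hx
  conv_lhs => rw [hU]
  rw [integral_biUnion_finset]
  · intro z _; exact hmeas j hj z
  · intro z _ w _ hzw
    simp only [Function.onFun]
    rw [Set.disjoint_left]
    rintro x ⟨-, rfl⟩ ⟨-, h⟩
    exact hzw h
  · intro z hz; exact hf.mono_set (hsub z hz)

theorem integral_cell_mono (hfin : ∀ j, j ≤ J → (p j '' S₀).Finite)
    (hmeas : ∀ j, j ≤ J → ∀ z, MeasurableSet {x | x ∈ S₀ ∧ p j x = z})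
    (hnest : ∀ j, j + 1 ≤ J → ∀ x ∈ S₀, ∀ y ∈ S₀, p (j + 1) x = p (j + 1) y → p j x = p j y)
    {i j : ℕ} (hij : i ≤ j) (hj : j ≤ J) {y : X} (hy : y ∈ S₀) {f g : X → ℝ}
    (hf : IntegrableOn f (cell S₀ p i y) μ) (hg : IntegrableOn g (cell S₀ p i y) μ)
    (h : ∀ w ∈ cell S₀ p i y, ∫ x in cell S₀ p j w, f x ∂μ ≤ ∫ x in cell S₀ p j w, g x ∂μ) :
    ∫ x in cell S₀ p i y, f x ∂μ ≤ ∫ x in cell S₀ p i y, g x ∂μ := by
  rw [integral_cell_eq hfin hmeas hnest hij hj hy hf, integral_cell_eq hfin hmeas hnest hij hj hy hg]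
  apply Finset.sum_le_sum
  intro z hz
  simp only [Set.Finite.mem_toFinset, mem_image] at hz
  obtain ⟨w, hw, rfl⟩ := hz
  exact h w hw

end aux

/-- Abstract counting lemma. -/
theorem counting {X ι : Type*} [MeasurableSpace X] (μ : Measure X) [IsFiniteMeasure μ]
    (S₀ : Set X) (J m₁ m₂ : ℕ) (p : ℕ → X → ι) (F Bad : ℕ → ι → Prop) (c₀ : ℝ) (hc : 0 < c₀)
    (hc1 : c₀ ≤ 1)
    (hfin : ∀ j, j ≤ J → (p j '' S₀).Finite)
    (hmeas : ∀ j, j ≤ J → ∀ z, MeasurableSet {x | x ∈ S₀ ∧ p j x = z})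
    (hnest : ∀ j, j + 1 ≤ J → ∀ x ∈ S₀, ∀ y ∈ S₀, p (j + 1) x = p (j + 1) y → p j x = p j y)
    (hper : ∀ j, m₁ ≤ j → j ≤ J → ∀ y ∈ S₀, (∀ i, j - m₁ ≤ i → i < j → F i (p i y)) →
      ¬ Bad j (p j y) → F j (p j y))
    (hab : ∀ j, j + m₂ ≤ J → ∀ y ∈ S₀, ¬ Bad j (p j y) →
      ∃ i, ∃ y' ∈ S₀, j + m₁ ≤ i ∧ i ≤ j + m₂ ∧ p j y' = p j y ∧
        (∀ i', i - m₁ ≤ i' → i' < i → F i' (p i' y')) ∧
        c₀ * μ.real (cell S₀ p j y) ≤ μ.real (cell S₀ p i y')) :
    ∀ y ∈ S₀, ∫ x in cell S₀ p 0 y, cnt p (fun i z => ¬ F i z) 0 J x ∂μ ≤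
      (1 + (m₂ + 1) / c₀) * ∫ x in cell S₀ p 0 y, cnt p Bad 0 J x ∂μ +
        (m₂ + 1) / c₀ * μ.real (cell S₀ p 0 y) := by
  classical
  set β : ℝ := (m₂ + 1) / c₀ with hβ
  have hβ1 : (m₂ + 1 : ℝ) ≤ β := by
    rw [hβ, le_div_iff₀ hc]
    nlinarith only [hc1]
  have hβ0 : 0 ≤ β := le_trans (by (clear * -; positivity)) hβ1
  have hβc : β * c₀ = m₂ + 1 := by rw [hβ]; (clear * - hc; field_simp)
  set N : ℕ → ι → Prop := fun i z => ¬ F i z with hN
  -- integrability facts
  have hI : ∀ (P : ℕ → ι → Prop) (a k i : ℕ) (w : X), k ≤ J → i ≤ J →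
      IntegrableOn (cnt p P a k) (cell S₀ p i w) μ := fun P a k i w hk hi =>
    integrableOn_cnt hfin hmeas P hk (cell_subset_S₀ i w) (measurable_cell hmeas hi w)
  have hIc : ∀ (t : ℝ) (i : ℕ) (w : X), IntegrableOn (fun _ => t) (cell S₀ p i w) μ :=
    fun t i w => integrable_const t
  have key : ∀ k j, j ≤ J → J - j = k → ∀ y ∈ S₀,
      (∫ x in cell S₀ p j y, cnt p N j J x ∂μ ≤
        (1 + β) * ∫ x in cell S₀ p j y, cnt p Bad j J x ∂μ + β * μ.real (cell S₀ p j y)) ∧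
      (Bad j (p j y) → ∫ x in cell S₀ p j y, cnt p N j J x ∂μ ≤
        (1 + β) * ∫ x in cell S₀ p j y, cnt p Bad j J x ∂μ) ∧
      (m₁ ≤ j → (∀ i, j - m₁ ≤ i → i < j → F i (p i y)) →
        ∫ x in cell S₀ p j y, cnt p N j J x ∂μ ≤
        (1 + β) * ∫ x in cell S₀ p j y, cnt p Bad j J x ∂μ) := by
    intro k
    induction k using Nat.strong_induction_on with
    | _ k ih =>
    intro j hj hk y hy
    have hmc := measurable_cell hmeas hj y
    -- (2)
    have h2 : Bad j (p j y) → ∫ x in cell S₀ p j y, cnt p N j J x ∂μ ≤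
        (1 + β) * ∫ x in cell S₀ p j y, cnt p Bad j J x ∂μ := by
      intro hbad
      rcases Nat.eq_or_lt_of_le hj with rfl | hlt
      · rw [← integral_const_mul]
        apply setIntegral_mono_on (hI N _ _ _ _ le_rfl le_rfl)
          ((hI Bad _ _ _ _ le_rfl le_rfl).const_mul _) hmc
        intro x hx
        have e1 : cnt p N j j x ≤ 1 := by simpa only [add_tsub_cancel_left,
                                            Nat.cast_one] using cnt_le p N j j x
        have e2 : cnt p Bad j j x = 1 := by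
          simp only [cnt, Finset.Icc_self, Finset.sum_singleton]
          rw [if_pos]
          rw [hx.2]; exact hbad
        rw [e2]; linarith only [hβ1, e1]
      · have h3 : ∫ x in cell S₀ p j y, cnt p N (j + 1) J x ∂μ ≤
            ∫ x in cell S₀ p j y, ((1 + β) * cnt p Bad (j + 1) J x + β) ∂μ := by
          apply integral_cell_mono hfin hmeas hnest (Nat.le_succ j) hlt hy
            (hI N _ _ _ _ le_rfl hj)
            (show IntegrableOn (fun x => (1 + β) * cnt p Bad (j + 1) J x + β) _ μ from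
              ((hI Bad _ _ _ _ le_rfl hj).const_mul _).add (hIc _ _ _))
          intro w hw
          show _ ≤ ∫ x in cell S₀ p (j + 1) w, ((1 + β) * cnt p Bad (j + 1) J x + β) ∂μ
          have := (ih (J - (j + 1)) (by omega) (j + 1) hlt rfl w hw.1).1
          rw [integral_add ((hI Bad _ _ _ _ le_rfl hlt).const_mul _) (hIc _ _ _),
            integral_const_mul, setIntegral_const, smul_eq_mul, mul_comm (μ.real _)]
          exact this
        have h4 : ∫ x in cell S₀ p j y, cnt p N j J x ∂μ ≤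
            ∫ x in cell S₀ p j y, (1 + cnt p N (j + 1) J x) ∂μ := by
          apply setIntegral_mono_on (hI N _ _ _ _ le_rfl hj)
            ((hIc 1 _ _).add (hI N _ _ _ _ le_rfl hj)) hmc
          intro x hx
          show cnt p N j J x ≤ 1 + cnt p N (j + 1) J x
          rw [cnt_succ p N hj]
          split_ifs <;> linarith only []
        have h5 : ∫ x in cell S₀ p j y, cnt p Bad j J x ∂μ =
            ∫ x in cell S₀ p j y, (1 + cnt p Bad (j + 1) J x) ∂μ := by
          apply setIntegral_congr_fun hmc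
          intro x hx
          show cnt p Bad j J x = 1 + cnt p Bad (j + 1) J x
          rw [cnt_succ p Bad hj, if_pos (by rw [hx.2]; exact hbad)]
        rw [integral_add (hIc 1 _ _) (hI N _ _ _ _ le_rfl hj)] at h4
        rw [integral_add (hIc 1 _ _) (hI Bad _ _ _ _ le_rfl hj)] at h5
        rw [integral_add ((hI Bad _ _ _ _ le_rfl hj).const_mul _) (hIc _ _ _),
            integral_const_mul] at h3
        rw [setIntegral_const, smul_eq_mul] at h3 h4 h5
        rw [h5]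
        nlinarith only [h3, h4]
    -- (3)
    have h3 : m₁ ≤ j → (∀ i, j - m₁ ≤ i → i < j → F i (p i y)) →
        ∫ x in cell S₀ p j y, cnt p N j J x ∂μ ≤
        (1 + β) * ∫ x in cell S₀ p j y, cnt p Bad j J x ∂μ := by
      intro hm hF
      by_cases hbad : Bad j (p j y)
      · exact h2 hbad
      have hFj := hper j hm hj y hy hF hbad
      rcases Nat.eq_or_lt_of_le hj with rfl | hlt
      · rw [← integral_const_mul]
        apply setIntegral_mono_on (hI N _ _ _ _ le_rfl le_rfl)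
          ((hI Bad _ _ _ _ le_rfl le_rfl).const_mul _) hmc
        intro x hx
        have e1 : cnt p N j j x = 0 := by
          simp only [cnt, Finset.Icc_self, Finset.sum_singleton]
          rw [if_neg]
          rw [hx.2]; simpa [hN] using hFj
        rw [e1]
        exact mul_nonneg (by linarith only [hβ1]) (cnt_nonneg _ _ _ _ _)
      · have h4 : ∫ x in cell S₀ p j y, cnt p N (j + 1) J x ∂μ ≤
            ∫ x in cell S₀ p j y, (1 + β) * cnt p Bad (j + 1) J x ∂μ := by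
          apply integral_cell_mono hfin hmeas hnest (Nat.le_succ j) hlt hy
            (hI N _ _ _ _ le_rfl hj) ((hI Bad _ _ _ _ le_rfl hj).const_mul _)
          intro w hw
          have := (ih (J - (j + 1)) (by (clear * - hk hlt; omega)) (j + 1) hlt rfl w hw.1).2.2 (by omega) ?_
          · rw [integral_const_mul]; exact this
          · intro i hi1 hi2
            have e : p i w = p i y := nest_le hnest (by omega : i ≤ j) hj hw.1 hy hw.2
            rw [e]
            rcases Nat.lt_or_ge i j with h | h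
            · exact hF i (by omega) h
            · have : i = j := by omega
              rw [this]; exact hFj
        have h5 : ∫ x in cell S₀ p j y, cnt p N j J x ∂μ =
            ∫ x in cell S₀ p j y, cnt p N (j + 1) J x ∂μ := by
          apply setIntegral_congr_fun hmc
          intro x hx
          show cnt p N j J x = cnt p N (j + 1) J x
          rw [cnt_succ p N hj, if_neg (by rw [hx.2]; simpa [hN] using hFj), zero_add]
        have h6 : ∫ x in cell S₀ p j y, (1 + β) * cnt p Bad (j + 1) J x ∂μ ≤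
            ∫ x in cell S₀ p j y, (1 + β) * cnt p Bad j J x ∂μ := by
          apply setIntegral_mono_on ((hI Bad _ _ _ _ le_rfl hj).const_mul _)
            ((hI Bad _ _ _ _ le_rfl hj).const_mul _) hmc
          intro x hx
          show (1 + β) * cnt p Bad (j + 1) J x ≤ (1 + β) * cnt p Bad j J x
          apply mul_le_mul_of_nonneg_left _ (by linarith only [hβ1])
          rw [cnt_succ p Bad hj]
          split_ifs <;> linarith only []
        rw [integral_const_mul, integral_const_mul] at h6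
        rw [integral_const_mul] at h4
        linarith only [h4, h5, h6]
    refine ⟨?_, h2, h3⟩
    -- (1)
    by_cases hbad : Bad j (p j y)
    · have := h2 hbad
      have : 0 ≤ β * μ.real (cell S₀ p j y) := by (clear * - hc; positivity)
      linarith
    by_cases hjm : j + m₂ ≤ J
    · obtain ⟨i, y', hy', hi1, hi2, hpy, hF, hμ⟩ := hab j hjm y hy hbad
      have hiJ : i ≤ J := by omega
      rcases Nat.eq_or_lt_of_le (show j ≤ i by omega) with rfl | hlt
      · have := h3 (by omega) (by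
          intro i' h1 h2
          have e : p i' y = p i' y' := nest_le hnest h2.le hj hy hy' hpy.symm
          rw [e]; exact hF i' h1 h2)
        have : 0 ≤ β * μ.real (cell S₀ p j y) := by (clear * - hc; positivity)
        linarith
      · have hsub : cell S₀ p i y' ⊆ cell S₀ p j y := fun x hx =>
          ⟨hx.1, (nest_le hnest hlt.le hiJ hx.1 hy' hx.2).trans hpy⟩
        have hmi := measurable_cell hmeas hiJ y'
        set G : X → ℝ := (cell S₀ p i y').indicator (fun _ => (1 : ℝ)) with hG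
        have hGI : ∀ T : Set X, IntegrableOn G T μ := fun T =>
          (integrable_const (1 : ℝ)).indicator hmi
        have hBG : ∀ T : Set X, IntegrableOn (fun x => β - β * G x) T μ := fun T =>
          (integrable_const (μ := μ.restrict T) β).sub ((hGI T).const_mul β)
        have h4 : ∫ x in cell S₀ p j y, cnt p N i J x ∂μ ≤
            ∫ x in cell S₀ p j y, ((1 + β) * cnt p Bad i J x + (β - β * G x)) ∂μ := by
          apply integral_cell_mono hfin hmeas hnest hlt.le hiJ hy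
            (hI N _ _ _ _ le_rfl hj)
            (show IntegrableOn (fun x => (1 + β) * cnt p Bad i J x + (β - β * G x)) _ μ from
              ((hI Bad _ _ _ _ le_rfl hj).const_mul _).add (hBG _))
          intro w hw
          show _ ≤ ∫ x in cell S₀ p i w, ((1 + β) * cnt p Bad i J x + (β - β * G x)) ∂μ
          rw [integral_add ((hI Bad _ _ _ _ le_rfl hiJ).const_mul _) (hBG _),
            integral_const_mul, integral_sub (hIc _ _ _) ((hGI _).const_mul _),
            integral_const_mul, setIntegral_const, smul_eq_mul, mul_comm (μ.real _)]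
          have ih' := ih (J - i) (by omega) i hiJ rfl w hw.1
          by_cases hwy : p i w = p i y'
          · have hcell : cell S₀ p i w = cell S₀ p i y' := by
              ext x; simp only [cell, hwy, mem_ofPred_eq]
            have e1 : ∫ x in cell S₀ p i w, G x ∂μ = μ.real (cell S₀ p i w) := by
              rw [hG, hcell, setIntegral_indicator hmi, inter_self, setIntegral_const]
              simp
            rw [e1]
            have := ih'.2.2 (by omega) (by
              intro i' h1 h2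
              have e : p i' w = p i' y' := nest_le hnest h2.le hiJ hw.1 hy' hwy
              rw [e]; exact hF i' h1 h2)
            linarith only [this]
          · have e1 : ∫ x in cell S₀ p i w, G x ∂μ = 0 := by
              rw [hG, setIntegral_indicator hmi]
              have : cell S₀ p i w ∩ cell S₀ p i y' = ∅ := by
                ext x
                simp only [cell, mem_inter_iff, mem_setOf_eq, mem_empty_iff_false, iff_false]
                rintro ⟨⟨-, h1⟩, -, h2⟩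
                exact hwy (h1.symm.trans h2)
              rw [this]; simp
            rw [e1]
            have := ih'.1
            linarith only [ih']
        have e2 : ∫ x in cell S₀ p j y, G x ∂μ = μ.real (cell S₀ p i y') := by
          rw [hG, setIntegral_indicator hmi, inter_eq_self_of_subset_right hsub,
            setIntegral_const]
          simp
        rw [integral_add ((hI Bad _ _ _ _ le_rfl hj).const_mul _) (hBG _),
            integral_const_mul, integral_sub (hIc _ _ _) ((hGI _).const_mul _),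
            integral_const_mul, setIntegral_const, smul_eq_mul, mul_comm (μ.real _), e2] at h4
        have h5 : ∫ x in cell S₀ p j y, cnt p N j J x ∂μ ≤
            ∫ x in cell S₀ p j y, ((m₂ : ℝ) + cnt p N i J x) ∂μ := by
          apply setIntegral_mono_on (hI N _ _ _ _ le_rfl hj)
            ((hIc _ _ _).add (hI N _ _ _ _ le_rfl hj)) hmc
          intro x hx
          show cnt p N j J x ≤ (m₂ : ℝ) + cnt p N i J x
          rw [cnt_split p N hlt.le (by omega) (by (clear * - hlt; omega)) x]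
          have h71 := cnt_le p N j (i - 1) x
          have h7 : ((i - 1 + 1 - j : ℕ) : ℝ) ≤ m₂ := by exact_mod_cast (by omega)
          linarith only [h71, h7]
        rw [integral_add (hIc _ _ _) (hI N _ _ _ _ le_rfl hj), setIntegral_const,
          smul_eq_mul] at h5
        have h6 : (1 + β) * ∫ x in cell S₀ p j y, cnt p Bad i J x ∂μ ≤
            (1 + β) * ∫ x in cell S₀ p j y, cnt p Bad j J x ∂μ := by
          apply mul_le_mul_of_nonneg_left _ (by linarith only [hβ1])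
          apply setIntegral_mono_on (hI Bad _ _ _ _ le_rfl hj) (hI Bad _ _ _ _ le_rfl hj) hmc
          intro x hx
          show cnt p Bad i J x ≤ cnt p Bad j J x
          rw [cnt_split p Bad hlt.le (by omega) (by omega) x]
          linarith only [cnt_nonneg p Bad j (i - 1) x]
        have h8 : β * (c₀ * μ.real (cell S₀ p j y)) ≤ β * μ.real (cell S₀ p i y') :=
          mul_le_mul_of_nonneg_left hμ hβ0
        have h9 : 0 ≤ μ.real (cell S₀ p j y) := by (clear * -; positivity)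
        nlinarith only [hβc, h4, h5, h6, h8, h9]
    · have h4 : ∫ x in cell S₀ p j y, cnt p N j J x ∂μ ≤
            ∫ x in cell S₀ p j y, (m₂ : ℝ) ∂μ := by
          apply setIntegral_mono_on (hI N _ _ _ _ le_rfl hj) (hIc _ _ _) hmc
          intro x hx
          have := cnt_le p N j J x
          have h7 : ((J + 1 - j : ℕ) : ℝ) ≤ m₂ := by exact_mod_cast (by (clear * - hj hjm; omega))
          linarith only [this, h7]
      rw [setIntegral_const, smul_eq_mul] at h4
      have h5 : 0 ≤ (1 + β) * ∫ x in cell S₀ p j y, cnt p Bad j J x ∂μ :=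
        mul_nonneg (by linarith only [hβ1]) (integral_nonneg fun x => cnt_nonneg _ _ _ _ _)
      have h9 : 0 ≤ μ.real (cell S₀ p j y) := by (clear * -; positivity)
      nlinarith only [hβ1, h4, h5, h9]
  intro y hy
  exact (key J 0 (Nat.zero_le _) (by omega) y hy).1

end Vale.Agent.P120
end
end

section

section

/-! Data of the second compactness argument and first consequences.  Owner: helper892 -/

open MeasureTheory Metric Set Filter Topology
open scoped ENNReal NNReal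

namespace Vale.Agent.P120

variable {d n : ℕ} {c C : ℝ}

/-- data for the second compactness argument -/
structure ImpSeq (n : ℕ) (c C A : ℝ) (𝒰 : Ultrafilter ℕ) (ν : ℕ → Measure (Eu d))
    (ν' : Measure (Eu d)) (ι : Eu n →ₗᵢ[ℝ] Eu d) (g : ℝ) (h : ℕ → Eu d → ℝ)
    (σp σm : Measure (Eu d)) : Prop where
  ar : ∀ k, AR n c C ⊤ (ν k)
  zero_mem : ∀ k, (0 : Eu d) ∈ (ν k).support
  vl : VagueLim 𝒰 ν ν'
  ar' : AR n c C ⊤ ν'
  g_pos : 0 < g
  planar : ∀ f : Eu d → ℝ, Continuous f → HasCompactSupport f →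
    ∫ x, f x ∂ν' = g * ∫ v : Eu n, f (ι v)
  ht : ∀ k, Ht n A (ν k) (h k)
  vlp : VagueLim 𝒰 (fun k => (ν k).withDensity (fun x => ENNReal.ofReal (h k x))) σp
  vlm : VagueLim 𝒰 (fun k => (ν k).withDensity (fun x => ENNReal.ofReal (-h k x))) σm
  lfp : IsLocallyFiniteMeasure σp
  lfm : IsLocallyFiniteMeasure σm

/-- the adjoint of the isometry (orthogonal projection onto the plane, in coordinates) -/
noncomputable def adj {n : ℕ} (ι : Eu n →ₗᵢ[ℝ] Eu d) : Eu d →L[ℝ] Eu n :=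
  ContinuousLinearMap.adjoint ι.toContinuousLinearMap

theorem inner_adj (ι : Eu n →ₗᵢ[ℝ] Eu d) (v : Eu n) (x : Eu d) :
    inner ℝ (adj ι x) v = inner ℝ x (ι v) := by
  rw [adj, ContinuousLinearMap.adjoint_inner_left]
  rfl

theorem adj_apply_self (ι : Eu n →ₗᵢ[ℝ] Eu d) (v : Eu n) : adj ι (ι v) = v := by
  apply ext_inner_right ℝ
  intro w
  rw [inner_adj, ι.inner_map_map]

theorem norm_adj_le (ι : Eu n →ₗᵢ[ℝ] Eu d) (x : Eu d) : ‖adj ι x‖ ≤ ‖x‖ := by
  have h1 : ‖adj ι x‖ ^ 2 ≤ ‖x‖ * ‖adj ι x‖ := by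
    rw [← real_inner_self_eq_norm_sq, inner_adj]
    refine (real_inner_le_norm _ _).trans ?_
    rw [ι.norm_map]
  by_cases h0 : ‖adj ι x‖ = 0
  · rw [h0]; exact norm_nonneg _
  · have hpos : 0 < ‖adj ι x‖ := lt_of_le_of_ne (norm_nonneg _) (Ne.symm h0)
    nlinarith only [h1, hpos]

/-- integral of a compactly supported function against the positive part density -/
theorem integral_withDensity_pos {μ : Measure (Eu d)} {h f : Eu d → ℝ} (hh : Measurable h) :
    ∫ x, f x ∂(μ.withDensity (fun x => ENNReal.ofReal (h x))) = ∫ x, max (h x) 0 * f x ∂μ := by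
  have h1 : (fun x => ENNReal.ofReal (h x)) = fun x => ((Real.toNNReal (h x) : ℝ≥0) : ℝ≥0∞) := by
    funext x; rfl
  rw [h1, integral_withDensity_eq_integral_smul hh.real_toNNReal]
  apply integral_congr_ae
  exact ae_of_all _ fun x => by
    simp only [NNReal.smul_def, Real.coe_toNNReal', smul_eq_mul]

theorem Ht.continuous {A : ℝ} {μ : Measure (Eu d)} {h : Eu d → ℝ} (H : Ht n A μ h) :
    Continuous h := H.lip.choose_spec.continuous

/-- the pairing converges -/
theorem ImpSeq.tendsto_pair {A : ℝ} {𝒰 : Ultrafilter ℕ} {ν : ℕ → Measure (Eu d)}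
    {ν' : Measure (Eu d)} {ι : Eu n →ₗᵢ[ℝ] Eu d} {g : ℝ} {h : ℕ → Eu d → ℝ}
    {σp σm : Measure (Eu d)} (H : ImpSeq n c C A 𝒰 ν ν' ι g h σp σm)
    (f : Eu d → ℝ) (hf : Continuous f) (hf' : HasCompactSupport f) :
    Tendsto (fun k => ∫ x, f x * h k x ∂(ν k)) (𝒰 : Filter ℕ)
      (𝓝 ((∫ x, f x ∂σp) - ∫ x, f x ∂σm)) := by
  have h1 := H.vlp f hf hf'
  have h2 := H.vlm f hf hf'
  refine (h1.sub h2).congr ?_
  intro k
  have hc : Continuous (h k) := (H.ht k).continuous
  have := (H.ar k).isLocallyFiniteMeasure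
  have e1 := integral_withDensity_pos (μ := ν k) (h := h k) (f := f) hc.measurable
  have e2 := integral_withDensity_pos (μ := ν k) (h := fun x => -h k x) (f := f)
    hc.neg.measurable
  simp only at e1 e2 ⊢
  rw [e1, e2]
  have i1 : Integrable (fun x => max (h k x) 0 * f x) (ν k) :=
    ((hc.max continuous_const).mul hf).integrable_of_hasCompactSupport hf'.mul_left
  have i2 : Integrable (fun x => max (-h k x) 0 * f x) (ν k) :=
    ((hc.neg.max continuous_const).mul hf).integrable_of_hasCompactSupport hf'.mul_left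
  rw [← integral_sub i1 i2]
  apply integral_congr_ae
  refine ae_of_all _ fun x => ?_
  simp only
  rcases le_total (h k x) 0 with h0 | h0
  · rw [max_eq_right h0, max_eq_left (by linarith only [h0] : (0:ℝ) ≤ -h k x)]
    ring
  · rw [max_eq_left h0, max_eq_right (by linarith : -h k x ≤ 0)]
    ring

end Vale.Agent.P120
end
end

section

section

/-! Elementary geometry of planes used in the touching argument.  Owner module: TOUCH -/

open MeasureTheory Metric Set Filter Topology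
open scoped ENNReal NNReal InnerProductSpace

namespace Vale.Agent.P120

variable {d : ℕ}

theorem dP_nonneg (W : Submodule ℝ (Eu d)) (b x : Eu d) : 0 ≤ dP W b x := norm_nonneg _

/-- the distance to the plane is at most the distance to any of its points -/
theorem dP_le_dist (W : Submodule ℝ (Eu d)) (b x w : Eu d) (hw : w - b ∈ W) :
    dP W b x ≤ dist x w := by
  have h1 : Wᗮ.starProjection (w - b) = 0 := by
    rw [Submodule.starProjection_apply_eq_zero_iff]
    rwa [Submodule.orthogonal_orthogonal]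
  have h2 : x - b = (x - w) + (w - b) := by abel
  unfold dP
  rw [h2, map_add, h1, add_zero, dist_eq_norm]
  exact Submodule.norm_starProjection_apply_le _ _

/-- the distance to the plane is realised by the projection -/
theorem dP_eq_dist (W : Submodule ℝ (Eu d)) (b x : Eu d) :
    dP W b x = dist x (b + W.starProjection (x - b)) := by
  unfold dP
  rw [Submodule.starProjection_orthogonal_val, dist_eq_norm]
  congr 1
  abel

/-- the plane obtained by intersecting with the tangent hyperplane -/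
theorem dP_inf_le (W : Submodule ℝ (Eu d)) (e : Eu d) (he : e ∈ W) (he1 : ‖e‖ = 1) (x y : Eu d) :
    dP ((ℝ ∙ e)ᗮ ⊓ W) x y ≤ dP W x y + |⟪e, y - x⟫_ℝ| := by
  set v := W.starProjection (y - x) - ⟪e, y - x⟫_ℝ • e with hv
  have hvW : v ∈ W := W.sub_mem (Submodule.starProjection_apply_mem _ _) (W.smul_mem _ he)
  have hve : v ∈ (ℝ ∙ e)ᗮ := by
    rw [Submodule.mem_orthogonal_singleton_iff_inner_right]
    rw [hv, inner_sub_right, real_inner_smul_right, ← Submodule.inner_starProjection_left_eq_right,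
      Submodule.starProjection_eq_self_iff.2 he, real_inner_self_eq_norm_sq, he1]
    ring
  have h1 := dP_le_dist ((ℝ ∙ e)ᗮ ⊓ W) x y (x + v) (by
    rw [add_sub_cancel_left]; exact ⟨hve, hvW⟩)
  refine h1.trans ?_
  rw [dist_eq_norm]
  have h2 : y - (x + v) = Wᗮ.starProjection (y - x) + ⟪e, y - x⟫_ℝ • e := by
    rw [Submodule.starProjection_orthogonal_val, hv]; abel
  rw [h2]
  refine (norm_add_le _ _).trans ?_
  rw [norm_smul, he1, mul_one, Real.norm_eq_abs]
  exact le_rfl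

theorem finrank_inf_orth (W : Submodule ℝ (Eu d)) (e : Eu d) (he : e ∈ W) (he1 : ‖e‖ = 1) :
    Module.finrank ℝ ((ℝ ∙ e)ᗮ ⊓ W : Submodule ℝ (Eu d)) + 1 = Module.finrank ℝ W := by
  have h0 : e ≠ 0 := by
    rintro rfl; simp at he1
  have h := Submodule.finrank_add_inf_finrank_orthogonal (K₁ := (ℝ ∙ e)) (K₂ := W)
    (by rw [Submodule.span_singleton_le_iff_mem]; exact he)
  rw [finrank_span_singleton h0] at h
  omega

end Vale.Agent.P120
end
end

section

section

/-! Second differences of `C^2` functions, and tails of measures with `L^1` growth `R^{n+3/2}`.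
Owner: helper892 -/

open MeasureTheory Metric Set Filter Topology
open scoped ENNReal NNReal

namespace Vale.Agent.P120

variable {d n : ℕ}

/-- second differences of a compactly supported `C^2` function -/
theorem second_diff_bound_imp (φ : Eu n → ℝ) (hφ : ContDiff ℝ 2 φ) (hφ' : HasCompactSupport φ) :
    ∃ M : ℝ, 0 ≤ M ∧ (∀ v, |φ v| ≤ M) ∧
      ∀ u z, |φ u - (φ (u + z) + φ (u - z)) / 2| ≤ M * ‖z‖ ^ 2 := by
  obtain ⟨B, hB⟩ := hφ'.exists_bound_of_continuous hφ.continuous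
  have hf' : ContDiff ℝ 1 (fderiv ℝ φ) := hφ.fderiv_right (by norm_num)
  have hcs' : HasCompactSupport (fderiv ℝ φ) := hφ'.fderiv (𝕜 := ℝ)
  obtain ⟨L, hL⟩ := hf'.lipschitzWith_of_hasCompactSupport hcs' (by norm_num)
  have hdiff : Differentiable ℝ φ := hφ.differentiable (by norm_num)
  refine ⟨max B (L : ℝ), le_trans L.coe_nonneg (le_max_right _ _), ?_, ?_⟩
  · intro v
    have := hB v
    rw [Real.norm_eq_abs] at this
    exact this.trans (le_max_left _ _)
  · intro u z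
    set ψ : ℝ → ℝ := fun t => φ (u + t • z) + φ (u - t • z) with hψ
    have hderiv : ∀ t : ℝ, HasDerivAt ψ (fderiv ℝ φ (u + t • z) z - fderiv ℝ φ (u - t • z) z) t := by
      intro t
      have h1 : HasDerivAt (fun t : ℝ => u + t • z) z t := by
        simpa using ((hasDerivAt_id t).smul_const z).const_add u
      have h2 : HasDerivAt (fun t : ℝ => u - t • z) (-z) t := by
        simpa only [id_eq, one_smul] using ((hasDerivAt_id t).smul_const z).const_sub u
      have h3 := (hdiff (u + t • z)).hasFDerivAt.comp_hasDerivAt t h1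
      have h4 := (hdiff (u - t • z)).hasFDerivAt.comp_hasDerivAt t h2
      have h5 := h3.add h4
      simp only [map_neg] at h5
      rw [← sub_eq_add_neg] at h5
      exact h5
    have hbound : ∀ t ∈ Ico (0 : ℝ) 1,
        ‖fderiv ℝ φ (u + t • z) z - fderiv ℝ φ (u - t • z) z‖ ≤ 2 * L * ‖z‖ ^ 2 := by
      intro t ht
      have h6 : fderiv ℝ φ (u + t • z) z - fderiv ℝ φ (u - t • z) z =
          (fderiv ℝ φ (u + t • z) - fderiv ℝ φ (u - t • z)) z := rfl
      rw [h6]
      have h7 := (fderiv ℝ φ (u + t • z) - fderiv ℝ φ (u - t • z)).le_opNorm z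
      have h8 := hL.dist_le_mul (u + t • z) (u - t • z)
      rw [dist_eq_norm, dist_eq_norm] at h8
      have h9 : (u + t • z) - (u - t • z) = (2 * t) • z := by
        rw [two_mul, add_smul]; abel
      rw [h9, norm_smul, Real.norm_eq_abs, abs_of_nonneg (by linarith only [ht.1, ht])] at h8
      have h10 : 2 * t * ‖z‖ ≤ 2 * ‖z‖ := by nlinarith only [ht.2, norm_nonneg z, ht]
      calc _ ≤ ‖fderiv ℝ φ (u + t • z) - fderiv ℝ φ (u - t • z)‖ * ‖z‖ := h7
        _ ≤ (L * (2 * t * ‖z‖)) * ‖z‖ := by (clear * - h8; gcongr)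
        _ ≤ (L * (2 * ‖z‖)) * ‖z‖ := by (clear * - h10; gcongr)
        _ = 2 * L * ‖z‖ ^ 2 := by ring
    have h11 := norm_image_sub_le_of_norm_deriv_le_segment_01'
      (fun t _ => (hderiv t).hasDerivWithinAt) hbound
    simp only [hψ, one_smul, zero_smul, add_zero, sub_zero, Real.norm_eq_abs] at h11
    have h12 : φ u - (φ (u + z) + φ (u - z)) / 2 =
        -((φ (u + z) + φ (u - z) - (φ u + φ u)) / 2) := by ring
    rw [h12, abs_neg, abs_div, abs_two]
    calc |φ (u + z) + φ (u - z) - (φ u + φ u)| / 2 ≤ 2 * L * ‖z‖ ^ 2 / 2 := by (clear * - h11; gcongr)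
      _ = L * ‖z‖ ^ 2 := by ring
      _ ≤ max B L * ‖z‖ ^ 2 := by
          gcongr
          exact le_max_right _ _

/-- tails of measures with growth `R^{n+3/2}` -/
theorem growth_tail (n : ℕ) (B : ℝ) (hB : 0 ≤ B) : ∃ K : ℝ, 0 < K ∧
    ∀ (d : ℕ) (ρ : Measure (Eu d)),
      (∀ R : ℝ, 1 ≤ R → ρ (closedBall 0 R) ≤
        ENNReal.ofReal (B * (R ^ (n + 1) * Real.sqrt R))) →
      ∀ S : ℝ, 1 ≤ S →
        ∫⁻ x in {x | S ≤ ‖x‖}, ENNReal.ofReal ((‖x‖ ^ (n + 2))⁻¹) ∂ρ ≤
          ENNReal.ofReal (K * (Real.sqrt S)⁻¹) := by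
  set r : ℝ := (Real.sqrt 2)⁻¹ with hr
  have hr0 : 0 < r := by positivity
  have hr1 : r < 1 := by
    rw [hr]
    apply inv_lt_one_of_one_lt₀
    rw [Real.lt_sqrt (by norm_num)]
    norm_num
  have hrk : ∀ k : ℕ, r ^ k = (Real.sqrt (2 ^ k))⁻¹ := by
    intro k
    rw [hr, inv_pow]
    congr 1
    induction k with
    | zero => simp
    | succ k ih => rw [pow_succ, ih, pow_succ, Real.sqrt_mul (by positivity)]
  set K₀ : ℝ := B * 2 ^ (n + 1) * Real.sqrt 2 with hK₀
  have hK₀0 : 0 ≤ K₀ := by positivity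
  refine ⟨K₀ * (1 - r)⁻¹ + 1, by
    have : 0 < (1 - r)⁻¹ := inv_pos.2 (by linarith only [hr1])
    positivity, ?_⟩
  intro d ρ hρ S hS
  have hS0 : 0 < S := by linarith only [hr0, hr1, hS]
  let A : ℕ → Set (Eu d) := fun k => {y | S * 2 ^ k ≤ ‖y‖ ∧ ‖y‖ ≤ S * 2 ^ (k + 1)}
  have hsub : {y : Eu d | S ≤ ‖y‖} ⊆ ⋃ k, A k := by
    intro y hy
    have hy' : S ≤ ‖y‖ := hy
    have hlim : Tendsto (fun k : ℕ => S * 2 ^ k) atTop atTop := by
      apply Tendsto.const_mul_atTop hS0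
      exact tendsto_pow_atTop_atTop_of_one_lt (by norm_num)
    have hex : ∃ k : ℕ, ‖y‖ < S * 2 ^ k := (hlim.eventually_gt_atTop _).exists
    classical
    let k₀ := Nat.find hex
    have hk₀ : ‖y‖ < S * 2 ^ k₀ := Nat.find_spec hex
    have hk₀pos : k₀ ≠ 0 := by
      intro h0
      rw [h0] at hk₀
      simp at hk₀
      linarith only [hy', hk₀]
    obtain ⟨k, hk⟩ := Nat.exists_eq_succ_of_ne_zero hk₀pos
    rw [mem_iUnion]
    refine ⟨k, ?_, ?_⟩
    · by_contra hcon
      push Not at hcon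
      have : k₀ ≤ k := Nat.find_min' hex hcon
      omega
    · rw [hk] at hk₀; exact hk₀.le
  calc ∫⁻ y in {y | S ≤ ‖y‖}, ENNReal.ofReal ((‖y‖ ^ (n + 2))⁻¹) ∂ρ
      ≤ ∫⁻ y in ⋃ k, A k, ENNReal.ofReal ((‖y‖ ^ (n + 2))⁻¹) ∂ρ :=
        lintegral_mono_set hsub
    _ ≤ ∑' k, ∫⁻ y in A k, ENNReal.ofReal ((‖y‖ ^ (n + 2))⁻¹) ∂ρ :=
        lintegral_iUnion_le _ _
    _ ≤ ∑' k : ℕ, ENNReal.ofReal (K₀ * (Real.sqrt S)⁻¹ * r ^ k) := by
        apply ENNReal.tsum_le_tsum
        intro k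
        have hrk' : 0 < S * 2 ^ k := by positivity
        have h2k : (1 : ℝ) ≤ 2 ^ (k + 1) := one_le_pow₀ (by norm_num)
        calc ∫⁻ y in A k, ENNReal.ofReal ((‖y‖ ^ (n + 2))⁻¹) ∂ρ
            ≤ ∫⁻ _ in A k, ENNReal.ofReal (((S * 2 ^ k) ^ (n + 2))⁻¹) ∂ρ := by
              apply setLIntegral_mono measurable_const
              intro y hy
              apply ENNReal.ofReal_le_ofReal
              apply inv_anti₀ (by positivity)
              exact pow_le_pow_left₀ hrk'.le hy.1 _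
          _ = ENNReal.ofReal (((S * 2 ^ k) ^ (n + 2))⁻¹) * ρ (A k) := by
              rw [setLIntegral_const]
          _ ≤ ENNReal.ofReal (((S * 2 ^ k) ^ (n + 2))⁻¹) *
                ENNReal.ofReal (B * ((S * 2 ^ (k + 1)) ^ (n + 1) *
                  Real.sqrt (S * 2 ^ (k + 1)))) := by
              gcongr
              refine (measure_mono ?_).trans (hρ (S * 2 ^ (k + 1)) (by nlinarith only [hr0, hr1,
                                                                         hS, h2k]))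
              intro y hy
              rw [mem_closedBall, dist_zero_right]
              exact hy.2
          _ = ENNReal.ofReal (K₀ * (Real.sqrt S)⁻¹ * r ^ k) := by
              rw [← ENNReal.ofReal_mul (by positivity)]
              congr 1
              rw [hrk, hK₀]
              have h2 : (2 : ℝ) ^ (k + 1) = 2 ^ k * 2 := pow_succ _ _
              rw [h2, Real.sqrt_mul hS0.le, Real.sqrt_mul (by positivity)]
              set a := Real.sqrt S with ha
              set b := Real.sqrt (2 ^ k) with hb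
              have ha2 : S = a * a := (Real.mul_self_sqrt hS0.le).symm
              have hb2 : (2 : ℝ) ^ k = b * b := (Real.mul_self_sqrt (by positivity)).symm
              have ha0 : 0 < a := Real.sqrt_pos.2 hS0
              have hb0 : 0 < b := Real.sqrt_pos.2 (by positivity)
              rw [hb2, ha2]
              have h3 : (a * a * (b * b * 2)) ^ (n + 1) = (a * a * (b * b)) ^ (n + 1) * 2 ^ (n + 1) := by
                rw [← mul_pow]; ring
              rw [h3, pow_succ (a * a * (b * b)) (n + 1)]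
              (clear * - ha0 hb0; field_simp)
    _ = ENNReal.ofReal (K₀ * (Real.sqrt S)⁻¹ * (1 - r)⁻¹) := by
        rw [← ENNReal.ofReal_tsum_of_nonneg]
        · congr 1
          rw [tsum_mul_left, tsum_geometric_of_lt_one hr0.le hr1]
        · intro k; (clear * - hB hS; positivity)
        · exact (summable_geometric_of_lt_one hr0.le hr1).mul_left _
    _ ≤ ENNReal.ofReal ((K₀ * (1 - r)⁻¹ + 1) * (Real.sqrt S)⁻¹) := by
        apply ENNReal.ofReal_le_ofReal
        have : 0 ≤ (Real.sqrt S)⁻¹ := by positivity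
        nlinarith only [this]

/-- the weight `(1+|x|)^{-n-2}` is integrable for measures with growth `R^{n+3/2}` -/
theorem growth_weight (n : ℕ) (B : ℝ) (hB : 0 ≤ B) : ∃ K : ℝ, 0 < K ∧
    ∀ (d : ℕ) (ρ : Measure (Eu d)),
      (∀ R : ℝ, 1 ≤ R → ρ (closedBall 0 R) ≤
        ENNReal.ofReal (B * (R ^ (n + 1) * Real.sqrt R))) →
        ∫⁻ x, ENNReal.ofReal (((1 + ‖x‖) ^ (n + 2))⁻¹) ∂ρ ≤ ENNReal.ofReal K := by
  obtain ⟨K, hK, hKt⟩ := growth_tail n B hB
  refine ⟨B + K, by positivity, ?_⟩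
  intro d ρ hρ
  have hcov : (univ : Set (Eu d)) ⊆ closedBall 0 1 ∪ {x | 1 ≤ ‖x‖} := by
    intro x _
    rcases le_total ‖x‖ 1 with h | h
    · left; simpa only [mem_closedBall, dist_zero_right] using h
    · right; exact h
  calc ∫⁻ x, ENNReal.ofReal (((1 + ‖x‖) ^ (n + 2))⁻¹) ∂ρ
      = ∫⁻ x in univ, ENNReal.ofReal (((1 + ‖x‖) ^ (n + 2))⁻¹) ∂ρ := by
        rw [Measure.restrict_univ]
    _ ≤ ∫⁻ x in closedBall (0 : Eu d) 1 ∪ {x | 1 ≤ ‖x‖},
          ENNReal.ofReal (((1 + ‖x‖) ^ (n + 2))⁻¹) ∂ρ := lintegral_mono_set hcov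
    _ ≤ (∫⁻ x in closedBall (0 : Eu d) 1, ENNReal.ofReal (((1 + ‖x‖) ^ (n + 2))⁻¹) ∂ρ) +
          ∫⁻ x in {x : Eu d | 1 ≤ ‖x‖}, ENNReal.ofReal (((1 + ‖x‖) ^ (n + 2))⁻¹) ∂ρ :=
        lintegral_union_le _ _ _
    _ ≤ ENNReal.ofReal B + ENNReal.ofReal K := by
        apply add_le_add
        · calc ∫⁻ x in closedBall (0 : Eu d) 1, ENNReal.ofReal (((1 + ‖x‖) ^ (n + 2))⁻¹) ∂ρ
              ≤ ∫⁻ _ in closedBall (0 : Eu d) 1, 1 ∂ρ := by
                apply lintegral_mono
                intro x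
                rw [← ENNReal.ofReal_one]
                apply ENNReal.ofReal_le_ofReal
                apply inv_le_one_of_one_le₀
                exact one_le_pow₀ (by linarith only [norm_nonneg x])
            _ = ρ (closedBall 0 1) := by simp only [lintegral_const, MeasurableSet.univ,
                                           Measure.restrict_apply, univ_inter, one_mul]
            _ ≤ ENNReal.ofReal B := by
                have := hρ 1 le_rfl
                simpa only [ge_iff_le, one_pow, Real.sqrt_one, mul_one] using this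
        · refine le_trans ?_ (le_trans (hKt d ρ hρ 1 le_rfl) (by simp))
          apply setLIntegral_mono' (measurableSet_le measurable_const (by fun_prop))
          intro x hx
          have hx' : 1 ≤ ‖x‖ := hx
          apply ENNReal.ofReal_le_ofReal
          apply inv_anti₀ (by positivity)
          exact pow_le_pow_left₀ (by positivity) (by linarith only []) _
    _ = ENNReal.ofReal (B + K) := (ENNReal.ofReal_add hB hK.le).symm

end Vale.Agent.P120
end
end

section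

section

/-! Strong convergence from weak convergence and an energy bound (I4).  Owner: helper480 -/

open MeasureTheory Metric Set Filter Topology
open scoped ENNReal NNReal

namespace Vale.Agent.P120

variable {d n : ℕ} {c C : ℝ}

section tent

lemma tent_nonneg' (x : Eu d) (s : ℝ) (y : Eu d) : 0 ≤ tent x s y := le_max_left _ _

lemma tent_le_one' (x : Eu d) {s : ℝ} (hs : 0 < s) (y : Eu d) : tent x s y ≤ 1 := by
  unfold tent
  refine max_le zero_le_one ?_
  have : 0 ≤ dist y x / s := by positivity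
  linarith only [this]

lemma tent_eq_zero' (x : Eu d) {s : ℝ} (hs : 0 < s) (y : Eu d) (h : s ≤ dist y x) :
    tent x s y = 0 := by
  unfold tent
  refine max_eq_left ?_
  have : 1 ≤ dist y x / s := by rwa [le_div_iff₀ hs, one_mul]
  linarith

lemma half_le_tent (x : Eu d) {s : ℝ} (hs : 0 < s) (y : Eu d) (h : dist y x ≤ s / 2) :
    1 / 2 ≤ tent x s y := by
  unfold tent
  refine le_max_of_le_right ?_
  have : dist y x / s ≤ 1 / 2 := by
    rw [div_le_iff₀ hs]; linarith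
  linarith only [this]

lemma continuous_tent_uncurry (s : ℝ) : Continuous fun p : Eu d × Eu d => tent p.1 s p.2 := by
  unfold tent
  fun_prop

lemma continuous_tent' (x : Eu d) (s : ℝ) : Continuous (tent x s) := by
  unfold tent
  fun_prop

lemma abs_tent_sub_le (x z : Eu d) {s : ℝ} (hs : 0 < s) (y : Eu d) :
    |tent x s y - tent z s y| ≤ dist x z / s := by
  unfold tent
  have h1 := abs_max_sub_max_le_abs (1 - dist y x / s) (1 - dist y z / s) 0
  rw [max_comm 0, max_comm 0]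
  refine h1.trans ?_
  rw [show 1 - dist y x / s - (1 - dist y z / s) = (dist y z - dist y x) / s by ring, abs_div,
    abs_of_pos hs]
  gcongr
  have := abs_dist_sub_le z x y
  rw [dist_comm y z, dist_comm y x, dist_comm x z]
  exact this

lemma hasCompactSupport_tent (x : Eu d) {s : ℝ} (hs : 0 < s) : HasCompactSupport (tent x s) := by
  refine HasCompactSupport.intro (isCompact_closedBall x s) fun y hy => ?_
  refine tent_eq_zero' x hs y ?_
  rw [mem_closedBall, not_le] at hy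
  exact hy.le

end tent

/-- local estimate at a point of the support -/
lemma mass_tent {D : ℝ≥0∞} {ν : Measure (Eu d)} (h : AR n c C D ν) (hD : 1 ≤ D) {δ : ℝ}
    (hδ : 0 < δ) (hδ1 : δ ≤ 1) {x : Eu d} (hx : x ∈ ν.support) :
    1 / 2 * (c * (δ / 2) ^ n) ≤ ∫ y, tent x δ y ∂ν := by
  have := h.isLocallyFiniteMeasure
  have hint : Integrable (tent x δ) ν :=
    (continuous_tent' x δ).integrable_of_hasCompactSupport (hasCompactSupport_tent x hδ)
  have hfin : ν (ball x (δ / 2)) < ⊤ :=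
    (measure_mono ball_subset_closedBall).trans_lt (h.measure_ball_lt_top x _)
  have h1 : ENNReal.ofReal (c * (δ / 2) ^ n) ≤ ν (ball x (δ / 2)) := by
    refine h.lower x hx (δ / 2) (by positivity) ?_
    refine le_trans ?_ hD
    rw [← ENNReal.ofReal_one]
    exact ENNReal.ofReal_le_ofReal (by linarith only [hδ1])
  have h2 : c * (δ / 2) ^ n ≤ ν.real (ball x (δ / 2)) := by
    rw [Measure.real, ← ENNReal.ofReal_le_iff_le_toReal hfin.ne]
    exact h1
  calc 1 / 2 * (c * (δ / 2) ^ n) ≤ 1 / 2 * ν.real (ball x (δ / 2)) := by gcongr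
    _ = ∫ y in ball x (δ / 2), (1 / 2 : ℝ) ∂ν := by
        rw [setIntegral_const, smul_eq_mul, mul_comm]
    _ ≤ ∫ y in ball x (δ / 2), tent x δ y ∂ν := by
        refine setIntegral_mono_on ?_ hint.integrableOn measurableSet_ball ?_
        · exact integrableOn_const hfin.ne
        · intro y hy
          exact half_le_tent x hδ y (le_of_lt (mem_ball.1 hy))
    _ ≤ ∫ y, tent x δ y ∂ν :=
        setIntegral_le_integral hint (Eventually.of_forall fun y => tent_nonneg' x δ y)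

/-- the local inequality -/
lemma local_ineq {D : ℝ≥0∞} {ν : Measure (Eu d)} (h : AR n c C D ν) (hD : 1 ≤ D) {δ : ℝ}
    (hδ : 0 < δ) (hδ1 : δ ≤ 1) {u : Eu d → ℝ} (hu : Continuous u) {x : Eu d}
    (hx : x ∈ ν.support) :
    1 / 2 * (c * (δ / 2) ^ n) * u x ^ 2 ≤
      (∫ y, (u x - u y) ^ 2 * tent x δ y ∂ν) + 2 * (|u x| * |∫ y, tent x δ y * u y ∂ν|) := by
  have := h.isLocallyFiniteMeasure
  have hcs := hasCompactSupport_tent x hδ
  have i0 : Integrable (tent x δ) ν :=
    (continuous_tent' x δ).integrable_of_hasCompactSupport hcs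
  have i1 : Integrable (fun y => tent x δ y * u y) ν :=
    ((continuous_tent' x δ).mul hu).integrable_of_hasCompactSupport hcs.mul_right
  have i2 : Integrable (fun y => tent x δ y * u y ^ 2) ν :=
    ((continuous_tent' x δ).mul (hu.pow 2)).integrable_of_hasCompactSupport hcs.mul_right
  have e1 : ∫ y, (u x - u y) ^ 2 * tent x δ y ∂ν =
      u x ^ 2 * (∫ y, tent x δ y ∂ν) - 2 * u x * (∫ y, tent x δ y * u y ∂ν) +
        ∫ y, tent x δ y * u y ^ 2 ∂ν := by
    have i3 : Integrable (fun y => u x ^ 2 * tent x δ y) ν := i0.const_mul _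
    have i4 : Integrable (fun y => 2 * u x * (tent x δ y * u y)) ν := i1.const_mul _
    have i5 : Integrable (fun y => u x ^ 2 * tent x δ y - 2 * u x * (tent x δ y * u y)) ν :=
      i3.sub i4
    rw [← integral_const_mul, ← integral_const_mul, ← integral_sub i3 i4, ← integral_add i5 i2]
    refine integral_congr_ae (Eventually.of_forall fun y => ?_)
    ring
  have e2 : 0 ≤ ∫ y, tent x δ y * u y ^ 2 ∂ν :=
    integral_nonneg fun y => mul_nonneg (tent_nonneg' x δ y) (sq_nonneg _)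
  have e3 := mass_tent h hD hδ hδ1 hx
  have e4 : 1 / 2 * (c * (δ / 2) ^ n) * u x ^ 2 ≤ (∫ y, tent x δ y ∂ν) * u x ^ 2 :=
    mul_le_mul_of_nonneg_right e3 (sq_nonneg _)
  have e5 : u x * (∫ y, tent x δ y * u y ∂ν) ≤ |u x| * |∫ y, tent x δ y * u y ∂ν| := by
    rw [← abs_mul]; exact le_abs_self _
  rw [e1]
  nlinarith only [e2, e4, e5]

/-- the inequality for one measure -/
lemma energy_ineq {D : ℝ≥0∞} {ν : Measure (Eu d)} (h : AR n c C D ν) (hD : 1 ≤ D) {δ : ℝ}
    (hδ : 0 < δ) (hδ1 : δ ≤ 1) {u : Eu d → ℝ} (hu : Continuous u) {A E η : ℝ}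
    (hA : ∫ x in ball (0 : Eu d) 3, |u x| ∂ν ≤ A)
    (hE : ∫ p in ball (0 : Eu d) 3 ×ˢ ball (0 : Eu d) 3,
      (u p.1 - u p.2) ^ 2 * sK n 0 (p.1 - p.2) ∂(ν.prod ν) ≤ E)
    (hE' : IntegrableOn (fun p : Eu d × Eu d =>
      (u p.1 - u p.2) ^ 2 * sK n 0 (p.1 - p.2)) (ball (0 : Eu d) 3 ×ˢ ball (0 : Eu d) 3)
      (ν.prod ν)) (hη0 : 0 ≤ η)
    (hη : ∀ x ∈ ball (0 : Eu d) 1, |∫ y, tent x δ y * u y ∂ν| ≤ η) :
    1 / 2 * (c * (δ / 2) ^ n) * ∫ x in ball (0 : Eu d) 1, u x ^ 2 ∂ν ≤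
      δ ^ (n + 1) * E + 2 * η * A := by
  have := h.isLocallyFiniteMeasure
  have hfinc : ∀ {f : Eu d → ℝ}, Continuous f → ∀ r : ℝ, IntegrableOn f (ball (0 : Eu d) r) ν := by
    intro f hf r
    exact (hf.continuousOn.integrableOn_compact (isCompact_closedBall 0 r)).mono_set
      ball_subset_closedBall
  set F : Eu d × Eu d → ℝ := fun p => (u p.1 - u p.2) ^ 2 * tent p.1 δ p.2 with hF
  have hFc : Continuous F := by
    have := continuous_tent_uncurry (d := d) δ
    rw [hF]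
    fun_prop
  have hF0 : ∀ p, 0 ≤ F p := fun p => mul_nonneg (sq_nonneg _) (tent_nonneg' _ _ _)
  have hFi : IntegrableOn F (ball (0 : Eu d) 1 ×ˢ ball (0 : Eu d) 3) (ν.prod ν) :=
    (hFc.continuousOn.integrableOn_compact
      ((isCompact_closedBall 0 1).prod (isCompact_closedBall 0 3))).mono_set
      (prod_mono ball_subset_closedBall ball_subset_closedBall)
  -- inner integral restricted to the ball of radius 3
  have hin : ∀ x ∈ ball (0 : Eu d) 1, ∫ y, F (x, y) ∂ν = ∫ y in ball (0 : Eu d) 3, F (x, y) ∂ν := by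
    intro x hx
    symm
    refine setIntegral_eq_integral_of_forall_compl_eq_zero fun y hy => ?_
    have h1 : δ ≤ dist y x := by
      rw [mem_ball, not_lt] at hy
      rw [mem_ball] at hx
      have := dist_triangle y x 0
      linarith only [hδ1, hx, hy, this]
    simp only [hF]
    rw [tent_eq_zero' x hδ y h1, mul_zero]
  have hGi : IntegrableOn (fun x => ∫ y, F (x, y) ∂ν) (ball (0 : Eu d) 1) ν := by
    have h1 : Integrable F ((ν.restrict (ball (0 : Eu d) 1)).prod (ν.restrict (ball (0 : Eu d) 3))) := by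
      rw [Measure.prod_restrict]
      exact hFi
    have h2 := h1.integral_prod_left
    refine (integrableOn_congr_fun (fun x hx => (hin x hx)) measurableSet_ball).2 h2
  have hGE : ∫ x in ball (0 : Eu d) 1, ∫ y, F (x, y) ∂ν ∂ν ≤ δ ^ (n + 1) * E := by
    calc ∫ x in ball (0 : Eu d) 1, ∫ y, F (x, y) ∂ν ∂ν
        = ∫ x in ball (0 : Eu d) 1, ∫ y in ball (0 : Eu d) 3, F (x, y) ∂ν ∂ν :=
          setIntegral_congr_fun measurableSet_ball hin
      _ = ∫ p in ball (0 : Eu d) 1 ×ˢ ball (0 : Eu d) 3, F p ∂(ν.prod ν) :=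
          (setIntegral_prod F hFi).symm
      _ ≤ ∫ p in ball (0 : Eu d) 1 ×ˢ ball (0 : Eu d) 3,
            δ ^ (n + 1) * ((u p.1 - u p.2) ^ 2 * sK n 0 (p.1 - p.2)) ∂(ν.prod ν) := by
          refine setIntegral_mono hFi
            ((hE'.mono_set (prod_mono (ball_subset_ball (by norm_num)) subset_rfl)).const_mul _)
            fun p => ?_
          simp only [hF]
          rcases eq_or_ne p.1 p.2 with hp | hp
          · rw [hp]; simp
          · rw [← mul_assoc, mul_comm (δ ^ (n + 1)), mul_assoc]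
            refine mul_le_mul_of_nonneg_left ?_ (sq_nonneg _)
            rw [sK_zero_eq]
            rcases le_or_gt δ (dist p.2 p.1) with hd | hd
            · rw [tent_eq_zero' _ hδ _ hd]
              (clear * - hδ; positivity)
            · refine (tent_le_one' _ hδ _).trans ?_
              have hpos : 0 < ‖p.1 - p.2‖ := norm_pos_iff.2 (sub_ne_zero.2 hp)
              rw [← div_eq_mul_inv, one_le_div (by positivity)]
              rw [dist_comm, dist_eq_norm] at hd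
              (clear * - hd hpos; gcongr)
      _ ≤ ∫ p in ball (0 : Eu d) 3 ×ˢ ball (0 : Eu d) 3,
            δ ^ (n + 1) * ((u p.1 - u p.2) ^ 2 * sK n 0 (p.1 - p.2)) ∂(ν.prod ν) := by
          refine setIntegral_mono_set (hE'.const_mul _) ?_
            (LE.le.eventuallyLE (prod_mono (ball_subset_ball (by norm_num)) subset_rfl))
          refine Eventually.of_forall fun p => ?_
          have := sK_nonneg n 0 (p.1 - p.2)
          change 0 ≤ _
          (clear * - hδ this; positivity)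
      _ = δ ^ (n + 1) * ∫ p in ball (0 : Eu d) 3 ×ˢ ball (0 : Eu d) 3,
            ((u p.1 - u p.2) ^ 2 * sK n 0 (p.1 - p.2)) ∂(ν.prod ν) := integral_const_mul _ _
      _ ≤ δ ^ (n + 1) * E := by gcongr
  have hu2 : IntegrableOn (fun x => u x ^ 2) (ball (0 : Eu d) 1) ν := hfinc (hu.pow 2) 1
  have hu1 : IntegrableOn (fun x => |u x|) (ball (0 : Eu d) 1) ν := hfinc hu.abs 1
  have hu3 : IntegrableOn (fun x => |u x|) (ball (0 : Eu d) 3) ν := hfinc hu.abs 3
  have hmain : ∫ x in ball (0 : Eu d) 1, 1 / 2 * (c * (δ / 2) ^ n) * u x ^ 2 ∂ν ≤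
      ∫ x in ball (0 : Eu d) 1, ((∫ y, F (x, y) ∂ν) + 2 * η * |u x|) ∂ν := by
    refine integral_mono_ae (hu2.const_mul _) (hGi.add (hu1.const_mul _)) ?_
    have hae : ∀ᵐ x ∂(ν.restrict (ball (0 : Eu d) 1)), x ∈ ν.support :=
      ae_restrict_of_ae Measure.support_mem_ae
    filter_upwards [hae, ae_restrict_mem measurableSet_ball] with x hx hxb
    have h1 := local_ineq h hD hδ hδ1 hu hx
    have h2 := mul_le_mul_of_nonneg_left (hη x hxb) (abs_nonneg (u x))
    simp only [hF]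
    nlinarith only [h1, h2]
  rw [integral_const_mul, integral_add hGi (hu1.const_mul _), integral_const_mul] at hmain
  have hlast : ∫ x in ball (0 : Eu d) 1, |u x| ∂ν ≤ A := by
    refine le_trans ?_ hA
    exact setIntegral_mono_set hu3 (Eventually.of_forall fun x => abs_nonneg _)
      (LE.le.eventuallyLE (ball_subset_ball (by norm_num)))
  have hlast2 := mul_le_mul_of_nonneg_left hlast (by (clear * - hη0; positivity) : (0 : ℝ) ≤ 2 * η)
  linarith

/-- uniform smallness of the averages -/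
lemma unif_small {l : Filter ℕ} {D : ℕ → ℝ≥0∞}
    {ν : ℕ → Measure (Eu d)} (h : ∀ k, AR n c C (D k) (ν k))
    {u : ℕ → Eu d → ℝ} (hu : ∀ k, Continuous (u k)) (A : ℝ) (hA0 : 0 ≤ A)
    (hA : ∀ᶠ k in l, ∫ x in ball (0 : Eu d) 3, |u k x| ∂(ν k) ≤ A)
    (hw : ∀ f : Eu d → ℝ, Continuous f → HasCompactSupport f →
      Tendsto (fun k => ∫ x, f x * u k x ∂(ν k)) l (𝓝 0)) {δ : ℝ} (hδ : 0 < δ) (hδ1 : δ ≤ 1)
    {η : ℝ} (hη : 0 < η) :
    ∀ᶠ k in l, ∀ x ∈ ball (0 : Eu d) 1, |∫ y, tent x δ y * u k y ∂(ν k)| ≤ η := by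
  set ρ : ℝ := min 1 (δ * η / (2 * (A + 1))) with hρ
  have hρ0 : 0 < ρ := lt_min one_pos (by positivity)
  obtain ⟨t, ht, htf, htc⟩ := (isCompact_closedBall (0 : Eu d) 1).finite_cover_balls hρ0
  have hev : ∀ᶠ k in l, ∀ z ∈ t, |∫ y, tent z δ y * u k y ∂(ν k)| < η / 2 := by
    rw [htf.eventually_all]
    intro z hz
    have := hw (tent z δ) (continuous_tent' z δ) (hasCompactSupport_tent z hδ)
    rw [Metric.tendsto_nhds] at this
    filter_upwards [this (η / 2) (by positivity)] with k hk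
    simpa [Real.dist_eq] using hk
  filter_upwards [hev, hA] with k hk hAk x hx
  have := (h k).isLocallyFiniteMeasure
  have hxc : x ∈ ⋃ z ∈ t, ball z ρ := htc (ball_subset_closedBall hx)
  simp only [mem_iUnion, exists_prop] at hxc
  obtain ⟨z, hz, hxz⟩ := hxc
  have hz1 : dist z 0 ≤ 1 := mem_closedBall.1 (ht hz)
  have i1 : ∀ w : Eu d, Integrable (fun y => tent w δ y * u k y) (ν k) := fun w =>
    ((continuous_tent' w δ).mul (hu k)).integrable_of_hasCompactSupport
      (hasCompactSupport_tent w hδ).mul_right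
  have hu3 : IntegrableOn (fun x => |u k x|) (ball (0 : Eu d) 3) (ν k) :=
    ((hu k).abs.continuousOn.integrableOn_compact (isCompact_closedBall 0 3)).mono_set
      ball_subset_closedBall
  have hdiff : |(∫ y, tent x δ y * u k y ∂(ν k)) - ∫ y, tent z δ y * u k y ∂(ν k)| ≤ η / 2 := by
    rw [← integral_sub (i1 x) (i1 z)]
    have hoff : ∀ y, y ∉ ball (0 : Eu d) 3 → tent x δ y * u k y - tent z δ y * u k y = 0 := by
      intro y hy
      rw [mem_ball, not_lt] at hy
      rw [mem_ball] at hx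
      have h1 := dist_triangle y x 0
      have h2 := dist_triangle y z 0
      rw [tent_eq_zero' x hδ y (by linarith only [hδ1, hx, hy, h1]), tent_eq_zero' z hδ y (by linarith only [hδ1, hz1,
                                                                         hy, h2])]
      simp
    rw [← setIntegral_eq_integral_of_forall_compl_eq_zero hoff]
    calc |∫ y in ball (0 : Eu d) 3, (tent x δ y * u k y - tent z δ y * u k y) ∂(ν k)|
        ≤ ∫ y in ball (0 : Eu d) 3, |tent x δ y * u k y - tent z δ y * u k y| ∂(ν k) :=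
          abs_integral_le_integral_abs
      _ ≤ ∫ y in ball (0 : Eu d) 3, ρ / δ * |u k y| ∂(ν k) := by
          refine setIntegral_mono ((i1 x).sub (i1 z)).abs.integrableOn (hu3.const_mul _) fun y => ?_
          change |tent x δ y * u k y - tent z δ y * u k y| ≤ ρ / δ * |u k y|
          rw [← sub_mul, abs_mul]
          refine mul_le_mul_of_nonneg_right ?_ (abs_nonneg _)
          refine (abs_tent_sub_le x z hδ y).trans ?_
          have : dist x z ≤ ρ := (mem_ball.1 hxz).le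
          (clear * - hδ this; gcongr)
      _ = ρ / δ * ∫ y in ball (0 : Eu d) 3, |u k y| ∂(ν k) := integral_const_mul _ _
      _ ≤ ρ / δ * A := by (clear * - hA0 hδ hη hAk; gcongr)
      _ ≤ (δ * η / (2 * (A + 1))) / δ * (A + 1) := by
          gcongr
          · exact min_le_right _ _
          · linarith only []
      _ = η / 2 := by field_simp
  have h3 := hk z hz
  have := abs_sub_abs_le_abs_sub (∫ y, tent x δ y * u k y ∂(ν k)) (∫ y, tent z δ y * u k y ∂(ν k))
  linarith only [hdiff, h3, this]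

/-- strong convergence from weak convergence and an energy bound (any filter) -/
theorem strong_conv {l : Filter ℕ} {D : ℕ → ℝ≥0∞}
    {ν : ℕ → Measure (Eu d)} (h : ∀ k, AR n c C (D k) (ν k)) (hD : ∀ᶠ k in l, 1 ≤ D k)
    {u : ℕ → Eu d → ℝ} (hu : ∀ k, Continuous (u k)) (A E : ℝ)
    (hA : ∀ᶠ k in l, ∫ x in ball (0 : Eu d) 3, |u k x| ∂(ν k) ≤ A)
    (hE : ∀ᶠ k in l, ∫ p in ball (0 : Eu d) 3 ×ˢ ball (0 : Eu d) 3,
      (u k p.1 - u k p.2) ^ 2 * sK n 0 (p.1 - p.2) ∂((ν k).prod (ν k)) ≤ E)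
    (hE' : ∀ᶠ k in l, IntegrableOn (fun p : Eu d × Eu d =>
      (u k p.1 - u k p.2) ^ 2 * sK n 0 (p.1 - p.2)) (ball (0 : Eu d) 3 ×ˢ ball (0 : Eu d) 3)
      ((ν k).prod (ν k)))
    (hw : ∀ f : Eu d → ℝ, Continuous f → HasCompactSupport f →
      Tendsto (fun k => ∫ x, f x * u k x ∂(ν k)) l (𝓝 0)) :
    Tendsto (fun k => ∫ x in ball (0 : Eu d) 1, u k x ^ 2 ∂(ν k)) l (𝓝 0) := by
  rw [Metric.tendsto_nhds]
  intro ε hε
  have hc := (h 0).c_pos
  set A' : ℝ := max A 0
  have hA'0 : 0 ≤ A' := le_max_right _ _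
  have hA' : ∀ᶠ k in l, ∫ x in ball (0 : Eu d) 3, |u k x| ∂(ν k) ≤ A' := by
    filter_upwards [hA] with k hk using hk.trans (le_max_left _ _)
  set E' : ℝ := max E 0
  have hE'0 : 0 ≤ E' := le_max_right _ _
  -- choice of δ
  set δ : ℝ := min 1 (ε * c / (2 ^ (n + 3) * (E' + 1)))
  have hδ0 : 0 < δ := lt_min one_pos (by (clear * - hε hc; positivity))
  have hδ1 : δ ≤ 1 := min_le_left _ _
  have hδ2 : δ * (2 ^ (n + 3) * (E' + 1)) ≤ ε * c := by
    rw [← le_div_iff₀ (by positivity)]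
    exact min_le_right _ _
  set m0 : ℝ := 1 / 2 * (c * (δ / 2) ^ n) with hm0
  have hm0pos : 0 < m0 := by (clear * - hε hc; positivity)
  set η : ℝ := ε * m0 / (8 * (A' + 1)) with hηdef
  have hη : 0 < η := by (clear * - hε hc; positivity)
  filter_upwards [hD, hA', hE, hE', unif_small h hu A' hA'0 hA' hw hδ0 hδ1 hη] with k h1 h2 h3 h4 h5
  have key := energy_ineq (h k) h1 hδ0 hδ1 (hu k) h2 h3 h4 hη.le h5
  rw [← hm0] at key
  have h6 : δ ^ (n + 1) * E ≤ m0 * (ε / 2) := by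
    have : δ ^ (n + 1) * E ≤ δ ^ (n + 1) * (E' + 1) := by
      gcongr
      have := le_max_left E 0
      linarith only [this]
    refine this.trans ?_
    rw [hm0, div_pow, pow_succ]
    have h7 : δ * (E' + 1) ≤ ε * c / 2 ^ (n + 3) := by
      rw [le_div_iff₀ (by positivity)]
      linarith only [hδ2]
    calc δ ^ n * δ * (E' + 1) = δ ^ n * (δ * (E' + 1)) := by ring
      _ ≤ δ ^ n * (ε * c / 2 ^ (n + 3)) := by (clear * - hε hc h7; gcongr)
      _ = 1 / 2 * (c * (δ ^ n / 2 ^ n)) * (ε / 2) * (1 / 2) := by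
          rw [pow_add]; (clear * - hε hc hδ0; field_simp)
      _ ≤ 1 / 2 * (c * (δ ^ n / 2 ^ n)) * (ε / 2) * 1 := by gcongr; norm_num
      _ = 1 / 2 * (c * (δ ^ n / 2 ^ n)) * (ε / 2) := by ring
  have h8 : 2 * η * A' ≤ m0 * (ε / 4) := by
    rw [hηdef]
    calc 2 * (ε * m0 / (8 * (A' + 1))) * A' = m0 * (ε / 4) * (A' / (A' + 1)) := by
          field_simp; ring
      _ ≤ m0 * (ε / 4) * 1 := by
          gcongr
          rw [div_le_one (by (clear * -; positivity))]
          linarith only []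
      _ = m0 * (ε / 4) := mul_one _
  have h9 : m0 * ∫ x in ball (0 : Eu d) 1, u k x ^ 2 ∂(ν k) < m0 * ε := by
    have : m0 * (ε / 2) + m0 * (ε / 4) < m0 * ε := by nlinarith only [hε, hm0pos]
    linarith only [key, h6, h8, this]
  have h10 := lt_of_mul_lt_mul_left h9 hm0pos.le
  have h11 : 0 ≤ ∫ x in ball (0 : Eu d) 1, u k x ^ 2 ∂(ν k) :=
    integral_nonneg fun x => sq_nonneg _
  rw [Real.dist_eq, sub_zero, abs_of_nonneg h11]
  exact h10

/-- integrability of the energy density of a Lipschitz function -/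
theorem integrableOn_energy_aux (hn : 1 ≤ n) {D : ℝ≥0∞} {ν : Measure (Eu d)} (hν : AR n c C D ν)
    {h : Eu d → ℝ} (hh : ∃ L : ℝ≥0, LipschitzWith L h) (R : ℝ) :
    IntegrableOn (fun p : Eu d × Eu d => (h p.1 - h p.2) ^ 2 * sK n 0 (p.1 - p.2))
      (closedBall (0 : Eu d) R ×ˢ closedBall (0 : Eu d) R) (ν.prod ν) := by
  obtain ⟨L, hL⟩ := hh
  have := hν.isLocallyFiniteMeasure
  have hc := hL.continuous
  set R' : ℝ := max R 1
  have hR' : 0 < R' := lt_max_of_lt_right one_pos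
  have hmono : closedBall (0 : Eu d) R ×ˢ closedBall (0 : Eu d) R ⊆
      closedBall (0 : Eu d) R' ×ˢ closedBall (0 : Eu d) R' :=
    prod_mono (closedBall_subset_closedBall (le_max_left _ _))
      (closedBall_subset_closedBall (le_max_left _ _))
  refine IntegrableOn.mono_set ?_ hmono
  have hmeas : Measurable (fun p : Eu d × Eu d => (h p.1 - h p.2) ^ 2 * sK n 0 (p.1 - p.2)) := by
    have h1 : Measurable fun p : Eu d × Eu d => sK n 0 (p.1 - p.2) :=
      (measurable_sK n 0).comp (measurable_fst.sub measurable_snd)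
    have h2 : Measurable h := hc.measurable
    fun_prop
  obtain ⟨C', hC', hnear⟩ := lintegral_near n hn C hν.C_pos
  refine ⟨hmeas.aestronglyMeasurable, ?_⟩
  rw [hasFiniteIntegral_iff_norm]
  have hpt : ∀ x y : Eu d, ENNReal.ofReal ‖(h x - h y) ^ 2 * sK n 0 (x - y)‖ ≤
      ENNReal.ofReal ((L : ℝ) ^ 2) * ENNReal.ofReal ((‖x - y‖ ^ (n - 1))⁻¹) := by
    intro x y
    rw [← ENNReal.ofReal_mul (by (clear * -; positivity))]
    refine ENNReal.ofReal_le_ofReal ?_
    have hs := sK_nonneg n 0 (x - y)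
    rw [Real.norm_of_nonneg (by (clear * - hs; positivity))]
    rcases eq_or_ne x y with rfl | hxy
    · simp only [sub_self, norm_zero, ne_eq, OfNat.ofNat_ne_zero, not_false_eq_true, zero_pow,
        zero_mul]
      (clear * -; positivity)
    · have hpos : 0 < ‖x - y‖ := norm_pos_iff.2 (sub_ne_zero.2 hxy)
      have h1 : |h x - h y| ≤ L * ‖x - y‖ := by
        have := hL.dist_le_mul x y
        rwa [Real.dist_eq, dist_eq_norm] at this
      have h2 : (h x - h y) ^ 2 ≤ (L : ℝ) ^ 2 * ‖x - y‖ ^ 2 := by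
        rw [← sq_abs, ← mul_pow]
        (clear * - h1; gcongr)
      rw [sK_zero_eq]
      calc (h x - h y) ^ 2 * (‖x - y‖ ^ (n + 1))⁻¹
          ≤ ((L : ℝ) ^ 2 * ‖x - y‖ ^ 2) * (‖x - y‖ ^ (n + 1))⁻¹ := by gcongr
        _ = (L : ℝ) ^ 2 * (‖x - y‖ ^ (n - 1))⁻¹ := by
            rw [mul_assoc]
            congr 1
            rw [show n + 1 = 2 + (n - 1) by omega, pow_add, mul_inv, ← mul_assoc,
              mul_inv_cancel₀ (by (clear * - hpos; positivity)), one_mul]
  calc ∫⁻ p, ENNReal.ofReal ‖(h p.1 - h p.2) ^ 2 * sK n 0 (p.1 - p.2)‖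
        ∂((ν.prod ν).restrict (closedBall (0 : Eu d) R' ×ˢ closedBall (0 : Eu d) R'))
      = ∫⁻ x in closedBall (0 : Eu d) R', ∫⁻ y in closedBall (0 : Eu d) R',
          ENNReal.ofReal ‖(h x - h y) ^ 2 * sK n 0 (x - y)‖ ∂ν ∂ν := by
        rw [← Measure.prod_restrict, lintegral_prod _ (hmeas.norm.ennreal_ofReal.aemeasurable)]
    _ ≤ ∫⁻ x in closedBall (0 : Eu d) R', ENNReal.ofReal ((L : ℝ) ^ 2) *
          ENNReal.ofReal (C' * (2 * R')) ∂ν := by
        refine setLIntegral_mono' isClosed_closedBall.measurableSet fun x hx => ?_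
        calc ∫⁻ y in closedBall (0 : Eu d) R', ENNReal.ofReal ‖(h x - h y) ^ 2 * sK n 0 (x - y)‖ ∂ν
            ≤ ∫⁻ y in closedBall x (2 * R'), ENNReal.ofReal ‖(h x - h y) ^ 2 * sK n 0 (x - y)‖ ∂ν := by
              refine lintegral_mono_set fun y hy => ?_
              rw [mem_closedBall] at hx hy ⊢
              have := dist_triangle_right y x 0
              linarith only [hx, hy, this]
          _ ≤ ∫⁻ y in closedBall x (2 * R'), ENNReal.ofReal ((L : ℝ) ^ 2) *
                ENNReal.ofReal ((‖x - y‖ ^ (n - 1))⁻¹) ∂ν := lintegral_mono fun y => hpt x y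
          _ = ENNReal.ofReal ((L : ℝ) ^ 2) * ∫⁻ y in closedBall x (2 * R'),
                ENNReal.ofReal ((‖x - y‖ ^ (n - 1))⁻¹) ∂ν := by
              rw [lintegral_const_mul]
              fun_prop
          _ ≤ ENNReal.ofReal ((L : ℝ) ^ 2) * ENNReal.ofReal (C' * (2 * R')) := by
              gcongr
              exact hnear d ν hν.upper x (2 * R') (by positivity)
    _ = ENNReal.ofReal ((L : ℝ) ^ 2) * ENNReal.ofReal (C' * (2 * R')) *
          ν (closedBall (0 : Eu d) R') := by rw [setLIntegral_const]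
    _ < ⊤ := by
        refine ENNReal.mul_lt_top (ENNReal.mul_lt_top ENNReal.ofReal_lt_top ENNReal.ofReal_lt_top) ?_
        exact hν.measure_ball_lt_top 0 R'

/-- strong convergence: weak convergence to zero and bounded energy -/
theorem strong_of_energy (hn : 1 ≤ n) {𝒰 : Ultrafilter ℕ} {ν : ℕ → Measure (Eu d)}
    (hν : ∀ k, AR n c C ⊤ (ν k)) (u : ℕ → Eu d → ℝ)
    (hu : ∀ k, ∃ L : ℝ≥0, LipschitzWith L (u k)) (B : ℝ)
    (hB : ∀ k, ∫ x in closedBall (0 : Eu d) 3, u k x ^ 2 ∂(ν k) ≤ B)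
    (hE : ∀ k, energy n (ν k) (u k) 3 ≤ B)
    (hw : ∀ f : Eu d → ℝ, Continuous f → HasCompactSupport f →
      Tendsto (fun k => ∫ x, f x * u k x ∂(ν k)) (𝒰 : Filter ℕ) (𝓝 0)) :
    Tendsto (fun k => ∫ x in ball (0 : Eu d) 1, u k x ^ 2 ∂(ν k)) (𝒰 : Filter ℕ) (𝓝 0) := by
  have huc : ∀ k, Continuous (u k) := fun k => (hu k).choose_spec.continuous
  have hC := (hν 0).C_pos
  have hi : ∀ k, IntegrableOn (fun p : Eu d × Eu d => (u k p.1 - u k p.2) ^ 2 *
      sK n 0 (p.1 - p.2)) (closedBall (0 : Eu d) 3 ×ˢ closedBall (0 : Eu d) 3)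
      ((ν k).prod (ν k)) := fun k => integrableOn_energy_aux hn (hν k) (hu k) 3
  refine strong_conv (D := fun _ => ⊤) hν (Eventually.of_forall fun k => le_top) huc
    (B + C * 3 ^ n) B ?_ ?_ ?_ hw
  · refine Eventually.of_forall fun k => ?_
    have := (hν k).isLocallyFiniteMeasure
    have hfinc : ∀ {f : Eu d → ℝ}, Continuous f → IntegrableOn f (closedBall (0 : Eu d) 3) (ν k) :=
      fun hf => hf.continuousOn.integrableOn_compact (isCompact_closedBall 0 3)
    have hfin : ν k (closedBall (0 : Eu d) 3) < ⊤ := (hν k).measure_ball_lt_top 0 3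
    calc ∫ x in ball (0 : Eu d) 3, |u k x| ∂(ν k)
        ≤ ∫ x in closedBall (0 : Eu d) 3, |u k x| ∂(ν k) :=
          setIntegral_mono_set (hfinc (huc k).abs) (Eventually.of_forall fun x => abs_nonneg _)
            (LE.le.eventuallyLE ball_subset_closedBall)
      _ ≤ ∫ x in closedBall (0 : Eu d) 3, (u k x ^ 2 + 1) ∂(ν k) := by
          refine setIntegral_mono (hfinc (huc k).abs) (hfinc (((huc k).pow 2).add_const 1))
            fun x => ?_
          change |u k x| ≤ u k x ^ 2 + 1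
          nlinarith only [sq_abs (u k x), sq_nonneg (|u k x| - 1)]
      _ = (∫ x in closedBall (0 : Eu d) 3, u k x ^ 2 ∂(ν k)) +
            ∫ x in closedBall (0 : Eu d) 3, (1 : ℝ) ∂(ν k) :=
          integral_add (hfinc ((huc k).pow 2)) (integrableOn_const hfin.ne)
      _ ≤ B + C * 3 ^ n := by
          refine add_le_add (hB k) ?_
          rw [setIntegral_const, smul_eq_mul, mul_one, Measure.real]
          refine ENNReal.toReal_le_of_le_ofReal (by positivity) ?_
          exact (hν k).upper 0 3 (by norm_num)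
  · refine Eventually.of_forall fun k => ?_
    refine le_trans ?_ (hE k)
    unfold energy
    refine setIntegral_mono_set (hi k) (Eventually.of_forall fun p => ?_)
      (LE.le.eventuallyLE (prod_mono ball_subset_closedBall ball_subset_closedBall))
    have := sK_nonneg n 0 (p.1 - p.2)
    change 0 ≤ _
    (clear * - this; positivity)
  · exact Eventually.of_forall fun k =>
      (hi k).mono_set (prod_mono ball_subset_closedBall ball_subset_closedBall)

end Vale.Agent.P120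
end
end

section

section

/-! Near-flatness gives sup-flatness. Owner: helper492 -/

open MeasureTheory Metric Set Filter Topology
open scoped ENNReal NNReal

namespace Vale.Agent.P120

variable {d n : ℕ} {μ : Measure (Eu d)} {c C : ℝ} {D : ℝ≥0∞}

/-- the scaled tent `max 0 (τ - |y-x|/r)` -/
theorem scaled_tent_lip (x : Eu d) (τ r : ℝ) (hr : 0 < r) (y z : Eu d) :
    |max 0 (τ - dist y x / r) - max 0 (τ - dist z x / r)| ≤ dist y z / r := by
  have h1 : |max 0 (τ - dist y x / r) - max 0 (τ - dist z x / r)| ≤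
      |(τ - dist y x / r) - (τ - dist z x / r)| := by
    have := abs_max_sub_max_le_abs (τ - dist y x / r) (τ - dist z x / r) 0
    rw [max_comm, max_comm (0 : ℝ)]
    exact this
  refine h1.trans ?_
  have h2 : (τ - dist y x / r) - (τ - dist z x / r) = (dist z x - dist y x) / r := by ring
  rw [h2, abs_div, abs_of_pos hr]
  gcongr
  have := abs_dist_sub_le z y x
  rw [dist_comm y z]
  exact this

theorem NF.dP_le (h : AR n c C D μ) {a : Eu d} {r K ε : ℝ} {b : Eu d} {ι : Eu n →ₗᵢ[ℝ] Eu d}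
    {g : ℝ} (hr : 0 < r) (hK : 4 ≤ K) (hrD : ENNReal.ofReal r ≤ D) {τ : ℝ} (hτ : 0 < τ)
    (hτ1 : τ ≤ 1) (hε : ε < c * (τ / 2) ^ (n + 1)) (hN : NF n μ a r K ε b ι g) {x : Eu d}
    (hx : x ∈ μ.support) (hxa : dist x a ≤ 3 * r) :
    dP (LinearMap.range ι.toLinearMap) b x ≤ τ * r := by
  by_contra hcon
  push Not at hcon
  have hlf := h.isLocallyFiniteMeasure
  set φ : Eu d → ℝ := fun y => max 0 (τ - dist y x / r) with hφ
  have h1 := hN φ (fun y z => scaled_tent_lip x τ r hr y z) (by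
    intro y hy
    have hd : (K * r : ℝ) ≤ dist y x + dist x a := hy.trans (dist_triangle _ _ _)
    have : τ ≤ dist y x / r := by
      rw [le_div_iff₀ hr]
      nlinarith only [hr, hK, hτ1, hxa, hd]
    simp only [hφ]
    apply max_eq_left
    linarith only [this])
  have h2 : ∀ v : Eu n, φ (b + ι v) = 0 := by
    intro v
    have hd : dP (LinearMap.range ι.toLinearMap) b x ≤ dist x (b + ι v) := by
      apply dP_le_dist
      simp only [add_sub_cancel_left, LinearMap.mem_range, LinearIsometry.coe_toLinearMap,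
        LinearIsometry.map_eq_iff, exists_eq]
    have : τ ≤ dist (b + ι v) x / r := by
      rw [le_div_iff₀ hr, dist_comm]
      linarith only [hcon, hd]
    simp only [hφ]
    apply max_eq_left
    linarith only [this]
  have h3 : ∫ v, φ (b + ι v) = 0 := by
    simp [h2]
  rw [h3, mul_zero, sub_zero] at h1
  have hφ0 : ∀ y, 0 ≤ φ y := fun y => le_max_left _ _
  have hφc : Continuous φ := by
    simp only [hφ]; (clear * -; fun_prop)
  have hφcs : HasCompactSupport φ := by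
    apply HasCompactSupport.intro (isCompact_closedBall x (τ * r))
    intro y hy
    rw [mem_closedBall, not_le] at hy
    simp only [hφ]
    apply max_eq_left
    have : τ < dist y x / r := by rw [lt_div_iff₀ hr]; exact hy
    linarith only [this]
  have hφi : Integrable φ μ := hφc.integrable_of_hasCompactSupport hφcs
  have h4 : (τ / 2) * μ.real (ball x (τ / 2 * r)) ≤ ∫ y, φ y ∂μ := by
    calc (τ / 2) * μ.real (ball x (τ / 2 * r)) = ∫ y in ball x (τ / 2 * r), (τ / 2) ∂μ := by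
          rw [setIntegral_const, smul_eq_mul, mul_comm]
      _ ≤ ∫ y in ball x (τ / 2 * r), φ y ∂μ := by
          apply setIntegral_mono_on
          · have hc : ‖(τ / 2 : ℝ)‖ₑ ≠ ⊤ := enorm_ne_top
            exact integrableOn_const (measure_ball_lt_top).ne hc
          · exact hφi.integrableOn
          · exact measurableSet_ball
          · intro y hy
            rw [mem_ball] at hy
            simp only [hφ]
            refine le_max_of_le_right ?_
            have : dist y x / r < τ / 2 := by rw [div_lt_iff₀ hr]; exact hy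
            linarith only [this]
      _ ≤ ∫ y, φ y ∂μ := setIntegral_le_integral hφi (Eventually.of_forall hφ0)
  have h5 : c * (τ / 2 * r) ^ n ≤ μ.real (ball x (τ / 2 * r)) := by
    have hl := h.lower x hx (τ / 2 * r) (by positivity) (by
      refine (ENNReal.ofReal_le_ofReal ?_).trans hrD
      nlinarith only [hr, hτ1])
    have h6 : ENNReal.ofReal (c * (τ / 2 * r) ^ n) ≤ ENNReal.ofReal (μ.real (ball x (τ / 2 * r))) := by
      rw [ofReal_measureReal (measure_ball_lt_top).ne]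
      exact hl
    exact (ENNReal.ofReal_le_ofReal_iff measureReal_nonneg).1 h6
  have h6 : (τ / 2) * (c * (τ / 2 * r) ^ n) ≤ ε * r ^ n := by
    calc (τ / 2) * (c * (τ / 2 * r) ^ n) ≤ (τ / 2) * μ.real (ball x (τ / 2 * r)) := by (clear * - hτ h5; gcongr)
      _ ≤ ∫ y, φ y ∂μ := h4
      _ ≤ |∫ y, φ y ∂μ| := le_abs_self _
      _ ≤ ε * r ^ n := h1
  have h7 : (τ / 2) * (c * (τ / 2 * r) ^ n) = c * (τ / 2) ^ (n + 1) * r ^ n := by
    rw [mul_pow, pow_succ]; ring
  rw [h7] at h6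
  have h8 : ε * r ^ n < c * (τ / 2) ^ (n + 1) * r ^ n := by
    apply mul_lt_mul_of_pos_right hε (by positivity)
  linarith only [h6, h8]

/-- near-flat at `(a, r)` gives `Flat` at `(z, R)` for `R ≤ r`, `dist z a ≤ 2 r`. -/
theorem NearFlat.flat (h : AR n c C D μ) {g₀ g₁ : ℝ} {a z : Eu d} {r R K ε δ : ℝ} (hr : 0 < r)
    (hK : 4 ≤ K) (hrD : ENNReal.ofReal r ≤ D) {τ : ℝ} (hτ : 0 < τ)
    (hτ1 : τ ≤ 1) (hε : ε < c * (τ / 2) ^ (n + 1)) (hN : NearFlat n μ g₀ g₁ a r K ε)
    (hRr : R ≤ r) (hza : dist z a ≤ 2 * r) (hδ : τ * r ≤ δ * R) : Flat n μ z R δ := by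
  obtain ⟨b, ι, g, -, -, hN⟩ := hN
  refine ⟨LinearMap.range ι.toLinearMap, b, ?_, ?_⟩
  · rw [LinearMap.finrank_range_of_inj ι.injective]
    simp only [finrank_euclideanSpace, Fintype.card_fin]
  · intro x hx hxz
    refine (hN.dP_le h hr hK hrD hτ hτ1 hε hx ?_).trans hδ
    calc dist x a ≤ dist x z + dist z a := dist_triangle _ _ _
      _ ≤ 3 * r := by linarith only [hRr, hza, hxz]

end Vale.Agent.P120
end
end

section

section

open MeasureTheory Metric Set Filter Topology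
open scoped ENNReal NNReal

namespace Vale.Agent.P120

variable {d : ℕ}

/-- Exact nested Borel cubes on a set `E`, of all generations `k ≥ 0`, with side `l₀ / A ^ k`. -/
structure Cubes (E : Set (Eu d)) (A : ℕ) (l₀ : ℝ) where
  /-- centres of generation `k` -/
  N : ℕ → Set (Eu d)
  /-- parent map from generation `k+1` to generation `k` -/
  par : ℕ → Eu d → Eu d
  /-- centre of the generation `k` cube of `x` -/
  p : ℕ → Eu d → Eu d
  A_ge : 16 ≤ A
  l_pos : 0 < l₀
  N_sub : ∀ k, N k ⊆ E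
  N_sep : ∀ k, ∀ z ∈ N k, ∀ w ∈ N k, z ≠ w → l₀ / (A : ℝ) ^ k ≤ dist z w
  N_count : ∀ k, (N k).Countable
  p_mem : ∀ k, ∀ x ∈ E, p k x ∈ N k
  p_meas : ∀ k z, MeasurableSet {x | x ∈ E ∧ p k x = z}
  p_par : ∀ k, ∀ x ∈ E, par k (p (k + 1) x) = p k x
  p_dist : ∀ k, ∀ x ∈ E, dist x (p k x) ≤ 2 * (l₀ / (A : ℝ) ^ k)
  p_core : ∀ k, ∀ z ∈ N k, ∀ x ∈ E, dist x z < l₀ / (A : ℝ) ^ k / 4 → p k x = z

section construction

/-- maximal separated nets -/
lemma exists_net {E : Set (Eu d)} {x₀ : Eu d} (hx₀ : x₀ ∈ E) {r : ℝ} (hr : 0 < r) :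
    ∃ N : Set (Eu d), N ⊆ E ∧ x₀ ∈ N ∧ (∀ z ∈ N, ∀ w ∈ N, z ≠ w → r ≤ dist z w) ∧
      (∀ x ∈ E, ∃ z ∈ N, dist x z < r) ∧ N.Countable := by
  have H : ∀ c ⊆ {N : Set (Eu d) | N ⊆ E ∧ x₀ ∈ N ∧ ∀ z ∈ N, ∀ w ∈ N, z ≠ w → r ≤ dist z w},
      IsChain (· ⊆ ·) c → c.Nonempty →
      ∃ ub ∈ {N : Set (Eu d) | N ⊆ E ∧ x₀ ∈ N ∧ ∀ z ∈ N, ∀ w ∈ N, z ≠ w → r ≤ dist z w},
        ∀ s ∈ c, s ⊆ ub := by
    intro c hc hchain hne
    refine ⟨⋃₀ c, ⟨?_, ?_, ?_⟩, fun s hs => Set.subset_sUnion_of_mem hs⟩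
    · exact Set.sUnion_subset fun s hs => (hc hs).1
    · obtain ⟨s, hs⟩ := hne
      exact Set.mem_sUnion_of_mem (hc hs).2.1 hs
    · intro z ⟨s, hs, hzs⟩ w ⟨t, ht, hwt⟩ hzw
      rcases hchain.total hs ht with h | h
      · exact (hc ht).2.2 z (h hzs) w hwt hzw
      · exact (hc hs).2.2 z hzs w (h hwt) hzw
  have hx : ({x₀} : Set (Eu d)) ∈
      {N : Set (Eu d) | N ⊆ E ∧ x₀ ∈ N ∧ ∀ z ∈ N, ∀ w ∈ N, z ≠ w → r ≤ dist z w} := by
    refine ⟨by simpa using hx₀, by simp, ?_⟩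
    intro z hz w hw hzw
    simp only [Set.mem_singleton_iff] at hz hw
    exact absurd (hz.trans hw.symm) hzw
  obtain ⟨N, hsub, ⟨h1, h2, h3⟩, h4⟩ := zorn_subset_nonempty _ H {x₀} hx
  refine ⟨N, h1, h2, h3, ?_, ?_⟩
  · intro x hx
    by_contra hcon
    push Not at hcon
    have hxN : x ∉ N := fun h => by
      have := hcon x h
      rw [dist_self] at this
      linarith only [hr, this]
    have : insert x N ⊆ N := h4 ⟨Set.insert_subset hx h1, Set.mem_insert_of_mem _ h2, by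
      intro z hz w hw hzw
      rcases Set.mem_insert_iff.1 hz with hz' | hz'
      · rcases Set.mem_insert_iff.1 hw with hw' | hw'
        · exact absurd (hz'.trans hw'.symm) hzw
        · rw [hz']; exact hcon w hw'
      · rcases Set.mem_insert_iff.1 hw with hw' | hw'
        · rw [hw', dist_comm]; exact hcon z hz'
        · exact h3 z hz' w hw' hzw⟩ (Set.subset_insert x N)
    exact hxN (this (Set.mem_insert x N))
  · have : N.PairwiseDisjoint (fun z => ball z (r / 2)) := by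
      intro z hz w hw hzw
      exact ball_disjoint_ball (by linarith only [h3 z hz w hw hzw, h3, hz, hw, hzw])
    exact this.countable_of_isOpen (fun _ _ => isOpen_ball)
      (fun z _ => ⟨z, mem_ball_self (by positivity)⟩)

lemma net_finite {N : Set (Eu d)} {r : ℝ} (hr : 0 < r)
    (hsep : ∀ z ∈ N, ∀ w ∈ N, z ≠ w → r ≤ dist z w) (x : Eu d) (R : ℝ) :
    (N ∩ closedBall x R).Finite := by
  obtain ⟨t, -, htf, hcov⟩ := (isCompact_closedBall x R).finite_cover_balls (half_pos hr)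
  have hfin : ∀ y ∈ t, (N ∩ ball y (r / 2)).Finite := by
    intro y _
    apply Set.Subsingleton.finite
    intro z hz w hw
    by_contra hzw
    have h1 := hsep z hz.1 w hw.1 hzw
    have h2 := dist_triangle_right z w y
    have h3 := mem_ball.1 hz.2
    have h4 := mem_ball.1 hw.2
    linarith only [h1, h2, h3, h4]
  refine (htf.biUnion hfin).subset ?_
  intro z hz
  obtain ⟨y, hy, hzy⟩ := Set.mem_iUnion₂.1 (hcov hz.2)
  exact Set.mem_iUnion₂.2 ⟨y, hy, hz.1, hzy⟩

/-- parent map on nets -/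
noncomputable def cPar (N : ℕ → Set (Eu d)) (l : ℕ → ℝ) (k : ℕ) (y : Eu d) : Eu d :=
  open Classical in
  if h : ∃ z ∈ N k, dist y z < l k / 2 then h.choose
  else if h' : ∃ z ∈ N k, dist y z < l k then h'.choose else y

/-- iterated parent -/
noncomputable def cAnc (N : ℕ → Set (Eu d)) (l : ℕ → ℝ) : ℕ → ℕ → Eu d → Eu d
  | _, 0, y => y
  | k, m + 1, y => cPar N l k (cAnc N l (k + 1) m y)

/-- the first net point close to `x` -/
noncomputable def cNear (f : ℕ → ℕ → Eu d) (l : ℕ → ℝ) (k : ℕ) (x : Eu d) : Eu d :=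
  f k (sInf {i | dist x (f k i) < l k})

/-- points which are frequently below `z` -/
def cF (E : Set (Eu d)) (N : ℕ → Set (Eu d)) (f : ℕ → ℕ → Eu d) (l : ℕ → ℝ) (k : ℕ) (z : Eu d) :
    Set (Eu d) :=
  {x | x ∈ E ∧ ∃ᶠ m in atTop, cAnc N l k m (cNear f l (k + m) x) = z}

/-- the centre map -/
noncomputable def cP (E : Set (Eu d)) (N : ℕ → Set (Eu d)) (f : ℕ → ℕ → Eu d) (l : ℕ → ℝ) :
    ℕ → Eu d → Eu d
  | 0, x => f 0 (sInf {i | x ∈ cF E N f l 0 (f 0 i)})
  | k + 1, x => f (k + 1) (sInf {i | cPar N l k (f (k + 1) i) = cP E N f l k x ∧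
      x ∈ cF E N f l (k + 1) (f (k + 1) i)})

section props

variable {E : Set (Eu d)} {N : ℕ → Set (Eu d)} {f : ℕ → ℕ → Eu d} {l : ℕ → ℝ}

lemma cPar_mem (hcov : ∀ k, ∀ x ∈ E, ∃ z ∈ N k, dist x z < l k) (k : ℕ) {y : Eu d}
    (hy : y ∈ E) : cPar N l k y ∈ N k ∧ dist y (cPar N l k y) < l k := by
  classical
  have hpos : 0 < l k := by
    obtain ⟨z, hz, hd⟩ := hcov k y hy
    exact lt_of_le_of_lt dist_nonneg hd
  unfold cPar
  split_ifs with h h'
  · exact ⟨h.choose_spec.1, by linarith only [h.choose_spec.2, hpos, h]⟩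
  · exact ⟨h'.choose_spec.1, h'.choose_spec.2⟩
  · exact absurd (hcov k y hy) h'

lemma cPar_eq (hsep : ∀ k, ∀ z ∈ N k, ∀ w ∈ N k, z ≠ w → l k ≤ dist z w) (k : ℕ) {y z : Eu d}
    (hz : z ∈ N k) (h : dist y z < l k / 2) : cPar N l k y = z := by
  classical
  have hex : ∃ z ∈ N k, dist y z < l k / 2 := ⟨z, hz, h⟩
  unfold cPar
  rw [dif_pos hex]
  by_contra hne
  have h1 := hsep k _ hex.choose_spec.1 z hz hne
  have h2 := hex.choose_spec.2
  have h3 := dist_triangle_left hex.choose z y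
  linarith only [h, hex, h1, h2, h3]

lemma cAnc_prop (hsub : ∀ k, N k ⊆ E) (hcov : ∀ k, ∀ x ∈ E, ∃ z ∈ N k, dist x z < l k)
    (hl : ∀ k, 16 * l (k + 1) ≤ l k) (hl0 : ∀ k, 0 < l k) (m : ℕ) :
    ∀ (k : ℕ) {y : Eu d}, y ∈ N (k + m) →
      cAnc N l k m y ∈ N k ∧ dist y (cAnc N l k m y) ≤ 16 / 15 * l k := by
  induction m with
  | zero =>
    intro k y hy
    refine ⟨hy, ?_⟩
    simp only [cAnc, dist_self]
    have := hl0 k
    positivity
  | succ m ih =>
    intro k y hy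
    have hy' : y ∈ N (k + 1 + m) := by
      have : k + 1 + m = k + (m + 1) := by omega
      rw [this]; exact hy
    obtain ⟨h1, h2⟩ := ih (k + 1) hy'
    obtain ⟨h3, h4⟩ := cPar_mem hcov k (hsub _ h1)
    refine ⟨h3, ?_⟩
    have h5 := dist_triangle y (cAnc N l (k + 1) m y) (cPar N l k (cAnc N l (k + 1) m y))
    have := hl k
    simp only [cAnc]
    linarith only [h2, h4, h5, this]

lemma cNear_prop (hf : ∀ k, N k = range (f k)) (hcov : ∀ k, ∀ x ∈ E, ∃ z ∈ N k, dist x z < l k)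
    (k : ℕ) {x : Eu d} (hx : x ∈ E) : cNear f l k x ∈ N k ∧ dist x (cNear f l k x) < l k := by
  have hne : {i | dist x (f k i) < l k}.Nonempty := by
    obtain ⟨z, hz, hd⟩ := hcov k x hx
    rw [hf k] at hz
    obtain ⟨i, rfl⟩ := hz
    exact ⟨i, hd⟩
  have := Nat.sInf_mem hne
  refine ⟨?_, this⟩
  rw [hf k]
  exact mem_range_self _

lemma measurableSet_idx {S : Eu d → Set ℕ}
    (hS : ∀ i, MeasurableSet {x | x ∈ E ∧ i ∈ S x}) (hne : ∀ x ∈ E, (S x).Nonempty) (i : ℕ) :
    MeasurableSet {x | x ∈ E ∧ sInf (S x) = i} := by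
  have : {x | x ∈ E ∧ sInf (S x) = i} =
      {x | x ∈ E ∧ i ∈ S x} \ ⋃ j ∈ Finset.range i, {x | x ∈ E ∧ j ∈ S x} := by
    ext x
    simp only [mem_ofPred_eq, Set.mem_sdiff, mem_iUnion, Finset.mem_range, exists_prop, not_exists,
      not_and]
    constructor
    · rintro ⟨hx, rfl⟩
      exact ⟨⟨hx, Nat.sInf_mem (hne x hx)⟩, fun j hj _ h => Nat.notMem_of_lt_sInf hj h⟩
    · rintro ⟨⟨hx, hi⟩, h⟩
      refine ⟨hx, le_antisymm (Nat.sInf_le hi) ?_⟩
      by_contra hlt
      push Not at hlt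
      exact h _ hlt hx (Nat.sInf_mem (hne x hx))
  rw [this]
  exact (hS i).diff (Finset.measurableSet_biUnion _ fun j _ => hS j)

lemma measurableSet_comp {f₀ : ℕ → Eu d} {S : Eu d → Set ℕ} (g : Eu d → Eu d)
    (hS : ∀ i, MeasurableSet {x | x ∈ E ∧ sInf (S x) = i}) (z : Eu d) :
    MeasurableSet {x | x ∈ E ∧ g (f₀ (sInf (S x))) = z} := by
  have : {x | x ∈ E ∧ g (f₀ (sInf (S x))) = z} =
      ⋃ i, ⋃ (_ : g (f₀ i) = z), {x | x ∈ E ∧ sInf (S x) = i} := by
    ext x
    simp only [mem_ofPred_eq, mem_iUnion, exists_prop]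
    constructor
    · rintro ⟨hx, h⟩
      exact ⟨_, h, hx, rfl⟩
    · rintro ⟨i, h, hx, rfl⟩
      exact ⟨hx, h⟩
  rw [this]
  exact MeasurableSet.iUnion fun i => MeasurableSet.iUnion fun _ => hS i

lemma measurableSet_cNear (hE : MeasurableSet E) (hf : ∀ k, N k = range (f k))
    (hcov : ∀ k, ∀ x ∈ E, ∃ z ∈ N k, dist x z < l k) (g : Eu d → Eu d) (k : ℕ) (z : Eu d) :
    MeasurableSet {x | x ∈ E ∧ g (cNear f l k x) = z} := by
  refine measurableSet_comp (S := fun x => {i | dist x (f k i) < l k}) g ?_ z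
  refine measurableSet_idx ?_ ?_
  · intro i
    exact hE.inter (isOpen_ball (x := f k i) (ε := l k)).measurableSet
  · intro x hx
    obtain ⟨z, hz, hd⟩ := hcov k x hx
    rw [hf k] at hz
    obtain ⟨i, rfl⟩ := hz
    exact ⟨i, hd⟩

lemma measurableSet_cF (hE : MeasurableSet E) (hf : ∀ k, N k = range (f k))
    (hcov : ∀ k, ∀ x ∈ E, ∃ z ∈ N k, dist x z < l k) (k : ℕ) (z : Eu d) :
    MeasurableSet (cF E N f l k z) := by
  have : cF E N f l k z =
      ⋂ n : ℕ, ⋃ m : ℕ, ⋃ (_ : n ≤ m), {x | x ∈ E ∧ cAnc N l k m (cNear f l (k + m) x) = z} := by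
    ext x
    simp only [cF, mem_ofPred_eq, mem_iInter, mem_iUnion, exists_prop, frequently_atTop]
    constructor
    · rintro ⟨hx, h⟩ n
      obtain ⟨m, hm, h⟩ := h n
      exact ⟨m, hm, hx, h⟩
    · intro h
      refine ⟨(h 0).choose_spec.2.1, fun n => ?_⟩
      obtain ⟨m, hm, _, h⟩ := h n
      exact ⟨m, hm, h⟩
  rw [this]
  exact MeasurableSet.iInter fun n => MeasurableSet.iUnion fun m => MeasurableSet.iUnion fun _ =>
    measurableSet_cNear hE hf hcov _ _ _

lemma freq_finite {α : Type*} {S : Set α} (hS : S.Finite) {a : ℕ → α} {Q : α → Prop}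
    (hmem : ∀ᶠ m in atTop, a m ∈ S) (hfr : ∃ᶠ m in atTop, Q (a m)) :
    ∃ y ∈ S, Q y ∧ ∃ᶠ m in atTop, a m = y := by
  by_contra hcon
  push Not at hcon
  have h1 : ∀ y ∈ S, ∀ᶠ m in atTop, ¬ (Q y ∧ a m = y) := by
    intro y hy
    by_cases hQ : Q y
    · have := hcon y hy hQ
      filter_upwards [this] with m hm h
      exact hm h.2
    · exact Eventually.of_forall fun m h => hQ h.1
  have h2 := (Filter.eventually_all_finite hS).2 h1
  obtain ⟨m, ⟨hm1, hm2⟩, hm3⟩ := ((hfr.and_eventually hmem).and_eventually h2).exists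
  exact hm3 _ hm2 ⟨hm1, rfl⟩

lemma l_add_le (hl : ∀ k, 16 * l (k + 1) ≤ l k) (hl0 : ∀ k, 0 < l k) (k m : ℕ) :
    l (k + m) ≤ l k := by
  induction m with
  | zero => exact le_rfl
  | succ m ih =>
    have := hl (k + m)
    have h2 := hl0 (k + m + 1)
    have h3 : k + (m + 1) = k + m + 1 := by omega
    rw [h3]
    linarith only [ih, this, h2]

lemma cAnc_cNear (hf : ∀ k, N k = range (f k)) (hsub : ∀ k, N k ⊆ E)
    (hcov : ∀ k, ∀ x ∈ E, ∃ z ∈ N k, dist x z < l k)
    (hl : ∀ k, 16 * l (k + 1) ≤ l k) (hl0 : ∀ k, 0 < l k) (k : ℕ) {m : ℕ} (hm : 1 ≤ m)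
    {x : Eu d} (hx : x ∈ E) :
    cAnc N l k m (cNear f l (k + m) x) ∈ N k ∧
      dist x (cAnc N l k m (cNear f l (k + m) x)) ≤ 2 * l k := by
  obtain ⟨h1, h2⟩ := cNear_prop hf hcov (k + m) hx
  obtain ⟨h3, h4⟩ := cAnc_prop hsub hcov hl hl0 m k h1
  refine ⟨h3, ?_⟩
  have h5 := dist_triangle x (cNear f l (k + m) x) (cAnc N l k m (cNear f l (k + m) x))
  obtain ⟨m', rfl⟩ : ∃ m', m = m' + 1 := ⟨m - 1, by omega⟩
  have h6 : k + (m' + 1) = k + 1 + m' := by omega
  have h7 := l_add_le hl hl0 (k + 1) m'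
  rw [← h6] at h7
  have h8 := hl k
  have h9 := hl0 k
  linarith only [h2, h4, h5, h7, h8, h9]

lemma cAnc_core (hf : ∀ k, N k = range (f k)) (hsub : ∀ k, N k ⊆ E)
    (hsep : ∀ k, ∀ z ∈ N k, ∀ w ∈ N k, z ≠ w → l k ≤ dist z w)
    (hcov : ∀ k, ∀ x ∈ E, ∃ z ∈ N k, dist x z < l k)
    (hl : ∀ k, 16 * l (k + 1) ≤ l k) (hl0 : ∀ k, 0 < l k) (k : ℕ) {m : ℕ} (hm : 1 ≤ m)
    {x z : Eu d} (hx : x ∈ E) (hz : z ∈ N k) (hd : dist x z < l k / 4) :
    cAnc N l k m (cNear f l (k + m) x) = z := by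
  obtain ⟨m', rfl⟩ : ∃ m', m = m' + 1 := ⟨m - 1, by omega⟩
  have h6 : k + (m' + 1) = k + 1 + m' := by omega
  rw [h6]
  simp only [cAnc]
  apply cPar_eq hsep k hz
  obtain ⟨h1, h2⟩ := cNear_prop hf hcov (k + 1 + m') hx
  obtain ⟨h3, h4⟩ := cAnc_prop hsub hcov hl hl0 m' (k + 1) h1
  have h5 := dist_triangle_left (cAnc N l (k + 1) m' (cNear f l (k + 1 + m') x)) z x
  have h6 := dist_triangle x (cNear f l (k + 1 + m') x)
    (cAnc N l (k + 1) m' (cNear f l (k + 1 + m') x))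
  have h7 := l_add_le hl hl0 (k + 1) m'
  have h8 := hl k
  have h9 := hl0 k
  linarith only [hd, h2, h4, h5, h6, h7, h8, h9]

lemma cF_dist (hf : ∀ k, N k = range (f k)) (hsub : ∀ k, N k ⊆ E)
    (hcov : ∀ k, ∀ x ∈ E, ∃ z ∈ N k, dist x z < l k)
    (hl : ∀ k, 16 * l (k + 1) ≤ l k) (hl0 : ∀ k, 0 < l k) (k : ℕ)
    {x z : Eu d} (hx : x ∈ cF E N f l k z) : z ∈ N k ∧ dist x z ≤ 2 * l k := by
  obtain ⟨m, hm1, hm2⟩ := (frequently_atTop.1 hx.2 1)
  have := cAnc_cNear hf hsub hcov hl hl0 k hm1 hx.1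
  rwa [hm2] at this

lemma cF_core (hf : ∀ k, N k = range (f k)) (hsub : ∀ k, N k ⊆ E)
    (hsep : ∀ k, ∀ z ∈ N k, ∀ w ∈ N k, z ≠ w → l k ≤ dist z w)
    (hcov : ∀ k, ∀ x ∈ E, ∃ z ∈ N k, dist x z < l k)
    (hl : ∀ k, 16 * l (k + 1) ≤ l k) (hl0 : ∀ k, 0 < l k) (k : ℕ)
    {x z z' : Eu d} (hx : x ∈ cF E N f l k z') (hz : z ∈ N k) (hd : dist x z < l k / 4) :
    z' = z := by
  obtain ⟨m, hm1, hm2⟩ := (frequently_atTop.1 hx.2 1)
  rw [← hm2]
  exact cAnc_core hf hsub hsep hcov hl hl0 k hm1 hx.1 hz hd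

lemma cF_cover (hf : ∀ k, N k = range (f k)) (hsub : ∀ k, N k ⊆ E)
    (hsep : ∀ k, ∀ z ∈ N k, ∀ w ∈ N k, z ≠ w → l k ≤ dist z w)
    (hcov : ∀ k, ∀ x ∈ E, ∃ z ∈ N k, dist x z < l k)
    (hl : ∀ k, 16 * l (k + 1) ≤ l k) (hl0 : ∀ k, 0 < l k) (k : ℕ)
    {x : Eu d} (hx : x ∈ E) : ∃ z ∈ N k, x ∈ cF E N f l k z := by
  have hfin := net_finite (hl0 k) (hsep k) x (2 * l k)
  obtain ⟨y, hy, -, hfr⟩ := freq_finite hfin (a := fun m => cAnc N l k m (cNear f l (k + m) x))
    (Q := fun _ => True) (by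
      filter_upwards [eventually_ge_atTop 1] with m hm
      have := cAnc_cNear hf hsub hcov hl hl0 k hm hx
      exact ⟨this.1, by rw [mem_closedBall']; exact this.2⟩)
    (Eventually.frequently (Eventually.of_forall fun _ => trivial))
  exact ⟨y, hy.1, hx, hfr⟩

lemma cF_split (hf : ∀ k, N k = range (f k)) (hsub : ∀ k, N k ⊆ E)
    (hsep : ∀ k, ∀ z ∈ N k, ∀ w ∈ N k, z ≠ w → l k ≤ dist z w)
    (hcov : ∀ k, ∀ x ∈ E, ∃ z ∈ N k, dist x z < l k)
    (hl : ∀ k, 16 * l (k + 1) ≤ l k) (hl0 : ∀ k, 0 < l k) (k : ℕ)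
    {x z : Eu d} (hx : x ∈ cF E N f l k z) :
    ∃ y ∈ N (k + 1), cPar N l k y = z ∧ x ∈ cF E N f l (k + 1) y := by
  have hfin := net_finite (hl0 (k + 1)) (hsep (k + 1)) x (2 * l (k + 1))
  obtain ⟨y, hy, hQ, hfr⟩ := freq_finite hfin
    (a := fun m => cAnc N l (k + 1) m (cNear f l (k + 1 + m) x))
    (Q := fun y => cPar N l k y = z) (by
      filter_upwards [eventually_ge_atTop 1] with m hm
      have := cAnc_cNear hf hsub hcov hl hl0 (k + 1) hm hx.1
      exact ⟨this.1, by rw [mem_closedBall']; exact this.2⟩) (by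
      rw [frequently_atTop]
      intro n
      obtain ⟨m, hm1, hm2⟩ := frequently_atTop.1 hx.2 (n + 1)
      obtain ⟨m', rfl⟩ : ∃ m', m = m' + 1 := ⟨m - 1, by omega⟩
      refine ⟨m', by omega, ?_⟩
      have h6 : k + (m' + 1) = k + 1 + m' := by omega
      rw [h6] at hm2
      exact hm2)
  exact ⟨y, hy.1, hQ, hx.1, hfr⟩

lemma cP_prop (hf : ∀ k, N k = range (f k)) (hsub : ∀ k, N k ⊆ E)
    (hsep : ∀ k, ∀ z ∈ N k, ∀ w ∈ N k, z ≠ w → l k ≤ dist z w)
    (hcov : ∀ k, ∀ x ∈ E, ∃ z ∈ N k, dist x z < l k)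
    (hl : ∀ k, 16 * l (k + 1) ≤ l k) (hl0 : ∀ k, 0 < l k)
    {x : Eu d} (hx : x ∈ E) (k : ℕ) :
    x ∈ cF E N f l k (cP E N f l k x) ∧
      {i | cPar N l k (f (k + 1) i) = cP E N f l k x ∧
        x ∈ cF E N f l (k + 1) (f (k + 1) i)}.Nonempty := by
  have step : ∀ k, x ∈ cF E N f l k (cP E N f l k x) →
      {i | cPar N l k (f (k + 1) i) = cP E N f l k x ∧
        x ∈ cF E N f l (k + 1) (f (k + 1) i)}.Nonempty := by
    intro k h
    obtain ⟨y, hy, h1, h2⟩ := cF_split hf hsub hsep hcov hl hl0 k h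
    rw [hf] at hy
    obtain ⟨i, rfl⟩ := hy
    exact ⟨i, h1, h2⟩
  have main : x ∈ cF E N f l k (cP E N f l k x) := by
    induction k with
    | zero =>
      have hne : {i | x ∈ cF E N f l 0 (f 0 i)}.Nonempty := by
        obtain ⟨z, hz, h⟩ := cF_cover hf hsub hsep hcov hl hl0 0 hx
        rw [hf] at hz
        obtain ⟨i, rfl⟩ := hz
        exact ⟨i, h⟩
      exact Nat.sInf_mem hne
    | succ k ih => exact (Nat.sInf_mem (step k ih)).2
  exact ⟨main, step k main⟩

lemma cP_par (hf : ∀ k, N k = range (f k)) (hsub : ∀ k, N k ⊆ E)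
    (hsep : ∀ k, ∀ z ∈ N k, ∀ w ∈ N k, z ≠ w → l k ≤ dist z w)
    (hcov : ∀ k, ∀ x ∈ E, ∃ z ∈ N k, dist x z < l k)
    (hl : ∀ k, 16 * l (k + 1) ≤ l k) (hl0 : ∀ k, 0 < l k)
    {x : Eu d} (hx : x ∈ E) (k : ℕ) :
    cPar N l k (cP E N f l (k + 1) x) = cP E N f l k x :=
  (Nat.sInf_mem (cP_prop hf hsub hsep hcov hl hl0 hx k).2).1

lemma measurableSet_cP (hE : MeasurableSet E) (hf : ∀ k, N k = range (f k))
    (hsub : ∀ k, N k ⊆ E)
    (hsep : ∀ k, ∀ z ∈ N k, ∀ w ∈ N k, z ≠ w → l k ≤ dist z w)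
    (hcov : ∀ k, ∀ x ∈ E, ∃ z ∈ N k, dist x z < l k)
    (hl : ∀ k, 16 * l (k + 1) ≤ l k) (hl0 : ∀ k, 0 < l k) (k : ℕ) :
    ∀ z, MeasurableSet {x | x ∈ E ∧ cP E N f l k x = z} := by
  induction k with
  | zero =>
    intro z
    refine measurableSet_comp (S := fun x => {i | x ∈ cF E N f l 0 (f 0 i)}) id ?_ z
    refine measurableSet_idx ?_ ?_
    · intro i
      exact hE.inter (measurableSet_cF hE hf hcov 0 (f 0 i))
    · intro x hx
      obtain ⟨z, hz, h⟩ := cF_cover hf hsub hsep hcov hl hl0 0 hx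
      rw [hf] at hz
      obtain ⟨i, rfl⟩ := hz
      exact ⟨i, h⟩
  | succ k ih =>
    intro z
    refine measurableSet_comp (S := fun x => {i | cPar N l k (f (k + 1) i) = cP E N f l k x ∧
      x ∈ cF E N f l (k + 1) (f (k + 1) i)}) id ?_ z
    refine measurableSet_idx ?_ ?_
    · intro i
      have : {x | x ∈ E ∧ i ∈ {i | cPar N l k (f (k + 1) i) = cP E N f l k x ∧
          x ∈ cF E N f l (k + 1) (f (k + 1) i)}} =
          {x | x ∈ E ∧ cP E N f l k x = cPar N l k (f (k + 1) i)} ∩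
            cF E N f l (k + 1) (f (k + 1) i) := by
        ext x
        simp only [mem_ofPred_eq, mem_inter_iff]
        constructor
        · rintro ⟨h1, h2, h3⟩
          exact ⟨⟨h1, h2.symm⟩, h3⟩
        · rintro ⟨⟨h1, h2⟩, h3⟩
          exact ⟨h1, h2.symm, h3⟩
      rw [this]
      exact (ih _).inter (measurableSet_cF hE hf hcov _ _)
    · intro x hx
      exact (cP_prop hf hsub hsep hcov hl hl0 hx k).2

end props

end construction

/-- Existence of a cube system with a prescribed root centre. -/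
theorem exists_cubes {E : Set (Eu d)} (hE : MeasurableSet E) {x₀ : Eu d} (hx₀ : x₀ ∈ E) {A : ℕ}
    (hA : 16 ≤ A) {l₀ : ℝ} (hl₀ : 0 < l₀) : ∃ Q : Cubes E A l₀, x₀ ∈ Q.N 0 := by
  have hA0 : (0 : ℝ) < A := by
    have : (16 : ℝ) ≤ A := by exact_mod_cast hA
    linarith only [this]
  have hl0 : ∀ k : ℕ, 0 < l₀ / (A : ℝ) ^ k := fun k => by positivity
  have hl : ∀ k : ℕ, 16 * (l₀ / (A : ℝ) ^ (k + 1)) ≤ l₀ / (A : ℝ) ^ k := by
    intro k
    have h16 : (16 : ℝ) ≤ A := by exact_mod_cast hA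
    rw [pow_succ, ← div_div]
    have h1 := hl0 k
    rw [mul_div_assoc', div_le_iff₀ hA0]
    nlinarith only [h16, h1]
  choose N hsub hx hsep hcov hcount using fun k => exists_net (E := E) hx₀ (hl0 k)
  choose f hf using fun k => (hcount k).exists_eq_range ⟨x₀, hx k⟩
  refine ⟨{ N := N, par := cPar N (fun k => l₀ / (A : ℝ) ^ k),
            p := cP E N f (fun k => l₀ / (A : ℝ) ^ k), A_ge := hA, l_pos := hl₀,
            N_sub := hsub, N_sep := hsep, N_count := hcount, p_mem := ?_, p_meas := ?_,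
            p_par := ?_, p_dist := ?_, p_core := ?_ }, hx 0⟩
  · intro k x hx
    exact (cF_dist hf hsub hcov hl hl0 k (cP_prop hf hsub hsep hcov hl hl0 hx k).1).1
  · intro k z
    exact measurableSet_cP hE hf hsub hsep hcov hl hl0 k z
  · intro k x hx
    exact cP_par hf hsub hsep hcov hl hl0 hx k
  · intro k x hx
    exact (cF_dist hf hsub hcov hl hl0 k (cP_prop hf hsub hsep hcov hl hl0 hx k).1).2
  · intro k z hz x hx hd
    exact cF_core hf hsub hsep hcov hl hl0 k (cP_prop hf hsub hsep hcov hl hl0 hx k).1 hz hd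

namespace Cubes

variable {E : Set (Eu d)} {A : ℕ} {l₀ : ℝ} (Q : Cubes E A l₀)

/-- side length of the cubes of generation `k` -/
noncomputable def l (_Q : Cubes E A l₀) (k : ℕ) : ℝ := l₀ / (A : ℝ) ^ k

/-- the cube of generation `k` with centre `z` -/
def cube (k : ℕ) (z : Eu d) : Set (Eu d) := {x | x ∈ E ∧ Q.p k x = z}

include Q in
lemma A_ge' : (16 : ℝ) ≤ A := by exact_mod_cast Q.A_ge

include Q in
lemma A_pos' : (0 : ℝ) < A := by linarith only [Q.A_ge']

lemma l_pos' (k : ℕ) : 0 < Q.l k := by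
  have := Q.A_pos'
  have := Q.l_pos
  unfold l
  positivity

@[simp] lemma l_zero : Q.l 0 = l₀ := by simp [l]

lemma l_succ (k : ℕ) : Q.l k = A * Q.l (k + 1) := by
  have := Q.A_pos'
  unfold l
  rw [pow_succ]
  field_simp

lemma l_succ_le (k : ℕ) : 16 * Q.l (k + 1) ≤ Q.l k := by
  rw [Q.l_succ k]
  exact mul_le_mul_of_nonneg_right Q.A_ge' (Q.l_pos' _).le

lemma l_anti {i j : ℕ} (h : i ≤ j) : Q.l j ≤ Q.l i := by
  induction j, h using Nat.le_induction with
  | base => exact le_rfl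
  | succ j _ ih => linarith only [Q.l_succ_le j, Q.l_pos' (j + 1), ih]

lemma l_lt {i j : ℕ} (h : i < j) : 16 * Q.l j ≤ Q.l i := by
  have := Q.l_anti (show i + 1 ≤ j from h)
  linarith only [Q.l_succ_le i, this]

lemma exists_l_lt {t : ℝ} (ht : 0 < t) : ∃ k, Q.l k < t := by
  obtain ⟨k, hk⟩ := exists_pow_lt_of_lt_one (div_pos ht Q.l_pos)
    (show (1 : ℝ) / A < 1 by rw [div_lt_one Q.A_pos']; linarith only [Q.A_ge'])
  refine ⟨k, ?_⟩
  unfold l
  rw [one_div, inv_pow, lt_div_iff₀ Q.l_pos] at hk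
  rw [div_eq_inv_mul]
  exact hk

lemma p_memE {k : ℕ} {x : Eu d} (hx : x ∈ E) : Q.p k x ∈ E := Q.N_sub k (Q.p_mem k x hx)

lemma p_self {k : ℕ} {z : Eu d} (hz : z ∈ Q.N k) : Q.p k z = z :=
  Q.p_core k z hz z (Q.N_sub k hz) (by
    rw [dist_self]; have := Q.l_pos' k; unfold l at this; positivity)

lemma p_nest {i j : ℕ} (hij : i ≤ j) {x y : Eu d} (hx : x ∈ E) (hy : y ∈ E)
    (h : Q.p j x = Q.p j y) : Q.p i x = Q.p i y := by
  induction j, hij using Nat.le_induction with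
  | base => exact h
  | succ j _ ih =>
    apply ih
    rw [← Q.p_par j x hx, ← Q.p_par j y hy, h]

lemma p_p {i j : ℕ} (hij : i ≤ j) {x : Eu d} (hx : x ∈ E) : Q.p i (Q.p j x) = Q.p i x :=
  Q.p_nest hij (Q.p_memE hx) hx (Q.p_self (Q.p_mem j x hx))

lemma dist_p (k : ℕ) {x : Eu d} (hx : x ∈ E) : dist x (Q.p k x) ≤ 2 * Q.l k := Q.p_dist k x hx

lemma measurableSet_cube (k : ℕ) (z : Eu d) : MeasurableSet (Q.cube k z) := Q.p_meas k z

lemma cube_subset (k : ℕ) (z : Eu d) : Q.cube k z ⊆ closedBall z (2 * Q.l k) := by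
  rintro x ⟨hx, rfl⟩
  exact Q.dist_p k hx

lemma ball_subset_cube {k : ℕ} {z : Eu d} (hz : z ∈ Q.N k) :
    E ∩ ball z (Q.l k / 4) ⊆ Q.cube k z :=
  fun x hx => ⟨hx.1, Q.p_core k z hz x hx.1 hx.2⟩

lemma cube_disjoint {k : ℕ} {z w : Eu d} (h : z ≠ w) : Disjoint (Q.cube k z) (Q.cube k w) := by
  rw [Set.disjoint_left]
  rintro x ⟨_, h1⟩ ⟨_, h2⟩
  exact h (h1.symm.trans h2)

lemma dist_of_p_ne {k : ℕ} {z x : Eu d} (hz : z ∈ Q.N k) (hx : x ∈ E) (h : Q.p k x ≠ z) :
    Q.l k / 4 ≤ dist x z := by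
  by_contra hlt
  push Not at hlt
  exact h (Q.p_core k z hz x hx hlt)

end Cubes

end Vale.Agent.P120
end
end

section

section

/-! Linear algebra and volume estimates for Theorem B -/

open MeasureTheory Metric Set Filter Topology
open scoped ENNReal NNReal RealInnerProductSpace

namespace Vale.Agent.P120

variable {n d : ℕ}

/-- the adjoint projection of a linear isometry -/
noncomputable def pr (ι : Eu n →ₗᵢ[ℝ] Eu d) : Eu d →L[ℝ] Eu n :=
  ContinuousLinearMap.adjoint ι.toContinuousLinearMap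

lemma inner_pr_left (ι : Eu n →ₗᵢ[ℝ] Eu d) (x : Eu d) (u : Eu n) :
    ⟪pr ι x, u⟫ = ⟪x, ι u⟫ := ContinuousLinearMap.adjoint_inner_left _ _ _

lemma inner_pr_right (ι : Eu n →ₗᵢ[ℝ] Eu d) (x : Eu d) (u : Eu n) :
    ⟪u, pr ι x⟫ = ⟪ι u, x⟫ := ContinuousLinearMap.adjoint_inner_right _ _ _

@[simp] lemma pr_apply_self (ι : Eu n →ₗᵢ[ℝ] Eu d) (u : Eu n) : pr ι (ι u) = u := by
  apply ext_inner_right ℝ
  intro v
  rw [inner_pr_left, LinearIsometry.inner_map_map]

lemma norm_pr_le (ι : Eu n →ₗᵢ[ℝ] Eu d) (x : Eu d) : ‖pr ι x‖ ≤ ‖x‖ := by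
  have h : ‖pr ι x‖ * ‖pr ι x‖ ≤ ‖x‖ * ‖pr ι x‖ := by
    rw [← real_inner_self_eq_norm_mul_norm, inner_pr_left]
    calc _ ≤ ‖x‖ * ‖ι (pr ι x)‖ := real_inner_le_norm _ _
      _ = _ := by rw [LinearIsometry.norm_map]
  by_cases h0 : ‖pr ι x‖ = 0
  · rw [h0]; (clear * -; positivity)
  · exact le_of_mul_le_mul_right h (lt_of_le_of_ne (norm_nonneg _) (Ne.symm h0))

/-- non-degeneracy of `ι` with respect to the reference `ι₀` -/
def Nondeg (κ : ℝ) (ι₀ ι : Eu n →ₗᵢ[ℝ] Eu d) : Prop := ∀ u : Eu n, κ * ‖u‖ ≤ ‖pr ι (ι₀ u)‖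

lemma nondeg_self {κ : ℝ} (hκ : κ ≤ 1) (ι : Eu n →ₗᵢ[ℝ] Eu d) : Nondeg κ ι ι := by
  intro u
  rw [pr_apply_self]
  nlinarith only [norm_nonneg u, hκ]

lemma Nondeg.surj {κ : ℝ} (hκ : 0 < κ) {ι₀ ι : Eu n →ₗᵢ[ℝ] Eu d} (h : Nondeg κ ι₀ ι) (v : Eu n) :
    ∃ u, pr ι (ι₀ u) = v := by
  have hinj : Function.Injective ((pr ι).toLinearMap ∘ₗ ι₀.toLinearMap) := by
    rw [← LinearMap.ker_eq_bot, LinearMap.ker_eq_bot']
    intro u hu
    have h1 := h u
    have h2 : pr ι (ι₀ u) = 0 := hu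
    rw [h2, norm_zero] at h1
    have : ‖u‖ ≤ 0 := by nlinarith only [hκ, h1]
    exact norm_le_zero_iff.1 this
  exact (LinearMap.injective_iff_surjective.1 hinj) v

lemma Nondeg.lower {κ : ℝ} (hκ : 0 < κ) {ι₀ ι : Eu n →ₗᵢ[ℝ] Eu d} (h : Nondeg κ ι₀ ι)
    (v : Eu n) : κ * ‖v‖ ≤ ‖pr ι₀ (ι v)‖ := by
  obtain ⟨u, hu⟩ := h.surj hκ v
  have h1 := h u
  rw [hu] at h1
  have h2 : ‖v‖ * ‖v‖ ≤ ‖pr ι₀ (ι v)‖ * ‖u‖ := by
    rw [← real_inner_self_eq_norm_mul_norm]
    calc ⟪v, v⟫ = ⟪v, pr ι (ι₀ u)⟫ := by rw [hu]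
      _ = ⟪ι v, ι₀ u⟫ := inner_pr_right _ _ _
      _ = ⟪pr ι₀ (ι v), u⟫ := (inner_pr_left _ _ _).symm
      _ ≤ _ := real_inner_le_norm _ _
  by_cases hv : ‖v‖ = 0
  · rw [hv, mul_zero]; (clear * -; positivity)
  · have hv' : 0 < ‖v‖ := lt_of_le_of_ne (norm_nonneg _) (Ne.symm hv)
    have h3 : κ * (‖v‖ * ‖v‖) ≤ ‖pr ι₀ (ι v)‖ * ‖v‖ := by
      calc κ * (‖v‖ * ‖v‖) ≤ κ * (‖pr ι₀ (ι v)‖ * ‖u‖) := by gcongr
        _ = ‖pr ι₀ (ι v)‖ * (κ * ‖u‖) := by ring
        _ ≤ _ := by (clear * - h1; gcongr)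
    have h4 : (κ * ‖v‖) * ‖v‖ ≤ ‖pr ι₀ (ι v)‖ * ‖v‖ := by linarith only [h3]
    exact le_of_mul_le_mul_right h4 hv'

lemma Nondeg.surj' {κ : ℝ} (hκ : 0 < κ) {ι₀ ι : Eu n →ₗᵢ[ℝ] Eu d} (h : Nondeg κ ι₀ ι)
    (q : Eu n) : ∃ v, pr ι₀ (ι v) = q ∧ κ * ‖v‖ ≤ ‖q‖ := by
  have h' : Nondeg κ ι ι₀ := fun v => h.lower hκ v
  obtain ⟨v, hv⟩ := h'.surj hκ q
  exact ⟨v, hv, by rw [← hv]; exact h.lower hκ v⟩

/-- volume of the intersection of a ball with a slab -/
lemma volume_slab_le (u : Eu n) (hu : ‖u‖ = 1) (p₀ : Eu n) {s r : ℝ} (hs : 0 ≤ s) (hr : 0 ≤ r) :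
    volume {p : Eu n | |⟪p - p₀, u⟫| ≤ s ∧ ‖p - p₀‖ ≤ r} ≤
      ENNReal.ofReal (2 * s * (2 * r) ^ (n - 1)) := by
  have hn : 0 < n := by
    rcases Nat.eq_zero_or_pos n with rfl | h
    · exfalso
      have : u = 0 := Subsingleton.elim _ _
      rw [this, norm_zero] at hu
      norm_num at hu
    · exact h
  -- orthonormal basis with first vector `u`
  obtain ⟨b, hb⟩ : ∃ b : OrthonormalBasis (Fin n) ℝ (Eu n), b ⟨0, hn⟩ = u := by
    have horth : Orthonormal ℝ
        (({⟨0, hn⟩} : Set (Fin n)).domRestrict (fun _ : Fin n => u)) := by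
      constructor
      · intro i; exact hu
      · intro i j hij
        exact absurd (Subsingleton.elim i j) hij
    obtain ⟨b, hb⟩ := horth.exists_orthonormalBasis_extension_of_card_eq
      (by simp only [finrank_euclideanSpace, Fintype.card_fin]) (v := fun _ : Fin n => u)
    exact ⟨b, by simpa using hb ⟨0, hn⟩ (by simp)⟩
  have hmp := b.measurePreserving_repr
  -- the set is contained in the preimage of a box
  set T : Set (Eu n) := {p | ∀ i, |p i - b.repr p₀ i| ≤ if i = ⟨0, hn⟩ then s else r} with hT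
  have hsub : {p : Eu n | |⟪p - p₀, u⟫| ≤ s ∧ ‖p - p₀‖ ≤ r} ⊆ b.repr ⁻¹' T := by
    intro p ⟨h1, h2⟩ i
    have h3 : b.repr p i - b.repr p₀ i = ⟪b i, p - p₀⟫ := by
      rw [← OrthonormalBasis.repr_apply_apply, map_sub]; rfl
    rw [h3]
    split_ifs with hi
    · rw [hi, hb, real_inner_comm]; exact h1
    · calc |⟪b i, p - p₀⟫| ≤ ‖b i‖ * ‖p - p₀‖ := abs_real_inner_le_norm _ _
        _ = ‖p - p₀‖ := by rw [b.orthonormal.1 i, one_mul]
        _ ≤ r := h2
  have hTm : MeasurableSet T := by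
    have : T = ⋂ i, {p : Eu n | |p i - b.repr p₀ i| ≤ if i = ⟨0, hn⟩ then s else r} := by
      ext p; simp only [hT, mem_ofPred_eq, mem_iInter]
    rw [this]
    refine MeasurableSet.iInter fun i => ?_
    apply measurableSet_le _ measurable_const
    fun_prop
  calc volume {p : Eu n | |⟪p - p₀, u⟫| ≤ s ∧ ‖p - p₀‖ ≤ r} ≤ volume (b.repr ⁻¹' T) :=
        measure_mono hsub
    _ = volume T := hmp.measure_preimage hTm.nullMeasurableSet
    _ = volume ((WithLp.ofLp : Eu n → Fin n → ℝ) ⁻¹' (Set.pi univ fun i =>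
          Icc (b.repr p₀ i - if i = ⟨0, hn⟩ then s else r)
            (b.repr p₀ i + if i = ⟨0, hn⟩ then s else r))) := by
      congr 1
      ext p
      simp only [hT, mem_ofPred_eq, mem_preimage, Set.mem_pi, mem_univ, true_implies, mem_Icc,
        abs_le]
      refine forall_congr' fun i => ?_
      constructor
      · rintro ⟨h1, h2⟩; constructor <;> linarith only [hn, h1, h2]
      · rintro ⟨h1, h2⟩; constructor <;> linarith
    _ = ∏ i : Fin n, ENNReal.ofReal (2 * if i = ⟨0, hn⟩ then s else r) := by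
      rw [(PiLp.volume_preserving_ofLp (Fin n)).measure_preimage
        (MeasurableSet.univ_pi fun i => measurableSet_Icc).nullMeasurableSet, volume_pi_pi]
      refine Finset.prod_congr rfl fun i _ => ?_
      rw [Real.volume_Icc]
      congr 1
      ring
    _ = ENNReal.ofReal (2 * s * (2 * r) ^ (n - 1)) := by
      rw [← ENNReal.ofReal_prod_of_nonneg (fun i _ => by split_ifs <;> (clear * - hs hr; positivity))]
      congr 1
      rw [← Finset.mul_prod_erase _ _ (Finset.mem_univ (⟨0, hn⟩ : Fin n)), if_pos rfl,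
        Finset.prod_congr rfl (g := fun _ => 2 * r) (fun i hi => by
          rw [if_neg (Finset.ne_of_mem_erase hi)]), Finset.prod_const,
        Finset.card_erase_of_mem (Finset.mem_univ _), Finset.card_univ, Fintype.card_fin]

end Vale.Agent.P120
end
end

section

section

/-! Stopping-time regions (kappa-degenerate stopping) for Theorem B -/

open MeasureTheory Metric Set Filter Topology
open scoped ENNReal NNReal RealInnerProductSpace

namespace Vale.Agent.P120

variable {n d : ℕ}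

/-- bilateral flatness at scale `r` with respect to the plane `z + range ι` -/
def BFlat (E : Set (Eu d)) (z : Eu d) (r K ε : ℝ) (ι : Eu n →ₗᵢ[ℝ] Eu d) : Prop :=
  (∀ x ∈ E, dist x z < K * r → ∃ v : Eu n, dist x (z + ι v) ≤ ε * r) ∧
  (∀ v : Eu n, ‖v‖ < K * r → ∃ y ∈ E, dist y (z + ι v) ≤ ε * r)

/-- stopping-time data -/
structure UData (n : ℕ) (E : Set (Eu d)) (A : ℕ) (l₀ : ℝ) where
  Q : Cubes E A l₀
  io : ℕ → Eu d → (Eu n →ₗᵢ[ℝ] Eu d)
  G : ℕ → Eu d → Prop
  κ : ℝ
  κ_pos : 0 < κ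
  κ_le : κ ≤ 1
  ε : ℝ
  ε_pos : 0 < ε
  ε_le : ε * (800 * A) ≤ κ
  flat : ∀ k, ∀ z ∈ Q.N k, G k z → BFlat E z (Q.l k) 10 ε (io k z)

namespace UData

variable {E : Set (Eu d)} {A : ℕ} {l₀ : ℝ} (U : UData n E A l₀)

/-- the generation `j` cube of `x` is in the region of its generation `k` ancestor -/
def Reg (k j : ℕ) (x : Eu d) : Prop :=
  ∀ i, k ≤ i → i ≤ j → U.G i (U.Q.p i x) ∧ Nondeg U.κ (U.io k (U.Q.p k x)) (U.io i (U.Q.p i x))

open Classical in
/-- the generation of the current top at generation `j` -/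
noncomputable def top : ℕ → Eu d → ℕ
  | 0, _ => 0
  | j + 1, x => if U.Reg (top j x) (j + 1) x then top j x else j + 1

lemma top_succ_cases (j : ℕ) (x : Eu d) :
    (U.top (j + 1) x = U.top j x ∧ U.Reg (U.top j x) (j + 1) x) ∨
      (U.top (j + 1) x = j + 1 ∧ ¬ U.Reg (U.top j x) (j + 1) x) := by
  by_cases h : U.Reg (U.top j x) (j + 1) x
  · left; exact ⟨by simp only [top, if_pos h], h⟩
  · right; exact ⟨by simp only [top, if_neg h], h⟩

lemma top_le (j : ℕ) (x : Eu d) : U.top j x ≤ j := by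
  induction j with
  | zero => exact le_rfl
  | succ j ih =>
    rcases U.top_succ_cases j x with h | h
    · rw [h.1]; omega
    · rw [h.1]

lemma Reg_congr {k j : ℕ} {x y : Eu d} (hx : x ∈ E) (hy : y ∈ E) (hkj : k ≤ j)
    (h : U.Q.p j x = U.Q.p j y) : U.Reg k j x ↔ U.Reg k j y := by
  unfold Reg
  refine forall_congr' fun i => ?_
  constructor
  · intro H h1 h2
    rw [← U.Q.p_nest h2 hx hy h, ← U.Q.p_nest hkj hx hy h]
    exact H h1 h2
  · intro H h1 h2
    rw [U.Q.p_nest h2 hx hy h, U.Q.p_nest hkj hx hy h]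
    exact H h1 h2

lemma top_congr {j : ℕ} {x y : Eu d} (hx : x ∈ E) (hy : y ∈ E)
    (h : U.Q.p j x = U.Q.p j y) : U.top j x = U.top j y := by
  induction j with
  | zero => rfl
  | succ j ih =>
    have h1 := ih (U.Q.p_nest (Nat.le_succ j) hx hy h)
    have h2 : U.Reg (U.top j x) (j + 1) x ↔ U.Reg (U.top j y) (j + 1) y := by
      rw [h1]
      exact U.Reg_congr hx hy ((U.top_le j y).trans (Nat.le_succ j)) h
    rcases U.top_succ_cases j x with h3 | h3 <;> rcases U.top_succ_cases j y with h4 | h4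
    · rw [h3.1, h4.1, h1]
    · exact absurd (h2.1 h3.2) h4.2
    · exact absurd (h2.2 h4.2) h3.2
    · rw [h3.1, h4.1]

lemma top_congr_p {i j : ℕ} (hij : i ≤ j) {x : Eu d} (hx : x ∈ E) :
    U.top i (U.Q.p j x) = U.top i x :=
  U.top_congr (U.Q.p_memE hx) hx (U.Q.p_p hij hx)

lemma top_const {j k i : ℕ} {x : Eu d} (h : U.top j x = k) (hki : k ≤ i) (hij : i ≤ j) :
    U.top i x = k := by
  induction j with
  | zero =>
    have : i = 0 := by omega
    rw [this, h]
  | succ j ih =>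
    rcases Nat.eq_or_lt_of_le hij with rfl | hlt
    · exact h
    · rcases U.top_succ_cases j x with h3 | h3
      · exact ih (h3.1 ▸ h) (by omega)
      · rw [h3.1] at h; omega

lemma top_idem {j k : ℕ} {x : Eu d} (h : U.top j x = k) : U.top k x = k :=
  U.top_const h le_rfl (h ▸ U.top_le j x)

lemma Reg.mono {k j i : ℕ} {x : Eu d} (h : U.Reg k j x) (hij : i ≤ j) : U.Reg k i x :=
  fun m h1 h2 => h m h1 (h2.trans hij)

lemma reg_of_top {j k : ℕ} {x : Eu d} (h : U.top j x = k) (hkj : k < j) : U.Reg k j x := by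
  obtain ⟨j', rfl⟩ : ∃ j', j = j' + 1 := ⟨j - 1, by omega⟩
  rcases U.top_succ_cases j' x with h3 | h3
  · rw [h3.1] at h; rw [← h]; exact h3.2
  · rw [h3.1] at h; omega

lemma reg_self {k : ℕ} {x : Eu d} (h : U.G k (U.Q.p k x)) : U.Reg k k x := by
  intro i h1 h2
  have : i = k := le_antisymm h2 h1
  subst this
  exact ⟨h, nondeg_self U.κ_le _⟩

/-- for a good top, everything up to the current generation is in the region -/
lemma reg_of_top' {j k : ℕ} {x : Eu d} (h : U.top j x = k) (hG : U.G k (U.Q.p k x)) :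
    U.Reg k j x := by
  rcases Nat.eq_or_lt_of_le (h ▸ U.top_le j x : k ≤ j) with rfl | hlt
  · exact U.reg_self hG
  · exact U.reg_of_top h hlt

lemma top_of_reg {j k : ℕ} {x : Eu d} (h : U.top k x = k) (hkj : k ≤ j) (hR : U.Reg k j x) :
    U.top j x = k := by
  induction j, hkj using Nat.le_induction with
  | base => exact h
  | succ j hkj ih =>
    have h1 := ih (Reg.mono U hR (Nat.le_succ j))
    rcases U.top_succ_cases j x with h3 | h3
    · rw [h3.1, h1]
    · rw [h1] at h3; exact absurd hR h3.2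

/-- `i` is the next top generation of `x` after `k` -/
def Next (k i : ℕ) (x : Eu d) : Prop := k < i ∧ U.top (i - 1) x = k ∧ U.top i x = i

lemma Next.unique {k i j : ℕ} {x : Eu d} (hi : U.Next k i x) (hj : U.Next k j x) : i = j := by
  obtain ⟨h1, h2, h3⟩ := hi
  obtain ⟨h4, h5, h6⟩ := hj
  by_contra hne
  rcases Nat.lt_or_gt_of_ne hne with h | h
  · have := U.top_const h5 h1.le (show i ≤ j - 1 by omega)
    omega
  · have := U.top_const h2 h4.le (show j ≤ i - 1 by omega)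
    omega

lemma Next.congr {k i : ℕ} {x y : Eu d} (hx : x ∈ E) (hy : y ∈ E)
    (h : U.Q.p i x = U.Q.p i y) : U.Next k i x ↔ U.Next k i y := by
  unfold Next
  rw [U.top_congr hx hy h, U.top_congr hx hy (U.Q.p_nest (Nat.sub_le i 1) hx hy h)]

/-- either `x` is still in the region of `k` at generation `j` or there is a next top -/
lemma exists_next {k j : ℕ} {x : Eu d} (h : U.top k x = k) (hkj : k ≤ j) :
    U.top j x = k ∨ ∃ i, i ≤ j ∧ U.Next k i x := by
  induction j, hkj using Nat.le_induction with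
  | base => left; exact h
  | succ j hkj ih =>
    rcases ih with h1 | ⟨i, hi, hN⟩
    · rcases U.top_succ_cases j x with h3 | h3
      · left; rw [h3.1, h1]
      · right; exact ⟨j + 1, le_rfl, by omega, by simpa only [add_tsub_cancel_right] using h1, h3.1⟩
    · right; exact ⟨i, by omega, hN⟩

lemma Next.not_nondeg {k i : ℕ} {x : Eu d} (h : U.Next k i x) (hGk : U.G k (U.Q.p k x))
    (hGi : U.G i (U.Q.p i x)) :
    ∃ u : Eu n, ‖u‖ = 1 ∧
      ‖pr (U.io i (U.Q.p i x)) (U.io k (U.Q.p k x) u)‖ < U.κ := by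
  obtain ⟨h1, h2, h3⟩ := h
  obtain ⟨i', rfl⟩ : ∃ i', i = i' + 1 := ⟨i - 1, by omega⟩
  rw [Nat.add_sub_cancel] at h2
  have hR : U.Reg k i' x := U.reg_of_top' h2 hGk
  have hnR : ¬ U.Reg k (i' + 1) x := by
    intro hR'
    have := U.top_of_reg (U.top_idem h2) (by omega) hR'
    omega
  have hnd : ¬ Nondeg U.κ (U.io k (U.Q.p k x)) (U.io (i' + 1) (U.Q.p (i' + 1) x)) := by
    intro hnd
    apply hnR
    intro m hm1 hm2
    rcases Nat.eq_or_lt_of_le hm2 with rfl | hlt
    · exact ⟨hGi, hnd⟩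
    · exact hR m hm1 (by omega)
  unfold Nondeg at hnd
  push Not at hnd
  obtain ⟨u, hu⟩ := hnd
  have hu0 : u ≠ 0 := by
    rintro rfl
    simp at hu
  have hun : 0 < ‖u‖ := norm_pos_iff.2 hu0
  refine ⟨‖u‖⁻¹ • u, ?_, ?_⟩
  · rw [norm_smul, norm_inv, norm_norm, inv_mul_cancel₀ hun.ne']
  · rw [map_smul, map_smul, norm_smul, norm_inv, norm_norm, inv_mul_lt_iff₀ hun]
    linarith only [hu]

/-- shadow of the cube `(i,w)` on the reference plane of the top `(k,z)` -/
def Sh (k : ℕ) (z : Eu d) (i : ℕ) (w : Eu d) : Set (Eu n) :=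
  {p | ∃ y ∈ U.Q.cube i w, ‖pr (U.io k z) (y - z) - p‖ ≤ U.κ * U.Q.l i}

lemma ε_small : U.ε ≤ 1 / 12800 := by
  have h1 := U.ε_le
  have h2 := U.κ_le
  have h3 := U.Q.A_ge'
  have h4 := U.ε_pos
  nlinarith

lemma walk_step {k i : ℕ} {z x : Eu d} {p : Eu n} (hx : x ∈ E) (hxz : U.Q.p k x = z)
    (hG : U.G k z) (htop : U.top i x = k)
    (hpx : ‖pr (U.io k z) (x - z) - p‖ ≤ U.ε * A * U.Q.l i) :
    ∃ y ∈ E, dist y x ≤ U.Q.l i / 400 ∧ ‖pr (U.io k z) (y - z) - p‖ ≤ U.ε * U.Q.l i := by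
  have hκ := U.κ_pos
  have hκ1 := U.κ_le
  have hε := U.ε_pos
  have hε1 := U.ε_le
  have hε2 := U.ε_small
  have hA := U.Q.A_ge'
  have hl := U.Q.l_pos' i
  subst hxz
  have hki : k ≤ i := htop ▸ U.top_le i x
  have hR := U.reg_of_top' htop hG i hki le_rfl
  obtain ⟨hGi, hnd⟩ := hR
  set w := U.Q.p i x with hw
  set z := U.Q.p k x with hz
  set ι₀ := U.io k z with hι₀
  set ι := U.io i w with hι
  obtain ⟨hf1, hf2⟩ := U.flat i w (U.Q.p_mem i x hx) hGi
  have hxw : dist x w ≤ 2 * U.Q.l i := U.Q.dist_p i hx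
  obtain ⟨v₁, hv₁⟩ := hf1 x hx (by linarith only [hl, hxw])
  obtain ⟨v', hv', hv'n⟩ := hnd.surj' hκ (p - pr ι₀ (w + ι v₁ - z))
  have hq : ‖p - pr ι₀ (w + ι v₁ - z)‖ ≤ (U.ε * A + U.ε) * U.Q.l i := by
    have e : p - pr ι₀ (w + ι v₁ - z) =
        -(pr ι₀ (x - z) - p) + pr ι₀ (x - (w + ι v₁)) := by
      simp only [map_sub, map_add]; abel
    rw [e]
    calc _ ≤ ‖-(pr ι₀ (x - z) - p)‖ + ‖pr ι₀ (x - (w + ι v₁))‖ := norm_add_le _ _
      _ ≤ U.ε * A * U.Q.l i + U.ε * U.Q.l i := by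
        rw [norm_neg]
        refine add_le_add hpx ((norm_pr_le _ _).trans ?_)
        rw [← dist_eq_norm]; exact hv₁
      _ = _ := by ring
  have hv'2 : ‖v'‖ ≤ U.Q.l i / 750 := by
    have h1 : U.κ * ‖v'‖ ≤ (U.ε * A + U.ε) * U.Q.l i := hv'n.trans hq
    have h2 : (U.ε * A + U.ε) * 750 ≤ U.κ := by nlinarith only [hκ, hε, hε1, hε2, hA]
    have h3 : U.κ * ‖v'‖ ≤ U.κ * (U.Q.l i / 750) := by
      calc _ ≤ (U.ε * A + U.ε) * U.Q.l i := h1
        _ = ((U.ε * A + U.ε) * 750) * (U.Q.l i / 750) := by ring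
        _ ≤ _ := by gcongr
    exact le_of_mul_le_mul_left h3 hκ
  have hv₁n : ‖v₁‖ ≤ 3 * U.Q.l i := by
    have h1 : ‖ι v₁‖ ≤ dist x (w + ι v₁) + dist x w := by
      rw [dist_eq_norm, dist_eq_norm]
      calc ‖ι v₁‖ = ‖-(x - (w + ι v₁)) + (x - w)‖ := by congr 1; abel
        _ ≤ _ := by
          refine (norm_add_le _ _).trans ?_
          rw [norm_neg]
    rw [LinearIsometry.norm_map] at h1
    nlinarith only [hε2, hl, hxw, hv₁, h1]
  obtain ⟨y, hy, hyd⟩ := hf2 (v₁ + v') (by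
    have := norm_add_le v₁ v'
    linarith only [hl, hv'2, hv₁n, this])
  refine ⟨y, hy, ?_, ?_⟩
  · have h1 : dist y x ≤ dist y (w + ι (v₁ + v')) + ‖ι v'‖ + dist x (w + ι v₁) := by
      rw [dist_eq_norm, dist_eq_norm, dist_eq_norm]
      calc ‖y - x‖ = ‖(y - (w + ι (v₁ + v'))) + ι v' + -(x - (w + ι v₁))‖ := by
            congr 1; rw [map_add]; abel
        _ ≤ _ := by
          refine (norm_add_le _ _).trans ?_
          rw [norm_neg]
          gcongr
          exact norm_add_le _ _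
    rw [LinearIsometry.norm_map] at h1
    nlinarith only [hε, hε2, hl, hv₁, hv'2, hyd, h1]
  · have e : pr ι₀ (y - z) - p = pr ι₀ (y - (w + ι (v₁ + v'))) := by
      have : p = pr ι₀ (ι v') + pr ι₀ (w + ι v₁ - z) := by rw [hv']; abel
      rw [this]
      simp only [map_sub, map_add]; abel
    rw [e]
    refine (norm_pr_le _ _).trans ?_
    rw [← dist_eq_norm]; exact hyd

lemma mem_cube_of_dist {k : ℕ} {z y : Eu d} (hz : z ∈ U.Q.N k) (hy : y ∈ E)
    (h : dist y z < U.Q.l k / 4) : U.Q.p k y = z := U.Q.p_core k z hz y hy h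

/-- no holes: every point of the reference ball is in the shadow of a stopping cube (or of a cube
of generation `J` still in the region) -/
lemma covering {k J : ℕ} (hkJ : k ≤ J) {z : Eu d} (hz : z ∈ U.Q.N k) (htop : U.top k z = k)
    (hG : U.G k z) {p : Eu n} (hp : ‖p‖ ≤ U.Q.l k / 8) :
    ∃ i w, k ≤ i ∧ i ≤ J ∧ w ∈ U.Q.N i ∧ w ∈ U.Q.cube k z ∧ p ∈ U.Sh k z i w ∧
      ((i = J ∧ U.top J w = k) ∨ U.Next k i w) := by
  by_contra hcon
  have hκ := U.κ_pos
  have hκ1 := U.κ_le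
  have hε := U.ε_pos
  have hε1 := U.ε_le
  have hε2 := U.ε_small
  have hA := U.Q.A_ge'
  have hlk := U.Q.l_pos' k
  have hzE := U.Q.N_sub k hz
  have key : ∀ m, k + m ≤ J → ∃ x ∈ E,
      dist x z + U.Q.l (k + m) / 200 ≤ U.Q.l k / 8 + U.Q.l k / 100 ∧ U.top (k + m) x = k ∧
        ‖pr (U.io k z) (x - z) - p‖ ≤ U.ε * A * U.Q.l (k + m) := by
    intro m
    induction m with
    | zero =>
      intro _
      rw [Nat.add_zero]
      obtain ⟨hf1, hf2⟩ := U.flat k z hz hG
      obtain ⟨y, hy, hyd⟩ := hf2 p (by linarith only [hp, hlk])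
      have h1 : dist y z ≤ U.Q.l k / 8 + U.ε * U.Q.l k := by
        have : dist y z ≤ dist y (z + U.io k z p) + ‖U.io k z p‖ := by
          rw [dist_eq_norm, dist_eq_norm]
          calc ‖y - z‖ = ‖(y - (z + U.io k z p)) + U.io k z p‖ := by congr 1; abel
            _ ≤ _ := norm_add_le _ _
        rw [LinearIsometry.norm_map] at this
        linarith only [hp, hyd, this]
      have h2 : U.ε * U.Q.l k ≤ U.Q.l k / 12800 := by nlinarith only [hε2, hlk]
      have hyz : U.Q.p k y = z := U.mem_cube_of_dist hz hy (by linarith only [hlk, h1, h2])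
      refine ⟨y, hy, by linarith only [hlk, h1, h2], ?_, ?_⟩
      · rw [U.top_congr hy hzE (hyz.trans (U.Q.p_self hz).symm), htop]
      · have e : pr (U.io k z) (y - z) - p = pr (U.io k z) (y - (z + U.io k z p)) := by
          simp only [map_sub, map_add, pr_apply_self]; abel
        rw [e]
        refine (norm_pr_le _ _).trans ?_
        rw [← dist_eq_norm]
        refine hyd.trans ?_
        have : U.ε * 1 ≤ U.ε * A := by gcongr; linarith only [hε, hε2, hA]
        nlinarith only [hlk, this]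
    | succ m ih =>
      intro hm
      obtain ⟨x, hx, hxd, hxt, hxp⟩ := ih (by omega)
      have hlm := U.Q.l_pos' (k + m)
      have hxz : U.Q.p k x = z := U.mem_cube_of_dist hz hx (by linarith only [hlk, hxd, hlm])
      obtain ⟨y, hy, hyx, hyp⟩ := U.walk_step hx hxz hG hxt hxp
      have hls := U.Q.l_succ (k + m)
      have hls' := U.Q.l_succ_le (k + m)
      have hls0 := U.Q.l_pos' (k + m + 1)
      have hyd : dist y z + U.Q.l (k + m + 1) / 200 ≤ U.Q.l k / 8 + U.Q.l k / 100 := by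
        have := dist_triangle y x z
        linarith
      have hyz : U.Q.p k y = z := U.mem_cube_of_dist hz hy (by linarith only [hlk, hls0, hyd])
      have hyp' : ‖pr (U.io k z) (y - z) - p‖ ≤ U.ε * A * U.Q.l (k + (m + 1)) := by
        refine hyp.trans ?_
        rw [hls, ← add_assoc]
        apply le_of_eq; ring
      have hytop : U.top k y = k := by
        rw [U.top_congr hy hzE (hyz.trans (U.Q.p_self hz).symm), htop]
      rcases U.exists_next hytop (show k ≤ k + (m + 1) by omega) with h | ⟨i, hi, hN⟩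
      · exact ⟨y, hy, by rw [← add_assoc]; exact hyd, h, hyp'⟩
      · exfalso
        apply hcon
        refine ⟨i, U.Q.p i y, hN.1.le, by omega, U.Q.p_mem i y hy, ?_, ?_, ?_⟩
        · exact ⟨U.Q.p_memE hy, (U.Q.p_p hN.1.le hy).trans hyz⟩
        · refine ⟨y, ⟨hy, rfl⟩, ?_⟩
          refine hyp'.trans ?_
          have h1 : U.Q.l (k + (m + 1)) ≤ U.Q.l i := U.Q.l_anti hi
          have h2 := U.Q.l_pos' (k + (m + 1))
          have h3 : U.ε * A ≤ U.κ := by nlinarith only [hκ, hε1]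
          calc _ ≤ U.κ * U.Q.l (k + (m + 1)) := by (clear * - hls0 h3; gcongr)
            _ ≤ _ := by (clear * - hκ h1; gcongr)
        · right
          exact (Next.congr U (U.Q.p_memE hy) hy (U.Q.p_p le_rfl hy)).2 hN
  obtain ⟨x, hx, hxd, hxt, hxp⟩ := key (J - k) (by omega)
  have hJ : k + (J - k) = J := by omega
  rw [hJ] at hxd hxt hxp
  have hlJ := U.Q.l_pos' J
  have hxz : U.Q.p k x = z := U.mem_cube_of_dist hz hx (by linarith only [hlk, hxd, hlJ])
  apply hcon
  refine ⟨J, U.Q.p J x, hkJ, le_rfl, U.Q.p_mem J x hx, ?_, ?_, ?_⟩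
  · exact ⟨U.Q.p_memE hx, (U.Q.p_p hkJ hx).trans hxz⟩
  · refine ⟨x, ⟨hx, rfl⟩, hxp.trans ?_⟩
    have h3 : U.ε * A ≤ U.κ := by nlinarith only [hκ, hε1]
    (clear * - hlJ h3; gcongr)
  · left
    exact ⟨rfl, by rw [U.top_congr_p le_rfl hx]; exact hxt⟩

end UData

end Vale.Agent.P120
end
end

section

section

/-! Volume of shadows and the mass inequality for Theorem B -/

open MeasureTheory Metric Set Filter Topology
open scoped ENNReal NNReal RealInnerProductSpace

namespace Vale.Agent.P120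

variable {n d : ℕ}

/-- volume of the unit ball of `R^n` -/
noncomputable def uvol (n : ℕ) : ℝ := (volume (ball (0 : Eu n) 1)).toReal

lemma uvol_pos (n : ℕ) : 0 < uvol n :=
  ENNReal.toReal_pos (measure_ball_pos _ _ one_pos).ne' measure_ball_lt_top.ne

lemma volume_closedBall_le (p : Eu n) {r : ℝ} (hr : 0 ≤ r) :
    volume (closedBall p r) = ENNReal.ofReal (r ^ n * uvol n) := by
  rw [Measure.addHaar_closedBall _ _ hr, finrank_euclideanSpace_fin,
    ENNReal.ofReal_mul (by positivity), uvol, ENNReal.ofReal_toReal measure_ball_lt_top.ne]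

namespace UData

variable {E : Set (Eu d)} {A : ℕ} {l₀ : ℝ} (U : UData n E A l₀)

lemma Sh_subset (k : ℕ) (z : Eu d) (i : ℕ) (w : Eu d) :
    U.Sh k z i w ⊆ closedBall (pr (U.io k z) (w - z)) (3 * U.Q.l i) := by
  rintro p ⟨y, hy, hp⟩
  have h1 : dist y w ≤ 2 * U.Q.l i := U.Q.cube_subset i w hy
  have h2 := U.κ_le
  have h3 := U.Q.l_pos' i
  rw [mem_closedBall, dist_eq_norm]
  have e : p - pr (U.io k z) (w - z) =
      -(pr (U.io k z) (y - z) - p) + pr (U.io k z) (y - w) := by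
    simp only [map_sub]; abel
  rw [e]
  calc _ ≤ ‖-(pr (U.io k z) (y - z) - p)‖ + ‖pr (U.io k z) (y - w)‖ := norm_add_le _ _
    _ ≤ U.κ * U.Q.l i + 2 * U.Q.l i := by
      rw [norm_neg]
      refine add_le_add hp ((norm_pr_le _ _).trans ?_)
      rw [← dist_eq_norm]; exact h1
    _ ≤ _ := by nlinarith only [h2, h3]

lemma volume_Sh_le (k : ℕ) (z : Eu d) (i : ℕ) (w : Eu d) :
    volume (U.Sh k z i w) ≤ ENNReal.ofReal ((3 * U.Q.l i) ^ n * uvol n) := by
  have h3 := U.Q.l_pos' i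
  rw [← volume_closedBall_le (pr (U.io k z) (w - z)) (by positivity)]
  exact measure_mono (U.Sh_subset k z i w)

lemma volume_Sh_le_tilt {k : ℕ} {z : Eu d} {i : ℕ} {w : Eu d} (hw : w ∈ U.Q.N i)
    (hwz : U.Q.p k w = z) (hGk : U.G k z) (hGi : U.G i w) (hN : U.Next k i w) :
    volume (U.Sh k z i w) ≤ ENNReal.ofReal (2 * (5 * U.κ * U.Q.l i) * (2 * (3 * U.Q.l i)) ^ (n - 1)) := by
  have hpw : U.Q.p i w = w := U.Q.p_self hw
  subst hwz
  obtain ⟨u, hu, hu2⟩ := hN.not_nondeg U hGk (by rw [hpw]; exact hGi)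
  rw [hpw] at hu2
  set z := U.Q.p k w with hz
  have hl := U.Q.l_pos' i
  have hκ := U.κ_pos
  have hε := U.ε_pos
  have hε1 := U.ε_le
  have hA := U.Q.A_ge'
  refine le_trans (measure_mono ?_) (volume_slab_le u hu (pr (U.io k z) (w - z))
    (by (clear * - hl hκ; positivity)) (by positivity))
  intro p hp
  have hp3 := U.Sh_subset k z i w hp
  rw [mem_closedBall, dist_eq_norm] at hp3
  refine ⟨?_, hp3⟩
  obtain ⟨y, hy, hyp⟩ := hp
  have hyw : dist y w ≤ 2 * U.Q.l i := U.Q.cube_subset i w hy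
  obtain ⟨v, hv⟩ := (U.flat i w hw hGi).1 y hy.1 (by linarith)
  have hvn : ‖v‖ ≤ 3 * U.Q.l i := by
    have h1 : ‖U.io i w v‖ ≤ dist y (w + U.io i w v) + dist y w := by
      rw [dist_eq_norm, dist_eq_norm]
      calc ‖U.io i w v‖ = ‖-(y - (w + U.io i w v)) + (y - w)‖ := by congr 1; abel
        _ ≤ _ := by
          refine (norm_add_le _ _).trans ?_
          rw [norm_neg]
    rw [LinearIsometry.norm_map] at h1
    have := U.ε_small
    nlinarith only [hl, hyw, hv, h1, this]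
  have e : p - pr (U.io k z) (w - z) =
      -(pr (U.io k z) (y - z) - p) + pr (U.io k z) (y - (w + U.io i w v)) +
        pr (U.io k z) (U.io i w v) := by
    simp only [map_sub, map_add]; abel
  rw [e, inner_add_left, inner_add_left]
  have h1 : |⟪-(pr (U.io k z) (y - z) - p), u⟫| ≤ U.κ * U.Q.l i := by
    refine (abs_real_inner_le_norm _ _).trans ?_
    rw [hu, mul_one, norm_neg]; exact hyp
  have h2 : |⟪pr (U.io k z) (y - (w + U.io i w v)), u⟫| ≤ U.ε * U.Q.l i := by
    refine (abs_real_inner_le_norm _ _).trans ?_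
    rw [hu, mul_one]
    refine (norm_pr_le _ _).trans ?_
    rw [← dist_eq_norm]; exact hv
  have h3 : |⟪pr (U.io k z) (U.io i w v), u⟫| ≤ 3 * U.Q.l i * U.κ := by
    rw [inner_pr_left, ← inner_pr_right]
    refine (abs_real_inner_le_norm _ _).trans ?_
    (clear * - hu2 hl hvn; gcongr)
  have h4 : U.ε * U.Q.l i ≤ U.κ * U.Q.l i := by
    apply mul_le_mul_of_nonneg_right _ hl.le
    nlinarith only [hκ, hε1, hA]
  calc _ ≤ |⟪-(pr (U.io k z) (y - z) - p), u⟫| +
        |⟪pr (U.io k z) (y - (w + U.io i w v)), u⟫| + |⟪pr (U.io k z) (U.io i w v), u⟫| :=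
        abs_add_three _ _ _
    _ ≤ U.κ * U.Q.l i + U.ε * U.Q.l i + 3 * U.Q.l i * U.κ := by (clear * - h1 h2 h3; gcongr)
    _ ≤ _ := by linarith only [h4]

end UData

end Vale.Agent.P120
end
end

section

section

/-! Counting of the tops for Theorem B -/

open MeasureTheory Metric Set Filter Topology
open scoped ENNReal NNReal RealInnerProductSpace

namespace Vale.Agent.P120

variable {n d : ℕ}

open Classical in
/-- real-valued indicator of a proposition -/
noncomputable def ind (P : Prop) : ℝ := if P then 1 else 0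

lemma ind_true {P : Prop} (h : P) : ind P = 1 := if_pos h
lemma ind_false {P : Prop} (h : ¬ P) : ind P = 0 := if_neg h
lemma ind_nonneg (P : Prop) : 0 ≤ ind P := by
  by_cases h : P
  · rw [ind_true h]; norm_num
  · rw [ind_false h]
lemma ind_le_one (P : Prop) : ind P ≤ 1 := by
  by_cases h : P
  · rw [ind_true h]
  · rw [ind_false h]; norm_num
lemma ind_congr {P R : Prop} (h : P ↔ R) : ind P = ind R := by rw [propext h]
namespace Cubes

variable {μ : Measure (Eu d)} {A : ℕ} {l₀ : ℝ} (Q : Cubes μ.support A l₀)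

lemma root_finite (z₀ : Eu d) (i : ℕ) : {w | w ∈ Q.N i ∧ w ∈ Q.cube 0 z₀}.Finite :=
  (net_finite (Q.l_pos' i) (Q.N_sep i) z₀ (2 * Q.l 0)).subset
    fun _ hw => ⟨hw.1, Q.cube_subset 0 z₀ hw.2⟩

/-- centres of generation `i` inside the root cube -/
noncomputable def Wf (z₀ : Eu d) (i : ℕ) : Finset (Eu d) := (Q.root_finite z₀ i).toFinset

lemma mem_Wf {z₀ : Eu d} {i : ℕ} {w : Eu d} :
    w ∈ Q.Wf z₀ i ↔ w ∈ Q.N i ∧ w ∈ Q.cube 0 z₀ := by
  simp only [Wf, sep_mem_eq, Finite.mem_toFinset, mem_inter_iff]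

/-- weighted sum over the cubes of generation `i` in the root cube -/
noncomputable def wsum (z₀ : Eu d) (i : ℕ) (f : Eu d → ℝ) : ℝ :=
  ∑ w ∈ Q.Wf z₀ i, μ.real (Q.cube i w) * f w

lemma cube_lt_top {c C : ℝ} {D : ℝ≥0∞} (har : AR n c C D μ) (i : ℕ) (w : Eu d) :
    μ (Q.cube i w) < ⊤ :=
  lt_of_le_of_lt ((measure_mono (Q.cube_subset i w)).trans
    (har.upper w _ (by have := Q.l_pos' i; positivity))) ENNReal.ofReal_lt_top

lemma cube_upper {c C : ℝ} {D : ℝ≥0∞} (har : AR n c C D μ) (i : ℕ) (w : Eu d) :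
    μ.real (Q.cube i w) ≤ C * (2 * Q.l i) ^ n := by
  have hC := har.C_pos
  have hl := Q.l_pos' i
  apply ENNReal.toReal_le_of_le_ofReal (by positivity)
  exact (measure_mono (Q.cube_subset i w)).trans (har.upper w _ (by positivity))

lemma cube_lower {c C : ℝ} {D : ℝ≥0∞} (har : AR n c C D μ) (hD : ENNReal.ofReal l₀ ≤ D) {i : ℕ}
    {w : Eu d} (hw : w ∈ Q.N i) : c * (Q.l i / 4) ^ n ≤ μ.real (Q.cube i w) := by
  have hc := har.c_pos
  have hl := Q.l_pos' i
  rw [Measure.real, ← ENNReal.ofReal_le_iff_le_toReal (Q.cube_lt_top har i w).ne]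
  refine (har.lower w (Q.N_sub i hw) (Q.l i / 4) (by positivity) ?_).trans ?_
  · refine le_trans (ENNReal.ofReal_le_ofReal ?_) hD
    have := Q.l_anti (Nat.zero_le i)
    rw [Q.l_zero] at this
    linarith only [hl, this]
  · calc μ (ball w (Q.l i / 4)) = μ (μ.support ∩ ball w (Q.l i / 4)) := by
          rw [inter_comm, measure_inter_conull Measure.measure_compl_support]
      _ ≤ _ := measure_mono (Q.ball_subset_cube hw)

lemma mass_split {c C : ℝ} {D : ℝ≥0∞} (har : AR n c C D μ) {z₀ : Eu d} {i J : ℕ} (hiJ : i ≤ J)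
    {w : Eu d} (hw : w ∈ Q.Wf z₀ i) :
    μ.real (Q.cube i w) = ∑ w' ∈ Q.Wf z₀ J with Q.p i w' = w, μ.real (Q.cube J w') := by
  rw [mem_Wf] at hw
  have hU : Q.cube i w = ⋃ w' ∈ (Q.Wf z₀ J).filter (fun w' => Q.p i w' = w), Q.cube J w' := by
    ext x
    simp only [mem_iUnion, Finset.mem_filter, exists_prop, mem_Wf]
    constructor
    · rintro ⟨hx, hxw⟩
      refine ⟨Q.p J x, ⟨⟨Q.p_mem J x hx, Q.p_memE hx, ?_⟩, ?_⟩, hx, rfl⟩
      · rw [Q.p_p (Nat.zero_le J) hx, ← Q.p_p (Nat.zero_le i) hx, hxw]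
        exact hw.2.2
      · rw [Q.p_p hiJ hx, hxw]
    · rintro ⟨w', ⟨⟨h1, h2⟩, h3⟩, hx, hxw⟩
      refine ⟨hx, ?_⟩
      rw [← Q.p_p hiJ hx, hxw, h3]
  conv_lhs => rw [hU]
  exact measureReal_biUnion_finset (fun a _ b _ hab => Q.cube_disjoint hab)
    (fun b _ => Q.measurableSet_cube J b) (fun b _ => (Q.cube_lt_top har J b).ne)

lemma wsum_eq {c C : ℝ} {D : ℝ≥0∞} (har : AR n c C D μ) {z₀ : Eu d} {i J : ℕ} (hiJ : i ≤ J)
    {f : Eu d → ℝ}
    (hf : ∀ x ∈ μ.support, ∀ y ∈ μ.support, Q.p i x = Q.p i y → f x = f y) :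
    Q.wsum z₀ i f = Q.wsum z₀ J f := by
  unfold wsum
  have h1 : ∀ w' ∈ Q.Wf z₀ J, Q.p i w' ∈ Q.Wf z₀ i := by
    intro w' hw'
    rw [mem_Wf] at hw' ⊢
    have hE := hw'.2.1
    exact ⟨Q.p_mem i w' hE, Q.p_memE hE, (Q.p_p (Nat.zero_le i) hE).trans hw'.2.2⟩
  rw [← Finset.sum_fiberwise_of_maps_to h1]
  refine Finset.sum_congr rfl fun w hw => ?_
  rw [Q.mass_split har hiJ hw, Finset.sum_mul]
  refine Finset.sum_congr rfl fun w' hw' => ?_
  rw [Finset.mem_filter] at hw'
  have hE := (Q.mem_Wf.1 hw'.1).2.1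
  rw [hf w (Q.mem_Wf.1 hw).2.1 w' hE (by rw [Q.p_self (Q.mem_Wf.1 hw).1, hw'.2])]

lemma real_eq_wsum {c C : ℝ} {D : ℝ≥0∞} (har : AR n c C D μ) {z₀ : Eu d} {J : ℕ}
    {P : Eu d → Prop}
    (hP : ∀ x ∈ μ.support, ∀ y ∈ μ.support, Q.p J x = Q.p J y → (P x ↔ P y)) :
    MeasurableSet {x | x ∈ Q.cube 0 z₀ ∧ P x} ∧
    μ.real {x | x ∈ Q.cube 0 z₀ ∧ P x} = Q.wsum z₀ J (fun x => ind (P x)) := by
  classical
  have hU : {x | x ∈ Q.cube 0 z₀ ∧ P x} =
      ⋃ w' ∈ (Q.Wf z₀ J).filter P, Q.cube J w' := by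
    ext x
    simp only [mem_iUnion, Finset.mem_filter, exists_prop, mem_Wf, mem_ofPred_eq]
    constructor
    · rintro ⟨⟨hx, hxw⟩, hPx⟩
      refine ⟨Q.p J x, ⟨⟨Q.p_mem J x hx, Q.p_memE hx, ?_⟩, ?_⟩, hx, rfl⟩
      · rw [Q.p_p (Nat.zero_le J) hx]; exact hxw
      · exact (hP _ (Q.p_memE hx) x hx (Q.p_p le_rfl hx)).2 hPx
    · rintro ⟨w', ⟨⟨h1, h2⟩, h3⟩, hx, hxw⟩
      refine ⟨⟨hx, ?_⟩, ?_⟩
      · rw [← Q.p_p (Nat.zero_le J) hx, hxw]; exact h2.2
      · exact (hP x hx w' h2.1 (by rw [hxw, Q.p_self h1])).2 h3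
  refine ⟨?_, ?_⟩
  · rw [hU]
    exact Finset.measurableSet_biUnion _ fun w _ => Q.measurableSet_cube J w
  · rw [hU, measureReal_biUnion_finset (fun a _ b _ hab => Q.cube_disjoint hab)
      (fun b _ => Q.measurableSet_cube J b) (fun b _ => (Q.cube_lt_top har J b).ne),
      Finset.sum_filter]
    unfold wsum
    refine Finset.sum_congr rfl fun w _ => ?_
    show _ = _ * ind (P w)
    split_ifs with h
    · rw [ind_true h, mul_one]
    · rw [ind_false h, mul_zero]

lemma wsum_mono {z₀ : Eu d} {i : ℕ} {f g : Eu d → ℝ} (h : ∀ x ∈ Q.Wf z₀ i, f x ≤ g x) :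
    Q.wsum z₀ i f ≤ Q.wsum z₀ i g :=
  Finset.sum_le_sum fun w hw => mul_le_mul_of_nonneg_left (h w hw) measureReal_nonneg

lemma wsum_add (z₀ : Eu d) (i : ℕ) (f g : Eu d → ℝ) :
    Q.wsum z₀ i (fun x => f x + g x) = Q.wsum z₀ i f + Q.wsum z₀ i g := by
  unfold wsum
  rw [← Finset.sum_add_distrib]
  exact Finset.sum_congr rfl fun w _ => by ring

lemma wsum_const_mul (z₀ : Eu d) (i : ℕ) (a : ℝ) (f : Eu d → ℝ) :
    Q.wsum z₀ i (fun x => a * f x) = a * Q.wsum z₀ i f := by
  unfold wsum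
  rw [Finset.mul_sum]
  exact Finset.sum_congr rfl fun w _ => by ring

lemma wsum_sum {ι : Type*} (z₀ : Eu d) (i : ℕ) (s : Finset ι) (f : ι → Eu d → ℝ) :
    Q.wsum z₀ i (fun x => ∑ a ∈ s, f a x) = ∑ a ∈ s, Q.wsum z₀ i (f a) := by
  unfold wsum
  rw [Finset.sum_comm]
  exact Finset.sum_congr rfl fun w _ => by rw [Finset.mul_sum]

lemma wsum_nonneg {z₀ : Eu d} {i : ℕ} {f : Eu d → ℝ} (h : ∀ x ∈ Q.Wf z₀ i, 0 ≤ f x) :
    0 ≤ Q.wsum z₀ i f :=
  Finset.sum_nonneg fun w hw => mul_nonneg measureReal_nonneg (h w hw)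

end Cubes

namespace UData

variable {μ : Measure (Eu d)} {A : ℕ} {l₀ : ℝ} (U : UData n μ.support A l₀)

/-- good tops -/
def Gt (k : ℕ) (x : Eu d) : Prop := U.top k x = k ∧ U.G k (U.Q.p k x)

/-- never stopped up to `J`, or next top bad -/
noncomputable def Phi (J k : ℕ) (x : Eu d) : ℝ :=
  ind (U.top J x = k) + ∑ i ∈ Finset.Ioc k J, ind (U.Next k i x ∧ ¬ U.G i (U.Q.p i x))

lemma sum_next_le (J k : ℕ) (x : Eu d) (P : ℕ → Prop) :
    ∑ i ∈ Finset.Ioc k J, ind (U.Next k i x ∧ P i) ≤ 1 := by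
  classical
  by_cases h : ∃ i ∈ Finset.Ioc k J, U.Next k i x ∧ P i
  · obtain ⟨i, hi, hN, hP⟩ := h
    rw [Finset.sum_eq_single i]
    · exact ind_le_one _
    · intro j _ hj
      exact ind_false fun h => hj (Next.unique U h.1 hN)
    · intro h; exact absurd hi h
  · push Not at h
    rw [Finset.sum_eq_zero]
    · norm_num
    · intro i hi
      exact ind_false fun h' => h i hi h'.1 h'.2

lemma phi_nonneg (J k : ℕ) (x : Eu d) : 0 ≤ U.Phi J k x :=
  add_nonneg (ind_nonneg _) (Finset.sum_nonneg fun _ _ => ind_nonneg _)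

lemma Gt_congr {k : ℕ} {x y : Eu d} (hx : x ∈ μ.support) (hy : y ∈ μ.support)
    (h : U.Q.p k x = U.Q.p k y) : U.Gt k x ↔ U.Gt k y := by
  unfold Gt
  rw [U.top_congr hx hy h, h]

lemma shadow_bound (hn : 1 ≤ n) {c C : ℝ} {D : ℝ≥0∞} (har : AR n c C D μ)
    (hD : ENNReal.ofReal l₀ ≤ D) {k J i : ℕ} {z w : Eu d}
    (hG : U.G k z) (hw : w ∈ U.Q.N i) (hwz : w ∈ U.Q.cube k z)
    (hcond : (i = J ∧ U.top J w = k) ∨ U.Next k i w) :
    volume (U.Sh k z i w) ≤ ENNReal.ofReal (μ.real (U.Q.cube i w) *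
      (uvol n * 12 ^ n / c * (ind (i = J ∧ U.top J w = k) +
        ind (U.Next k i w ∧ ¬ U.G i (U.Q.p i w))) +
        U.κ * (10 * 6 ^ (n - 1) * 4 ^ n / c) * ind (U.Next k i w ∧ U.G i (U.Q.p i w)))) := by
  have hc := har.c_pos
  have hl := U.Q.l_pos' i
  have hm := U.Q.cube_lower har hD hw
  have hm0 : 0 ≤ μ.real (U.Q.cube i w) := measureReal_nonneg
  have hu := uvol_pos n
  have hκ := U.κ_pos
  have hpw : U.Q.p i w = w := U.Q.p_self hw
  set a₁ := uvol n * 12 ^ n / c with ha₁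
  set a₂ := 10 * 6 ^ (n - 1) * 4 ^ n / c with ha₂
  have ha₁0 : 0 < a₁ := by (clear * - hc hu; positivity)
  have ha₂0 : 0 < a₂ := by positivity
  have crude : (3 * U.Q.l i) ^ n * uvol n ≤ μ.real (U.Q.cube i w) * a₁ := by
    calc (3 * U.Q.l i) ^ n * uvol n = a₁ * (c * (U.Q.l i / 4) ^ n) := by
          rw [ha₁, div_mul_eq_mul_div, show (3 : ℝ) * U.Q.l i = 12 * (U.Q.l i / 4) by ring, mul_pow]
          field_simp
      _ ≤ a₁ * μ.real (U.Q.cube i w) := by gcongr
      _ = _ := mul_comm _ _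
  by_cases h1 : i = J ∧ U.top J w = k
  · refine (U.volume_Sh_le k z i w).trans (ENNReal.ofReal_le_ofReal (crude.trans ?_))
    rw [ind_true h1]
    apply mul_le_mul_of_nonneg_left _ hm0
    have := ind_nonneg (U.Next k i w ∧ ¬ U.G i (U.Q.p i w))
    have := ind_nonneg (U.Next k i w ∧ U.G i (U.Q.p i w))
    have h3 : 0 ≤ U.κ * a₂ * ind (U.Next k i w ∧ U.G i (U.Q.p i w)) := by (clear * - hc hκ this; positivity)
    nlinarith
  · have hN : U.Next k i w := hcond.resolve_left h1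
    by_cases h2 : U.G i (U.Q.p i w)
    · rw [ind_false h1, ind_false (fun h => h.2 h2), ind_true ⟨hN, h2⟩]
      have h3 := U.volume_Sh_le_tilt hw hwz.2 hG (by rw [← hpw]; exact h2) hN
      refine h3.trans (ENNReal.ofReal_le_ofReal ?_)
      have e : 2 * (5 * U.κ * U.Q.l i) * (2 * (3 * U.Q.l i)) ^ (n - 1) =
          U.κ * a₂ * (c * (U.Q.l i / 4) ^ n) := by
        obtain ⟨m, rfl⟩ : ∃ m, n = m + 1 := ⟨n - 1, by omega⟩
        rw [ha₂, Nat.add_sub_cancel]
        simp only [mul_pow, div_pow, pow_succ]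
        field_simp
        rw [show (6 : ℝ) = 2 * 3 by norm_num, mul_pow]
        ring
      rw [e]
      calc _ ≤ U.κ * a₂ * μ.real (U.Q.cube i w) := by (clear * - hc hm hκ; gcongr)
        _ = _ := by ring
    · refine (U.volume_Sh_le k z i w).trans (ENNReal.ofReal_le_ofReal (crude.trans ?_))
      rw [ind_false h1, ind_true ⟨hN, h2⟩, ind_false (fun h => h2 h.2)]
      apply le_of_eq; ring

lemma cover_ineq (hn : 1 ≤ n) {c C : ℝ} {D : ℝ≥0∞} (har : AR n c C D μ)
    (hD : ENNReal.ofReal l₀ ≤ D) {z₀ : Eu d} {k J : ℕ} (hkJ : k ≤ J) {z : Eu d}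
    (hz : z ∈ U.Q.Wf z₀ k) (htop : U.top k z = k) (hG : U.G k z) :
    uvol n * (U.Q.l k / 8) ^ n ≤ U.Q.wsum z₀ J (fun x => ind (U.Q.p k x = z) *
      (uvol n * 12 ^ n / c * U.Phi J k x + U.κ * (10 * 6 ^ (n - 1) * 4 ^ n / c))) := by
  classical
  have hc := har.c_pos
  have hκ := U.κ_pos
  have hu := uvol_pos n
  have hlk := U.Q.l_pos' k
  obtain ⟨hzN, hz0⟩ := U.Q.mem_Wf.1 hz
  set a₁ := uvol n * 12 ^ n / c with ha₁
  set a₂ := 10 * 6 ^ (n - 1) * 4 ^ n / c with ha₂
  have ha₁0 : 0 < a₁ := by positivity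
  have ha₂0 : 0 < a₂ := by positivity
  set g : ℕ → Eu d → ℝ := fun i x => a₁ * (ind (i = J ∧ U.top J x = k) +
        ind (U.Next k i x ∧ ¬ U.G i (U.Q.p i x))) +
        U.κ * a₂ * ind (U.Next k i x ∧ U.G i (U.Q.p i x)) with hg
  have hg0 : ∀ i x, 0 ≤ g i x := by
    intro i x
    have h1 := ind_nonneg (i = J ∧ U.top J x = k)
    have h2 := ind_nonneg (U.Next k i x ∧ ¬ U.G i (U.Q.p i x))
    have h3 := ind_nonneg (U.Next k i x ∧ U.G i (U.Q.p i x))
    (clear * - hc hκ hu h1 h2 h3; positivity)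
  -- the covering
  have hcov : closedBall (0 : Eu n) (U.Q.l k / 8) ⊆ ⋃ i ∈ Finset.Icc k J,
      ⋃ w ∈ (U.Q.Wf z₀ i).filter (fun w => w ∈ U.Q.cube k z ∧
        ((i = J ∧ U.top J w = k) ∨ U.Next k i w)), U.Sh k z i w := by
    intro p hp
    rw [mem_closedBall, dist_zero_right] at hp
    obtain ⟨i, w, h1, h2, h3, h4, h5, h6⟩ := U.covering hkJ hzN htop hG hp
    refine mem_iUnion₂.2 ⟨i, Finset.mem_Icc.2 ⟨h1, h2⟩, mem_iUnion₂.2 ⟨w, ?_, h5⟩⟩
    rw [Finset.mem_filter, U.Q.mem_Wf]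
    refine ⟨⟨h3, h4.1, ?_⟩, h4, h6⟩
    rw [← U.Q.p_p (Nat.zero_le k) h4.1, h4.2]; exact hz0.2
  have hvol : ENNReal.ofReal (uvol n * (U.Q.l k / 8) ^ n) ≤
      ENNReal.ofReal (∑ i ∈ Finset.Icc k J, ∑ w ∈ (U.Q.Wf z₀ i).filter (fun w => w ∈ U.Q.cube k z ∧
        ((i = J ∧ U.top J w = k) ∨ U.Next k i w)), μ.real (U.Q.cube i w) * g i w) := by
    calc ENNReal.ofReal (uvol n * (U.Q.l k / 8) ^ n) = volume (closedBall (0 : Eu n) (U.Q.l k / 8)) := by
          rw [volume_closedBall_le _ (by positivity)]; congr 1; ring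
      _ ≤ _ := measure_mono hcov
      _ ≤ ∑ i ∈ Finset.Icc k J, volume (⋃ w ∈ (U.Q.Wf z₀ i).filter (fun w => w ∈ U.Q.cube k z ∧
        ((i = J ∧ U.top J w = k) ∨ U.Next k i w)), U.Sh k z i w) :=
          measure_biUnion_finset_le _ _
      _ ≤ ∑ i ∈ Finset.Icc k J, ∑ w ∈ (U.Q.Wf z₀ i).filter (fun w => w ∈ U.Q.cube k z ∧
        ((i = J ∧ U.top J w = k) ∨ U.Next k i w)), volume (U.Sh k z i w) :=
          Finset.sum_le_sum fun i _ => measure_biUnion_finset_le _ _
      _ ≤ ∑ i ∈ Finset.Icc k J, ∑ w ∈ (U.Q.Wf z₀ i).filter (fun w => w ∈ U.Q.cube k z ∧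
        ((i = J ∧ U.top J w = k) ∨ U.Next k i w)), ENNReal.ofReal (μ.real (U.Q.cube i w) * g i w) := by
          refine Finset.sum_le_sum fun i _ => Finset.sum_le_sum fun w hw => ?_
          rw [Finset.mem_filter, U.Q.mem_Wf] at hw
          exact U.shadow_bound hn har hD hG hw.1.1 hw.2.1 hw.2.2
      _ = _ := by
          rw [ENNReal.ofReal_sum_of_nonneg]
          · refine Finset.sum_congr rfl fun i _ => ?_
            rw [ENNReal.ofReal_sum_of_nonneg]
            intro w _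
            exact mul_nonneg measureReal_nonneg (hg0 i w)
          · intro i _
            exact Finset.sum_nonneg fun w _ => mul_nonneg measureReal_nonneg (hg0 i w)
  rw [ENNReal.ofReal_le_ofReal_iff (Finset.sum_nonneg fun i _ =>
    Finset.sum_nonneg fun w _ => mul_nonneg measureReal_nonneg (hg0 i w))] at hvol
  refine hvol.trans ?_
  -- reorganise
  have h1 : ∀ i ∈ Finset.Icc k J, ∑ w ∈ (U.Q.Wf z₀ i).filter (fun w => w ∈ U.Q.cube k z ∧
        ((i = J ∧ U.top J w = k) ∨ U.Next k i w)), μ.real (U.Q.cube i w) * g i w ≤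
      U.Q.wsum z₀ J (fun x => ind (U.Q.p k x = z) * g i x) := by
    intro i hi
    rw [Finset.mem_Icc] at hi
    rw [← U.Q.wsum_eq har hi.2 (f := fun x => ind (U.Q.p k x = z) * g i x)]
    · rw [Finset.sum_filter]
      refine Finset.sum_le_sum fun w _ => ?_
      show _ ≤ _ * (ind (U.Q.p k w = z) * g i w)
      split_ifs with h
      · rw [ind_true h.1.2, one_mul]
      · exact mul_nonneg measureReal_nonneg (mul_nonneg (ind_nonneg _) (hg0 i w))
    · intro x hx y hy hxy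
      rw [hg]
      dsimp only
      have e1 : ind (i = J ∧ U.top J x = k) = ind (i = J ∧ U.top J y = k) := by
        apply ind_congr
        apply and_congr_right
        rintro rfl
        rw [U.top_congr hx hy hxy]
      have e2 : U.Next k i x = U.Next k i y := propext (Next.congr U hx hy hxy)
      rw [U.Q.p_nest hi.1 hx hy hxy, hxy, e1, e2]
  refine (Finset.sum_le_sum h1).trans ?_
  rw [← U.Q.wsum_sum]
  apply U.Q.wsum_mono
  intro x _
  rw [← Finset.mul_sum]
  apply mul_le_mul_of_nonneg_left _ (ind_nonneg _)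
  have e1 : ∑ i ∈ Finset.Icc k J, g i x =
      a₁ * (∑ i ∈ Finset.Icc k J, ind (i = J ∧ U.top J x = k) +
        ∑ i ∈ Finset.Icc k J, ind (U.Next k i x ∧ ¬ U.G i (U.Q.p i x))) +
        U.κ * a₂ * ∑ i ∈ Finset.Icc k J, ind (U.Next k i x ∧ U.G i (U.Q.p i x)) := by
    rw [hg]
    simp only [Finset.mul_sum, Finset.sum_add_distrib, mul_add]
  have e2 : ∑ i ∈ Finset.Icc k J, ind (i = J ∧ U.top J x = k) = ind (U.top J x = k) := by
    rw [Finset.sum_eq_single J]
    · exact ind_congr ⟨fun h => h.2, fun h => ⟨rfl, h⟩⟩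
    · intro i _ hi
      exact ind_false fun h => hi h.1
    · intro h
      exact absurd (Finset.mem_Icc.2 ⟨hkJ, le_rfl⟩) h
  have e3 : ∀ P : ℕ → Prop, ∑ i ∈ Finset.Icc k J, ind (U.Next k i x ∧ P i) =
      ∑ i ∈ Finset.Ioc k J, ind (U.Next k i x ∧ P i) := by
    intro P
    symm
    apply Finset.sum_subset Finset.Ioc_subset_Icc_self
    intro i hi hi'
    apply ind_false
    rintro ⟨⟨h, -⟩, -⟩
    rw [Finset.mem_Icc] at hi
    rw [Finset.mem_Ioc] at hi'
    exact hi' ⟨h, hi.2⟩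
  rw [e1, e2, e3, e3]
  have h5 := U.sum_next_le J k x (fun i => U.G i (U.Q.p i x))
  have h6 : U.κ * a₂ * ∑ i ∈ Finset.Ioc k J, ind (U.Next k i x ∧ U.G i (U.Q.p i x)) ≤
      U.κ * a₂ * 1 := mul_le_mul_of_nonneg_left h5 (by positivity)
  unfold Phi
  linarith only [h6]

lemma gt_ineq (hn : 1 ≤ n) {c C : ℝ} {D : ℝ≥0∞} (har : AR n c C D μ)
    (hD : ENNReal.ofReal l₀ ≤ D) (z₀ : Eu d) {k J : ℕ} (hkJ : k ≤ J)
    (hκs : U.κ * (10 * 6 ^ (n - 1) * 4 ^ n / c) ≤ uvol n / (C * 16 ^ n) / 2) :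
    uvol n / (C * 16 ^ n) / 2 * U.Q.wsum z₀ J (fun x => ind (U.Gt k x)) ≤
      uvol n * 12 ^ n / c * U.Q.wsum z₀ J (fun x => ind (U.Gt k x) * U.Phi J k x) := by
  classical
  have hc := har.c_pos
  have hC := har.C_pos
  have hκ := U.κ_pos
  have hu := uvol_pos n
  have hlk := U.Q.l_pos' k
  set a₁ := uvol n * 12 ^ n / c with ha₁
  set a₂ := 10 * 6 ^ (n - 1) * 4 ^ n / c with ha₂
  set b₀ := uvol n / (C * 16 ^ n) with hb₀
  have hb₀0 : 0 < b₀ := by positivity
  set F : Eu d → ℝ := fun x => a₁ * U.Phi J k x + U.κ * a₂ with hF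
  have h1 : b₀ * U.Q.wsum z₀ k (fun x => ind (U.Gt k x)) ≤
      ∑ z ∈ U.Q.Wf z₀ k, ind (U.Gt k z) * (uvol n * (U.Q.l k / 8) ^ n) := by
    unfold Cubes.wsum
    rw [Finset.mul_sum]
    refine Finset.sum_le_sum fun z _ => ?_
    have h2 := U.Q.cube_upper har k z
    have h3 : b₀ * μ.real (U.Q.cube k z) ≤ uvol n * (U.Q.l k / 8) ^ n := by
      calc _ ≤ b₀ * (C * (2 * U.Q.l k) ^ n) := by (clear * - hC hu h2; gcongr)
        _ = _ := by
          rw [hb₀, show (2 : ℝ) * U.Q.l k = 16 * (U.Q.l k / 8) by ring, mul_pow]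
          (clear * - hC hu hlk; field_simp)
    calc b₀ * (μ.real (U.Q.cube k z) * ind (U.Gt k z)) =
        ind (U.Gt k z) * (b₀ * μ.real (U.Q.cube k z)) := by ring
      _ ≤ _ := mul_le_mul_of_nonneg_left h3 (ind_nonneg _)
  have h2 : ∑ z ∈ U.Q.Wf z₀ k, ind (U.Gt k z) * (uvol n * (U.Q.l k / 8) ^ n) ≤
      ∑ z ∈ U.Q.Wf z₀ k, ind (U.Gt k z) *
        U.Q.wsum z₀ J (fun x => ind (U.Q.p k x = z) * F x) := by
    refine Finset.sum_le_sum fun z hz => ?_
    by_cases hg : U.Gt k z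
    · have hpz : U.Q.p k z = z := U.Q.p_self (U.Q.mem_Wf.1 hz).1
      exact mul_le_mul_of_nonneg_left
        (U.cover_ineq hn har hD hkJ hz hg.1 (by rw [← hpz]; exact hg.2)) (ind_nonneg _)
    · rw [ind_false hg, zero_mul, zero_mul]
  have h3 : ∑ z ∈ U.Q.Wf z₀ k, ind (U.Gt k z) *
        U.Q.wsum z₀ J (fun x => ind (U.Q.p k x = z) * F x) =
      U.Q.wsum z₀ J (fun x => ind (U.Gt k x) * F x) := by
    simp_rw [← U.Q.wsum_const_mul]
    rw [← U.Q.wsum_sum]
    unfold Cubes.wsum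
    refine Finset.sum_congr rfl fun x hx => ?_
    congr 1
    obtain ⟨hxN, hx0⟩ := U.Q.mem_Wf.1 hx
    have hxE := hx0.1
    show ∑ a ∈ U.Q.Wf z₀ k, ind (U.Gt k a) * (ind (U.Q.p k x = a) * F x) = ind (U.Gt k x) * F x
    rw [Finset.sum_eq_single (U.Q.p k x)]
    · rw [ind_true rfl, one_mul, ind_congr (U.Gt_congr (U.Q.p_memE hxE) hxE (U.Q.p_p le_rfl hxE))]
    · intro z _ hz
      rw [ind_false (P := U.Q.p k x = z) (fun h => hz h.symm)]; ring
    · intro h
      exfalso
      apply h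
      rw [U.Q.mem_Wf]
      exact ⟨U.Q.p_mem k x hxE, U.Q.p_memE hxE, (U.Q.p_p (Nat.zero_le k) hxE).trans hx0.2⟩
  have h4 : U.Q.wsum z₀ J (fun x => ind (U.Gt k x) * F x) =
      a₁ * U.Q.wsum z₀ J (fun x => ind (U.Gt k x) * U.Phi J k x) +
        U.κ * a₂ * U.Q.wsum z₀ J (fun x => ind (U.Gt k x)) := by
    rw [← U.Q.wsum_const_mul, ← U.Q.wsum_const_mul, ← U.Q.wsum_add]
    unfold Cubes.wsum
    refine Finset.sum_congr rfl fun x _ => ?_
    rw [hF]
    ring
  have h5 : U.Q.wsum z₀ k (fun x => ind (U.Gt k x)) = U.Q.wsum z₀ J (fun x => ind (U.Gt k x)) :=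
    U.Q.wsum_eq har hkJ fun x hx y hy h => ind_congr (U.Gt_congr hx hy h)
  have h6 : 0 ≤ U.Q.wsum z₀ J (fun x => ind (U.Gt k x)) :=
    U.Q.wsum_nonneg fun _ _ => ind_nonneg _
  rw [h5] at h1
  have h7 := h1.trans (h2.trans (h3.trans h4).le)
  have h8 := mul_le_mul_of_nonneg_right hκs h6
  linarith

lemma phi_pointwise (J : ℕ) (x : Eu d) :
    ∑ k ∈ Finset.range (J + 1), ind (U.Gt k x) * U.Phi J k x ≤
      1 + ∑ k ∈ Finset.range (J + 1), ind (¬ U.G k (U.Q.p k x)) := by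
  classical
  have h1 : ∀ k ∈ Finset.range (J + 1), ind (U.Gt k x) * U.Phi J k x ≤
      ind (U.top J x = k) +
        ∑ i ∈ Finset.range (J + 1), ind (U.Next k i x ∧ ¬ U.G i (U.Q.p i x)) := by
    intro k _
    calc ind (U.Gt k x) * U.Phi J k x ≤ 1 * U.Phi J k x :=
          mul_le_mul_of_nonneg_right (ind_le_one _) (U.phi_nonneg J k x)
      _ = U.Phi J k x := one_mul _
      _ ≤ _ := by
        unfold Phi
        refine add_le_add le_rfl ?_
        apply Finset.sum_le_sum_of_subset_of_nonneg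
        · intro i hi
          rw [Finset.mem_Ioc] at hi
          exact Finset.mem_range.2 (by omega)
        · intro i _ _
          exact ind_nonneg _
  refine (Finset.sum_le_sum h1).trans ?_
  rw [Finset.sum_add_distrib]
  apply add_le_add
  · rw [Finset.sum_eq_single (U.top J x)]
    · exact ind_le_one _
    · intro k _ hk
      exact ind_false fun h => hk h.symm
    · intro h
      exact absurd (Finset.mem_range.2 (Nat.lt_succ_of_le (U.top_le J x))) h
  · rw [Finset.sum_comm]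
    refine Finset.sum_le_sum fun i _ => ?_
    by_cases hG : U.G i (U.Q.p i x)
    · rw [Finset.sum_eq_zero]
      · exact ind_nonneg _
      · intro k _
        exact ind_false fun h => h.2 hG
    · rw [ind_true hG]
      by_cases hi : i = 0
      · rw [Finset.sum_eq_zero]
        · norm_num
        · intro k _
          apply ind_false
          rintro ⟨⟨h, -⟩, -⟩
          omega
      · rw [Finset.sum_eq_single (U.top (i - 1) x)]
        · exact ind_le_one _
        · intro k _ hk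
          apply ind_false
          rintro ⟨⟨-, h, -⟩, -⟩
          exact hk h.symm
        · intro h
          apply ind_false
          rintro ⟨⟨h1, -⟩, -⟩
          apply h
          rename_i hi'
          rw [Finset.mem_range] at hi' ⊢
          omega

/-- bound for the number of tops -/
theorem tops_bound (hn : 1 ≤ n) {c C : ℝ} {D : ℝ≥0∞} (har : AR n c C D μ)
    (hD : ENNReal.ofReal l₀ ≤ D) (z₀ : Eu d) (J : ℕ)
    (hκs : U.κ * (10 * 6 ^ (n - 1) * 4 ^ n / c) ≤ uvol n / (C * 16 ^ n) / 2) {B : ℝ}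
    (hB : ∑ k ∈ Finset.range (J + 1),
      μ.real {x | x ∈ U.Q.cube 0 z₀ ∧ ¬ U.G k (U.Q.p k x)} ≤ B) :
    ∑ k ∈ Finset.range (J + 1), μ.real {x | x ∈ U.Q.cube 0 z₀ ∧ U.top k x = k} ≤
      (2 * (uvol n * 12 ^ n / c) / (uvol n / (C * 16 ^ n))) *
        (μ.real (U.Q.cube 0 z₀) + B) + B := by
  classical
  have hc := har.c_pos
  have hC := har.C_pos
  have hu := uvol_pos n
  set a₁ := uvol n * 12 ^ n / c with ha₁
  set b₀ := uvol n / (C * 16 ^ n) with hb₀
  have hb₀0 : 0 < b₀ := by positivity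
  have ha₁0 : 0 < a₁ := by positivity
  have hGs : ∀ k, ∀ x ∈ μ.support, ∀ y ∈ μ.support, U.Q.p k x = U.Q.p k y →
      ((¬ U.G k (U.Q.p k x)) ↔ ¬ U.G k (U.Q.p k y)) := by
    intro k x _ y _ h
    rw [h]
  have hTs : ∀ k, ∀ x ∈ μ.support, ∀ y ∈ μ.support, U.Q.p k x = U.Q.p k y →
      (U.top k x = k ↔ U.top k y = k) := by
    intro k x hx y hy h
    rw [U.top_congr hx hy h]
  have hB' : ∑ k ∈ Finset.range (J + 1), U.Q.wsum z₀ J (fun x => ind (¬ U.G k (U.Q.p k x))) ≤
      B := by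
    refine le_trans (Finset.sum_le_sum fun k hk => ?_) hB
    rw [Finset.mem_range] at hk
    rw [(U.Q.real_eq_wsum har (hGs k)).2, U.Q.wsum_eq har (show k ≤ J by omega)]
    intro x hx y hy h
    exact ind_congr (hGs k x hx y hy h)
  have hroot : U.Q.wsum z₀ J (fun _ => 1) = μ.real (U.Q.cube 0 z₀) := by
    have := (U.Q.real_eq_wsum har (z₀ := z₀) (J := J) (P := fun _ => True)
      (fun _ _ _ _ _ => Iff.rfl)).2
    simp only [and_true, ind_true trivial] at this
    rw [← this]; rfl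
  have h1 : b₀ / 2 * ∑ k ∈ Finset.range (J + 1), U.Q.wsum z₀ J (fun x => ind (U.Gt k x)) ≤
      a₁ * (μ.real (U.Q.cube 0 z₀) + B) := by
    calc _ = ∑ k ∈ Finset.range (J + 1), b₀ / 2 * U.Q.wsum z₀ J (fun x => ind (U.Gt k x)) :=
          Finset.mul_sum _ _ _
      _ ≤ ∑ k ∈ Finset.range (J + 1),
          a₁ * U.Q.wsum z₀ J (fun x => ind (U.Gt k x) * U.Phi J k x) := by
          refine Finset.sum_le_sum fun k hk => ?_
          rw [Finset.mem_range] at hk
          exact U.gt_ineq hn har hD z₀ (by omega) hκs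
      _ = a₁ * U.Q.wsum z₀ J (fun x => ∑ k ∈ Finset.range (J + 1),
            ind (U.Gt k x) * U.Phi J k x) := by
          rw [U.Q.wsum_sum, Finset.mul_sum]
      _ ≤ a₁ * U.Q.wsum z₀ J (fun x => 1 + ∑ k ∈ Finset.range (J + 1),
            ind (¬ U.G k (U.Q.p k x))) := by
          apply mul_le_mul_of_nonneg_left _ ha₁0.le
          exact U.Q.wsum_mono fun x _ => U.phi_pointwise J x
      _ = a₁ * (μ.real (U.Q.cube 0 z₀) + ∑ k ∈ Finset.range (J + 1),
            U.Q.wsum z₀ J (fun x => ind (¬ U.G k (U.Q.p k x)))) := by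
          rw [U.Q.wsum_add, hroot, U.Q.wsum_sum]
      _ ≤ _ := by gcongr
  have h2 : ∑ k ∈ Finset.range (J + 1), U.Q.wsum z₀ J (fun x => ind (U.Gt k x)) ≤
      2 * a₁ / b₀ * (μ.real (U.Q.cube 0 z₀) + B) := by
    rw [div_mul_eq_mul_div, le_div_iff₀ hb₀0]
    linarith only [h1]
  calc ∑ k ∈ Finset.range (J + 1), μ.real {x | x ∈ U.Q.cube 0 z₀ ∧ U.top k x = k} =
      ∑ k ∈ Finset.range (J + 1), U.Q.wsum z₀ J (fun x => ind (U.top k x = k)) := by
        refine Finset.sum_congr rfl fun k hk => ?_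
        rw [Finset.mem_range] at hk
        rw [(U.Q.real_eq_wsum har (hTs k)).2, U.Q.wsum_eq har (show k ≤ J by omega)]
        intro x hx y hy h
        exact ind_congr (hTs k x hx y hy h)
    _ ≤ ∑ k ∈ Finset.range (J + 1), (U.Q.wsum z₀ J (fun x => ind (U.Gt k x)) +
          U.Q.wsum z₀ J (fun x => ind (¬ U.G k (U.Q.p k x)))) := by
        refine Finset.sum_le_sum fun k _ => ?_
        rw [← U.Q.wsum_add]
        apply U.Q.wsum_mono
        intro x _
        by_cases h : U.top k x = k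
        · by_cases hG : U.G k (U.Q.p k x)
          · rw [ind_true h, ind_true (show U.Gt k x from ⟨h, hG⟩)]
            linarith only [ind_nonneg (¬ U.G k (U.Q.p k x))]
          · rw [ind_true h, ind_true hG]
            linarith only [ind_nonneg (U.Gt k x)]
        · rw [ind_false h]
          exact add_nonneg (ind_nonneg _) (ind_nonneg _)
    _ ≤ _ := by
        rw [Finset.sum_add_distrib]
        exact add_le_add h2 hB'

end UData

end Vale.Agent.P120
end
end

section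

section

/-! The co-Lipschitz coding map for Theorem B -/

open MeasureTheory Metric Set Filter Topology
open scoped ENNReal NNReal RealInnerProductSpace

namespace Vale.Agent.P120

variable {n d : ℕ}

namespace UData

variable {μ : Measure (Eu d)} {A : ℕ} {l₀ : ℝ} (U : UData n μ.support A l₀)

/-- `x` stops at some generation -/
def St (k : ℕ) (x : Eu d) : Prop := ∃ i, U.Next k i x

open Classical in
/-- the stopping generation -/
noncomputable def ni (k : ℕ) (x : Eu d) : ℕ := if h : U.St k x then h.choose else 0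

lemma ni_spec {k : ℕ} {x : Eu d} (h : U.St k x) : U.Next k (U.ni k x) x := by
  unfold ni
  rw [dif_pos h]
  exact h.choose_spec

lemma ni_eq {k i : ℕ} {x : Eu d} (h : U.Next k i x) : U.ni k x = i :=
  Next.unique U (U.ni_spec ⟨i, h⟩) h

open Classical in
/-- representative point -/
noncomputable def rep (k : ℕ) (x : Eu d) : Eu d := if U.St k x then U.Q.p (U.ni k x) x else x

open Classical in
/-- stopping height -/
noncomputable def ht (k : ℕ) (x : Eu d) : ℝ := if U.St k x then U.Q.l (U.ni k x) else 0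

lemma rep_st {k : ℕ} {x : Eu d} (h : U.St k x) : U.rep k x = U.Q.p (U.ni k x) x := if_pos h
lemma rep_nst {k : ℕ} {x : Eu d} (h : ¬ U.St k x) : U.rep k x = x := if_neg h
lemma ht_st {k : ℕ} {x : Eu d} (h : U.St k x) : U.ht k x = U.Q.l (U.ni k x) := if_pos h
lemma ht_nst {k : ℕ} {x : Eu d} (h : ¬ U.St k x) : U.ht k x = 0 := if_neg h

lemma rep_mem {k : ℕ} {x : Eu d} (hx : x ∈ μ.support) : U.rep k x ∈ μ.support := by
  by_cases h : U.St k x
  · rw [U.rep_st h]; exact U.Q.p_memE hx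
  · rw [U.rep_nst h]; exact hx

lemma p_rep {k i : ℕ} {x : Eu d} (hx : x ∈ μ.support) (hi : U.St k x → i ≤ U.ni k x) :
    U.Q.p i (U.rep k x) = U.Q.p i x := by
  by_cases h : U.St k x
  · rw [U.rep_st h]; exact U.Q.p_p (hi h) hx
  · rw [U.rep_nst h]

/-- separation of representatives -/
lemma ht_le_dist {k : ℕ} {x y : Eu d} (hx : x ∈ μ.support) (hy : y ∈ μ.support)
    (hns : ¬ ∃ i, U.Next k i x ∧ U.Next k i y ∧ U.Q.p i x = U.Q.p i y) :
    U.ht k x ≤ 4 * dist (U.rep k x) (U.rep k y) := by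
  by_cases h : U.St k x
  · set j := U.ni k x with hj
    have hN : U.Next k j x := U.ni_spec h
    rw [U.ht_st h, U.rep_st h, ← hj]
    have hne : U.Q.p j (U.rep k y) ≠ U.Q.p j x := by
      intro heq
      by_cases h' : U.St k y
      · set j' := U.ni k y with hj'
        have hN' : U.Next k j' y := U.ni_spec h'
        rw [U.rep_st h', ← hj'] at heq
        rcases Nat.lt_or_ge j' j with hlt | hge
        · have e1 : U.Q.p j' (U.Q.p j (U.Q.p j' y)) = U.Q.p j' y := by
            rw [U.Q.p_p hlt.le (U.Q.p_memE hy), U.Q.p_p le_rfl hy]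
          rw [heq, U.Q.p_p hlt.le hx] at e1
          have := (Next.congr U hy hx e1.symm).1 hN'
          have := Next.unique U this hN
          omega
        · rw [U.Q.p_p hge hy] at heq
          have := (Next.congr U hx hy heq.symm).1 hN
          exact hns ⟨j, hN, this, heq.symm⟩
      · rw [U.rep_nst h'] at heq
        exact h' ⟨j, (Next.congr U hx hy heq.symm).1 hN⟩
    have := U.Q.dist_of_p_ne (U.Q.p_mem j x hx) (U.rep_mem hy) hne
    rw [dist_comm] at this
    linarith only [this]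
  · rw [U.ht_nst h]; positivity

/-- the reference projection is expanding on the region -/
lemma expand {k : ℕ} {z x y : Eu d} (hx : x ∈ U.Q.cube k z) (hy : y ∈ μ.support)
    (htop : U.top k x = k) (hG : U.G k z)
    (hD0 : 0 < dist (U.rep k x) y) (hDk : dist (U.rep k x) y < 8 * U.Q.l k)
    (hh : U.ht k x ≤ 4 * dist (U.rep k x) y) :
    U.κ / 2 * dist (U.rep k x) y ≤ ‖pr (U.io k z) (U.rep k x - y)‖ := by
  classical
  obtain ⟨hxE, hxz⟩ := hx
  have hκ := U.κ_pos
  have hκ1 := U.κ_le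
  have hε := U.ε_pos
  have hε1 := U.ε_le
  have hA := U.Q.A_ge'
  set w := U.rep k x with hw
  have hwE : w ∈ μ.support := U.rep_mem hxE
  set D := dist w y with hD
  -- choose the generation
  have hex : ∃ i, k ≤ i ∧ 8 * U.Q.l i ≤ D := by
    obtain ⟨i, hi⟩ := U.Q.exists_l_lt (show 0 < D / 8 by (clear * - hD0; positivity))
    refine ⟨max i k, le_max_right _ _, ?_⟩
    have := U.Q.l_anti (le_max_left i k)
    linarith only [hi, this]
  set i₀ := Nat.find hex with hi₀
  obtain ⟨hi₀k, hi₀D⟩ := Nat.find_spec hex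
  have hki₀ : k < i₀ := by
    rcases Nat.eq_or_lt_of_le hi₀k with h | h
    · exfalso
      rw [← h] at hi₀D
      linarith only [hDk, hi₀D]
    · exact h
  have hi₁ : D < 8 * U.Q.l (i₀ - 1) := by
    by_contra hcon
    push Not at hcon
    have := Nat.find_min' hex ⟨by omega, hcon⟩
    omega
  obtain ⟨i, hki, hii₀, hist, hDi, hDi'⟩ : ∃ i, k ≤ i ∧ i ≤ i₀ - 1 ∧
      (U.St k x → i < U.ni k x) ∧ D < 8 * U.Q.l i ∧ U.Q.l i ≤ 4 * A * D := by
    have hl₀ := U.Q.l_succ (i₀ - 1)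
    rw [show i₀ - 1 + 1 = i₀ by omega] at hl₀
    have hli₀ : U.Q.l (i₀ - 1) ≤ 4 * A * D := by
      rw [hl₀]
      have := U.Q.l_pos' i₀
      nlinarith only [hex, hi₀D, hi₁, hl₀, this]
    by_cases hst : U.St k x
    · have hN := U.ni_spec hst
      rcases Nat.lt_or_ge (i₀ - 1) (U.ni k x) with h | h
      · exact ⟨i₀ - 1, by omega, le_rfl, fun _ => h, hi₁, hli₀⟩
      · refine ⟨U.ni k x - 1, ?_, by omega, ?_, ?_, ?_⟩
        · have := hN.1; omega
        · intro _; have := hN.1; omega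
        · have := U.Q.l_anti (show U.ni k x - 1 ≤ i₀ - 1 by omega)
          linarith only [hi₁, this]
        · have h1 := U.Q.l_succ (U.ni k x - 1)
          rw [show U.ni k x - 1 + 1 = U.ni k x by have := hN.1; omega] at h1
          rw [h1]
          rw [U.ht_st hst] at hh
          nlinarith only [hh]
    · exact ⟨i₀ - 1, by omega, le_rfl, fun h => absurd h hst, hi₁, hli₀⟩
  have hl := U.Q.l_pos' i
  -- region
  have hpw : U.Q.p i w = U.Q.p i x := U.p_rep hxE fun h => (hist h).le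
  have htopi : U.top i x = k := by
    rcases U.exists_next htop hki with h | ⟨j, hj, hN⟩
    · exact h
    · exfalso
      have h1 := hist ⟨j, hN⟩
      rw [U.ni_eq hN] at h1
      omega
  have hR := U.reg_of_top' htopi (by rw [hxz]; exact hG) i hki le_rfl
  rw [hxz] at hR
  obtain ⟨hGi, hnd⟩ := hR
  set q := U.Q.p i x with hq
  set ι₀ := U.io k z with hι₀
  set ι := U.io i q with hι
  obtain ⟨hf1, -⟩ := U.flat i q (U.Q.p_mem i x hxE) hGi
  have hwq : dist w q ≤ 2 * U.Q.l i := by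
    rw [← hpw]; exact U.Q.dist_p i hwE
  have hyq : dist y q < 10 * U.Q.l i := by
    have := dist_triangle_left y q w
    linarith only [hDi, hwq, this]
  obtain ⟨v, hv⟩ := hf1 w hwE (by linarith only [hl, hwq])
  obtain ⟨v', hv'⟩ := hf1 y hy hyq
  have e1 : pr ι₀ (w - y) = pr ι₀ (ι (v - v')) + pr ι₀ (w - (q + ι v)) -
      pr ι₀ (y - (q + ι v')) := by
    simp only [map_sub, map_add]; abel
  have h1 : ‖pr ι₀ (w - (q + ι v))‖ ≤ U.ε * U.Q.l i := by
    refine (norm_pr_le _ _).trans ?_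
    rw [← dist_eq_norm]; exact hv
  have h2 : ‖pr ι₀ (y - (q + ι v'))‖ ≤ U.ε * U.Q.l i := by
    refine (norm_pr_le _ _).trans ?_
    rw [← dist_eq_norm]; exact hv'
  have h3 : U.κ * ‖v - v'‖ ≤ ‖pr ι₀ (ι (v - v'))‖ := hnd.lower hκ _
  have h4 : D ≤ ‖v - v'‖ + 2 * (U.ε * U.Q.l i) := by
    rw [← LinearIsometry.norm_map ι (v - v'), hD, dist_eq_norm]
    calc ‖w - y‖ = ‖ι (v - v') + (w - (q + ι v)) + -(y - (q + ι v'))‖ := by
          congr 1; simp only [map_sub]; abel
      _ ≤ ‖ι (v - v')‖ + ‖w - (q + ι v)‖ + ‖y - (q + ι v')‖ := by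
          refine (norm_add_le _ _).trans ?_
          rw [norm_neg]
          gcongr
          exact norm_add_le _ _
      _ ≤ ‖ι (v - v')‖ + U.ε * U.Q.l i + U.ε * U.Q.l i := by
          rw [dist_eq_norm] at hv hv'
          (clear * - hv hv'; gcongr)
      _ = _ := by ring
  have h5 : ‖pr ι₀ (ι (v - v'))‖ ≤ ‖pr ι₀ (w - y)‖ + 2 * (U.ε * U.Q.l i) := by
    calc ‖pr ι₀ (ι (v - v'))‖ = ‖pr ι₀ (w - y) + -(pr ι₀ (w - (q + ι v))) +
          pr ι₀ (y - (q + ι v'))‖ := by rw [e1]; congr 1; abel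
      _ ≤ ‖pr ι₀ (w - y)‖ + ‖pr ι₀ (w - (q + ι v))‖ + ‖pr ι₀ (y - (q + ι v'))‖ := by
          refine (norm_add_le _ _).trans ?_
          gcongr
          refine (norm_add_le _ _).trans ?_
          rw [norm_neg]
      _ ≤ _ := by linarith only [h1, h2]
  have h6 : U.ε * U.Q.l i ≤ U.κ / 200 * D := by
    calc U.ε * U.Q.l i ≤ U.ε * (4 * A * D) := by (clear * - hε hDi'; gcongr)
      _ = (U.ε * (800 * A)) * (D / 200) := by ring
      _ ≤ U.κ * (D / 200) := by (clear * - hε1 hD0; gcongr)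
      _ = _ := by ring
  have h7 : U.κ * D ≤ U.κ * (‖v - v'‖ + 2 * (U.ε * U.Q.l i)) := by (clear * - hκ h4; gcongr)
  have h8 : 0 ≤ U.ε * U.Q.l i := by positivity
  have h9 : U.κ * (2 * (U.ε * U.Q.l i)) ≤ 2 * (U.ε * U.Q.l i) := by nlinarith only [hκ1, h8]
  have h10 : 0 < U.κ * D := by positivity
  nlinarith only [h3, h5, h6, h7, h9, h10]

end UData

end Vale.Agent.P120
end
end

section

section

/-! The coding map of Theorem B (abstract in the top predicate).  Owner: helper794 -/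

open MeasureTheory Metric Set Filter Topology
open scoped ENNReal NNReal

namespace Vale.Agent.P120

variable {d n : ℕ} {E : Set (Eu d)} {A : ℕ} {l₀ : ℝ}

/-- points of the cube `(j,z)` which are in no top strictly below `(j,z)`, and the centres of the
maximal tops strictly below `(j,z)` -/
def Skel (Q : Cubes E A l₀) (Top : ℕ → Eu d → Prop) (j : ℕ) (z : Eu d) : Set (Eu d) :=
  {x | x ∈ E ∧ Q.p j x = z ∧ ∀ i, j < i → ¬ Top i (Q.p i x)} ∪
  {w | ∃ i, j < i ∧ w ∈ Q.N i ∧ Q.p j w = z ∧ Top i w ∧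
    ∀ i', j < i' → i' < i → ¬ Top i' (Q.p i' w)}

/-- generations `≥ j` of the tops containing `x` -/
def tops (Q : Cubes E A l₀) (Top : ℕ → Eu d → Prop) (j : ℕ) (x : Eu d) : Set ℕ :=
  {i | j ≤ i ∧ Top i (Q.p i x)}

open Classical in
/-- the generation of the next top containing `x` -/
noncomputable def nxt (Q : Cubes E A l₀) (Top : ℕ → Eu d → Prop) (j : ℕ) (x : Eu d) : ℕ :=
  sInf {i | j < i ∧ Top i (Q.p i x)}

theorem nxt_spec {Q : Cubes E A l₀} {Top : ℕ → Eu d → Prop} {j : ℕ} {x : Eu d}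
    (h : ∃ i, j < i ∧ Top i (Q.p i x)) :
    j < nxt Q Top j x ∧ Top (nxt Q Top j x) (Q.p (nxt Q Top j x) x) :=
  Nat.sInf_mem (s := {i | j < i ∧ Top i (Q.p i x)}) h

theorem nxt_min {Q : Cubes E A l₀} {Top : ℕ → Eu d → Prop} {j i : ℕ} {x : Eu d}
    (hi : j < i) (hlt : i < nxt Q Top j x) : ¬ Top i (Q.p i x) :=
  fun hT => Nat.notMem_of_lt_sInf hlt ⟨hi, hT⟩

open Classical in
/-- representative of `x` in the skeleton -/
noncomputable def rep (Q : Cubes E A l₀) (Top : ℕ → Eu d → Prop) (j : ℕ) (x : Eu d) : Eu d :=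
  if ∃ i, j < i ∧ Top i (Q.p i x) then Q.p (nxt Q Top j x) x else x

open Classical in
/-- radius of the representative -/
noncomputable def rad (Q : Cubes E A l₀) (Top : ℕ → Eu d → Prop) (j : ℕ) (x : Eu d) : ℝ :=
  if ∃ i, j < i ∧ Top i (Q.p i x) then Q.l (nxt Q Top j x) else 0

section

variable (Q : Cubes E A l₀) (Top : ℕ → Eu d → Prop) {j : ℕ} {z x y : Eu d}

theorem rad_nonneg : 0 ≤ rad Q Top j x := by
  unfold rad
  split_ifs with h
  · exact (Q.l_pos' _).le
  · exact le_rfl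

theorem rad_le : 16 * rad Q Top j x ≤ Q.l j := by
  unfold rad
  split_ifs with h
  · exact Q.l_lt (nxt_spec h).1
  · rw [mul_zero]; exact (Q.l_pos' _).le

theorem dist_rep (hx : x ∈ E) : dist x (rep Q Top j x) ≤ 2 * rad Q Top j x := by
  unfold rep rad
  split_ifs with h
  · exact Q.dist_p _ hx
  · simp

theorem rep_mem_skel (hx : x ∈ E) (hxz : Q.p j x = z) : rep Q Top j x ∈ Skel Q Top j z := by
  unfold rep
  split_ifs with h
  · obtain ⟨h1, h2⟩ := nxt_spec h
    refine Or.inr ⟨nxt Q Top j x, h1, Q.p_mem _ x hx, ?_, h2, ?_⟩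
    · rw [Q.p_p h1.le hx, hxz]
    · intro i' hi' hi'' hT
      rw [Q.p_p hi''.le hx] at hT
      exact nxt_min hi' hi'' hT
  · refine Or.inl ⟨hx, hxz, fun i hi hT => h ⟨i, hi, hT⟩⟩

theorem rep_sep_aux (hx : x ∈ E) (hy : y ∈ E)
    (h1 : ∃ i, j < i ∧ Top i (Q.p i x)) (h2 : ∃ i, j < i ∧ Top i (Q.p i y))
    (hle : nxt Q Top j x ≤ nxt Q Top j y)
    (hne : ¬ (nxt Q Top j x = nxt Q Top j y ∧
      Q.p (nxt Q Top j x) x = Q.p (nxt Q Top j y) y)) :
    max (rad Q Top j x) (rad Q Top j y) / 4 ≤ dist (rep Q Top j x) (rep Q Top j y) := by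
  have hrx : rep Q Top j x = Q.p (nxt Q Top j x) x := by unfold rep; rw [if_pos h1]
  have hry : rep Q Top j y = Q.p (nxt Q Top j y) y := by unfold rep; rw [if_pos h2]
  have hax : rad Q Top j x = Q.l (nxt Q Top j x) := by unfold rad; rw [if_pos h1]
  have hay : rad Q Top j y = Q.l (nxt Q Top j y) := by unfold rad; rw [if_pos h2]
  rw [hrx, hry, hax, hay, max_eq_left (Q.l_anti hle), dist_comm]
  refine Q.dist_of_p_ne (Q.p_mem _ x hx) (Q.p_memE hy) ?_
  rcases hle.eq_or_lt with heq | hlt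
  · intro hcon
    apply hne
    refine ⟨heq, ?_⟩
    rw [heq] at hcon ⊢
    rw [Q.p_self (Q.p_mem _ y hy)] at hcon
    exact hcon.symm
  · intro hcon
    rw [Q.p_p hle hy] at hcon
    have h3 := (nxt_spec h1)
    apply nxt_min h3.1 hlt
    rw [hcon]
    exact h3.2

theorem rep_sep (hx : x ∈ E) (hy : y ∈ E)
    (hne : ¬ ((∃ i, j < i ∧ Top i (Q.p i x)) ∧ (∃ i, j < i ∧ Top i (Q.p i y)) ∧
      nxt Q Top j x = nxt Q Top j y ∧ Q.p (nxt Q Top j x) x = Q.p (nxt Q Top j y) y)) :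
    max (rad Q Top j x) (rad Q Top j y) / 4 ≤ dist (rep Q Top j x) (rep Q Top j y) := by
  by_cases h1 : ∃ i, j < i ∧ Top i (Q.p i x)
  · by_cases h2 : ∃ i, j < i ∧ Top i (Q.p i y)
    · rcases le_total (nxt Q Top j x) (nxt Q Top j y) with h | h
      · exact rep_sep_aux Q Top hx hy h1 h2 h fun hcon => hne ⟨h1, h2, hcon⟩
      · have := rep_sep_aux Q Top hy hx h2 h1 h fun hcon =>
          hne ⟨h1, h2, hcon.1.symm, hcon.2.symm⟩
        rwa [max_comm, dist_comm] at this
    · have hrx : rep Q Top j x = Q.p (nxt Q Top j x) x := by unfold rep; rw [if_pos h1]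
      have hry : rep Q Top j y = y := by unfold rep; rw [if_neg h2]
      have hax : rad Q Top j x = Q.l (nxt Q Top j x) := by unfold rad; rw [if_pos h1]
      have hay : rad Q Top j y = 0 := by unfold rad; rw [if_neg h2]
      rw [hrx, hry, hax, hay, max_eq_left (Q.l_pos' _).le, dist_comm]
      refine Q.dist_of_p_ne (Q.p_mem _ x hx) hy ?_
      intro hcon
      obtain ⟨h3, h4⟩ := nxt_spec h1
      refine h2 ⟨_, h3, ?_⟩
      rw [hcon]
      exact h4
  · by_cases h2 : ∃ i, j < i ∧ Top i (Q.p i y)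
    · have hrx : rep Q Top j x = x := by unfold rep; rw [if_neg h1]
      have hry : rep Q Top j y = Q.p (nxt Q Top j y) y := by unfold rep; rw [if_pos h2]
      have hax : rad Q Top j x = 0 := by unfold rad; rw [if_neg h1]
      have hay : rad Q Top j y = Q.l (nxt Q Top j y) := by unfold rad; rw [if_pos h2]
      rw [hrx, hry, hax, hay, max_eq_right (Q.l_pos' _).le]
      refine Q.dist_of_p_ne (Q.p_mem _ y hy) hx ?_
      intro hcon
      obtain ⟨h3, h4⟩ := nxt_spec h2
      refine h1 ⟨_, h3, ?_⟩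
      rw [hcon]
      exact h4
    · have hax : rad Q Top j x = 0 := by unfold rad; rw [if_neg h1]
      have hay : rad Q Top j y = 0 := by unfold rad; rw [if_neg h2]
      rw [hax, hay, max_self, zero_div]
      exact dist_nonneg

theorem tops_nxt (hT : Top j z) (hx : Q.p j x = z) {N : ℕ}
    (hN : (tops Q Top j x).encard ≤ (N + 1 : ℕ)) (h : ∃ i, j < i ∧ Top i (Q.p i x)) :
    (tops Q Top (nxt Q Top j x) x).encard ≤ N := by
  have h1 : insert j (tops Q Top (nxt Q Top j x) x) ⊆ tops Q Top j x := by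
    intro i hi
    rcases Set.mem_insert_iff.1 hi with rfl | hi
    · exact ⟨le_rfl, by rw [hx]; exact hT⟩
    · exact ⟨(nxt_spec h).1.le.trans hi.1, hi.2⟩
  have h2 : j ∉ tops Q Top (nxt Q Top j x) x := fun hj =>
    absurd hj.1 (not_le.2 (nxt_spec h).1)
  have h3 := (Set.encard_le_encard h1).trans hN
  rw [Set.encard_insert_of_notMem h2] at h3
  push_cast at h3
  exact (ENat.add_le_add_iff_right ENat.one_ne_top).1 h3

end

/-- The coding map. -/
theorem coding {κ C₀ s : ℝ} (hκ : 0 < κ) (hC₀ : 0 < C₀) (hs : 0 < s) (hs1 : s ≤ 1)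
    (hsκ : 32 * s * C₀ ≤ κ) (Q : Cubes E A l₀) (Top : ℕ → Eu d → Prop)
    (H : ∀ j, ∀ z ∈ Q.N j, Top j z → ∃ h : Eu d → Eu n,
      (∀ u ∈ Skel Q Top j z, ∀ v ∈ Skel Q Top j z, κ * dist u v ≤ dist (h u) (h v)) ∧
      ∀ u ∈ Skel Q Top j z, ‖h u‖ ≤ C₀ * Q.l j) (N : ℕ) :
    ∀ j, ∀ z ∈ Q.N j, Top j z → ∃ G : Eu d → Eu n,
      (∀ x ∈ E, ∀ y ∈ E, Q.p j x = z → Q.p j y = z → (tops Q Top j x).encard ≤ N →
        (tops Q Top j y).encard ≤ N → s ^ N * (κ / 34) * dist x y ≤ dist (G x) (G y)) ∧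
      ∀ x ∈ E, Q.p j x = z → (tops Q Top j x).encard ≤ N → ‖G x‖ ≤ 2 * C₀ * Q.l j := by
  induction N with
  | zero =>
    intro j z hz hT
    have hempty : ∀ x, Q.p j x = z → ¬ (tops Q Top j x).encard ≤ ((0 : ℕ) : ℕ∞) := by
      intro x hx hcon
      rw [Nat.cast_zero, nonpos_iff_eq_zero, Set.encard_eq_zero] at hcon
      have : j ∈ tops Q Top j x := ⟨le_rfl, by rw [hx]; exact hT⟩
      rw [hcon] at this
      exact this
    exact ⟨fun _ => 0, fun x _ y _ hx _ hN _ => absurd hN (hempty x hx),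
      fun x _ hx hN => absurd hN (hempty x hx)⟩
  | succ N ih =>
    intro j z hz hT
    obtain ⟨h, hh1, hh2⟩ := H j z hz hT
    have hex : ∀ i w, ∃ G : Eu d → Eu n, w ∈ Q.N i → Top i w →
        (∀ x ∈ E, ∀ y ∈ E, Q.p i x = w → Q.p i y = w → (tops Q Top i x).encard ≤ N →
          (tops Q Top i y).encard ≤ N → s ^ N * (κ / 34) * dist x y ≤ dist (G x) (G y)) ∧
        ∀ x ∈ E, Q.p i x = w → (tops Q Top i x).encard ≤ N → ‖G x‖ ≤ 2 * C₀ * Q.l i := by
      intro i w
      by_cases hw : w ∈ Q.N i ∧ Top i w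
      · obtain ⟨G, hG⟩ := ih i w hw.1 hw.2
        exact ⟨G, fun _ _ => hG⟩
      · exact ⟨fun _ => 0, fun h1 h2 => absurd ⟨h1, h2⟩ hw⟩
    choose G' hG' using hex
    classical
    set e : Eu d → Eu n := fun x => if ∃ i, j < i ∧ Top i (Q.p i x) then
      s • G' (nxt Q Top j x) (Q.p (nxt Q Top j x) x) x else 0 with he
    have hebound : ∀ x ∈ E, Q.p j x = z → (tops Q Top j x).encard ≤ ((N + 1 : ℕ) : ℕ∞) →
        ‖e x‖ ≤ s * (2 * C₀ * rad Q Top j x) := by
      intro x hx hxz hN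
      by_cases h1 : ∃ i, j < i ∧ Top i (Q.p i x)
      · have hax : rad Q Top j x = Q.l (nxt Q Top j x) := by unfold rad; rw [if_pos h1]
        simp only [he, if_pos h1, hax]
        rw [norm_smul, Real.norm_of_nonneg hs.le]
        have h2 := (hG' (nxt Q Top j x) (Q.p (nxt Q Top j x) x) (Q.p_mem _ x hx)
          (nxt_spec h1).2).2 x hx rfl (tops_nxt Q Top hT hxz hN h1)
        (clear * - hs h2; gcongr)
      · have hax : rad Q Top j x = 0 := by unfold rad; rw [if_neg h1]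
        simp only [he, if_neg h1, hax]
        simp
    refine ⟨fun x => h (rep Q Top j x) + e x, ?_, ?_⟩
    · intro x hx y hy hxz hyz hNx hNy
      by_cases hsame : (∃ i, j < i ∧ Top i (Q.p i x)) ∧ (∃ i, j < i ∧ Top i (Q.p i y)) ∧
        nxt Q Top j x = nxt Q Top j y ∧ Q.p (nxt Q Top j x) x = Q.p (nxt Q Top j y) y
      · obtain ⟨h1, h2, h3, h4⟩ := hsame
        have hrx : rep Q Top j x = Q.p (nxt Q Top j x) x := by unfold rep; rw [if_pos h1]
        have hry : rep Q Top j y = Q.p (nxt Q Top j y) y := by unfold rep; rw [if_pos h2]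
        have hex' : e x = s • G' (nxt Q Top j x) (Q.p (nxt Q Top j x) x) x := by
          simp only [he, if_pos h1]
        have hey : e y = s • G' (nxt Q Top j x) (Q.p (nxt Q Top j x) x) y := by
          simp only [he, if_pos h2]
          rw [← h4, ← h3]
        change s ^ (N + 1) * (κ / 34) * dist x y ≤
          dist (h (rep Q Top j x) + e x) (h (rep Q Top j y) + e y)
        rw [hrx, hry, ← h4, dist_add_left, hex', hey, dist_smul₀, Real.norm_of_nonneg hs.le,
          pow_succ]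
        have h5 := (hG' (nxt Q Top j x) (Q.p (nxt Q Top j x) x) (Q.p_mem _ x hx)
          (nxt_spec h1).2).1 x hx y hy rfl (by rw [h4, h3]) (tops_nxt Q Top hT hxz hNx h1)
          (by rw [h3]; exact tops_nxt Q Top hT hyz hNy h2)
        calc s ^ N * s * (κ / 34) * dist x y = s * (s ^ N * (κ / 34) * dist x y) := by ring
          _ ≤ s * dist (G' (nxt Q Top j x) (Q.p (nxt Q Top j x) x) x)
              (G' (nxt Q Top j x) (Q.p (nxt Q Top j x) x) y) := by (clear * - hs h5; gcongr)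
      · have hsep := rep_sep Q Top hx hy hsame
        set D := dist (rep Q Top j x) (rep Q Top j y) with hD
        have hax : rad Q Top j x ≤ 4 * D := by
          have := le_max_left (rad Q Top j x) (rad Q Top j y)
          linarith only [hsep, this]
        have hay : rad Q Top j y ≤ 4 * D := by
          have := le_max_right (rad Q Top j x) (rad Q Top j y)
          linarith only [hsep, this]
        have h1 := hh1 _ (rep_mem_skel Q Top hx hxz) _ (rep_mem_skel Q Top hy hyz)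
        have h2 := hebound x hx hxz hNx
        have h3 := hebound y hy hyz hNy
        have h4 : dist x y ≤ 17 * D := by
          have h5 := dist_triangle4 x (rep Q Top j x) (rep Q Top j y) y
          have h6 := dist_rep Q Top (j := j) hx
          have h7 := dist_rep Q Top (j := j) hy
          rw [dist_comm y] at h7
          linarith only [hax, hay, h5, h6, h7]
        change s ^ (N + 1) * (κ / 34) * dist x y ≤
          dist (h (rep Q Top j x) + e x) (h (rep Q Top j y) + e y)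
        have h5 : dist (h (rep Q Top j x)) (h (rep Q Top j y)) ≤
            dist (h (rep Q Top j x) + e x) (h (rep Q Top j y) + e y) + ‖e x‖ + ‖e y‖ := by
          rw [dist_eq_norm, dist_eq_norm]
          have h6 : h (rep Q Top j x) - h (rep Q Top j y) =
              (h (rep Q Top j x) + e x - (h (rep Q Top j y) + e y)) - e x + e y := by abel
          rw [h6]
          refine (norm_add_le _ _).trans (add_le_add (norm_sub_le _ _) le_rfl)
        have hD0 : 0 ≤ D := dist_nonneg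
        have h6 : ‖e x‖ + ‖e y‖ ≤ κ / 2 * D := by
          have h7 : s * (2 * C₀ * rad Q Top j x) ≤ s * (2 * C₀ * (4 * D)) := by (clear * - hC₀ hs hax; gcongr)
          have h8 : s * (2 * C₀ * rad Q Top j y) ≤ s * (2 * C₀ * (4 * D)) := by (clear * - hC₀ hs hay; gcongr)
          have h9 : 16 * s * C₀ * D ≤ κ / 2 * D := by
            apply mul_le_mul_of_nonneg_right _ hD0
            linarith only [hsκ]
          calc ‖e x‖ + ‖e y‖ ≤ s * (2 * C₀ * (4 * D)) + s * (2 * C₀ * (4 * D)) := by linarith only [h2,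
                                                                                       h3, h7, h8]
            _ = 16 * s * C₀ * D := by ring
            _ ≤ _ := h9
        have h7 : s ^ (N + 1) * (κ / 34) * dist x y ≤ κ / 34 * (17 * D) := by
          have h8 : s ^ (N + 1) ≤ 1 := pow_le_one₀ hs.le hs1
          calc s ^ (N + 1) * (κ / 34) * dist x y ≤ 1 * (κ / 34) * (17 * D) := by (clear * - hκ h4 h8; gcongr)
            _ = κ / 34 * (17 * D) := by ring
        have h8 : κ / 34 * (17 * D) = κ / 2 * D := by ring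
        rw [h8] at h7
        have h9 : κ * D ≤ dist (h (rep Q Top j x)) (h (rep Q Top j y)) := h1
        linarith only [h1, h5, h6, h7]
    · intro x hx hxz hN
      have h1 := hh2 _ (rep_mem_skel Q Top hx hxz)
      have h2 := hebound x hx hxz hN
      have h3 := rad_le Q Top (j := j) (x := x)
      have h4 := rad_nonneg Q Top (j := j) (x := x)
      refine (norm_add_le _ _).trans ?_
      have h5 : s * (2 * C₀ * rad Q Top j x) ≤ 1 * (2 * C₀ * rad Q Top j x) := by (clear * - hC₀ hs1 h4; gcongr)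
      nlinarith only [hC₀, h1, h2, h3, h4, h5]

/-- Big pieces of Lipschitz images from the coding map. -/
theorem coding_lip (n d : ℕ) (κ C₀ : ℝ) (hκ : 0 < κ) (hC₀ : 0 < C₀) (N : ℕ) : ∃ M : ℝ≥0,
    ∀ (E : Set (Eu d)) (A : ℕ) (l₀ : ℝ) (Q : Cubes E A l₀) (Top : ℕ → Eu d → Prop),
    (∀ j, ∀ z ∈ Q.N j, Top j z → ∃ h : Eu d → Eu n,
      (∀ u ∈ Skel Q Top j z, ∀ v ∈ Skel Q Top j z, κ * dist u v ≤ dist (h u) (h v)) ∧
      ∀ u ∈ Skel Q Top j z, ‖h u‖ ≤ C₀ * Q.l j) →
    ∀ x₀ ∈ Q.N 0, Top 0 x₀ → ∃ g : Eu n → Eu d, LipschitzWith M g ∧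
      {x | x ∈ E ∧ Q.p 0 x = x₀ ∧ (tops Q Top 0 x).encard ≤ N} ⊆ g '' ball 0 l₀ := by
  set s : ℝ := min 1 (κ / (32 * C₀)) with hs
  have hs0 : 0 < s := by positivity
  have hs1 : s ≤ 1 := min_le_left _ _
  have hsκ : 32 * s * C₀ ≤ κ := by
    have : s ≤ κ / (32 * C₀) := min_le_right _ _
    rw [le_div_iff₀ (by positivity)] at this
    linarith only [this]
  set c : ℝ := s ^ N * (κ / 34) with hc
  have hc0 : 0 < c := by positivity
  refine ⟨lipschitzExtensionConstant (Eu d) * (c⁻¹).toNNReal * (2 * C₀ + 1).toNNReal, ?_⟩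
  intro E A l₀ Q Top H x₀ hx₀ hT
  obtain ⟨G, hG1, hG2⟩ := coding hκ hC₀ hs0 hs1 hsκ Q Top H N 0 x₀ hx₀ hT
  set K : Set (Eu d) := {x | x ∈ E ∧ Q.p 0 x = x₀ ∧ (tops Q Top 0 x).encard ≤ N} with hK
  have hinj : ∀ x ∈ K, ∀ y ∈ K, c * dist x y ≤ dist (G x) (G y) := by
    rintro x ⟨hx1, hx2, hx3⟩ y ⟨hy1, hy2, hy3⟩
    exact hG1 x hx1 y hy1 hx2 hy2 hx3 hy3
  classical
  set g₀ : Eu n → Eu d := fun v => if h : ∃ x ∈ K, G x = v then h.choose else 0 with hg₀
  have hg₀G : ∀ x ∈ K, g₀ (G x) = x := by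
    intro x hx
    have hex : ∃ y ∈ K, G y = G x := ⟨x, hx, rfl⟩
    simp only [hg₀]
    rw [dif_pos hex]
    have h1 := hinj _ hex.choose_spec.1 x hx
    rw [hex.choose_spec.2, dist_self] at h1
    have h2 : dist hex.choose x ≤ 0 := by
      by_contra hcon
      push Not at hcon
      have : 0 < c * dist hex.choose x := by positivity
      linarith only [hex, h1, this]
    exact dist_le_zero.1 h2
  have hlip : LipschitzOnWith (c⁻¹).toNNReal g₀ (G '' K) := by
    refine LipschitzOnWith.of_dist_le_mul ?_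
    rintro _ ⟨x, hx, rfl⟩ _ ⟨y, hy, rfl⟩
    rw [hg₀G x hx, hg₀G y hy, Real.coe_toNNReal _ (by positivity)]
    have h1 := hinj x hx y hy
    rw [inv_mul_eq_div, le_div_iff₀ hc0]
    linarith only [h1]
  obtain ⟨g₁, hg₁, hg₁eq⟩ := hlip.extend_finite_dimension
  have hlam : (0 : ℝ) < 2 * C₀ + 1 := by positivity
  refine ⟨fun v => g₁ ((2 * C₀ + 1) • v), ?_, ?_⟩
  · refine hg₁.comp (LipschitzWith.of_dist_le_mul fun v w => ?_)
    rw [dist_smul₀, Real.norm_of_nonneg hlam.le, Real.coe_toNNReal _ hlam.le]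
  · intro x hx
    refine ⟨(2 * C₀ + 1)⁻¹ • G x, ?_, ?_⟩
    · rw [mem_ball, dist_zero_right, norm_smul, norm_inv, Real.norm_of_nonneg hlam.le,
        inv_mul_lt_iff₀ hlam]
      have h1 := hG2 x hx.1 hx.2.1 hx.2.2
      have h2 : Q.l 0 = l₀ := by unfold Cubes.l; simp
      rw [h2] at h1
      have h3 := Q.l_pos
      linarith only [h1, h3]
    · change g₁ ((2 * C₀ + 1) • (2 * C₀ + 1)⁻¹ • G x) = x
      rw [smul_smul, mul_inv_cancel₀ hlam.ne', one_smul, ← hg₁eq (mem_image_of_mem G hx),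
        hg₀G x hx]

end Vale.Agent.P120
end
end

section

section

/-! Skeleton embedding for a bad top.  Owner: helper794 -/

open MeasureTheory Metric Set Filter Topology
open scoped ENNReal NNReal

namespace Vale.Agent.P120

/-- number of `δ`-separated points in a ball of radius `R` of `R^d` -/
theorem card_separated_le {d : ℕ} {δ R : ℝ} (hδ : 0 < δ) (hR : 0 < R) (z : Eu d)
    (t : Finset (Eu d)) (hsep : ∀ x ∈ t, ∀ y ∈ t, x ≠ y → δ ≤ dist x y)
    (hball : ∀ x ∈ t, dist x z ≤ R) : (t.card : ℝ) ≤ ((2 * R + δ) / δ) ^ d := by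
  have h1 : (t.card : ℝ≥0∞) * ENNReal.ofReal ((δ / 2) ^ d) ≤ ENNReal.ofReal ((R + δ / 2) ^ d) := by
    have hμ : (volume (ball (0 : Eu d) 1)) ≠ 0 := (measure_ball_pos _ _ one_pos).ne'
    have hμ' : (volume (ball (0 : Eu d) 1)) ≠ ⊤ := measure_ball_lt_top.ne
    have hdisj : (t : Set (Eu d)).PairwiseDisjoint fun x => ball x (δ / 2) := by
      intro x hx y hy hxy
      exact ball_disjoint_ball (by linarith only [hsep x hx y hy hxy, hsep, hx, hy, hxy])
    have h2 : ∑ x ∈ t, volume (ball x (δ / 2)) ≤ volume (ball z (R + δ / 2)) := by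
      rw [← measure_biUnion_finset hdisj fun _ _ => measurableSet_ball]
      refine measure_mono (iUnion₂_subset fun x hx => ball_subset_ball' ?_)
      linarith [hball x hx]
    have h3 : ∀ x : Eu d, volume (ball x (δ / 2)) =
        ENNReal.ofReal ((δ / 2) ^ d) * volume (ball (0 : Eu d) 1) := by
      intro x
      rw [Measure.addHaar_ball_of_pos _ _ (by positivity), finrank_euclideanSpace_fin]
    have h4 : volume (ball z (R + δ / 2)) =
        ENNReal.ofReal ((R + δ / 2) ^ d) * volume (ball (0 : Eu d) 1) := by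
      rw [Measure.addHaar_ball_of_pos _ _ (by positivity), finrank_euclideanSpace_fin]
    simp only [h3, Finset.sum_const, nsmul_eq_mul, h4, ← mul_assoc] at h2
    exact (ENNReal.mul_le_mul_iff_left hμ hμ').1 h2
  have h2 : (t.card : ℝ≥0∞) = ENNReal.ofReal (t.card : ℝ) := (ENNReal.ofReal_natCast _).symm
  rw [h2, ← ENNReal.ofReal_mul (Nat.cast_nonneg _), ENNReal.ofReal_le_ofReal_iff (by positivity)]
    at h1
  have h3 : ((2 * R + δ) / δ) ^ d = (R + δ / 2) ^ d / (δ / 2) ^ d := by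
    rw [← div_pow]
    congr 1
    field_simp
  rw [h3, le_div_iff₀ (by positivity)]
  exact h1

/-- embedding of the centres of the children of a cube -/
theorem child_embed (n d A : ℕ) (hn : 1 ≤ n) : ∃ C₀ : ℝ, 0 < C₀ ∧
    ∀ (E : Set (Eu d)) (l₀ : ℝ) (Q : Cubes E A l₀) (j : ℕ) (z : Eu d), ∃ h : Eu d → Eu n,
      (∀ u ∈ {w | w ∈ Q.N (j + 1) ∧ Q.p j w = z}, ∀ v ∈ {w | w ∈ Q.N (j + 1) ∧ Q.p j w = z},
        1 / 4 * dist u v ≤ dist (h u) (h v)) ∧
      ∀ u ∈ {w | w ∈ Q.N (j + 1) ∧ Q.p j w = z}, ‖h u‖ ≤ C₀ * Q.l j := by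
  refine ⟨(4 * A + 1) ^ d + 1, by positivity, ?_⟩
  intro E l₀ Q j z
  set S : Set (Eu d) := {w | w ∈ Q.N (j + 1) ∧ Q.p j w = z} with hS
  have hlj := Q.l_pos' j
  have hlj1 := Q.l_pos' (j + 1)
  have hdist : ∀ w ∈ S, dist w z ≤ 2 * Q.l j := by
    rintro w ⟨hw1, hw2⟩
    have := Q.dist_p j (Q.N_sub _ hw1)
    rwa [hw2] at this
  have hfin : S.Finite := by
    refine (net_finite hlj1 (fun a ha b hb hab => Q.N_sep (j + 1) a ha b hb hab) z
      (2 * Q.l j)).subset ?_
    intro w hw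
    exact ⟨hw.1, hdist w hw⟩
  set t := hfin.toFinset with ht
  have hmem : ∀ w, w ∈ t ↔ w ∈ S := fun w => hfin.mem_toFinset
  have hcard : (t.card : ℝ) ≤ (4 * A + 1) ^ d := by
    have h1 := card_separated_le hlj1 (show 0 < 2 * Q.l j by positivity) z t
      (fun x hx y hy hxy => Q.N_sep (j + 1) x ((hmem x).1 hx).1 y ((hmem y).1 hy).1 hxy)
      (fun x hx => hdist x ((hmem x).1 hx))
    refine h1.trans (le_of_eq ?_)
    congr 1
    rw [Q.l_succ j]
    field_simp
    ring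
  classical
  set e₀ : Eu n := EuclideanSpace.single ⟨0, by omega⟩ (1 : ℝ) with he₀
  have he₀1 : ‖e₀‖ = 1 := by rw [he₀]; simp
  set idx : Eu d → ℝ := fun w => if hw : w ∈ t then ((t.equivFin ⟨w, hw⟩ : ℕ) : ℝ) else 0 with hidx
  have hidx0 : ∀ w, 0 ≤ idx w := by
    intro w
    simp only [hidx]
    split_ifs
    · exact Nat.cast_nonneg _
    · exact le_rfl
  have hidx1 : ∀ w, idx w ≤ (4 * A + 1) ^ d := by
    intro w
    simp only [hidx]
    split_ifs with hw
    · refine le_trans ?_ hcard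
      exact_mod_cast (t.equivFin ⟨w, hw⟩).2.le
    · (clear * -; positivity)
  have hidx2 : ∀ u ∈ t, ∀ v ∈ t, u ≠ v → 1 ≤ |idx u - idx v| := by
    intro u hu v hv huv
    simp only [hidx]
    rw [dif_pos hu, dif_pos hv]
    have hne : ((t.equivFin ⟨u, hu⟩ : ℕ) : ℤ) ≠ ((t.equivFin ⟨v, hv⟩ : ℕ) : ℤ) := by
      intro hcon
      apply huv
      have h1 : (t.equivFin ⟨u, hu⟩) = (t.equivFin ⟨v, hv⟩) := by
        apply Fin.ext
        exact_mod_cast hcon
      have h2 := t.equivFin.injective h1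
      exact congrArg Subtype.val h2
    have h1 : (1 : ℤ) ≤ |((t.equivFin ⟨u, hu⟩ : ℕ) : ℤ) - ((t.equivFin ⟨v, hv⟩ : ℕ) : ℤ)| :=
      Int.one_le_abs (sub_ne_zero.2 hne)
    exact_mod_cast h1
  refine ⟨fun w => (idx w * Q.l j) • e₀, ?_, ?_⟩
  · intro u hu v hv
    have huS : u ∈ S := hu
    have hvS : v ∈ S := hv
    rcases eq_or_ne u v with rfl | huv
    · rw [dist_self, mul_zero]; exact dist_nonneg
    have h1 := hidx2 u ((hmem u).2 huS) v ((hmem v).2 hvS) huv
    have h2 : dist u v ≤ 4 * Q.l j := by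
      have := dist_triangle_right u v z
      linarith only [hdist u huS, hdist v hvS, hdist, huS, hvS, this]
    change 1 / 4 * dist u v ≤ dist ((idx u * Q.l j) • e₀) ((idx v * Q.l j) • e₀)
    have h3 : dist ((idx u * Q.l j) • e₀) ((idx v * Q.l j) • e₀) = |idx u - idx v| * Q.l j := by
      rw [dist_eq_norm, ← sub_smul, norm_smul, he₀1, mul_one, ← sub_mul, Real.norm_eq_abs,
        abs_mul, abs_of_pos hlj]
    rw [h3]
    nlinarith only [hlj, h1, h2]
  · intro u hu
    rw [norm_smul, he₀1, mul_one, Real.norm_eq_abs, abs_mul, abs_of_pos hlj,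
      abs_of_nonneg (hidx0 u)]
    have := hidx1 u
    gcongr
    linarith only [this]

end Vale.Agent.P120
end
end

section

section

/-! Theorem B: Carleson packing of the cubes which are not bilaterally flat implies big pieces of
Lipschitz images. -/

open MeasureTheory Metric Set Filter Topology
open scoped ENNReal NNReal RealInnerProductSpace

namespace Vale.Agent.P120

variable {n d : ℕ}

/-- bilateral flatness at `(z, r)` with some plane through `z` -/
def BF (n : ℕ) {d : ℕ} (E : Set (Eu d)) (z : Eu d) (r K ε : ℝ) : Prop :=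
  ∃ ι : Eu n →ₗᵢ[ℝ] Eu d, BFlat E z r K ε ι

namespace UData

variable {μ : Measure (Eu d)} {A : ℕ} {l₀ : ℝ} (U : UData n μ.support A l₀)

/-- the top predicate -/
def TopP (j : ℕ) (w : Eu d) : Prop := U.top j w = j

lemma topP_p {j : ℕ} {x : Eu d} (hx : x ∈ μ.support) : U.TopP j (U.Q.p j x) ↔ U.top j x = j := by
  unfold TopP
  rw [U.top_congr_p le_rfl hx]

lemma skel_prop {j : ℕ} {z u : Eu d} (hz : z ∈ U.Q.N j) (hT : U.TopP j z)
    (hu : u ∈ Skel U.Q U.TopP j z) :
    u ∈ μ.support ∧ U.Q.p j u = z ∧ U.top j u = j ∧ U.rep j u = u := by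
  have htop : ∀ x ∈ μ.support, U.Q.p j x = z → U.top j x = j := by
    intro x hx hxz
    rw [U.top_congr hx (U.Q.N_sub j hz) (hxz.trans (U.Q.p_self hz).symm)]
    exact hT
  rcases hu with ⟨hx, hxz, hno⟩ | ⟨i, hji, hw, hwz, hTi, hno⟩
  · refine ⟨hx, hxz, htop u hx hxz, ?_⟩
    apply U.rep_nst
    rintro ⟨i, hN⟩
    exact hno i hN.1 ((U.topP_p hx).2 hN.2.2)
  · have hwE := U.Q.N_sub i hw
    have htj := htop u hwE hwz
    have hN : U.Next j i u := by
      refine ⟨hji, ?_, hTi⟩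
      rcases U.exists_next htj (show j ≤ i - 1 by omega) with h | ⟨i', hi', hN'⟩
      · exact h
      · exfalso
        exact hno i' hN'.1 (by omega) ((U.topP_p hwE).2 hN'.2.2)
    refine ⟨hwE, hwz, htj, ?_⟩
    rw [U.rep_st ⟨i, hN⟩, U.ni_eq hN, U.Q.p_self hw]

/-- the skeleton embedding of a good top -/
lemma good_embed {j : ℕ} {z : Eu d} (hz : z ∈ U.Q.N j) (hT : U.TopP j z) (hG : U.G j z) :
    ∃ h : Eu d → Eu n,
      (∀ u ∈ Skel U.Q U.TopP j z, ∀ v ∈ Skel U.Q U.TopP j z,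
        U.κ / 2 * dist u v ≤ dist (h u) (h v)) ∧
      ∀ u ∈ Skel U.Q U.TopP j z, ‖h u‖ ≤ 2 * U.Q.l j := by
  refine ⟨fun u => pr (U.io j z) (u - z), ?_, ?_⟩
  · intro u hu v hv
    obtain ⟨huE, huz, hut, hur⟩ := U.skel_prop hz hT hu
    obtain ⟨hvE, hvz, hvt, hvr⟩ := U.skel_prop hz hT hv
    have e : dist (pr (U.io j z) (u - z)) (pr (U.io j z) (v - z)) =
        ‖pr (U.io j z) (u - v)‖ := by
      rw [dist_eq_norm, ← map_sub]; congr 2; abel
    rw [e]
    by_cases huv : u = v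
    · rw [huv]; simp
    have hD0 : 0 < dist u v := dist_pos.2 huv
    have hl := U.Q.l_pos' j
    have h1 : dist u z ≤ 2 * U.Q.l j := by rw [← huz]; exact U.Q.dist_p j huE
    have h2 : dist v z ≤ 2 * U.Q.l j := by rw [← hvz]; exact U.Q.dist_p j hvE
    have h3 := dist_triangle_right u v z
    have hh : U.ht j u ≤ 4 * dist (U.rep j u) (U.rep j v) := by
      apply U.ht_le_dist huE hvE
      rintro ⟨i, hN1, hN2, hp⟩
      apply huv
      rw [← hur, ← hvr, U.rep_st ⟨i, hN1⟩, U.rep_st ⟨i, hN2⟩, U.ni_eq hN1, U.ni_eq hN2, hp]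
    rw [hvr] at hh
    have := U.expand (k := j) (z := z) (x := u) (y := v) ⟨huE, huz⟩ hvE hut hG
      (by rw [hur]; exact hD0) (by rw [hur]; linarith only [hl, h1, h2, h3]) hh
    rwa [hur] at this
  · intro u hu
    obtain ⟨huE, huz, -, -⟩ := U.skel_prop hz hT hu
    refine (norm_pr_le _ _).trans ?_
    rw [← dist_eq_norm, ← huz]
    exact U.Q.dist_p j huE

/-- for a bad top, the skeleton consists of the centres of the children -/
lemma bad_skel {j : ℕ} {z u : Eu d} (hz : z ∈ U.Q.N j) (hT : U.TopP j z) (hG : ¬ U.G j z)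
    (hu : u ∈ Skel U.Q U.TopP j z) : u ∈ U.Q.N (j + 1) ∧ U.Q.p j u = z := by
  obtain ⟨huE, huz, hut, hur⟩ := U.skel_prop hz hT hu
  have hN : U.Next j (j + 1) u := by
    refine ⟨by omega, hut, ?_⟩
    rcases U.top_succ_cases j u with h | h
    · exfalso
      have := (h.2 (U.top j u) le_rfl (by rw [hut]; omega)).1
      rw [hut, huz] at this
      exact hG this
    · exact h.1
  refine ⟨?_, huz⟩
  rw [← hur, U.rep_st ⟨_, hN⟩, U.ni_eq hN]
  exact U.Q.p_mem _ u huE

end UData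

lemma exists_isometry (hnd : n ≤ d) : Nonempty (Eu n →ₗᵢ[ℝ] Eu d) := by
  have b := EuclideanSpace.basisFun (Fin n) ℝ
  have hv : Orthonormal ℝ (EuclideanSpace.basisFun (Fin n) ℝ) :=
    (EuclideanSpace.basisFun (Fin n) ℝ).orthonormal
  have hw : Orthonormal ℝ
      ((EuclideanSpace.basisFun (Fin d) ℝ) ∘ (Fin.castLE hnd : Fin n → Fin d)) :=
    (EuclideanSpace.basisFun (Fin d) ℝ).orthonormal.comp _ (Fin.castLE_injective hnd)
  set f : Eu n →ₗ[ℝ] Eu d := (EuclideanSpace.basisFun (Fin n) ℝ).toBasis.constr ℝ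
    ((EuclideanSpace.basisFun (Fin d) ℝ) ∘ (Fin.castLE hnd : Fin n → Fin d)) with hf
  refine ⟨f.isometryOfOrthonormal (v := (EuclideanSpace.basisFun (Fin n) ℝ).toBasis) ?_ ?_⟩
  · rw [OrthonormalBasis.coe_toBasis]; exact hv
  · have : (f ∘ (EuclideanSpace.basisFun (Fin n) ℝ).toBasis) =
        ((EuclideanSpace.basisFun (Fin d) ℝ) ∘ (Fin.castLE hnd : Fin n → Fin d)) := by
      ext i
      simp only [Function.comp_apply, hf, Module.Basis.constr_basis]
    rw [this]; exact hw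

/-- Theorem B. -/
theorem theoremB (n d : ℕ) (hn : 1 ≤ n) (hnd : n ≤ d) (c C : ℝ) (hc : 0 < c) (hC : 0 < C) :
    ∃ δ : ℝ, 0 < δ ∧ ∀ CA : ℝ, 0 ≤ CA → ∃ (θ : ℝ) (M : ℝ≥0), 0 < θ ∧
    ∀ (μ : Measure (Eu d)) (D : ℝ≥0∞), AR n c C D μ → ∀ l₀ : ℝ, ENNReal.ofReal l₀ ≤ D →
    ∀ (Q : Cubes μ.support 16 l₀), ∀ z ∈ Q.N 0,
    (∀ J : ℕ, ∑ j ∈ Finset.range J, μ {x | x ∈ Q.cube 0 z ∧ ¬ ∃ ι : Eu n →ₗᵢ[ℝ] Eu d,
        (∀ y ∈ μ.support, dist y (Q.p j x) ≤ 10 * Q.l j →
          ∃ v, dist y (Q.p j x + ι v) ≤ δ * Q.l j) ∧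
        (∀ v, ‖v‖ ≤ 10 * Q.l j →
          ∃ y ∈ μ.support, dist y (Q.p j x + ι v) ≤ δ * Q.l j)} ≤
      ENNReal.ofReal (CA * l₀ ^ n)) →
    ∃ g : Eu n → Eu d, LipschitzWith M g ∧
      ENNReal.ofReal (θ * l₀ ^ n) ≤ μ (closedBall z (2 * l₀) ∩ g '' ball 0 l₀) := by
  classical
  have hu := uvol_pos n
  set a₁ : ℝ := uvol n * 12 ^ n / c with ha₁
  set a₂ : ℝ := 10 * 6 ^ (n - 1) * 4 ^ n / c with ha₂
  set b₀ : ℝ := uvol n / (C * 16 ^ n) with hb₀
  have ha₁0 : 0 < a₁ := by positivity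
  have ha₂0 : 0 < a₂ := by positivity
  have hb₀0 : 0 < b₀ := by positivity
  set κ : ℝ := min 1 (b₀ / 2 / a₂) with hκ
  have hκ0 : 0 < κ := by positivity
  have hκ1 : κ ≤ 1 := min_le_left _ _
  have hκs : κ * a₂ ≤ b₀ / 2 := by
    have : κ ≤ b₀ / 2 / a₂ := min_le_right _ _
    rwa [le_div_iff₀ ha₂0] at this
  set δ : ℝ := κ / (800 * (16 : ℕ)) with hδ
  have hδ0 : 0 < δ := by positivity
  refine ⟨δ, hδ0, fun CA hCA => ?_⟩
  -- constants
  set C₃ : ℝ := 2 * a₁ / b₀ * (C * 2 ^ n + CA) + CA with hC₃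
  have hC₃0 : 0 ≤ C₃ := by positivity
  set θ : ℝ := c / 4 ^ n / 2 with hθ
  have hθ0 : 0 < θ := by positivity
  obtain ⟨N, hN⟩ := exists_nat_gt (C₃ / θ)
  obtain ⟨C₀, hC₀, hbad⟩ := child_embed n d 16 hn
  obtain ⟨M, hM⟩ := coding_lip n d (min (κ / 2) (1 / 4)) (max 2 C₀) (by positivity)
    (by positivity) N
  refine ⟨θ, M, hθ0, ?_⟩
  intro μ D har l₀ hD Q z hz hcarl
  have hl₀ := Q.l_pos
  obtain ⟨ι₀⟩ := exists_isometry hnd
  set U : UData n μ.support 16 l₀ :=
    { Q := Q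
      io := fun k w => if h : BF n μ.support w (Q.l k) 10 δ then h.choose else ι₀
      G := fun k w => BF n μ.support w (Q.l k) 10 δ
      κ := κ
      κ_pos := hκ0
      κ_le := hκ1
      ε := δ
      ε_pos := hδ0
      ε_le := by rw [hδ]; apply le_of_eq; (clear * - hκ0; field_simp)
      flat := by
        intro k w _ hG
        rw [dif_pos hG]
        exact hG.choose_spec } with hU
  have hUQ : U.Q = Q := rfl
  have hUκ : U.κ = κ := rfl
  -- the coding map
  obtain ⟨g, hg, hKg⟩ := hM μ.support 16 l₀ U.Q U.TopP (by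
    intro j w hw hT
    by_cases hG : U.G j w
    · obtain ⟨h, h1, h2⟩ := U.good_embed hw hT hG
      refine ⟨h, fun u hu v hv => ?_, fun u hu => ?_⟩
      · refine le_trans ?_ (h1 u hu v hv)
        rw [hUκ]
        gcongr
        exact min_le_left _ _
      · refine (h2 u hu).trans ?_
        have := U.Q.l_pos' j
        gcongr
        exact le_max_left _ _
    · obtain ⟨h, h1, h2⟩ := hbad μ.support l₀ U.Q j w
      refine ⟨h, fun u hu v hv => ?_, fun u hu => ?_⟩
      · refine le_trans ?_ (h1 u (U.bad_skel hw hT hG hu) v (U.bad_skel hw hT hG hv))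
        gcongr
        exact min_le_right _ _
      · refine (h2 u (U.bad_skel hw hT hG hu)).trans ?_
        have := U.Q.l_pos' j
        gcongr
        exact le_max_right _ _) z hz rfl
  refine ⟨g, hg, ?_⟩
  -- counting
  have hfin : μ (Q.cube 0 z) ≠ ⊤ := (Q.cube_lt_top har 0 z).ne
  have hup : μ.real (Q.cube 0 z) ≤ C * 2 ^ n * l₀ ^ n := by
    have := Q.cube_upper har 0 z
    rw [Q.l_zero, mul_pow, ← mul_assoc] at this
    exact this
  have hcount : ∀ J, ∑ k ∈ Finset.range (J + 1), μ.real {x | x ∈ U.Q.cube 0 z ∧ U.top k x = k} ≤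
      C₃ * l₀ ^ n := by
    intro J
    have hB : ∑ k ∈ Finset.range (J + 1),
        μ.real {x | x ∈ U.Q.cube 0 z ∧ ¬ U.G k (U.Q.p k x)} ≤ CA * l₀ ^ n := by
      have h1 := hcarl (J + 1)
      have h2 : ∀ k, μ {x | x ∈ U.Q.cube 0 z ∧ ¬ U.G k (U.Q.p k x)} ≠ ⊤ := fun k =>
        ne_top_of_le_ne_top hfin (measure_mono fun x hx => hx.1)
      have h3 : ∑ k ∈ Finset.range (J + 1), μ {x | x ∈ U.Q.cube 0 z ∧ ¬ U.G k (U.Q.p k x)} ≤
          ENNReal.ofReal (CA * l₀ ^ n) := by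
        refine le_trans (Finset.sum_le_sum fun k _ => measure_mono ?_) h1
        rintro x ⟨hx, hx2⟩
        refine ⟨hx, fun ⟨ι, h4, h5⟩ => hx2 ⟨ι, ?_, ?_⟩⟩
        · intro y hy hyd
          exact h4 y hy hyd.le
        · intro v hv
          exact h5 v hv.le
      calc _ = (∑ k ∈ Finset.range (J + 1),
            μ {x | x ∈ U.Q.cube 0 z ∧ ¬ U.G k (U.Q.p k x)}).toReal := by
            rw [ENNReal.toReal_sum fun k _ => h2 k]; rfl
        _ ≤ _ := ENNReal.toReal_le_of_le_ofReal (by (clear * - hCA hl₀; positivity)) h3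
    have h1 := U.tops_bound hn har hD z J (by rw [hUκ]; exact hκs) hB
    refine h1.trans ?_
    rw [hC₃]
    have e1 : 2 * (uvol n * 12 ^ n / c) / (uvol n / (C * 16 ^ n)) = 2 * a₁ / b₀ := rfl
    rw [e1]
    have h2 : 0 ≤ 2 * a₁ / b₀ := by positivity
    have h3 : μ.real (U.Q.cube 0 z) + CA * l₀ ^ n ≤ (C * 2 ^ n + CA) * l₀ ^ n := by
      rw [add_mul]
      exact add_le_add hup le_rfl
    calc _ ≤ 2 * a₁ / b₀ * ((C * 2 ^ n + CA) * l₀ ^ n) + CA * l₀ ^ n := by (clear * - hc hC hu h3; gcongr)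
      _ = _ := by ring
  -- the exceptional set
  set X : ℕ → Set (Eu d) := fun J => {x | x ∈ U.Q.cube 0 z ∧
    (N + 1 : ℝ) ≤ ∑ k ∈ Finset.range (J + 1), ind (U.top k x = k)} with hX
  have hXm : ∀ J, μ (X J) ≤ ENNReal.ofReal (θ * l₀ ^ n) := by
    intro J
    have hsat : ∀ x ∈ μ.support, ∀ y ∈ μ.support, U.Q.p J x = U.Q.p J y →
        (((N + 1 : ℝ) ≤ ∑ k ∈ Finset.range (J + 1), ind (U.top k x = k)) ↔
          ((N + 1 : ℝ) ≤ ∑ k ∈ Finset.range (J + 1), ind (U.top k y = k))) := by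
      intro x hx y hy h
      have : ∑ k ∈ Finset.range (J + 1), ind (U.top k x = k) =
          ∑ k ∈ Finset.range (J + 1), ind (U.top k y = k) := by
        refine Finset.sum_congr rfl fun k hk => ?_
        rw [Finset.mem_range] at hk
        rw [U.top_congr hx hy (U.Q.p_nest (show k ≤ J by omega) hx hy h)]
      rw [this]
    have h1 := (U.Q.real_eq_wsum har (z₀ := z) hsat).2
    have h2 : (N + 1 : ℝ) * μ.real (X J) ≤ C₃ * l₀ ^ n := by
      calc (N + 1 : ℝ) * μ.real (X J) = U.Q.wsum z J (fun x => (N + 1 : ℝ) *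
            ind ((N + 1 : ℝ) ≤ ∑ k ∈ Finset.range (J + 1), ind (U.top k x = k))) := by
            rw [U.Q.wsum_const_mul, ← h1]
        _ ≤ U.Q.wsum z J (fun x => ∑ k ∈ Finset.range (J + 1), ind (U.top k x = k)) := by
            apply U.Q.wsum_mono
            intro x _
            by_cases h : (N + 1 : ℝ) ≤ ∑ k ∈ Finset.range (J + 1), ind (U.top k x = k)
            · rw [ind_true h, mul_one]; exact h
            · rw [ind_false h, mul_zero]
              exact Finset.sum_nonneg fun _ _ => ind_nonneg _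
        _ = ∑ k ∈ Finset.range (J + 1), μ.real {x | x ∈ U.Q.cube 0 z ∧ U.top k x = k} := by
            rw [U.Q.wsum_sum]
            refine Finset.sum_congr rfl fun k hk => ?_
            rw [Finset.mem_range] at hk
            have hTs : ∀ x ∈ μ.support, ∀ y ∈ μ.support, U.Q.p k x = U.Q.p k y →
                (U.top k x = k ↔ U.top k y = k) := by
              intro x hx y hy h
              rw [U.top_congr hx hy h]
            rw [(U.Q.real_eq_wsum har hTs).2, U.Q.wsum_eq har (show k ≤ J by omega)]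
            intro x hx y hy h
            exact ind_congr (hTs x hx y hy h)
        _ ≤ _ := hcount J
    have hXfin : μ (X J) ≠ ⊤ := ne_top_of_le_ne_top hfin (measure_mono fun x hx => hx.1)
    rw [← ofReal_measureReal hXfin]
    apply ENNReal.ofReal_le_ofReal
    have h3 : C₃ < θ * (N + 1) := by
      rw [div_lt_iff₀ hθ0] at hN
      nlinarith only [hθ0, hN]
    have h4 : (N + 1 : ℝ) * μ.real (X J) ≤ (N + 1 : ℝ) * (θ * l₀ ^ n) := by
      calc _ ≤ C₃ * l₀ ^ n := h2
        _ ≤ θ * (N + 1) * l₀ ^ n := by (clear * - hl₀ h3; gcongr)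
        _ = _ := by ring
    exact le_of_mul_le_mul_left h4 (by (clear * -; positivity))
  have hXmono : Monotone X := by
    intro J J' hJ x hx
    refine ⟨hx.1, hx.2.trans ?_⟩
    apply Finset.sum_le_sum_of_subset_of_nonneg
    · intro k hk
      rw [Finset.mem_range] at hk ⊢
      omega
    · intro _ _ _
      exact ind_nonneg _
  have hXU : μ (⋃ J, X J) ≤ ENNReal.ofReal (θ * l₀ ^ n) := by
    rw [hXmono.measure_iUnion]
    exact iSup_le hXm
  -- the good set
  set K : Set (Eu d) := {x | x ∈ μ.support ∧ U.Q.p 0 x = z ∧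
    (tops U.Q U.TopP 0 x).encard ≤ N} with hK
  have hcov : Q.cube 0 z ⊆ K ∪ ⋃ J, X J := by
    rintro x ⟨hx, hxz⟩
    by_cases h : (tops U.Q U.TopP 0 x).encard ≤ N
    · left; exact ⟨hx, hxz, h⟩
    · right
      push Not at h
      have h1 : ((N + 1 : ℕ) : ℕ∞) ≤ (tops U.Q U.TopP 0 x).encard := by
        rw [Nat.cast_add, Nat.cast_one]
        exact Order.add_one_le_of_lt h
      obtain ⟨t, ht, htc⟩ := Set.exists_subset_encard_eq h1
      have htf : t.Finite := by
        rw [← Set.encard_lt_top_iff, htc]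
        exact ENat.natCast_lt_top _
      obtain ⟨J, hJ⟩ := htf.bddAbove
      rw [mem_iUnion]
      refine ⟨J, ⟨hx, hxz⟩, ?_⟩
      have htc' : htf.toFinset.card = N + 1 := by
        rw [htf.encard_eq_coe_toFinset_card] at htc
        exact_mod_cast htc
      calc (N + 1 : ℝ) = ∑ k ∈ htf.toFinset, (1 : ℝ) := by
            rw [Finset.sum_const, htc']; simp only [nsmul_eq_mul, Nat.cast_add, Nat.cast_one,
                                           mul_one]
        _ = ∑ k ∈ htf.toFinset, ind (U.top k x = k) := by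
            refine Finset.sum_congr rfl fun k hk => ?_
            rw [Set.Finite.mem_toFinset] at hk
            rw [ind_true ((U.topP_p hx).1 (ht hk).2)]
        _ ≤ _ := by
            apply Finset.sum_le_sum_of_subset_of_nonneg
            · intro k hk
              rw [Set.Finite.mem_toFinset] at hk
              exact Finset.mem_range.2 (Nat.lt_succ_of_le (hJ hk))
            · intro _ _ _
              exact ind_nonneg _
  have hlow : ENNReal.ofReal (2 * θ * l₀ ^ n) ≤ μ (Q.cube 0 z) := by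
    have h1 := Q.cube_lower har hD hz
    rw [Q.l_zero] at h1
    rw [← ofReal_measureReal hfin]
    apply ENNReal.ofReal_le_ofReal
    refine le_trans (le_of_eq ?_) h1
    rw [hθ, div_pow]
    (clear * - hc hl₀; field_simp)
  have hKlow : ENNReal.ofReal (θ * l₀ ^ n) ≤ μ K := by
    have h1 : ENNReal.ofReal (2 * θ * l₀ ^ n) ≤ μ K + ENNReal.ofReal (θ * l₀ ^ n) :=
      hlow.trans ((measure_mono hcov).trans ((measure_union_le _ _).trans
        (add_le_add le_rfl hXU)))
    have h2 : ENNReal.ofReal (2 * θ * l₀ ^ n) =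
        ENNReal.ofReal (θ * l₀ ^ n) + ENNReal.ofReal (θ * l₀ ^ n) := by
      rw [← ENNReal.ofReal_add (by positivity) (by positivity)]
      congr 1; ring
    rw [h2] at h1
    exact (ENNReal.add_le_add_iff_right ENNReal.ofReal_ne_top).1 h1
  refine hKlow.trans (measure_mono ?_)
  intro x hx
  refine ⟨?_, hKg hx⟩
  have := Q.cube_subset 0 z (show x ∈ Q.cube 0 z from ⟨hx.1, hx.2.1⟩)
  rwa [Q.l_zero] at this

end Vale.Agent.P120
end
end

section

section

/-! Lemmas 0.1 and 0.2: from the hypotheses of the problem to the working class.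
Owner module: REG -/

open MeasureTheory Metric Set Filter Topology
open scoped ENNReal NNReal

namespace Vale.Agent.P120

variable {d n : ℕ} {μ : Measure (Eu d)}

/-- the sharply truncated Riesz kernel -/
noncomputable def tK {d : ℕ} (n : ℕ) (e : ℝ) (z : Eu d) : Eu d :=
  {z : Eu d | e < ‖z‖}.indicator (rieszKernel n) z

theorem measurable_rieszKernel (n : ℕ) : Measurable (rieszKernel (d := d) n) := by
  have : rieszKernel (d := d) n = rK n 0 := by
    funext z; exact (rK_zero_eq n z).symm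
  rw [this]
  exact measurable_rK n 0

theorem measurable_tK (n : ℕ) (e : ℝ) : Measurable (tK (d := d) n e) := by
  apply Measurable.indicator (measurable_rieszKernel n)
  exact (isOpen_lt continuous_const continuous_norm).measurableSet

theorem norm_tK_le (n : ℕ) (e : ℝ) (he : 0 < e) (z : Eu d) : ‖tK n e z‖ ≤ (e ^ n)⁻¹ := by
  by_cases hz : e < ‖z‖
  · rw [tK, indicator_of_mem (show z ∈ {z : Eu d | e < ‖z‖} from hz), ← rK_zero_eq]
    refine (norm_rK_le n 0 z).trans ?_
    apply inv_anti₀ (by positivity)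
    gcongr
  · rw [tK, indicator_of_notMem (show z ∉ {z : Eu d | e < ‖z‖} from hz), norm_zero]
    positivity

theorem norm_rK_sub_tK_neg (n : ℕ) (e : ℝ) (z : Eu d) :
    ‖rK n e (-z) - tK n e (-z)‖ = ‖rK n e z - tK n e z‖ := by
  have h1 : tK n e (-z) = - tK n e z := by
    by_cases hz : e < ‖z‖
    · rw [tK, tK, indicator_of_mem (show -z ∈ {z : Eu d | e < ‖z‖} by simpa using hz),
        indicator_of_mem (show z ∈ {z : Eu d | e < ‖z‖} from hz), ← rK_zero_eq, ← rK_zero_eq,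
        rK_neg]
    · rw [tK, tK, indicator_of_notMem (show -z ∉ {z : Eu d | e < ‖z‖} by simpa only [mem_ofPred_eq,
                                                                           norm_neg,
                                                                           not_lt] using hz),
        indicator_of_notMem (show z ∉ {z : Eu d | e < ‖z‖} from hz), neg_zero]
  rw [h1, rK_neg, ← norm_neg]
  congr 1
  abel

/-- Schur bound for the difference of the two truncations -/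
theorem lintegral_diff_le (n : ℕ) (hn : 1 ≤ n) (C : ℝ) (hC : 0 < C) : ∃ C' : ℝ, 0 < C' ∧
    ∀ (d : ℕ) (μ : Measure (Eu d)),
      (∀ (x : Eu d) (r : ℝ), 0 < r → μ (closedBall x r) ≤ ENNReal.ofReal (C * r ^ n)) →
      ∀ (x : Eu d) (e : ℝ), 0 < e →
        ∫⁻ y, ‖rK n e (x - y) - tK n e (x - y)‖ₑ ∂μ ≤ ENNReal.ofReal C' := by
  obtain ⟨C₁, hC₁, hK⟩ := rK_reg_le n
  obtain ⟨C₂, hC₂, hfar⟩ := lintegral_far n 1 le_rfl C hC
  refine ⟨C + C₁ * C₂, by positivity, ?_⟩
  intro d μ hμ x e he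
  have hm1 : MeasurableSet (closedBall x e) := isClosed_closedBall.measurableSet
  have hm2 : MeasurableSet {y : Eu d | e ≤ dist y x} :=
    (isClosed_le continuous_const (by fun_prop)).measurableSet
  have hpt : ∀ y, ‖rK n e (x - y) - tK n e (x - y)‖ₑ ≤
      (closedBall x e).indicator (fun _ => ENNReal.ofReal ((e ^ n)⁻¹)) y +
      {y : Eu d | e ≤ dist y x}.indicator
        (fun y => ENNReal.ofReal (C₁ * e) * ENNReal.ofReal ((‖x - y‖ ^ (n + 1))⁻¹)) y := by
    intro y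
    have hxy : ‖x - y‖ = dist y x := by rw [← dist_eq_norm, dist_comm]
    by_cases hy : e < ‖x - y‖
    · have h1 : y ∈ {y : Eu d | e ≤ dist y x} := by
        rw [mem_ofPred_eq, ← hxy]; exact hy.le
      rw [indicator_of_mem h1]
      refine le_trans ?_ le_add_self
      rw [← ENNReal.ofReal_mul (by positivity), ← ofReal_norm]
      apply ENNReal.ofReal_le_ofReal
      rw [tK, indicator_of_mem (show x - y ∈ {z : Eu d | e < ‖z‖} from hy), ← rK_zero_eq,
        norm_sub_rev]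
      have hpos : 0 < ‖x - y‖ := he.trans hy
      refine (hK d e (x - y) (norm_pos_iff.mp hpos)).1.trans ?_
      have h2 : min 1 (e ^ 2 / ‖x - y‖ ^ 2) ≤ e / ‖x - y‖ := by
        refine (min_le_right _ _).trans ?_
        rw [div_le_div_iff₀ (by (clear * - hpos; positivity)) hpos]
        have : e * ‖x - y‖ * e ≤ e * ‖x - y‖ * ‖x - y‖ := by (clear * - he hy hpos; gcongr)
        calc e ^ 2 * ‖x - y‖ = e * ‖x - y‖ * e := by ring
          _ ≤ e * ‖x - y‖ * ‖x - y‖ := this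
          _ = e * ‖x - y‖ ^ 2 := by ring
      calc C₁ * (‖x - y‖ ^ n)⁻¹ * min 1 (e ^ 2 / ‖x - y‖ ^ 2)
          ≤ C₁ * (‖x - y‖ ^ n)⁻¹ * (e / ‖x - y‖) := by (clear * - hC₁ hpos h2; gcongr)
        _ = C₁ * e * (‖x - y‖ ^ (n + 1))⁻¹ := by
            rw [pow_succ, mul_inv]; ring
    · have h1 : y ∈ closedBall x e := by
        rw [mem_closedBall, ← hxy]; exact not_lt.mp hy
      rw [indicator_of_mem h1]
      refine le_trans ?_ le_self_add
      rw [← ofReal_norm]
      apply ENNReal.ofReal_le_ofReal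
      rw [tK, indicator_of_notMem (show x - y ∉ {z : Eu d | e < ‖z‖} from hy), sub_zero]
      exact norm_rK_le_e n e he _
  refine (lintegral_mono hpt).trans ?_
  rw [lintegral_add_left (measurable_const.indicator hm1), lintegral_indicator hm1,
    lintegral_indicator hm2, setLIntegral_const, lintegral_const_mul' _ _ ENNReal.ofReal_ne_top]
  have h1 : ENNReal.ofReal ((e ^ n)⁻¹) * μ (closedBall x e) ≤ ENNReal.ofReal C := by
    calc ENNReal.ofReal ((e ^ n)⁻¹) * μ (closedBall x e)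
        ≤ ENNReal.ofReal ((e ^ n)⁻¹) * ENNReal.ofReal (C * e ^ n) := by
          gcongr; exact hμ x e he
      _ = ENNReal.ofReal C := by
          rw [← ENNReal.ofReal_mul (by positivity)]
          congr 1
          field_simp
  have h2 : ENNReal.ofReal (C₁ * e) *
      ∫⁻ y in {y : Eu d | e ≤ dist y x}, ENNReal.ofReal ((‖x - y‖ ^ (n + 1))⁻¹) ∂μ ≤
      ENNReal.ofReal (C₁ * C₂) := by
    calc _ ≤ ENNReal.ofReal (C₁ * e) * ENNReal.ofReal (C₂ * (e ^ 1)⁻¹) := by
          gcongr; exact hfar d μ hμ x e he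
      _ = ENNReal.ofReal (C₁ * C₂) := by
          rw [← ENNReal.ofReal_mul (by positivity)]
          congr 1
          (clear * - hC₁ hC₂ he; field_simp)
  rw [ENNReal.ofReal_add hC.le (by positivity)]
  exact add_le_add h1 h2

/-- optimisation of a weighted arithmetic mean -/
theorem le_mul_of_forall_weight {B a b : ℝ} (ha : 0 ≤ a) (hb : 0 ≤ b)
    (h : ∀ t : ℝ, 0 < t → B ≤ t / 2 * a ^ 2 + t⁻¹ / 2 * b ^ 2) : B ≤ a * b := by
  rcases ha.eq_or_lt with ha0 | ha0
  · rw [← ha0, zero_mul]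
    by_contra hB
    push Not at hB
    have h1 := h ((b ^ 2 + 1) / B) (by positivity)
    rw [← ha0] at h1
    have h2 : ((b ^ 2 + 1) / B)⁻¹ / 2 * b ^ 2 < B := by
      rw [inv_div]
      have h3 : B / (b ^ 2 + 1) * b ^ 2 ≤ B := by
        rw [div_mul_eq_mul_div, div_le_iff₀ (by positivity)]
        nlinarith only [hB]
      nlinarith only [hB, h3]
    nlinarith
  · rcases hb.eq_or_lt with hb0 | hb0
    · rw [← hb0, mul_zero]
      by_contra hB
      push Not at hB
      have h1 := h (B / (a ^ 2 + 1)) (by positivity)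
      rw [← hb0] at h1
      have h3 : B / (a ^ 2 + 1) * a ^ 2 ≤ B := by
        rw [div_mul_eq_mul_div, div_le_iff₀ (by positivity)]
        nlinarith only [hB]
      nlinarith only [hB, h1, h3]
    · have h1 := h (b / a) (by positivity)
      refine h1.trans (le_of_eq ?_)
      field_simp
      ring

/-- Schur test for the difference -/
theorem schur_diff [SFinite μ] {k : Eu d → Eu d} (hk : Measurable k) {Cs : ℝ} (hCs : 0 ≤ Cs)
    (hk1 : ∀ x, ∫⁻ y, ‖k (x - y)‖ₑ ∂μ ≤ ENNReal.ofReal Cs)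
    (hk2 : ∀ y, ∫⁻ x, ‖k (x - y)‖ₑ ∂μ ≤ ENNReal.ofReal Cs)
    {ψ θ : Eu d → ℝ} (hψ : Continuous ψ) (hθ : Continuous θ)
    (hψ2 : Integrable (fun x => ψ x ^ 2) μ) (hθ2 : Integrable (fun x => θ x ^ 2) μ) :
    ‖∫ p, (ψ p.1 * θ p.2) • k (p.1 - p.2) ∂(μ.prod μ)‖ ≤
      Cs * (Real.sqrt (∫ x, ψ x ^ 2 ∂μ) * Real.sqrt (∫ x, θ x ^ 2 ∂μ)) := by
  set a := Real.sqrt (∫ x, ψ x ^ 2 ∂μ) with ha
  set b := Real.sqrt (∫ x, θ x ^ 2 ∂μ) with hb
  have ha2 : a ^ 2 = ∫ x, ψ x ^ 2 ∂μ := Real.sq_sqrt (integral_nonneg fun x => sq_nonneg _)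
  have hb2 : b ^ 2 = ∫ x, θ x ^ 2 ∂μ := Real.sq_sqrt (integral_nonneg fun x => sq_nonneg _)
  have hmk : Measurable fun p : Eu d × Eu d => ‖k (p.1 - p.2)‖ₑ :=
    (hk.comp (measurable_fst.sub measurable_snd)).enorm
  have key : ∀ t : ℝ, 0 < t → ‖∫ p, (ψ p.1 * θ p.2) • k (p.1 - p.2) ∂(μ.prod μ)‖ ≤
      Cs * (t / 2 * a ^ 2 + t⁻¹ / 2 * b ^ 2) := by
    intro t ht
    have hpt : ∀ p : Eu d × Eu d, ‖(ψ p.1 * θ p.2) • k (p.1 - p.2)‖ₑ ≤
        ENNReal.ofReal (t / 2 * ψ p.1 ^ 2) * ‖k (p.1 - p.2)‖ₑ +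
        ENNReal.ofReal (t⁻¹ / 2 * θ p.2 ^ 2) * ‖k (p.1 - p.2)‖ₑ := by
      intro p
      rw [← add_mul, ← ENNReal.ofReal_add (by (clear * - ht; positivity)) (by (clear * - ht; positivity)), enorm_smul]
      gcongr
      rw [← ofReal_norm]
      apply ENNReal.ofReal_le_ofReal
      rw [Real.norm_eq_abs, abs_mul]
      have e1 : |ψ p.1| ^ 2 = ψ p.1 ^ 2 := sq_abs _
      have e2 : |θ p.2| ^ 2 = θ p.2 ^ 2 := sq_abs _
      rw [← e1, ← e2]
      have e3 : 0 ≤ (t * |ψ p.1| - |θ p.2|) ^ 2 := sq_nonneg _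
      have e4 : t / 2 * |ψ p.1| ^ 2 + t⁻¹ / 2 * |θ p.2| ^ 2 - |ψ p.1| * |θ p.2| =
          (t * |ψ p.1| - |θ p.2|) ^ 2 * (t⁻¹ / 2) := by
        field_simp
        ring
      have e5 : 0 ≤ (t * |ψ p.1| - |θ p.2|) ^ 2 * (t⁻¹ / 2) := by (clear * - ht; positivity)
      linarith
    have h1 : ∫⁻ p, ENNReal.ofReal (t / 2 * ψ p.1 ^ 2) * ‖k (p.1 - p.2)‖ₑ ∂(μ.prod μ) ≤
        ENNReal.ofReal (Cs * (t / 2 * a ^ 2)) := by
      have hmeas : Measurable fun p : Eu d × Eu d =>
          ENNReal.ofReal (t / 2 * ψ p.1 ^ 2) * ‖k (p.1 - p.2)‖ₑ := by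
        apply Measurable.mul _ hmk
        have : Continuous fun p : Eu d × Eu d => t / 2 * ψ p.1 ^ 2 := by fun_prop
        exact this.measurable.ennreal_ofReal
      rw [lintegral_prod _ hmeas.aemeasurable]
      calc ∫⁻ x, ∫⁻ y, ENNReal.ofReal (t / 2 * ψ x ^ 2) * ‖k (x - y)‖ₑ ∂μ ∂μ
          = ∫⁻ x, ENNReal.ofReal (t / 2 * ψ x ^ 2) * ∫⁻ y, ‖k (x - y)‖ₑ ∂μ ∂μ := by
            apply lintegral_congr
            intro x
            rw [lintegral_const_mul' _ _ ENNReal.ofReal_ne_top]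
        _ ≤ ∫⁻ x, ENNReal.ofReal (t / 2 * ψ x ^ 2) * ENNReal.ofReal Cs ∂μ := by
            apply lintegral_mono
            intro x
            exact mul_le_mul_right (hk1 x) _
        _ = ENNReal.ofReal (Cs * (t / 2 * a ^ 2)) := by
            rw [lintegral_mul_const' _ _ ENNReal.ofReal_ne_top,
              ← ofReal_integral_eq_lintegral_ofReal (hψ2.const_mul _)
                (ae_of_all _ fun x => by (clear * - ht; positivity)), integral_const_mul, ← ha2,
              ← ENNReal.ofReal_mul (by (clear * - ht; positivity))]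
            congr 1; ring
    have h2 : ∫⁻ p, ENNReal.ofReal (t⁻¹ / 2 * θ p.2 ^ 2) * ‖k (p.1 - p.2)‖ₑ ∂(μ.prod μ) ≤
        ENNReal.ofReal (Cs * (t⁻¹ / 2 * b ^ 2)) := by
      have hmeas : Measurable fun p : Eu d × Eu d =>
          ENNReal.ofReal (t⁻¹ / 2 * θ p.2 ^ 2) * ‖k (p.1 - p.2)‖ₑ := by
        apply Measurable.mul _ hmk
        have : Continuous fun p : Eu d × Eu d => t⁻¹ / 2 * θ p.2 ^ 2 := by fun_prop
        exact this.measurable.ennreal_ofReal
      rw [lintegral_prod_symm' _ hmeas]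
      calc ∫⁻ y, ∫⁻ x, ENNReal.ofReal (t⁻¹ / 2 * θ y ^ 2) * ‖k (x - y)‖ₑ ∂μ ∂μ
          = ∫⁻ y, ENNReal.ofReal (t⁻¹ / 2 * θ y ^ 2) * ∫⁻ x, ‖k (x - y)‖ₑ ∂μ ∂μ := by
            apply lintegral_congr
            intro x
            rw [lintegral_const_mul' _ _ ENNReal.ofReal_ne_top]
        _ ≤ ∫⁻ y, ENNReal.ofReal (t⁻¹ / 2 * θ y ^ 2) * ENNReal.ofReal Cs ∂μ := by
            apply lintegral_mono
            intro x
            exact mul_le_mul_right (hk2 x) _
        _ = ENNReal.ofReal (Cs * (t⁻¹ / 2 * b ^ 2)) := by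
            rw [lintegral_mul_const' _ _ ENNReal.ofReal_ne_top,
              ← ofReal_integral_eq_lintegral_ofReal (hθ2.const_mul _)
                (ae_of_all _ fun x => by (clear * - ht; positivity)), integral_const_mul, ← hb2,
              ← ENNReal.ofReal_mul (by (clear * - ht; positivity))]
            congr 1; ring
    have h3 : ‖∫ p, (ψ p.1 * θ p.2) • k (p.1 - p.2) ∂(μ.prod μ)‖ₑ ≤
        ENNReal.ofReal (Cs * (t / 2 * a ^ 2)) + ENNReal.ofReal (Cs * (t⁻¹ / 2 * b ^ 2)) := by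
      refine (enorm_integral_le_lintegral_enorm _).trans ((lintegral_mono hpt).trans ?_)
      rw [lintegral_add_left]
      · exact add_le_add h1 h2
      · apply Measurable.mul _ hmk
        have : Continuous fun p : Eu d × Eu d => t / 2 * ψ p.1 ^ 2 := by fun_prop
        exact this.measurable.ennreal_ofReal
    rw [← ENNReal.ofReal_add (by (clear * - hCs ht; positivity)) (by (clear * - hCs ht; positivity)), ← ofReal_norm,
      ENNReal.ofReal_le_ofReal_iff (by (clear * - hCs ht; positivity))] at h3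
    linarith only [h3]
  rcases hCs.eq_or_lt with h0 | h0
  · have := key 1 one_pos
    rw [← h0, zero_mul] at this
    rw [← h0, zero_mul]
    exact this
  · have h1 := le_mul_of_forall_weight
      (B := ‖∫ p, (ψ p.1 * θ p.2) • k (p.1 - p.2) ∂(μ.prod μ)‖ / Cs) (a := a) (b := b)
      (Real.sqrt_nonneg _) (Real.sqrt_nonneg _) (by
        intro t ht
        rw [div_le_iff₀ h0]
        have := key t ht
        linarith)
    rw [div_le_iff₀ h0] at h1
    linarith only [h1]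

theorem eLpNorm_two_of_compact [IsLocallyFiniteMeasure μ] {ψ : Eu d → ℝ} (h1 : Continuous ψ)
    (h2 : HasCompactSupport ψ) : eLpNorm ψ 2 μ = ENNReal.ofReal (Real.sqrt (∫ x, ψ x ^ 2 ∂μ)) := by
  rw [MemLp.eLpNorm_eq_integral_rpow_norm (by norm_num) (by norm_num)
    (h1.memLp_of_hasCompactSupport h2)]
  congr 1
  rw [Real.sqrt_eq_rpow]
  simp only [ENNReal.toReal_ofNat, Real.rpow_ofNat, Real.norm_eq_abs, sq_abs]
  (clear * -; norm_num)

/-- Lemma 0.2, with uniform constants -/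
theorem rb_quant (n : ℕ) (hn : 1 ≤ n) (C Cb : ℝ) (hC : 0 < C) (hCb0 : 0 ≤ Cb) :
    ∃ C₁ : ℝ, ∀ (d : ℕ) (μ : Measure (Eu d)) (c : ℝ) (D : ℝ≥0∞), AR n c C D μ →
      (∀ f : Eu d → ℝ, MemLp f 2 μ → ∀ ε : ℝ, 0 < ε →
        eLpNorm (truncRiesz n μ ε f) 2 μ ≤ ENNReal.ofReal Cb * eLpNorm f 2 μ) →
      RB n C₁ μ := by
  obtain ⟨Cs, hCs, hdiff⟩ := lintegral_diff_le n hn C hC
  refine ⟨Cb + Cs, ?_⟩
  intro d μ c D h hCb
  have := h.isLocallyFiniteMeasure
  refine ⟨by positivity, ?_⟩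
  intro e he ψ θ hψc hψs hθc hθs
  have iψ : Integrable ψ μ := hψc.integrable_of_hasCompactSupport hψs
  have iθ : Integrable θ μ := hθc.integrable_of_hasCompactSupport hθs
  have hprod : Integrable (fun p : Eu d × Eu d => ψ p.1 * θ p.2) (μ.prod μ) := iψ.mul_prod iθ
  have mψ : MemLp ψ 2 μ := hψc.memLp_of_hasCompactSupport hψs
  have mθ : MemLp θ 2 μ := hθc.memLp_of_hasCompactSupport hθs
  have iψ2 : Integrable (fun x => ψ x ^ 2) μ := by
    have := mψ.integrable_norm_pow (by norm_num)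
    simpa only [Real.norm_eq_abs, sq_abs] using this
  have iθ2 : Integrable (fun x => θ x ^ 2) μ := by
    have := mθ.integrable_norm_pow (by norm_num)
    simpa only [Real.norm_eq_abs, sq_abs] using this
  rw [form_eq_of_pos h e he iψ iθ]
  have hmt : Measurable fun p : Eu d × Eu d => tK n e (p.1 - p.2) :=
    (measurable_tK n e).comp (measurable_fst.sub measurable_snd)
  have hmr : Measurable fun p : Eu d × Eu d => rK n e (p.1 - p.2) :=
    (measurable_rK n e).comp (measurable_fst.sub measurable_snd)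
  have i1 : Integrable (fun p : Eu d × Eu d => (ψ p.1 * θ p.2) • tK n e (p.1 - p.2))
      (μ.prod μ) := by
    refine Integrable.mono' (hprod.norm.mul_const ((e ^ n)⁻¹)) ?_ ?_
    · exact hprod.aestronglyMeasurable.smul hmt.aestronglyMeasurable
    · filter_upwards with p
      rw [norm_smul]
      gcongr
      exact norm_tK_le n e he _
  have i2 : Integrable (fun p : Eu d × Eu d => (ψ p.1 * θ p.2) • rK n e (p.1 - p.2))
      (μ.prod μ) := by
    refine Integrable.mono' (hprod.norm.mul_const ((e ^ n)⁻¹)) ?_ ?_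
    · exact hprod.aestronglyMeasurable.smul hmr.aestronglyMeasurable
    · filter_upwards with p
      rw [norm_smul]
      gcongr
      exact norm_rK_le_e n e he _
  have hsplit : ∫ p, (ψ p.1 * θ p.2) • rK n e (p.1 - p.2) ∂(μ.prod μ) =
      ∫ p, (ψ p.1 * θ p.2) • tK n e (p.1 - p.2) ∂(μ.prod μ) +
      ∫ p, (ψ p.1 * θ p.2) • (rK n e (p.1 - p.2) - tK n e (p.1 - p.2)) ∂(μ.prod μ) := by
    have i3 : Integrable (fun p : Eu d × Eu d =>
        (ψ p.1 * θ p.2) • (rK n e (p.1 - p.2) - tK n e (p.1 - p.2))) (μ.prod μ) := by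
      refine (i2.sub i1).congr ?_
      filter_upwards with p
      rw [Pi.sub_apply, smul_sub]
    rw [← integral_add i1 i3]
    apply integral_congr_ae
    filter_upwards with p
    rw [smul_sub]
    abel
  rw [hsplit]
  -- the second term: Schur test
  have hsch := schur_diff (μ := μ) (k := fun z => rK n e z - tK n e z)
    ((measurable_rK n e).sub (measurable_tK n e)) hCs.le (fun x => hdiff d μ h.upper x e he)
    (fun y => by
      refine le_trans (le_of_eq ?_) (hdiff d μ h.upper y e he)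
      apply lintegral_congr
      intro x
      rw [← ofReal_norm, ← ofReal_norm, ← norm_rK_sub_tK_neg, neg_sub]) hψc hθc iψ2 iθ2
  -- the first term: L2 bound of the truncated transform
  have hmain : ‖∫ p, (ψ p.1 * θ p.2) • tK n e (p.1 - p.2) ∂(μ.prod μ)‖ ≤
      Cb * (Real.sqrt (∫ x, ψ x ^ 2 ∂μ) * Real.sqrt (∫ x, θ x ^ 2 ∂μ)) := by
    have htr : ∀ x, truncRiesz n μ e θ x = ∫ y, θ y • tK n e (x - y) ∂μ := by
      intro x
      unfold truncRiesz
      have hms : MeasurableSet {y : Eu d | e < dist x y} :=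
        (isOpen_lt continuous_const (by fun_prop)).measurableSet
      rw [← integral_indicator hms]
      apply integral_congr_ae
      filter_upwards with y
      by_cases hy : e < dist x y
      · rw [indicator_of_mem (show y ∈ {y : Eu d | e < dist x y} from hy), tK,
          indicator_of_mem (show x - y ∈ {z : Eu d | e < ‖z‖} by
            rw [mem_ofPred_eq, ← dist_eq_norm]; exact hy)]
      · rw [indicator_of_notMem (show y ∉ {y : Eu d | e < dist x y} from hy), tK,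
          indicator_of_notMem (show x - y ∉ {z : Eu d | e < ‖z‖} by
            rw [mem_ofPred_eq, ← dist_eq_norm]; exact hy), smul_zero]
    rw [integral_prod _ i1]
    have e1 : ∀ x, ∫ y, (ψ (x, y).1 * θ (x, y).2) • tK n e ((x, y).1 - (x, y).2) ∂μ =
        ψ x • truncRiesz n μ e θ x := by
      intro x
      rw [htr, ← integral_smul]
      apply integral_congr_ae
      filter_upwards with y
      rw [smul_smul]
    simp_rw [e1]
    have hmT : AEStronglyMeasurable (truncRiesz n μ e θ) μ := by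
      have h1 : StronglyMeasurable fun x => ∫ y, θ y • tK n e (x - y) ∂μ := by
        apply StronglyMeasurable.integral_prod_right' (f := fun p : Eu d × Eu d =>
          θ p.2 • tK n e (p.1 - p.2))
        have h2 : Continuous fun p : Eu d × Eu d => θ p.2 := by fun_prop
        exact (h2.measurable.smul hmt).stronglyMeasurable
      have h3 : truncRiesz n μ e θ = fun x => ∫ y, θ y • tK n e (x - y) ∂μ := funext htr
      rw [h3]
      exact h1.aestronglyMeasurable
    have h4 : ‖∫ x, ψ x • truncRiesz n μ e θ x ∂μ‖ₑ ≤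
        eLpNorm ψ 2 μ * eLpNorm (truncRiesz n μ e θ) 2 μ := by
      refine (enorm_integral_le_lintegral_enorm _).trans ?_
      have h5 := eLpNorm_smul_le_mul_eLpNorm (p := 2) (q := 2) (r := 1) hmT
        mψ.aestronglyMeasurable
      rwa [eLpNorm_one_eq_lintegral_enorm] at h5
    have h6 := hCb θ mθ e he
    have h7 : ‖∫ x, ψ x • truncRiesz n μ e θ x ∂μ‖ₑ ≤
        eLpNorm ψ 2 μ * (ENNReal.ofReal Cb * eLpNorm θ 2 μ) :=
      h4.trans (mul_le_mul_right h6 _)
    rw [eLpNorm_two_of_compact hψc hψs, eLpNorm_two_of_compact hθc hθs,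
      ← ENNReal.ofReal_mul hCb0, ← ENNReal.ofReal_mul (Real.sqrt_nonneg _), ← ofReal_norm,
      ENNReal.ofReal_le_ofReal_iff (by (clear * - hCb0; positivity))] at h7
    refine h7.trans (le_of_eq ?_)
    ring
  refine (norm_add_le _ _).trans ?_
  calc _ ≤ Cb * (Real.sqrt (∫ x, ψ x ^ 2 ∂μ) * Real.sqrt (∫ x, θ x ^ 2 ∂μ)) +
      Cs * (Real.sqrt (∫ x, ψ x ^ 2 ∂μ) * Real.sqrt (∫ x, θ x ^ 2 ∂μ)) := add_le_add hmain hsch
    _ = _ := by ring

end Vale.Agent.P120
end
end
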