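import Vale.Agent.P120.MathlibUsed
import Vale.Agent.P120.Final

set_option linter.all false

section

section

/-! Finite differences: a continuous function whose iterated differences of high order vanish and
which has moderate quadratic growth is affine. -/

open MeasureTheory Metric Set Filter Topology
open scoped ENNReal NNReal

namespace Vale.Agent.P120.Liou

variable {E : Type*} [NormedAddCommGroup E]

/-- forward difference -/
def dif (v : E) (f : E → ℝ) : E → ℝ := fun x => f (x + v) - f x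

/-- iterated forward difference -/
def difs (vs : List E) (f : E → ℝ) : E → ℝ := vs.foldr dif f

@[simp] theorem difs_nil (f : E → ℝ) : difs [] f = f := rfl

@[simp] theorem difs_cons (v : E) (vs : List E) (f : E → ℝ) :
    difs (v :: vs) f = dif v (difs vs f) := rfl

theorem dif_comm (u v : E) (f : E → ℝ) : dif u (dif v f) = dif v (dif u f) := by
  funext x
  simp only [dif]
  rw [add_right_comm]
  ring

theorem difs_dif (vs : List E) (v : E) (f : E → ℝ) :
    difs vs (dif v f) = dif v (difs vs f) := by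
  induction vs with
  | nil => rfl
  | cons u us ih => rw [difs_cons, ih, difs_cons, dif_comm]

/-- if all differences of `dif v f` vanish then `dif (N v) f = N dif v f` -/
theorem dif_nsmul {f : E → ℝ} {v : E} (h : ∀ u, dif u (dif v f) = fun _ => 0) (N : ℕ) :
    dif (N • v) f = fun x => (N : ℝ) * dif v f x := by
  have hc : ∀ x y, dif v f x = dif v f y := by
    intro x y
    have := congrFun (h (y - x)) x
    simp only [dif] at this ⊢
    have e : x + (y - x) = y := by abel
    rw [e] at this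
    linarith
  induction N with
  | zero => funext x; simp only [dif, zero_nsmul, add_zero, sub_self, CharP.cast_eq_zero, zero_mul]
  | succ N ih =>
    funext x
    have h1 := congrFun ih x
    have h2 := hc (x + N • v) x
    simp only [dif] at h1 h2 ⊢
    have e : x + (N + 1) • v = x + N • v + v := by rw [add_smul, one_smul, add_assoc]
    rw [e]
    push_cast
    linarith only [h1, h2]

theorem difs_zero_of_cons {f : E → ℝ} {k : ℕ} (h : ∀ vs : List E, vs.length = k + 1 →
    difs vs f = fun _ => 0) (v : E) : ∀ vs : List E, vs.length = k → difs vs (dif v f) = fun _ => 0 := by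
  intro vs hvs
  rw [difs_dif]
  exact h (v :: vs) (by simp [hvs])

theorem difs_map_nsmul (N : ℕ) (k : ℕ) : ∀ (f : E → ℝ), (∀ vs : List E, vs.length = k + 1 →
    difs vs f = fun _ => 0) → ∀ vs : List E, vs.length = k →
    difs (vs.map (fun v => N • v)) f = fun x => (N : ℝ) ^ k * difs vs f x := by
  induction k with
  | zero =>
    intro f _ vs hvs
    have : vs = [] := List.length_eq_zero_iff.mp hvs
    subst this
    funext x; simp only [List.map_nil, difs_nil, pow_zero, one_mul]
  | succ k ih =>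
    intro f hf vs hvs
    match vs, hvs with
    | v :: us, hvs =>
      have hus : us.length = k := by simpa using hvs
      rw [List.map_cons, difs_cons, ← difs_dif]
      rw [ih (dif (N • v) f) (difs_zero_of_cons hf _) us hus]
      rw [difs_cons, difs_dif]
      have h2 : dif (N • v) (difs us f) = fun x => (N : ℝ) * dif v (difs us f) x := by
        apply dif_nsmul
        intro u
        have := hf (u :: v :: us) (by simp [hus])
        simpa using this
      rw [h2]
      funext x
      ring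

theorem continuous_dif {f : E → ℝ} (hf : Continuous f) (v : E) : Continuous (dif v f) :=
  (hf.comp (continuous_id.add_const v)).sub hf

theorem continuous_difs {f : E → ℝ} (hf : Continuous f) (vs : List E) :
    Continuous (difs vs f) := by
  induction vs with
  | nil => exact hf
  | cons v vs ih => exact continuous_dif ih v

end Vale.Agent.P120.Liou
end
end

section

section

/-! A continuous function on `R^n` whose differences of order `m` vanish and whose quadratic growth
is of degree `n + p`, `p < 4`, is affine. -/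

open MeasureTheory Metric Set Filter Topology
open scoped ENNReal NNReal

namespace Vale.Agent.P120.Liou

variable {n : ℕ}

theorem integrableOn_sq {f : Eu n → ℝ} (hf : Continuous f) (x : Eu n) (R : ℝ) :
    IntegrableOn (fun y => f y ^ 2) (ball x R) := by
  have h : IntegrableOn (fun y => f y ^ 2) (closedBall x R) :=
    (hf.pow 2).continuousOn.integrableOn_compact (isCompact_closedBall x R)
  exact h.mono_set ball_subset_closedBall

theorem setIntegral_translate (g : Eu n → ℝ) (v : Eu n) (R : ℝ) :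
    ∫ x in ball (0 : Eu n) R, g (x + v) = ∫ x in ball v R, g x := by
  have h := (measurePreserving_add_right (volume : Measure (Eu n)) v).setIntegral_preimage_emb
    (measurableEmbedding_addRight v) g (ball v R)
  have e : (fun x => x + v) ⁻¹' ball v R = ball (0 : Eu n) R := by
    ext x; simp [dist_eq_norm]
  rw [e] at h
  exact h

theorem growth_dif {f : Eu n → ℝ} (hf : Continuous f) (v : Eu n) (R : ℝ) :
    ∫ x in ball (0 : Eu n) R, dif v f x ^ 2 ≤ 4 * ∫ x in ball (0 : Eu n) (R + ‖v‖), f x ^ 2 := by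
  have h1 : ∫ x in ball (0 : Eu n) R, dif v f x ^ 2 ≤
      ∫ x in ball (0 : Eu n) R, (2 * f (x + v) ^ 2 + 2 * f x ^ 2) := by
    apply integral_mono
    · exact integrableOn_sq (continuous_dif hf v) 0 R
    · apply Integrable.add
      · exact (integrableOn_sq (hf.comp (continuous_id.add_const v)) 0 R).const_mul 2
      · exact (integrableOn_sq hf 0 R).const_mul 2
    · intro x
      simp only [dif]
      nlinarith [sq_nonneg (f (x + v) + f x)]
  have h2 : ∫ x in ball (0 : Eu n) R, (2 * f (x + v) ^ 2 + 2 * f x ^ 2) =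
      2 * (∫ x in ball v R, f x ^ 2) + 2 * ∫ x in ball (0 : Eu n) R, f x ^ 2 := by
    rw [integral_add, integral_const_mul, integral_const_mul,
      setIntegral_translate (fun x => f x ^ 2) v R]
    · exact (integrableOn_sq (hf.comp (continuous_id.add_const v)) 0 R).const_mul 2
    · exact (integrableOn_sq hf 0 R).const_mul 2
  have h3 : ∫ x in ball v R, f x ^ 2 ≤ ∫ x in ball (0 : Eu n) (R + ‖v‖), f x ^ 2 := by
    apply setIntegral_mono_set (integrableOn_sq hf 0 _)
    · exact Eventually.of_forall fun x => sq_nonneg _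
    · apply Eventually.of_forall
      exact ball_subset_ball' (by simp)
  have h4 : ∫ x in ball (0 : Eu n) R, f x ^ 2 ≤ ∫ x in ball (0 : Eu n) (R + ‖v‖), f x ^ 2 := by
    apply setIntegral_mono_set (integrableOn_sq hf 0 _)
    · exact Eventually.of_forall fun x => sq_nonneg _
    · apply Eventually.of_forall
      exact ball_subset_ball (by linarith only [norm_nonneg v])
  linarith

theorem growth_difs {f : Eu n → ℝ} (hf : Continuous f) (vs : List (Eu n)) (R : ℝ) :
    ∫ x in ball (0 : Eu n) R, difs vs f x ^ 2 ≤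
      4 ^ vs.length * ∫ x in ball (0 : Eu n) (R + (vs.map norm).sum), f x ^ 2 := by
  induction vs generalizing R with
  | nil => simp only [difs_nil, List.length_nil, pow_zero, List.map_nil, List.sum_nil, add_zero,
             one_mul, Std.le_refl]
  | cons v vs ih =>
    rw [difs_cons]
    have h1 := growth_dif (continuous_difs hf vs) v R
    have h2 := ih (R + ‖v‖)
    have e : R + ‖v‖ + (vs.map norm).sum = R + ((v :: vs).map norm).sum := by
      simp [add_assoc]
    rw [e] at h2
    calc _ ≤ _ := h1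
      _ ≤ 4 * (4 ^ vs.length * ∫ x in ball (0 : Eu n) (R + ((v :: vs).map norm).sum), f x ^ 2) := by
        gcongr
      _ = _ := by rw [List.length_cons]; ring

theorem const_of_dif_zero {E : Type*} [NormedAddCommGroup E] {f : E → ℝ}
    (h : ∀ u, dif u f = fun _ => 0) (x y : E) : f x = f y := by
  have := congrFun (h (y - x)) x
  simp only [dif] at this
  have e : x + (y - x) = y := by abel
  rw [e] at this
  linarith only [this]

theorem volReal_ball (R : ℝ) (hR : 0 < R) :
    (volume (ball (0 : Eu n) R)).toReal = R ^ n * (volume (ball (0 : Eu n) 1)).toReal := by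
  rw [Measure.addHaar_ball_of_pos _ _ hR, ENNReal.toReal_mul, ENNReal.toReal_ofReal (by positivity)]
  simp only [finrank_euclideanSpace, Fintype.card_fin]

/-- descending step -/
theorem descend {f : Eu n → ℝ} (hf : Continuous f) {A : ℝ} {p k : ℕ} (hp : p < 2 * k)
    (growth : ∀ R : ℝ, 1 ≤ R → ∫ x in ball (0 : Eu n) R, f x ^ 2 ≤ A * R ^ (n + p))
    (h : ∀ vs : List (Eu n), vs.length = k + 1 → difs vs f = fun _ => 0) :
    ∀ vs : List (Eu n), vs.length = k → difs vs f = fun _ => 0 := by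
  intro vs hvs
  have hconst : ∀ x, difs vs f x = difs vs f 0 := by
    intro x
    apply const_of_dif_zero
    intro u
    exact h (u :: vs) (by simp [hvs])
  set c := difs vs f 0 with hc
  set s := (vs.map norm).sum with hs
  have hs0 : 0 ≤ s := by
    rw [hs]
    apply List.sum_nonneg
    intro x hx
    obtain ⟨v, _, rfl⟩ := List.mem_map.mp hx
    exact norm_nonneg v
  set w := (volume (ball (0 : Eu n) 1)).toReal with hw
  have hw0 : 0 < w := by
    rw [hw]
    apply ENNReal.toReal_pos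
    · exact (measure_ball_pos _ _ one_pos).ne'
    · exact measure_ball_lt_top.ne
  have key : ∀ N : ℕ, 1 ≤ N → (N : ℝ) * (c ^ 2 * w) ≤ 4 ^ k * (A * (1 + s) ^ (n + p)) := by
    intro N hN
    have hN' : (1 : ℝ) ≤ N := by exact_mod_cast hN
    have h1 := growth_difs hf (vs.map (fun v => N • v)) (N : ℝ)
    rw [difs_map_nsmul N k f h vs hvs] at h1
    have h2 : ∫ x in ball (0 : Eu n) (N : ℝ), ((N : ℝ) ^ k * difs vs f x) ^ 2 =
        (N : ℝ) ^ (2 * k + n) * (c ^ 2 * w) := by
      simp_rw [hconst]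
      rw [setIntegral_const, smul_eq_mul, measureReal_def, volReal_ball _ (by positivity), ← hw]
      ring
    rw [h2] at h1
    have h3 : ((vs.map (fun v => N • v)).map norm).sum = N * s := by
      rw [List.map_map, hs, ← List.sum_map_mul_left]
      congr 1
      apply List.map_congr_left
      intro v _
      simp [← Nat.cast_smul_eq_nsmul ℝ, norm_smul]
    rw [h3, List.length_map, hvs] at h1
    have h4 := growth (N + N * s) (by nlinarith only [mul_nonneg (by linarith : (0 : ℝ) ≤ N) hs0,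
                                        hs0, hN'])
    have h5 : (N : ℝ) ^ (2 * k + n) * (c ^ 2 * w) ≤ 4 ^ k * (A * (N + N * s) ^ (n + p)) :=
      h1.trans (by (clear * - h4; gcongr))
    have h6 : (4 : ℝ) ^ k * (A * (N + N * s) ^ (n + p)) =
        (N : ℝ) ^ (n + p) * (4 ^ k * (A * (1 + s) ^ (n + p))) := by
      have : (N + N * s : ℝ) = N * (1 + s) := by ring
      rw [this, mul_pow]; ring
    rw [h6] at h5
    obtain ⟨q, hq⟩ : ∃ q, 2 * k + n = n + p + (1 + q) := ⟨2 * k - p - 1, by omega⟩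
    rw [hq, pow_add _ (n + p) (1 + q), pow_add _ 1 q, pow_one] at h5
    have hpos : (0 : ℝ) < (N : ℝ) ^ (n + p) := by (clear * - hN; positivity)
    have h7 : (N : ℝ) * (N : ℝ) ^ q * (c ^ 2 * w) ≤ 4 ^ k * (A * (1 + s) ^ (n + p)) := by
      have := h5
      rw [mul_assoc ((N : ℝ) ^ (n + p))] at this
      exact le_of_mul_le_mul_left this hpos
    have h8 : (1 : ℝ) ≤ (N : ℝ) ^ q := one_le_pow₀ hN'
    calc (N : ℝ) * (c ^ 2 * w) = (N : ℝ) * 1 * (c ^ 2 * w) := by ring
      _ ≤ (N : ℝ) * (N : ℝ) ^ q * (c ^ 2 * w) := by (clear * - hw0 hN h8; gcongr)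
      _ ≤ _ := h7
  have hc0 : c = 0 := by
    by_contra hne
    have hpos : 0 < c ^ 2 * w := by (clear * - hw0 hne; positivity)
    obtain ⟨N, hN⟩ := exists_nat_gt ((4 ^ k * (A * (1 + s) ^ (n + p))) / (c ^ 2 * w))
    have h1 := key (N + 1) (by omega)
    rw [div_lt_iff₀ hpos] at hN
    push_cast at h1
    nlinarith only [hpos, hN, h1]
  funext x
  rw [hconst x, hc0]

/-- vanishing of high differences and moderate growth force vanishing of differences of order `k` -/
theorem descend_all {f : Eu n → ℝ} (hf : Continuous f) {A : ℝ} {p k : ℕ} (hp : p < 2 * k)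
    (growth : ∀ R : ℝ, 1 ≤ R → ∫ x in ball (0 : Eu n) R, f x ^ 2 ≤ A * R ^ (n + p)) (m : ℕ)
    (h : ∀ vs : List (Eu n), vs.length = k + m → difs vs f = fun _ => 0) :
    ∀ vs : List (Eu n), vs.length = k → difs vs f = fun _ => 0 := by
  induction m with
  | zero => simpa only [add_zero] using h
  | succ m ih =>
    apply ih
    exact descend hf (k := k + m) (by omega) growth (by simpa only [add_assoc] using h)

/-- continuous functions with vanishing second differences are affine -/
theorem affine_of_difs_two {f : Eu n → ℝ} (hf : Continuous f)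
    (h : ∀ vs : List (Eu n), vs.length = 2 → difs vs f = fun _ => 0) :
    ∃ (a : Eu n) (b : ℝ), ∀ x, f x = b + inner ℝ a x := by
  have hadd : ∀ x y, f (x + y) - f 0 = (f x - f 0) + (f y - f 0) := by
    intro x y
    have := congrFun (h [x, y] rfl) 0
    simp only [difs_cons, difs_nil, dif, zero_add] at this
    linarith
  let g : Eu n →+ ℝ := AddMonoidHom.mk' (fun x => f x - f 0) (fun x y => hadd x y)
  have hg : Continuous g := hf.sub continuous_const
  let L : Eu n →L[ℝ] ℝ := g.toRealLinearMap hg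
  refine ⟨(InnerProductSpace.toDual ℝ (Eu n)).symm L, f 0, fun x => ?_⟩
  have : inner ℝ ((InnerProductSpace.toDual ℝ (Eu n)).symm L) x = L x := by
    rw [InnerProductSpace.toDual_symm_apply]
  rw [this]
  show f x = f 0 + (f x - f 0)
  ring

end Vale.Agent.P120.Liou
end
end

section

section

/-! Kernel integrals on `R^n` for the Liouville theorem. -/

open MeasureTheory Metric Set Filter Topology
open scoped ENNReal NNReal

namespace Vale.Agent.P120.Liou

variable {n : ℕ}

/-- the kernel `|z|^{-(n+1)}` on `R^n` -/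
noncomputable def ker (z : Eu n) : ℝ := (‖z‖ ^ (n + 1))⁻¹

theorem ker_nonneg (z : Eu n) : 0 ≤ ker z := by unfold ker; positivity

theorem ker_neg (z : Eu n) : ker (-z) = ker z := by simp [ker]

theorem measurable_ker : Measurable (ker (n := n)) := by
  unfold ker; fun_prop

theorem ker_le_one {z : Eu n} (hz : 1 ≤ ‖z‖) : ker z ≤ 1 := by
  unfold ker
  exact inv_le_one_of_one_le₀ (one_le_pow₀ hz)

theorem nontrivial_Eu (hn : 1 ≤ n) : Nontrivial (Eu n) := by
  apply Module.nontrivial_of_finrank_pos (R := ℝ)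
  simp only [finrank_euclideanSpace, Fintype.card_fin]; omega

/-- integrability of `|z|^2 k(z)` near the origin -/
theorem integrableOn_sq_ker (hn : 1 ≤ n) :
    IntegrableOn (fun z : Eu n => ‖z‖ ^ 2 * ker z) (ball 0 1) := by
  have := nontrivial_Eu hn
  rw [← integrable_indicator_iff measurableSet_ball]
  have h : (ball (0 : Eu n) 1).indicator (fun z : Eu n => ‖z‖ ^ 2 * ker z) =
      fun z : Eu n => (fun y : ℝ => (Iio (1 : ℝ)).indicator (fun y => y ^ 2 * (y ^ (n + 1))⁻¹) y) ‖z‖ := by
    funext z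
    by_cases hz : ‖z‖ < 1
    · rw [indicator_of_mem (by simpa only [mem_ball, dist_zero_right] using hz)]
      simp only
      rw [indicator_of_mem (by simpa only [mem_Iio] using hz)]
      rfl
    · rw [indicator_of_notMem (by simpa only [mem_ball, dist_zero_right, not_lt] using hz)]
      simp only
      rw [indicator_of_notMem (by simpa only [mem_Iio, not_lt] using hz)]
  rw [h, integrable_fun_norm_addHaar]
  have h2 : IntegrableOn (fun y : ℝ => (Iio (1 : ℝ)).indicator (fun _ => (1 : ℝ)) y) (Ioi 0) := by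
    have : IntegrableOn (fun _ : ℝ => (1 : ℝ)) (Ioo 0 1) := by
      simp only [enorm_one, ne_eq, ENNReal.one_ne_top, not_false_eq_true, integrableOn_const_iff,
        one_ne_zero, Real.volume_Ioo, sub_zero, ENNReal.ofReal_one, ENNReal.one_lt_top, or_true]
    rw [← integrable_indicator_iff measurableSet_Ioi]
    rw [← integrable_indicator_iff measurableSet_Ioo] at this
    refine this.congr (Eventually.of_forall fun y => ?_)
    simp only [indicator]
    by_cases h1 : 0 < y <;> by_cases h2 : y < 1 <;> simp [h1, h2]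
  refine h2.congr_fun (fun y hy => ?_) measurableSet_Ioi
  have hy' : (0 : ℝ) < y := hy
  simp only [indicator, mem_Iio, smul_eq_mul]
  split_ifs with h1
  · rw [finrank_euclideanSpace, Fintype.card_fin]
    obtain ⟨m, rfl⟩ : ∃ m, n = m + 1 := ⟨n - 1, by omega⟩
    simp only [Nat.add_sub_cancel]
    field_simp
    ring
  · simp only [finrank_euclideanSpace, Fintype.card_fin, mul_zero]

/-- integrability of `k(z)` at infinity -/
theorem integrableOn_ker_far : IntegrableOn (ker (n := n)) {z | 1 ≤ ‖z‖} := by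
  have h : Integrable (fun z : Eu n => (1 + ‖z‖) ^ (-((n : ℝ) + 1))) :=
    integrable_one_add_norm (by simp only [finrank_euclideanSpace, Fintype.card_fin,
                                  lt_add_iff_pos_right, zero_lt_one])
  have hm : MeasurableSet {z : Eu n | 1 ≤ ‖z‖} := measurableSet_le measurable_const measurable_norm
  refine Integrable.mono' ((h.const_mul (2 ^ (n + 1))).integrableOn (s := {z : Eu n | 1 ≤ ‖z‖}))
    measurable_ker.aestronglyMeasurable ?_
  rw [ae_restrict_iff' hm]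
  refine Eventually.of_forall fun z hz => ?_
  have hz' : (1 : ℝ) ≤ ‖z‖ := hz
  rw [Real.norm_eq_abs, abs_of_nonneg (ker_nonneg z), Real.rpow_neg (by positivity)]
  have e : (1 + ‖z‖) ^ ((n : ℝ) + 1) = (1 + ‖z‖) ^ (n + 1) := by
    rw [← Real.rpow_natCast]; push_cast; rfl
  rw [e, ker]
  have h1 : (1 + ‖z‖) ^ (n + 1) ≤ (2 * ‖z‖) ^ (n + 1) := by
    apply pow_le_pow_left₀ (by positivity); linarith
  rw [mul_pow] at h1
  rw [inv_le_iff_one_le_mul₀ (by positivity), mul_comm, ← mul_assoc]
  rw [← div_eq_mul_inv, le_div_iff₀ (by positivity)]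
  linarith


/-- Lipschitz bound for the kernel away from the origin -/
theorem abs_ker_sub_le {x y : Eu n} (hx : x ≠ 0) (hy : ‖y‖ ≤ ‖x‖ / 2) :
    |ker (y - x) - ker x| ≤ (n + 1) * 2 ^ (n + 2) * ‖y‖ * (‖x‖ ^ (n + 2))⁻¹ := by
  have hx0 : 0 < ‖x‖ := norm_pos_iff.mpr hx
  set a := ‖y - x‖ with ha
  set b := ‖x‖ with hb
  have ha1 : b / 2 ≤ a := by
    have := norm_sub_norm_le x y
    rw [norm_sub_rev] at this
    linarith only [hy, this]
  have ha0 : 0 < a := by linarith only [hx0, ha1]
  have hab : |a - b| ≤ ‖y‖ := by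
    have := abs_norm_sub_norm_le (y - x) (-x)
    simpa only [ge_iff_le, norm_neg, sub_neg_eq_add, sub_add_cancel] using this
  have key : |(a ^ (n + 1))⁻¹ - (b ^ (n + 1))⁻¹| =
      |b ^ (n + 1) - a ^ (n + 1)| * ((a ^ (n + 1))⁻¹ * (b ^ (n + 1))⁻¹) := by
    rw [← abs_of_pos (show 0 < (a ^ (n + 1))⁻¹ * (b ^ (n + 1))⁻¹ by (clear * - hx ha0; positivity)), ← abs_mul]
    congr 1
    (clear * - hx0 ha0; field_simp)
  show |(a ^ (n + 1))⁻¹ - (b ^ (n + 1))⁻¹| ≤ _
  rw [key]
  have hpow : |b ^ (n + 1) - a ^ (n + 1)| ≤ ‖y‖ * ((n + 1) * (max a b) ^ n) := by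
    have h1 := abs_pow_sub_pow_le b a (n + 1)
    have e1 : max |b| |a| = max a b := by
      rw [abs_of_pos hx0, abs_of_pos ha0, max_comm]
    rw [e1] at h1
    have h2 : |b - a| ≤ ‖y‖ := by rw [abs_sub_comm]; exact hab
    calc _ ≤ _ := h1
      _ = |b - a| * ((n + 1) * (max a b) ^ n) := by
        rw [Nat.add_sub_cancel]; push_cast; ring
      _ ≤ _ := by (clear * - ha0 h2; gcongr)
  have hmax : (max a b) ^ n * ((a ^ (n + 1))⁻¹ * (b ^ (n + 1))⁻¹) ≤ 2 ^ (n + 2) * (b ^ (n + 2))⁻¹ := by
    rcases le_total a b with h | h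
    · rw [max_eq_right h]
      have h1 : (a ^ (n + 1))⁻¹ ≤ ((b / 2) ^ (n + 1))⁻¹ := by
        apply inv_anti₀ (by positivity)
        exact pow_le_pow_left₀ (by positivity) ha1 _
      calc b ^ n * ((a ^ (n + 1))⁻¹ * (b ^ (n + 1))⁻¹)
          ≤ b ^ n * (((b / 2) ^ (n + 1))⁻¹ * (b ^ (n + 1))⁻¹) := by gcongr
        _ = 2 ^ (n + 1) * (b ^ (n + 2))⁻¹ := by
          rw [div_pow]
          field_simp
          ring
        _ ≤ 2 ^ (n + 2) * (b ^ (n + 2))⁻¹ := by
          gcongr
          · norm_num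
          · omega
    · rw [max_eq_left h]
      have h1 : a⁻¹ ≤ b⁻¹ := inv_anti₀ hx0 h
      calc a ^ n * ((a ^ (n + 1))⁻¹ * (b ^ (n + 1))⁻¹) = a⁻¹ * (b ^ (n + 1))⁻¹ := by
            field_simp
            ring
        _ ≤ b⁻¹ * (b ^ (n + 1))⁻¹ := by gcongr
        _ = 1 * (b ^ (n + 2))⁻¹ := by
          rw [one_mul]; field_simp
          ring
        _ ≤ 2 ^ (n + 2) * (b ^ (n + 2))⁻¹ := by
          gcongr
          exact one_le_pow₀ (by norm_num)
  calc |b ^ (n + 1) - a ^ (n + 1)| * ((a ^ (n + 1))⁻¹ * (b ^ (n + 1))⁻¹)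
      ≤ ‖y‖ * ((n + 1) * (max a b) ^ n) * ((a ^ (n + 1))⁻¹ * (b ^ (n + 1))⁻¹) := by (clear * - hx ha0 hpow; gcongr)
    _ = ‖y‖ * (n + 1) * ((max a b) ^ n * ((a ^ (n + 1))⁻¹ * (b ^ (n + 1))⁻¹)) := by ring
    _ ≤ ‖y‖ * (n + 1) * (2 ^ (n + 2) * (b ^ (n + 2))⁻¹) := by (clear * - hmax; gcongr)
    _ = _ := by ring

end Vale.Agent.P120.Liou
end
end

section

section

/-! Decay of the far part of the operator, second difference bounds and the operator `Lam`. -/

open MeasureTheory Metric Set Filter Topology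
open scoped ENNReal NNReal ContDiff

namespace Vale.Agent.P120.Liou

variable {n : ℕ}

/-- far part of the kernel -/
noncomputable def fker (z : Eu n) : ℝ := {z : Eu n | 1 ≤ ‖z‖}.indicator ker z

/-- near part of the kernel -/
noncomputable def nker (z : Eu n) : ℝ := (ball (0 : Eu n) 1).indicator ker z

theorem measurableSet_far : MeasurableSet {z : Eu n | 1 ≤ ‖z‖} :=
  measurableSet_le measurable_const measurable_norm

theorem nker_add_fker (z : Eu n) : nker z + fker z = ker z := by
  unfold nker fker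
  by_cases h : 1 ≤ ‖z‖
  · have h' : z ∉ ball (0 : Eu n) 1 := by simpa only [mem_ball, dist_zero_right, not_lt] using h
    rw [indicator_of_notMem h', indicator_of_mem (show z ∈ {z : Eu n | 1 ≤ ‖z‖} from h), zero_add]
  · have h' : z ∈ ball (0 : Eu n) 1 := by simpa only [mem_ball, dist_zero_right, not_le] using h
    rw [indicator_of_mem h', indicator_of_notMem (show z ∉ {z : Eu n | 1 ≤ ‖z‖} from h), add_zero]

theorem fker_nonneg (z : Eu n) : 0 ≤ fker z := indicator_nonneg (fun z _ => ker_nonneg z) z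

theorem nker_nonneg (z : Eu n) : 0 ≤ nker z := indicator_nonneg (fun z _ => ker_nonneg z) z

theorem fker_le_one (z : Eu n) : fker z ≤ 1 := by
  unfold fker
  by_cases h : 1 ≤ ‖z‖
  · rw [indicator_of_mem (by exact h)]; exact ker_le_one h
  · rw [indicator_of_notMem (by exact h)]; exact zero_le_one

theorem fker_neg (z : Eu n) : fker (-z) = fker z := by
  unfold fker
  by_cases h : 1 ≤ ‖z‖
  · rw [indicator_of_mem (show z ∈ {z : Eu n | 1 ≤ ‖z‖} from h),
      indicator_of_mem (show -z ∈ {z : Eu n | 1 ≤ ‖z‖} by simpa only [mem_ofPred_eq,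
                                                            norm_neg] using h), ker_neg]
  · rw [indicator_of_notMem (show z ∉ {z : Eu n | 1 ≤ ‖z‖} from h),
      indicator_of_notMem (show -z ∉ {z : Eu n | 1 ≤ ‖z‖} by simpa only [mem_ofPred_eq, norm_neg,
                                                               not_le] using h)]

theorem measurable_fker : Measurable (fker (n := n)) := measurable_ker.indicator measurableSet_far

theorem measurable_nker : Measurable (nker (n := n)) := measurable_ker.indicator measurableSet_ball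

theorem integrable_fker : Integrable (fker (n := n)) :=
  (integrable_indicator_iff measurableSet_far).mpr integrableOn_ker_far

theorem integrable_sq_nker (hn : 1 ≤ n) : Integrable (fun z : Eu n => ‖z‖ ^ 2 * nker z) := by
  have h := (integrable_indicator_iff (μ := volume) measurableSet_ball).mpr (integrableOn_sq_ker hn)
  refine h.congr (Eventually.of_forall fun z => ?_)
  unfold nker
  by_cases hz : z ∈ ball (0 : Eu n) 1
  · rw [indicator_of_mem hz]; simp only; rw [indicator_of_mem hz]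
  · rw [indicator_of_notMem hz]; simp only; rw [indicator_of_notMem hz]; ring

/-- the far part of the operator -/
noncomputable def farK (ψ : Eu n → ℝ) (x : Eu n) : ℝ := ∫ z, ψ (x + z) * fker z

theorem farK_eq (ψ : Eu n → ℝ) (x : Eu n) : farK ψ x = ∫ y, ψ y * fker (y - x) := by
  unfold farK
  rw [← integral_add_left_eq_self (fun y => ψ y * fker (y - x)) x]
  simp

theorem farK_bound (ρ : ℝ) (hρ : 1 ≤ ρ) : ∃ C : ℝ, 0 < C ∧ ∀ ψ : Eu n → ℝ, Integrable ψ →
    (∀ y, ρ < ‖y‖ → ψ y = 0) → ∫ y, ψ y = 0 → ∀ x : Eu n,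
    |farK ψ x| ≤ C * ((1 + ‖x‖) ^ (n + 2))⁻¹ * ∫ y, |ψ y| := by
  set C1 : ℝ := (1 + 2 * ρ) ^ (n + 2) with hC1
  set C2 : ℝ := (n + 1) * 2 ^ (n + 2) * ρ * 2 ^ (n + 2) with hC2
  refine ⟨C1 + C2, by positivity, fun ψ hψ hsupp hmean x => ?_⟩
  have hI : 0 ≤ ∫ y, |ψ y| := integral_nonneg fun y => abs_nonneg _
  rw [farK_eq]
  have hint : Integrable (fun y => ψ y * fker (y - x)) := by
    refine Integrable.mono' hψ.abs ?_ (Eventually.of_forall fun y => ?_)
    · exact hψ.aestronglyMeasurable.mul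
        (measurable_fker.comp (measurable_id.sub_const x)).aestronglyMeasurable
    · rw [Real.norm_eq_abs, abs_mul, abs_of_nonneg (fker_nonneg _)]
      exact mul_le_of_le_one_right (abs_nonneg _) (fker_le_one _)
  rcases le_or_gt ‖x‖ (2 * ρ) with hx | hx
  · have h1 : |∫ y, ψ y * fker (y - x)| ≤ ∫ y, |ψ y| := by
      rw [← Real.norm_eq_abs]
      apply norm_integral_le_of_norm_le hψ.abs
      refine Eventually.of_forall fun y => ?_
      rw [Real.norm_eq_abs, abs_mul, abs_of_nonneg (fker_nonneg _)]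
      exact mul_le_of_le_one_right (abs_nonneg _) (fker_le_one _)
    have h2 : 1 ≤ C1 * ((1 + ‖x‖) ^ (n + 2))⁻¹ := by
      rw [← div_eq_mul_inv, one_le_div (by positivity), hC1]
      exact pow_le_pow_left₀ (by positivity) (by linarith only [hx]) _
    have h3 : 0 ≤ C2 * ((1 + ‖x‖) ^ (n + 2))⁻¹ := by positivity
    calc _ ≤ 1 * ∫ y, |ψ y| := by rw [one_mul]; exact h1
      _ ≤ (C1 + C2) * ((1 + ‖x‖) ^ (n + 2))⁻¹ * ∫ y, |ψ y| := by
        apply mul_le_mul_of_nonneg_right _ hI
        rw [add_mul]; linarith only [h2, h3]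
  · have hx0 : x ≠ 0 := by
      intro h; rw [h, norm_zero] at hx; linarith only [hρ, hx]
    have e1 : ∫ y, ψ y * fker (y - x) = ∫ y, ψ y * (fker (y - x) - ker x) := by
      simp_rw [mul_sub]
      rw [integral_sub hint (hψ.mul_const _), integral_mul_const, hmean]
      ring
    rw [e1]
    have h1 : |∫ y, ψ y * (fker (y - x) - ker x)| ≤
        ∫ y, |ψ y| * ((n + 1) * 2 ^ (n + 2) * ρ * (‖x‖ ^ (n + 2))⁻¹) := by
      rw [← Real.norm_eq_abs]
      apply norm_integral_le_of_norm_le (hψ.abs.mul_const _)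
      refine Eventually.of_forall fun y => ?_
      rw [Real.norm_eq_abs, abs_mul]
      rcases lt_or_ge ρ ‖y‖ with hy | hy
      · rw [hsupp y hy]; simp only [abs_zero, zero_mul, Std.le_refl]
      · apply mul_le_mul_of_nonneg_left _ (abs_nonneg _)
        have h2 : 1 ≤ ‖y - x‖ := by
          have := norm_sub_norm_le x y
          rw [norm_sub_rev] at this
          linarith only [hρ, hx, hy, this]
        have h3 : fker (y - x) = ker (y - x) := by
          unfold fker; rw [indicator_of_mem (by exact h2)]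
        rw [h3]
        calc _ ≤ _ := abs_ker_sub_le hx0 (by linarith only [hx, hy])
          _ ≤ _ := by (clear * - hx0 hy; gcongr)
    rw [integral_mul_const] at h1
    have h4 : (‖x‖ ^ (n + 2))⁻¹ ≤ 2 ^ (n + 2) * ((1 + ‖x‖) ^ (n + 2))⁻¹ := by
      have hx1 : 0 < ‖x‖ := by linarith only [hρ, hx]
      rw [← div_eq_mul_inv, ← div_pow, ← inv_pow]
      apply pow_le_pow_left₀ (by positivity)
      rw [inv_le_comm₀ hx1 (by positivity), inv_div]
      linarith only [hρ, hx]
    calc _ ≤ _ := h1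
      _ ≤ (∫ y, |ψ y|) * ((n + 1) * 2 ^ (n + 2) * ρ * (2 ^ (n + 2) * ((1 + ‖x‖) ^ (n + 2))⁻¹)) := by
        (clear * - hρ h4; gcongr)
      _ = C2 * ((1 + ‖x‖) ^ (n + 2))⁻¹ * ∫ y, |ψ y| := by rw [hC2]; ring
      _ ≤ (C1 + C2) * ((1 + ‖x‖) ^ (n + 2))⁻¹ * ∫ y, |ψ y| := by
        gcongr
        have : 0 ≤ C1 := by positivity
        linarith only [this]

/-- second difference -/
noncomputable def sd (ψ : Eu n → ℝ) (x z : Eu n) : ℝ := ψ x - (ψ (x + z) + ψ (x - z)) / 2

/-- the operator `(-Δ)^{1/2}` up to a constant -/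
noncomputable def Lam (ψ : Eu n → ℝ) (x : Eu n) : ℝ := ∫ z, sd ψ x z * ker z

/-- second difference bound for smooth compactly supported functions -/
theorem sd_bound {ψ : Eu n → ℝ} (hψ : ContDiff ℝ ∞ ψ) (hc : HasCompactSupport ψ) :
    ∃ C : ℝ, 0 < C ∧ ∀ x z, |sd ψ x z| ≤ C * ‖z‖ ^ 2 := by
  have hD : ContDiff ℝ 1 (fderiv ℝ ψ) := hψ.fderiv_right (m := 1) (by
    norm_cast)
  obtain ⟨K, hK⟩ := hD.lipschitzWith_of_hasCompactSupport (hc.fderiv ℝ) (by norm_num)
  refine ⟨K + 1, by positivity, fun x z => ?_⟩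
  have hdiff : Differentiable ℝ ψ := hψ.differentiable (by norm_cast)
  -- one variable function
  let g : ℝ → ℝ := fun t => ψ (x + t • z) + ψ (x - t • z)
  have hg : ∀ t, HasDerivAt g ((fderiv ℝ ψ (x + t • z)) z - (fderiv ℝ ψ (x - t • z)) z) t := by
    intro t
    have h1 : HasDerivAt (fun t : ℝ => x + t • z) z t := by
      simpa using ((hasDerivAt_id t).smul_const z).const_add x
    have h2 : HasDerivAt (fun t : ℝ => x - t • z) (-z) t := by
      simpa only [id_eq, one_smul] using ((hasDerivAt_id t).smul_const z).const_sub x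
    have h3 := (hdiff (x + t • z)).hasFDerivAt.comp_hasDerivAt t h1
    have h4 := (hdiff (x - t • z)).hasFDerivAt.comp_hasDerivAt t h2
    have h5 := h3.add h4
    rw [map_neg, ← sub_eq_add_neg] at h5
    exact h5
  have hbound : ∀ t ∈ Icc (0 : ℝ) 1,
      ‖(fderiv ℝ ψ (x + t • z)) z - (fderiv ℝ ψ (x - t • z)) z‖ ≤ K * (2 * ‖z‖) * ‖z‖ := by
    intro t ht
    rw [← _root_.sub_apply]
    refine (ContinuousLinearMap.le_opNorm _ _).trans ?_
    gcongr
    have := hK.dist_le_mul (x + t • z) (x - t • z)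
    rw [dist_eq_norm, dist_eq_norm] at this
    refine this.trans ?_
    gcongr
    have e : x + t • z - (x - t • z) = (2 * t) • z := by
      rw [two_mul, add_smul]; abel
    rw [e, norm_smul, Real.norm_eq_abs, abs_of_nonneg (by linarith only [ht.1, ht])]
    have := ht.2
    nlinarith only [norm_nonneg z, this]
  have hmv := Convex.norm_image_sub_le_of_norm_hasDerivWithin_le
    (f := g) (s := Icc (0 : ℝ) 1) (C := K * (2 * ‖z‖) * ‖z‖)
    (fun t ht => (hg t).hasDerivWithinAt) hbound (convex_Icc 0 1)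
    (left_mem_Icc.mpr zero_le_one) (right_mem_Icc.mpr zero_le_one)
  have e1 : g 1 = ψ (x + z) + ψ (x - z) := by simp [g]
  have e0 : g 0 = ψ x + ψ x := by simp [g]
  rw [e1, e0] at hmv
  have e2 : sd ψ x z = -((ψ (x + z) + ψ (x - z) - (ψ x + ψ x)) / 2) := by unfold sd; ring
  rw [e2, abs_neg, abs_div, abs_two]
  rw [Real.norm_eq_abs] at hmv
  simp only [sub_zero, norm_one, mul_one] at hmv
  have : (0 : ℝ) ≤ ‖z‖ ^ 2 := by (clear * -; positivity)
  calc _ ≤ (K * (2 * ‖z‖) * ‖z‖) / 2 := by (clear * - hmv; gcongr)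
    _ = K * ‖z‖ ^ 2 := by ring
    _ ≤ _ := by nlinarith only []

end Vale.Agent.P120.Liou
end
end

section

section

/-! The energy controls translations; splitting of the bilinear pairing. -/

open MeasureTheory Metric Set Filter Topology
open scoped ENNReal NNReal ContDiff

namespace Vale.Agent.P120.Liou

variable {n : ℕ}

/-- local translation energy density -/
noncomputable def tE (W : Eu n → ℝ) (z : Eu n) : ℝ≥0∞ :=
  ∫⁻ x in ball (0 : Eu n) 2, ENNReal.ofReal ((W (x + z) - W x) ^ 2)

/-- local energy -/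
noncomputable def en (W : Eu n → ℝ) : ℝ≥0∞ := ∫⁻ z, tE W z * ENNReal.ofReal (nker z)

theorem measurable_tE {W : Eu n → ℝ} (hW : Continuous W) : Measurable (tE W) := by
  unfold tE
  apply Measurable.lintegral_prod_left'
    (f := fun p : Eu n × Eu n => ENNReal.ofReal ((W (p.1 + p.2) - W p.1) ^ 2))
  exact (Continuous.measurable (by fun_prop)).ennreal_ofReal

theorem ball_half_subset (v : Eu n) : ball ((1 / 2 : ℝ) • v) (‖v‖ / 2) ⊆ ball 0 ‖v‖ := by
  apply ball_subset_ball'
  rw [dist_zero_right, norm_smul]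
  norm_num
  linarith only []

theorem sub_mem_ball {v u : Eu n} (hu : u ∈ ball ((1 / 2 : ℝ) • v) (‖v‖ / 2)) :
    v - u ∈ ball (0 : Eu n) ‖v‖ := by
  have h1 : v - u = ((1 / 2 : ℝ) • v - u) + (1 / 2 : ℝ) • v := by
    rw [sub_add_eq_add_sub, ← add_smul]; norm_num
  rw [mem_ball, dist_eq_norm, norm_sub_rev] at hu
  rw [mem_ball_zero_iff, h1]
  have := norm_add_le ((1 / 2 : ℝ) • v - u) ((1 / 2 : ℝ) • v)
  rw [norm_smul ((1 / 2 : ℝ)) v] at this
  norm_num at this
  norm_num at hu
  linarith only [this, hu]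

/-- on a small ball the energy density integrates to at most `|v|^{n+1}` times the energy -/
theorem lintegral_tE_le (W : Eu n → ℝ) {r : ℝ} (hr : 0 < r) (hr1 : r ≤ 1)
    (hn : 1 ≤ n) :
    ∫⁻ z in ball (0 : Eu n) r, tE W z ≤ ENNReal.ofReal (r ^ (n + 1)) * en W := by
  have := nontrivial_Eu hn
  unfold en
  rw [← lintegral_const_mul' _ _ ENNReal.ofReal_ne_top]
  calc ∫⁻ z in ball (0 : Eu n) r, tE W z
      ≤ ∫⁻ z in ball (0 : Eu n) r,
        ENNReal.ofReal (r ^ (n + 1)) * (tE W z * ENNReal.ofReal (nker z)) := by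
        rw [← lintegral_indicator measurableSet_ball, ← lintegral_indicator measurableSet_ball]
        apply lintegral_mono_ae
        have h0 : ∀ᵐ z : Eu n, z ≠ 0 := by
          rw [ae_iff]
          simp
        filter_upwards [h0] with z hz
        by_cases hzr : z ∈ ball (0 : Eu n) r
        · rw [indicator_of_mem hzr, indicator_of_mem hzr]
          have hz1 : ‖z‖ < r := by simpa using hzr
          have hz0 : 0 < ‖z‖ := norm_pos_iff.mpr hz
          have hk : nker z = ker z := by
            unfold nker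
            rw [indicator_of_mem]
            simpa only [mem_ball, dist_zero_right] using hz1.trans_le hr1
          rw [hk, mul_left_comm, ← ENNReal.ofReal_mul (by positivity)]
          have : 1 ≤ r ^ (n + 1) * ker z := by
            unfold ker
            rw [← div_eq_mul_inv, one_le_div (by positivity)]
            exact pow_le_pow_left₀ hz0.le hz1.le _
          calc tE W z = tE W z * ENNReal.ofReal 1 := by simp
            _ ≤ _ := by (clear * - this; gcongr)
        · rw [indicator_of_notMem hzr, indicator_of_notMem hzr]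
    _ ≤ _ := setLIntegral_le_lintegral _ _

theorem two_mul_ofReal (a : ℝ) : 2 * ENNReal.ofReal a = ENNReal.ofReal (2 * a) := by
  rw [ENNReal.ofReal_mul (by norm_num)]; simp

theorem setLIntegral_translate (g : Eu n → ℝ≥0∞) (u : Eu n) (S : Set (Eu n)) :
    ∫⁻ x in (fun x => x + u) ⁻¹' S, g (x + u) = ∫⁻ x in S, g x := by
  exact (measurePreserving_add_right (volume : Measure (Eu n)) u).setLIntegral_comp_preimage_emb
    (measurableEmbedding_addRight u) g S

theorem translation_le (hn : 1 ≤ n) : ∃ C : ℝ, 0 < C ∧ ∀ W : Eu n → ℝ, Continuous W →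
    ∀ v : Eu n, ‖v‖ ≤ 1 → ∫⁻ x in ball (0 : Eu n) 1, ENNReal.ofReal (dif v W x ^ 2) ≤
      ENNReal.ofReal (C * ‖v‖) * en W := by
  have := nontrivial_Eu hn
  set w := (volume (ball (0 : Eu n) 1)).toReal with hw
  have hw0 : 0 < w := by
    rw [hw]
    apply ENNReal.toReal_pos
    · exact (measure_ball_pos _ _ one_pos).ne'
    · exact measure_ball_lt_top.ne
  refine ⟨4 * 2 ^ n * w⁻¹, by positivity, fun W hW v hv => ?_⟩
  rcases eq_or_ne v 0 with rfl | hv0
  · have : ∀ x, dif (0 : Eu n) W x ^ 2 = 0 := by intro x; simp [dif]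
    simp only [this, ENNReal.ofReal_zero, lintegral_const, MeasurableSet.univ,
      Measure.restrict_apply, univ_inter, zero_mul, norm_zero, mul_zero, Std.le_refl]
  have hvp : 0 < ‖v‖ := norm_pos_iff.mpr hv0
  set B := ball ((1 / 2 : ℝ) • v) (‖v‖ / 2) with hB
  set I := ∫⁻ x in ball (0 : Eu n) 1, ENNReal.ofReal (dif v W x ^ 2) with hI
  have hD : Measurable (fun p : Eu n × Eu n => ENNReal.ofReal ((W (p.1 + p.2) - W p.1) ^ 2)) :=
    (Continuous.measurable (by fun_prop)).ennreal_ofReal
  have hmain : volume B * I ≤ 2 * (∫⁻ z in ball (0 : Eu n) ‖v‖, tE W z) +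
      2 * ∫⁻ z in ball (0 : Eu n) ‖v‖, tE W z := by
    have h1 : volume B * I = ∫⁻ u in B, I := by
      rw [setLIntegral_const, mul_comm]
    rw [h1]
    have h2 : ∀ u ∈ B, I ≤ 2 * tE W u + 2 * tE W (v - u) := by
      intro u hu
      have hu1 : ‖u‖ < 1 := by
        have := ball_half_subset v hu
        rw [mem_ball_zero_iff] at this
        linarith only [hv, this]
      have e1 : ∫⁻ x in ball (0 : Eu n) 1, ENNReal.ofReal ((W (x + u) - W x) ^ 2) ≤ tE W u := by
        unfold tE
        exact lintegral_mono_set (ball_subset_ball (by norm_num))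
      have e2 : ∫⁻ x in ball (0 : Eu n) 1, ENNReal.ofReal ((W (x + v) - W (x + u)) ^ 2) ≤
          tE W (v - u) := by
        have e3 := setLIntegral_translate
          (fun y => ENNReal.ofReal ((W (y + (v - u)) - W y) ^ 2)) u (ball 0 2)
        unfold tE
        rw [← e3]
        have e4 : ∀ x, x + u + (v - u) = x + v := by intro x; abel
        simp only [e4]
        apply lintegral_mono_set
        intro x hx
        rw [mem_preimage, mem_ball_zero_iff]
        rw [mem_ball_zero_iff] at hx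
        exact (norm_add_le _ _).trans_lt (by linarith only [hu1, hx])
      calc I ≤ ∫⁻ x in ball (0 : Eu n) 1, (2 * ENNReal.ofReal ((W (x + u) - W x) ^ 2) +
            2 * ENNReal.ofReal ((W (x + v) - W (x + u)) ^ 2)) := by
            apply lintegral_mono
            intro x
            simp only
            rw [two_mul_ofReal, two_mul_ofReal, ← ENNReal.ofReal_add (by (clear * -; positivity)) (by (clear * -; positivity))]
            apply ENNReal.ofReal_le_ofReal
            simp only [dif]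
            nlinarith only [sq_nonneg ((W (x + u) - W x) - (W (x + v) - W (x + u)))]
        _ = 2 * (∫⁻ x in ball (0 : Eu n) 1, ENNReal.ofReal ((W (x + u) - W x) ^ 2)) +
            2 * ∫⁻ x in ball (0 : Eu n) 1, ENNReal.ofReal ((W (x + v) - W (x + u)) ^ 2) := by
            rw [lintegral_add_left, lintegral_const_mul, lintegral_const_mul]
            · exact (Continuous.measurable (by fun_prop)).ennreal_ofReal
            · exact (Continuous.measurable (by fun_prop)).ennreal_ofReal
            · exact ((Continuous.measurable (by fun_prop)).ennreal_ofReal).const_mul _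
        _ ≤ _ := by (clear * - e1 e2; gcongr)
    have h3 : ∫⁻ u in B, I ≤ ∫⁻ u in B, (2 * tE W u + 2 * tE W (v - u)) :=
      setLIntegral_mono' measurableSet_ball h2
    refine h3.trans ?_
    have hm2 : Measurable (fun u => tE W (v - u)) :=
      (measurable_tE hW).comp (measurable_const.sub measurable_id)
    rw [lintegral_add_left ((measurable_tE hW).const_mul _),
      lintegral_const_mul _ (measurable_tE hW), lintegral_const_mul _ hm2]
    gcongr 2 * ?_ + 2 * ?_
    · exact lintegral_mono_set (ball_half_subset v)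
    · have e5 := (Measure.measurePreserving_sub_left (volume : Measure (Eu n)) v).setLIntegral_comp_preimage
        (measurableSet_ball (x := (0 : Eu n)) (ε := ‖v‖)) (measurable_tE hW)
      rw [← e5]
      apply lintegral_mono_set
      intro u hu
      exact sub_mem_ball hu
  have hvol : volume B = ENNReal.ofReal ((‖v‖ / 2) ^ n * w) := by
    rw [hB, Measure.addHaar_ball _ _ (by positivity), finrank_euclideanSpace, Fintype.card_fin,
      ENNReal.ofReal_mul (by positivity), hw, ENNReal.ofReal_toReal measure_ball_lt_top.ne]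
  have h4 := lintegral_tE_le W hvp hv hn
  have h5 : volume B * I ≤ ENNReal.ofReal (4 * ‖v‖ ^ (n + 1)) * en W := by
    refine hmain.trans ?_
    rw [← two_mul, ← mul_assoc]
    have : (2 : ℝ≥0∞) * 2 = ENNReal.ofReal 4 := by
      rw [show (4 : ℝ) = 2 * 2 by norm_num, ENNReal.ofReal_mul (by norm_num)]; simp
    rw [this, ENNReal.ofReal_mul (by norm_num), mul_assoc]
    (clear * - h4; gcongr)
  rw [hvol] at h5
  have hpos : 0 < (‖v‖ / 2) ^ n * w := by positivity
  have h6 : I = ENNReal.ofReal ((‖v‖ / 2) ^ n * w)⁻¹ * (ENNReal.ofReal ((‖v‖ / 2) ^ n * w) * I) := by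
    rw [← mul_assoc, ← ENNReal.ofReal_mul (by positivity), inv_mul_cancel₀ hpos.ne']
    simp
  rw [h6]
  calc _ ≤ ENNReal.ofReal ((‖v‖ / 2) ^ n * w)⁻¹ * (ENNReal.ofReal (4 * ‖v‖ ^ (n + 1)) * en W) := by
        (clear * - h5; gcongr)
    _ = _ := by
        rw [← mul_assoc, ← ENNReal.ofReal_mul (by positivity)]
        congr 2
        rw [div_pow]
        field_simp
        ring

end Vale.Agent.P120.Liou
end
end

section

section

/-! Splitting of the operator and of the weak equation into near and far parts. -/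

open MeasureTheory Metric Set Filter Topology
open scoped ENNReal NNReal ContDiff

namespace Vale.Agent.P120.Liou

variable {n : ℕ}

/-- near part of the operator -/
noncomputable def nearK (ψ : Eu n → ℝ) (x : Eu n) : ℝ := ∫ z, sd ψ x z * nker z

/-- total mass of the far kernel -/
noncomputable def kfar (n : ℕ) : ℝ := ∫ z : Eu n, fker z

theorem kfar_nonneg (n : ℕ) : 0 ≤ kfar n := integral_nonneg fun z => fker_nonneg z

theorem continuous_sd {ψ : Eu n → ℝ} (hψ : Continuous ψ) :
    Continuous (fun p : Eu n × Eu n => sd ψ p.1 p.2) := by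
  unfold sd; fun_prop

theorem integrable_sd_nker (hn : 1 ≤ n) {ψ : Eu n → ℝ} (hψ : ContDiff ℝ ∞ ψ)
    (hc : HasCompactSupport ψ) (x : Eu n) : Integrable (fun z => sd ψ x z * nker z) := by
  obtain ⟨C, hC, hb⟩ := sd_bound hψ hc
  refine Integrable.mono' ((integrable_sq_nker hn).const_mul C) ?_ (Eventually.of_forall fun z => ?_)
  · exact ((continuous_sd hψ.continuous).comp
      (Continuous.prodMk continuous_const continuous_id)).aestronglyMeasurable.mul
      measurable_nker.aestronglyMeasurable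
  · rw [Real.norm_eq_abs, abs_mul, abs_of_nonneg (nker_nonneg z), ← mul_assoc]
    exact mul_le_mul_of_nonneg_right (hb x z) (nker_nonneg z)

theorem integrable_comp_fker {g : Eu n → ℝ} (hg : Continuous g) {B : ℝ} (hB : ∀ z, |g z| ≤ B) :
    Integrable (fun z => g z * fker z) := by
  refine Integrable.mono' (integrable_fker.const_mul B) ?_ (Eventually.of_forall fun z => ?_)
  · exact hg.aestronglyMeasurable.mul measurable_fker.aestronglyMeasurable
  · rw [Real.norm_eq_abs, abs_mul, abs_of_nonneg (fker_nonneg z)]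
    exact mul_le_mul_of_nonneg_right (hB z) (fker_nonneg z)

theorem exists_bound {ψ : Eu n → ℝ} (hψ : Continuous ψ) (hc : HasCompactSupport ψ) :
    ∃ B : ℝ, ∀ x, |ψ x| ≤ B := by
  obtain ⟨B, hB⟩ := hc.exists_bound_of_continuous hψ
  exact ⟨B, fun x => by simpa using hB x⟩

theorem integral_sd_fker {ψ : Eu n → ℝ} (hψ : Continuous ψ) (hc : HasCompactSupport ψ)
    (x : Eu n) : Integrable (fun z => sd ψ x z * fker z) ∧
    ∫ z, sd ψ x z * fker z = kfar n * ψ x - farK ψ x := by
  obtain ⟨B, hB⟩ := exists_bound hψ hc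
  have h1 : Integrable (fun z : Eu n => ψ x * fker z) := integrable_fker.const_mul _
  have h2 : Integrable (fun z => ψ (x + z) * fker z) :=
    integrable_comp_fker (hψ.comp (continuous_const.add continuous_id)) (fun z => hB _)
  have h3 : Integrable (fun z => ψ (x - z) * fker z) :=
    integrable_comp_fker (hψ.comp (continuous_const.sub continuous_id)) (fun z => hB _)
  have e : ∀ z, sd ψ x z * fker z =
      ψ x * fker z - (1 / 2) * (ψ (x + z) * fker z) - (1 / 2) * (ψ (x - z) * fker z) := by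
    intro z; unfold sd; ring
  have h4 : ∫ z, ψ (x - z) * fker z = farK ψ x := by
    unfold farK
    rw [← integral_neg_eq_self (fun z => ψ (x + z) * fker z)]
    congr 1
    funext z
    rw [fker_neg, sub_eq_add_neg]
  constructor
  · simp_rw [e]
    exact (h1.sub (h2.const_mul _)).sub (h3.const_mul _)
  · simp_rw [e]
    have i1 : ∫ z, (ψ x * fker z - (1 / 2) * (ψ (x + z) * fker z)
        - (1 / 2) * (ψ (x - z) * fker z)) =
        (∫ z, (ψ x * fker z - (1 / 2) * (ψ (x + z) * fker z))) -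
        ∫ z, (1 / 2) * (ψ (x - z) * fker z) :=
      integral_sub (h1.sub (h2.const_mul _)) (h3.const_mul _)
    have i2 : ∫ z, (ψ x * fker z - (1 / 2) * (ψ (x + z) * fker z)) =
        (∫ z, ψ x * fker z) - ∫ z, (1 / 2) * (ψ (x + z) * fker z) :=
      integral_sub h1 (h2.const_mul _)
    rw [i1, i2, integral_const_mul, integral_const_mul, integral_const_mul, h4]
    unfold kfar farK
    ring

theorem Lam_eq (hn : 1 ≤ n) {ψ : Eu n → ℝ} (hψ : ContDiff ℝ ∞ ψ)
    (hc : HasCompactSupport ψ) (x : Eu n) :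
    Lam ψ x = nearK ψ x + kfar n * ψ x - farK ψ x := by
  obtain ⟨h1, h2⟩ := integral_sd_fker hψ.continuous hc x
  unfold Lam nearK
  have e : ∀ z, sd ψ x z * ker z = sd ψ x z * nker z + sd ψ x z * fker z := by
    intro z; rw [← nker_add_fker z]; ring
  simp_rw [e]
  rw [integral_add (integrable_sd_nker hn hψ hc x) h1, h2]
  ring

theorem measurable_farK {ψ : Eu n → ℝ} (hψ : Continuous ψ) : Measurable (farK ψ) := by
  unfold farK
  have h : StronglyMeasurable (fun p : Eu n × Eu n => ψ (p.1 + p.2) * fker p.2) := by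
    apply Measurable.stronglyMeasurable
    exact (Continuous.measurable (by fun_prop)).mul (measurable_fker.comp measurable_snd)
  exact (h.integral_prod_right').measurable

theorem measurable_nearK {ψ : Eu n → ℝ} (hψ : Continuous ψ) : Measurable (nearK ψ) := by
  unfold nearK
  have h : StronglyMeasurable (fun p : Eu n × Eu n => sd ψ p.1 p.2 * nker p.2) := by
    apply Measurable.stronglyMeasurable
    exact (continuous_sd hψ).measurable.mul (measurable_nker.comp measurable_snd)
  exact (h.integral_prod_right').measurable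

/-- if `ψ` vanishes outside the ball of radius `ρ` then `sd ψ x z nker z = 0` for `|x| > ρ+1` -/
theorem sd_nker_zero {ψ : Eu n → ℝ} {ρ : ℝ} (hs : ∀ y, ρ < ‖y‖ → ψ y = 0) (x z : Eu n)
    (hx : ρ + 1 < ‖x‖) : sd ψ x z * nker z = 0 := by
  by_cases hz : z ∈ ball (0 : Eu n) 1
  · rw [mem_ball_zero_iff] at hz
    have h1 : ψ x = 0 := hs x (by linarith)
    have h2 : ψ (x + z) = 0 := hs _ (by
      have := norm_sub_norm_le x (-z)
      rw [norm_neg, sub_neg_eq_add] at this
      linarith)
    have h3 : ψ (x - z) = 0 := hs _ (by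
      have := norm_sub_norm_le x z
      linarith)
    unfold sd
    rw [h1, h2, h3]; ring
  · unfold nker; rw [indicator_of_notMem hz, mul_zero]

theorem integrable_pair (hn : 1 ≤ n) {W ψ : Eu n → ℝ} (hW : Continuous W) (hψ : ContDiff ℝ ∞ ψ)
    (hc : HasCompactSupport ψ) {ρ : ℝ} (hs : ∀ y, ρ < ‖y‖ → ψ y = 0) :
    Integrable (fun p : Eu n × Eu n => W p.1 * (sd ψ p.1 p.2 * nker p.2))
      ((volume : Measure (Eu n)).prod volume) := by
  obtain ⟨C, hC, hb⟩ := sd_bound hψ hc
  have h1 : Integrable ((closedBall (0 : Eu n) (ρ + 1)).indicator (fun x => |W x|)) := by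
    rw [integrable_indicator_iff measurableSet_closedBall]
    exact hW.abs.continuousOn.integrableOn_compact (isCompact_closedBall _ _)
  have h2 : Integrable (fun z : Eu n => C * (‖z‖ ^ 2 * nker z)) :=
    (integrable_sq_nker hn).const_mul C
  refine Integrable.mono' (h1.mul_prod h2) ?_ (Eventually.of_forall fun p => ?_)
  · apply Measurable.aestronglyMeasurable
    exact (hW.measurable.comp measurable_fst).mul
      ((continuous_sd hψ.continuous).measurable.mul (measurable_nker.comp measurable_snd))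
  · obtain ⟨x, z⟩ := p
    simp only
    rw [Real.norm_eq_abs, abs_mul]
    by_cases hx : x ∈ closedBall (0 : Eu n) (ρ + 1)
    · rw [indicator_of_mem hx]
      apply mul_le_mul_of_nonneg_left _ (abs_nonneg _)
      rw [abs_mul, abs_of_nonneg (nker_nonneg z), ← mul_assoc]
      exact mul_le_mul_of_nonneg_right (hb x z) (nker_nonneg z)
    · rw [indicator_of_notMem hx]
      rw [mem_closedBall_zero_iff, not_le] at hx
      rw [sd_nker_zero hs x z hx]
      simp

/-- the spatial pairing at fixed `z` -/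
noncomputable def J (W ψ : Eu n → ℝ) (z : Eu n) : ℝ := ∫ x, W x * sd ψ x z

theorem near_split (hn : 1 ≤ n) {W ψ : Eu n → ℝ} (hW : Continuous W) (hψ : ContDiff ℝ ∞ ψ)
    (hc : HasCompactSupport ψ) {ρ : ℝ} (hs : ∀ y, ρ < ‖y‖ → ψ y = 0) :
    Integrable (fun x => W x * nearK ψ x) ∧ Integrable (fun z => nker z * J W ψ z) ∧
    ∫ x, W x * nearK ψ x = ∫ z, nker z * J W ψ z := by
  have h := integrable_pair hn hW hψ hc hs
  have e1 : ∀ x, ∫ z, W x * (sd ψ x z * nker z) = W x * nearK ψ x := by
    intro x; rw [integral_const_mul]; rfl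
  have e2 : ∀ z, ∫ x, W x * (sd ψ x z * nker z) = nker z * J W ψ z := by
    intro z
    unfold J
    rw [← integral_const_mul]
    congr 1
    funext x
    ring
  refine ⟨?_, ?_, ?_⟩
  · refine h.integral_prod_left.congr (Eventually.of_forall fun x => ?_)
    exact e1 x
  · refine h.integral_prod_right.congr (Eventually.of_forall fun z => ?_)
    exact e2 z
  · have h3 := integral_integral_swap (f := fun x z => W x * (sd ψ x z * nker z)) h
    simp_rw [e1, e2] at h3
    exact h3

/-- weighted tail integrability class -/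
def TW (W : Eu n → ℝ) : Prop := Integrable (fun x => |W x| * ((1 + ‖x‖) ^ (n + 2))⁻¹)

theorem integrable_farK {W ψ : Eu n → ℝ} (hW : Continuous W) (hT : TW W) (hψ : Continuous ψ)
    (hc : HasCompactSupport ψ) {ρ : ℝ} (hρ : 1 ≤ ρ) (hs : ∀ y, ρ < ‖y‖ → ψ y = 0)
    (h0 : ∫ y, ψ y = 0) :
    Integrable (fun x => W x * farK ψ x) := by
  obtain ⟨C, hC, hb⟩ := farK_bound (n := n) ρ hρ
  have hi : Integrable ψ := hψ.integrable_of_hasCompactSupport hc
  refine Integrable.mono' (hT.const_mul (C * ∫ y, |ψ y|)) ?_ (Eventually.of_forall fun x => ?_)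
  · exact (hW.measurable.mul (measurable_farK hψ)).aestronglyMeasurable
  · rw [Real.norm_eq_abs, abs_mul]
    calc |W x| * |farK ψ x| ≤ |W x| * (C * ((1 + ‖x‖) ^ (n + 2))⁻¹ * ∫ y, |ψ y|) := by
          gcongr
          exact hb ψ hi hs h0 x
      _ = _ := by ring

theorem exists_radius {ψ : Eu n → ℝ} (hc : HasCompactSupport ψ) :
    ∃ ρ : ℝ, 1 ≤ ρ ∧ ∀ y, ρ < ‖y‖ → ψ y = 0 := by
  obtain ⟨r, hr⟩ := hc.isCompact.isBounded.subset_closedBall (0 : Eu n)
  refine ⟨max 1 r, le_max_left _ _, fun y hy => ?_⟩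
  by_contra hne
  have : y ∈ closedBall (0 : Eu n) r := hr (subset_tsupport _ hne)
  rw [mem_closedBall_zero_iff] at this
  linarith only [le_max_right 1 r, hy, this]

theorem integrable_Lam (hn : 1 ≤ n) {W ψ : Eu n → ℝ} (hW : Continuous W) (hT : TW W)
    (hψ : ContDiff ℝ ∞ ψ) (hc : HasCompactSupport ψ) (h0 : ∫ y, ψ y = 0) :
    Integrable (fun x => W x * Lam ψ x) := by
  obtain ⟨ρ, hρ, hs⟩ := exists_radius hc
  have h1 := (near_split hn hW hψ hc hs).1
  have h2 := integrable_farK hW hT hψ.continuous hc hρ hs h0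
  have h3 : Integrable (fun x => W x * ψ x) :=
    (hW.mul hψ.continuous).integrable_of_hasCompactSupport hc.mul_left
  refine ((h1.add (h3.const_mul (kfar n))).sub h2).congr (Eventually.of_forall fun x => ?_)
  simp only [Pi.add_apply, Pi.sub_apply]
  rw [Lam_eq hn hψ hc]
  ring

theorem weak_split (hn : 1 ≤ n) {W ψ : Eu n → ℝ} (hW : Continuous W) (hT : TW W)
    (hψ : ContDiff ℝ ∞ ψ) (hc : HasCompactSupport ψ) (h0 : ∫ y, ψ y = 0) :
    ∫ x, W x * Lam ψ x = (∫ z, nker z * J W ψ z) + kfar n * (∫ x, W x * ψ x)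
      - ∫ x, W x * farK ψ x := by
  obtain ⟨ρ, hρ, hs⟩ := exists_radius hc
  obtain ⟨h1, _, h4⟩ := near_split hn hW hψ hc hs
  have h2 := integrable_farK hW hT hψ.continuous hc hρ hs h0
  have h3 : Integrable (fun x => W x * ψ x) :=
    (hW.mul hψ.continuous).integrable_of_hasCompactSupport hc.mul_left
  have e : ∀ x, W x * Lam ψ x = W x * nearK ψ x + kfar n * (W x * ψ x) - W x * farK ψ x := by
    intro x; rw [Lam_eq hn hψ hc]; ring
  simp_rw [e]
  have i1 : ∫ x, (W x * nearK ψ x + kfar n * (W x * ψ x) - W x * farK ψ x) =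
      (∫ x, (W x * nearK ψ x + kfar n * (W x * ψ x))) - ∫ x, W x * farK ψ x :=
    integral_sub (h1.add (h3.const_mul _)) h2
  rw [i1, integral_add h1 (h3.const_mul _), integral_const_mul, h4]

theorem two_J {W ψ : Eu n → ℝ} (hW : Continuous W) (hψ : Continuous ψ)
    (hc : HasCompactSupport ψ) (z : Eu n) :
    2 * J W ψ z = ∫ x, (W (x + z) - W x) * (ψ (x + z) - ψ x) := by
  have hcz : HasCompactSupport (fun x => ψ (x + z)) :=
    hc.comp_homeomorph (Homeomorph.addRight z)
  have hcz' : HasCompactSupport (fun x => ψ (x - z)) :=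
    hc.comp_homeomorph (Homeomorph.subRight z)
  have hWz : Continuous (fun x => W (x + z)) := hW.comp (continuous_id.add_const z)
  have hψz : Continuous (fun x => ψ (x + z)) := hψ.comp (continuous_id.add_const z)
  have hψz' : Continuous (fun x => ψ (x - z)) := hψ.comp (continuous_id.sub continuous_const)
  have i1 : Integrable (fun x => W x * ψ x) :=
    (hW.mul hψ).integrable_of_hasCompactSupport hc.mul_left
  have i2 : Integrable (fun x => W x * ψ (x + z)) :=
    (hW.mul hψz).integrable_of_hasCompactSupport hcz.mul_left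
  have i3 : Integrable (fun x => W x * ψ (x - z)) :=
    (hW.mul hψz').integrable_of_hasCompactSupport hcz'.mul_left
  have i4 : Integrable (fun x => W (x + z) * ψ (x + z)) :=
    (hWz.mul hψz).integrable_of_hasCompactSupport hcz.mul_left
  have i5 : Integrable (fun x => W (x + z) * ψ x) :=
    (hWz.mul hψ).integrable_of_hasCompactSupport hc.mul_left
  have t1 : ∫ x, W (x + z) * ψ (x + z) = ∫ x, W x * ψ x :=
    integral_add_right_eq_self (fun x => W x * ψ x) z
  have t2 : ∫ x, W (x + z) * ψ x = ∫ x, W x * ψ (x - z) := by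
    rw [← integral_add_right_eq_self (fun x => W x * ψ (x - z)) z]
    simp
  have e1 : ∀ x, W x * sd ψ x z = W x * ψ x - (1 / 2) * (W x * ψ (x + z))
      - (1 / 2) * (W x * ψ (x - z)) := by intro x; unfold sd; ring
  have e2 : ∀ x, (W (x + z) - W x) * (ψ (x + z) - ψ x) =
      W (x + z) * ψ (x + z) - W (x + z) * ψ x - W x * ψ (x + z) + W x * ψ x := by
    intro x; ring
  unfold J
  simp_rw [e1, e2]
  have j1 : ∫ x, (W x * ψ x - (1 / 2) * (W x * ψ (x + z)) - (1 / 2) * (W x * ψ (x - z))) =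
      (∫ x, W x * ψ x) - (1 / 2) * (∫ x, W x * ψ (x + z)) - (1 / 2) * ∫ x, W x * ψ (x - z) := by
    rw [integral_sub (f := fun x => W x * ψ x - (1 / 2) * (W x * ψ (x + z)))
      (i1.sub (i2.const_mul _)) (i3.const_mul _), integral_sub i1 (i2.const_mul _),
      integral_const_mul, integral_const_mul]
  have j2 : ∫ x, (W (x + z) * ψ (x + z) - W (x + z) * ψ x - W x * ψ (x + z) + W x * ψ x) =
      (∫ x, W (x + z) * ψ (x + z)) - (∫ x, W (x + z) * ψ x) - (∫ x, W x * ψ (x + z))
        + ∫ x, W x * ψ x := by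
    rw [integral_add (f := fun x => W (x + z) * ψ (x + z) - W (x + z) * ψ x - W x * ψ (x + z))
      ((i4.sub i5).sub i2) i1,
      integral_sub (f := fun x => W (x + z) * ψ (x + z) - W (x + z) * ψ x) (i4.sub i5) i2,
      integral_sub i4 i5]
  rw [j1, j2, t1, t2]
  ring

end Vale.Agent.P120.Liou
end
end

section

section

/-! Caccioppoli inequality at scale one. -/

open MeasureTheory Metric Set Filter Topology
open scoped ENNReal NNReal ContDiff

namespace Vale.Agent.P120.Liou

variable {n : ℕ}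

/-- Cauchy-Schwarz -/
theorem cs {α : Type*} [MeasurableSpace α] {μ : Measure α} {f g : α → ℝ}
    (hf : Integrable (fun x => f x ^ 2) μ) (hg : Integrable (fun x => g x ^ 2) μ)
    (hfg : Integrable (fun x => f x * g x) μ) :
    (∫ x, f x * g x ∂μ) ^ 2 ≤ (∫ x, f x ^ 2 ∂μ) * ∫ x, g x ^ 2 ∂μ := by
  have h : ∀ t : ℝ, 0 ≤ (∫ x, g x ^ 2 ∂μ) * (t * t) + (-2 * ∫ x, f x * g x ∂μ) * t
      + ∫ x, f x ^ 2 ∂μ := by
    intro t
    have h1 : 0 ≤ ∫ x, (f x - t * g x) ^ 2 ∂μ := integral_nonneg fun x => sq_nonneg _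
    have e : ∀ x, (f x - t * g x) ^ 2 = f x ^ 2 - (2 * t) * (f x * g x) + (t * t) * g x ^ 2 := by
      intro x; ring
    simp_rw [e] at h1
    rw [integral_add (f := fun x => f x ^ 2 - (2 * t) * (f x * g x)) (hf.sub (hfg.const_mul _))
      (hg.const_mul _), integral_sub hf (hfg.const_mul _), integral_const_mul,
      integral_const_mul] at h1
    linarith
  have h2 := discrim_le_zero h
  unfold discrim at h2
  nlinarith only [h2]

/-- the weight -/
noncomputable def wt (x : Eu n) : ℝ := (1 + ‖x‖) ^ (-((n : ℝ) + 7 / 2))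

theorem wt_pos (x : Eu n) : 0 < wt x := by unfold wt; positivity

theorem continuous_wt : Continuous (wt (n := n)) := by
  unfold wt
  apply Continuous.rpow_const (by fun_prop)
  intro x
  left
  positivity

theorem wt_ge {x : Eu n} {r : ℝ} (hx : ‖x‖ ≤ r) :
    (1 + r) ^ (-((n : ℝ) + 7 / 2)) ≤ wt x := by
  unfold wt
  apply Real.rpow_le_rpow_of_nonpos (by positivity) (by linarith)
  have : (0 : ℝ) ≤ n := Nat.cast_nonneg n
  linarith only []

/-- constant in the tail bound -/
noncomputable def c1 (n : ℕ) : ℝ := ∫ x : Eu n, (1 + ‖x‖) ^ (-((n : ℝ) + 1 / 2))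

theorem c1_nonneg (n : ℕ) : 0 ≤ c1 n := integral_nonneg fun x => by positivity

theorem tail_bound {W : Eu n → ℝ} (hW : Measurable W) (hM : Integrable (fun x => W x ^ 2 * wt x)) :
    TW W ∧ (∫ x, |W x| * ((1 + ‖x‖) ^ (n + 2))⁻¹) ^ 2 ≤ (∫ x, W x ^ 2 * wt x) * c1 n := by
  set f : Eu n → ℝ := fun x => |W x| * (1 + ‖x‖) ^ (-(((n : ℝ) + 7 / 2) / 2)) with hf
  set g : Eu n → ℝ := fun x => (1 + ‖x‖) ^ (-(((n : ℝ) + 1 / 2) / 2)) with hg
  have e1 : ∀ x, f x ^ 2 = W x ^ 2 * wt x := by
    intro x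
    simp only [hf, wt]
    rw [mul_pow, sq_abs, ← Real.rpow_natCast ((1 + ‖x‖) ^ _), ← Real.rpow_mul (by positivity)]
    congr 2
    push_cast; ring
  have e2 : ∀ x, g x ^ 2 = (1 + ‖x‖) ^ (-((n : ℝ) + 1 / 2)) := by
    intro x
    simp only [hg]
    rw [← Real.rpow_natCast, ← Real.rpow_mul (by positivity)]
    congr 1
    push_cast; ring
  have e3 : ∀ x, f x * g x = |W x| * ((1 + ‖x‖) ^ (n + 2))⁻¹ := by
    intro x
    simp only [hf, hg]
    rw [mul_assoc, ← Real.rpow_add (by positivity)]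
    congr 1
    rw [← Real.rpow_natCast, ← Real.rpow_neg (by positivity)]
    congr 1
    push_cast; ring
  have hcg : Continuous g := by
    simp only [hg]
    apply Continuous.rpow_const (by fun_prop)
    intro x; left; positivity
  have hcf : Measurable f := by
    simp only [hf]
    apply (measurable_norm.comp hW).mul
    apply Continuous.measurable
    apply Continuous.rpow_const (by fun_prop)
    intro x; left; positivity
  have i1 : Integrable (fun x => f x ^ 2) := by simp_rw [e1]; exact hM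
  have i2 : Integrable (fun x => g x ^ 2) := by
    simp_rw [e2]
    exact integrable_one_add_norm (by rw [finrank_euclideanSpace, Fintype.card_fin]; linarith only [])
  have i3 : Integrable (fun x => f x * g x) := by
    refine Integrable.mono' (i1.add i2) (hcf.mul hcg.measurable).aestronglyMeasurable
      (Eventually.of_forall fun x => ?_)
    rw [Real.norm_eq_abs, abs_mul]
    simp only [Pi.add_apply]
    have h1 := sq_abs (f x)
    have h2 := sq_abs (g x)
    nlinarith only [sq_nonneg (|f x| - |g x|), h1, h2]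
  have h := cs i1 i2 i3
  simp_rw [e1, e2, e3] at h
  simp_rw [e3] at i3
  exact ⟨i3, h⟩

/-- the cutoff -/
noncomputable def bump (n : ℕ) : ContDiffBump (0 : Eu n) := ⟨3, 4, by norm_num, by norm_num⟩

theorem bump_lip (n : ℕ) : ∃ L : ℝ, 0 < L ∧ ∀ x y : Eu n, |bump n x - bump n y| ≤ L * ‖x - y‖ := by
  have h1 : ContDiff ℝ 1 (bump n) := (bump n).contDiff
  obtain ⟨K, hK⟩ := h1.lipschitzWith_of_hasCompactSupport (bump n).hasCompactSupport (by norm_num)
  refine ⟨K + 1, by positivity, fun x y => ?_⟩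
  have := hK.dist_le_mul x y
  rw [Real.dist_eq, dist_eq_norm] at this
  nlinarith only [norm_nonneg (x - y), this]

theorem bump_one {x : Eu n} (hx : ‖x‖ ≤ 3) : bump n x = 1 :=
  (bump n).one_of_mem_closedBall (by rw [mem_closedBall_zero_iff]; exact hx)

theorem bump_zero {x : Eu n} (hx : 4 ≤ ‖x‖) : bump n x = 0 :=
  (bump n).zero_of_le_dist (by rw [dist_zero_right]; exact hx)

theorem hcs_sq (n : ℕ) : HasCompactSupport (fun x => bump n x ^ 2) := by
  simp_rw [pow_two]
  exact (bump n).hasCompactSupport.mul_left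

theorem lower_pointwise {L : ℝ} (hL : ∀ x y : Eu n, |bump n x - bump n y| ≤ L * ‖x - y‖)
    (W : Eu n → ℝ) (m : ℝ) {z : Eu n} (hz : ‖z‖ < 1) (x : Eu n) :
    (ball (0 : Eu n) 2).indicator (fun x => (W (x + z) - W x) ^ 2) x ≤
      (W (x + z) - W x) * (bump n (x + z) ^ 2 * (W (x + z) - m) - bump n x ^ 2 * (W x - m)) +
      L ^ 2 * ‖z‖ ^ 2 / 2 * ((ball (0 : Eu n) 5).indicator (fun y => (W y - m) ^ 2) x +
        (ball (0 : Eu n) 5).indicator (fun y => (W y - m) ^ 2) (x + z)) := by
  set a := W x - m with ha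
  set b := W (x + z) - m with hb
  set p := bump n x with hp
  set q := bump n (x + z) with hq
  have e1 : W (x + z) - W x = b - a := by rw [ha, hb]; ring
  have hpq : |q - p| ≤ L * ‖z‖ := by
    have := hL (x + z) x
    simpa only [ge_iff_le, add_sub_cancel_left] using this
  have hpq2 : (q - p) ^ 2 ≤ L ^ 2 * ‖z‖ ^ 2 := by
    rw [← sq_abs, ← mul_pow]
    exact pow_le_pow_left₀ (abs_nonneg _) hpq 2
  have hL0 : 0 ≤ L ^ 2 * ‖z‖ ^ 2 := by (clear * -; positivity)
  have key : (b - a) * (q ^ 2 * b - p ^ 2 * a) = (q * b - p * a) ^ 2 - a * b * (q - p) ^ 2 := by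
    ring
  have hab : a * b ≤ (a ^ 2 + b ^ 2) / 2 := by nlinarith only [sq_nonneg (a - b)]
  -- the error term
  have herr : a * b * (q - p) ^ 2 ≤ L ^ 2 * ‖z‖ ^ 2 / 2 *
      ((ball (0 : Eu n) 5).indicator (fun y => (W y - m) ^ 2) x +
        (ball (0 : Eu n) 5).indicator (fun y => (W y - m) ^ 2) (x + z)) := by
    by_cases h5 : x ∈ ball (0 : Eu n) 5 ∧ x + z ∈ ball (0 : Eu n) 5
    · rw [indicator_of_mem h5.1, indicator_of_mem h5.2]
      have : a * b * (q - p) ^ 2 ≤ (a ^ 2 + b ^ 2) / 2 * (L ^ 2 * ‖z‖ ^ 2) := by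
        have h0 : 0 ≤ (a ^ 2 + b ^ 2) / 2 := by (clear * -; positivity)
        calc a * b * (q - p) ^ 2 ≤ (a ^ 2 + b ^ 2) / 2 * (q - p) ^ 2 := by
              apply mul_le_mul_of_nonneg_right hab (sq_nonneg _)
          _ ≤ _ := mul_le_mul_of_nonneg_left hpq2 h0
      calc _ ≤ _ := this
        _ = _ := by rw [ha, hb]; ring
    · have hx4 : 4 ≤ ‖x‖ ∧ 4 ≤ ‖x + z‖ := by
        have t1 := norm_add_le x z
        have t2 := norm_sub_norm_le x (-z)
        rw [norm_neg, sub_neg_eq_add] at t2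
        have t3 : ‖x‖ ≤ ‖x + z‖ + ‖z‖ := by linarith only [t2]
        rw [not_and_or, mem_ball_zero_iff, mem_ball_zero_iff, not_lt, not_lt] at h5
        rcases h5 with h5 | h5 <;> constructor <;> linarith only [h5, hz, t2, t1]
      have hp0 : p = 0 := bump_zero hx4.1
      have hq0 : q = 0 := bump_zero hx4.2
      rw [hp0, hq0]
      have i1 : 0 ≤ (ball (0 : Eu n) 5).indicator (fun y => (W y - m) ^ 2) x :=
        indicator_nonneg (fun y _ => sq_nonneg _) _
      have i2 : 0 ≤ (ball (0 : Eu n) 5).indicator (fun y => (W y - m) ^ 2) (x + z) :=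
        indicator_nonneg (fun y _ => sq_nonneg _) _
      have : 0 ≤ L ^ 2 * ‖z‖ ^ 2 / 2 * ((ball (0 : Eu n) 5).indicator (fun y => (W y - m) ^ 2) x +
        (ball (0 : Eu n) 5).indicator (fun y => (W y - m) ^ 2) (x + z)) := by (clear * - i1 i2; positivity)
      simpa only [sub_self, ne_eq, OfNat.ofNat_ne_zero, not_false_eq_true, zero_pow, mul_zero,
        ge_iff_le] using this
  have hleft : (ball (0 : Eu n) 2).indicator (fun x => (W (x + z) - W x) ^ 2) x ≤
      (q * b - p * a) ^ 2 := by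
    by_cases h2 : x ∈ ball (0 : Eu n) 2
    · rw [indicator_of_mem h2]
      rw [mem_ball_zero_iff] at h2
      have hp1 : p = 1 := bump_one (by linarith only [h2])
      have hq1 : q = 1 := bump_one (by have := norm_add_le x z; linarith only [hz, h2, this])
      rw [hp1, hq1, e1, one_mul, one_mul]
    · rw [indicator_of_notMem h2]; (clear * -; positivity)
  rw [e1, key]
  linarith only [herr, hleft]

theorem J_lower {L : ℝ} (hL : ∀ x y : Eu n, |bump n x - bump n y| ≤ L * ‖x - y‖)
    {W : Eu n → ℝ} (hW : Continuous W) (m : ℝ) {z : Eu n} (hz : ‖z‖ < 1) :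
    ∫ x in ball (0 : Eu n) 2, (W (x + z) - W x) ^ 2 ≤
      2 * J W (fun x => bump n x ^ 2 * (W x - m)) z +
      L ^ 2 * ‖z‖ ^ 2 * ∫ x in ball (0 : Eu n) 5, (W x - m) ^ 2 := by
  have hψ : Continuous (fun x => bump n x ^ 2 * (W x - m)) :=
    ((bump n).continuous.pow 2).mul (hW.sub continuous_const)
  have hc : HasCompactSupport (fun x => bump n x ^ 2 * (W x - m)) := (hcs_sq n).mul_right
  have hcz : HasCompactSupport (fun x => bump n (x + z) ^ 2 * (W (x + z) - m)) :=
    hc.comp_homeomorph (Homeomorph.addRight z)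
  rw [two_J hW hψ hc z, ← integral_indicator measurableSet_ball,
    ← integral_indicator measurableSet_ball]
  have hWz : Continuous (fun x => W (x + z)) := hW.comp (continuous_id.add_const z)
  have hψz : Continuous (fun x => bump n (x + z) ^ 2 * (W (x + z) - m)) :=
    hψ.comp (continuous_id.add_const z)
  have i0 : Integrable ((ball (0 : Eu n) 5).indicator (fun y => (W y - m) ^ 2)) := by
    rw [integrable_indicator_iff measurableSet_ball]
    exact integrableOn_sq (hW.sub continuous_const) 0 5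
  have i0z : Integrable (fun x => (ball (0 : Eu n) 5).indicator (fun y => (W y - m) ^ 2) (x + z)) :=
    i0.comp_add_right z
  have i1 : Integrable ((ball (0 : Eu n) 2).indicator (fun x => (W (x + z) - W x) ^ 2)) := by
    rw [integrable_indicator_iff measurableSet_ball]
    exact integrableOn_sq (hWz.sub hW) 0 2
  have i2 : Integrable (fun x => (W (x + z) - W x) *
      (bump n (x + z) ^ 2 * (W (x + z) - m) - bump n x ^ 2 * (W x - m))) := by
    apply Continuous.integrable_of_hasCompactSupport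
    · exact (hWz.sub hW).mul (hψz.sub hψ)
    · exact HasCompactSupport.mul_left (hcz.sub hc)
  calc _ ≤ ∫ x, ((W (x + z) - W x) * (bump n (x + z) ^ 2 * (W (x + z) - m)
          - bump n x ^ 2 * (W x - m)) +
        L ^ 2 * ‖z‖ ^ 2 / 2 * ((ball (0 : Eu n) 5).indicator (fun y => (W y - m) ^ 2) x +
        (ball (0 : Eu n) 5).indicator (fun y => (W y - m) ^ 2) (x + z))) := by
        apply integral_mono i1 (i2.add ((i0.add i0z).const_mul _))
        intro x
        exact lower_pointwise hL W m hz x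
    _ = _ := by
        have i3 : Integrable (fun x => L ^ 2 * ‖z‖ ^ 2 / 2 *
          ((ball (0 : Eu n) 5).indicator (fun y => (W y - m) ^ 2) x +
          (ball (0 : Eu n) 5).indicator (fun y => (W y - m) ^ 2) (x + z))) :=
          (i0.add i0z).const_mul _
        rw [integral_add i2 i3, integral_const_mul, integral_add i0 i0z,
          integral_add_right_eq_self ((ball (0 : Eu n) 5).indicator (fun y => (W y - m) ^ 2)) z]
        ring

end Vale.Agent.P120.Liou
end
end

section

section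

/-! Caccioppoli inequality at scale one: conclusion. -/

open MeasureTheory Metric Set Filter Topology
open scoped ENNReal NNReal ContDiff

namespace Vale.Agent.P120.Liou

variable {n : ℕ}

/-- weak solutions of `(-Δ)^{1/2} W = const` -/
def WeakSol (W : Eu n → ℝ) : Prop :=
  ∀ φ : Eu n → ℝ, ContDiff ℝ ∞ φ → HasCompactSupport φ → ∫ x, φ x = 0 →
    ∫ x, W x * Lam φ x = 0

theorem bump_sq_le (n : ℕ) (F : Eu n → ℝ) (hF : ∀ x, 0 ≤ F x) (x : Eu n) :
    bump n x ^ 2 * F x ≤ (ball (0 : Eu n) 5).indicator F x := by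
  by_cases hx : x ∈ ball (0 : Eu n) 5
  · rw [indicator_of_mem hx]
    have h1 : bump n x ^ 2 ≤ 1 := pow_le_one₀ (bump n).nonneg (bump n).le_one
    exact mul_le_of_le_one_left (hF x) h1
  · rw [indicator_of_notMem hx]
    rw [mem_ball_zero_iff, not_lt] at hx
    rw [bump_zero (by linarith : (4 : ℝ) ≤ ‖x‖)]
    simp

theorem integral_bump_sq_le {F : Eu n → ℝ} (hF : ∀ x, 0 ≤ F x) (hc : Continuous F) :
    ∫ x, bump n x ^ 2 * F x ≤ ∫ x in ball (0 : Eu n) 5, F x := by
  rw [← integral_indicator measurableSet_ball]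
  apply integral_mono
  · apply Continuous.integrable_of_hasCompactSupport
    · exact ((bump n).continuous.pow 2).mul hc
    · exact (hcs_sq n).mul_right
  · rw [integrable_indicator_iff measurableSet_ball]
    exact (hc.continuousOn.integrableOn_compact (isCompact_closedBall 0 5)).mono_set
      ball_subset_closedBall
  · exact bump_sq_le n F hF

theorem c0_pos (n : ℕ) : 0 < ∫ x : Eu n, bump n x ^ 2 := by
  have hc : Continuous (fun x : Eu n => bump n x ^ 2) := (bump n).continuous.pow 2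
  apply hc.integral_pos_of_hasCompactSupport_nonneg_nonzero (hcs_sq n)
    (fun x => sq_nonneg _) (x := 0)
  rw [bump_one (by simp)]
  norm_num

theorem local_le {W : Eu n → ℝ} (hW : Continuous W) (hM : Integrable (fun x => W x ^ 2 * wt x))
    {r : ℝ} (hr : 0 ≤ r) :
    ∫ x in ball (0 : Eu n) r, W x ^ 2 ≤ (1 + r) ^ ((n : ℝ) + 7 / 2) * ∫ x, W x ^ 2 * wt x := by
  rw [← integral_const_mul]
  calc ∫ x in ball (0 : Eu n) r, W x ^ 2
      ≤ ∫ x in ball (0 : Eu n) r, (1 + r) ^ ((n : ℝ) + 7 / 2) * (W x ^ 2 * wt x) := by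
        apply setIntegral_mono_on (integrableOn_sq hW 0 r) (hM.const_mul _).integrableOn
          measurableSet_ball
        intro x hx
        rw [mem_ball_zero_iff] at hx
        have h1 := wt_ge (x := x) hx.le
        have h2 : 1 ≤ (1 + r) ^ ((n : ℝ) + 7 / 2) * wt x := by
          calc (1 : ℝ) = (1 + r) ^ ((n : ℝ) + 7 / 2) * (1 + r) ^ (-((n : ℝ) + 7 / 2)) := by
                rw [← Real.rpow_add (by positivity)]; simp
            _ ≤ _ := by gcongr
        nlinarith only [sq_nonneg (W x), h2]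
    _ ≤ ∫ x, (1 + r) ^ ((n : ℝ) + 7 / 2) * (W x ^ 2 * wt x) := by
        apply setIntegral_le_integral (hM.const_mul _)
        refine Eventually.of_forall fun x => ?_
        have := (wt_pos x).le
        positivity

set_option maxHeartbeats 1000000 in
theorem caccio_split (hn : 1 ≤ n) : ∃ C : ℝ, 0 < C ∧ ∀ W : Eu n → ℝ, ContDiff ℝ ∞ W →
    TW W → WeakSol W →
    en W ≤ ENNReal.ofReal (C * ((∫ x in ball (0 : Eu n) 5, W x ^ 2) +
      (∫ x, |W x| * ((1 + ‖x‖) ^ (n + 2))⁻¹) ^ 2)) := by
  obtain ⟨L, hL0, hL⟩ := bump_lip n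
  obtain ⟨Ck, hCk, hK⟩ := farK_bound (n := n) 4 (by norm_num)
  set c0 : ℝ := ∫ x : Eu n, bump n x ^ 2 with hc0
  have hc0p : 0 < c0 := c0_pos n
  set V5 : ℝ := (volume (ball (0 : Eu n) 5)).toReal with hV5
  have hV5p : 0 ≤ V5 := ENNReal.toReal_nonneg
  set c2 : ℝ := ∫ z : Eu n, ‖z‖ ^ 2 * nker z with hc2
  have hc2p : 0 ≤ c2 := integral_nonneg fun z => mul_nonneg (sq_nonneg _) (nker_nonneg z)
  set q : ℝ := 2 + 2 * c0⁻¹ * V5 with hq
  have hqp : 0 ≤ q := by (clear * - hc0p; positivity)
  refine ⟨Ck * (1 + c0 * q) + L ^ 2 * q * c2 + 1, by (clear * - hL0 hCk hc0p hc2p; positivity), fun W hWs hT hweak => ?_⟩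
  have hW : Continuous W := hWs.continuous
  set P : ℝ := ∫ x in ball (0 : Eu n) 5, W x ^ 2 with hP
  have hP0 : 0 ≤ P := integral_nonneg fun x => sq_nonneg _
  set T : ℝ := ∫ x, |W x| * ((1 + ‖x‖) ^ (n + 2))⁻¹ with hTdef
  have hT0 : 0 ≤ T := integral_nonneg fun x => by (clear * -; positivity)
  set m : ℝ := (∫ x, bump n x ^ 2 * W x) / c0 with hm
  set ψ : Eu n → ℝ := fun x => bump n x ^ 2 * (W x - m) with hψ
  have hψs : ContDiff ℝ ∞ ψ := ((bump n).contDiff.pow 2).mul (hWs.sub contDiff_const)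
  have hψc : HasCompactSupport ψ := (hcs_sq n).mul_right
  have hcb : Continuous (fun x : Eu n => bump n x) := (bump n).continuous
  have iW : Integrable (fun x => bump n x ^ 2 * W x) :=
    ((hcb.pow 2).mul hW).integrable_of_hasCompactSupport (hcs_sq n).mul_right
  have ib : Integrable (fun x : Eu n => bump n x ^ 2) :=
    (hcb.pow 2).integrable_of_hasCompactSupport (hcs_sq n)
  have hψ0 : ∫ x, ψ x = 0 := by
    have e : ∀ x, ψ x = bump n x ^ 2 * W x - m * bump n x ^ 2 := by
      intro x; simp only [hψ]; ring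
    simp_rw [e]
    rw [integral_sub iW (ib.const_mul _), integral_const_mul, ← hc0, hm]
    field_simp
    ring
  -- bound for m
  have hm2 : m ^ 2 ≤ c0⁻¹ * P := by
    have h1 := cs (f := fun x : Eu n => bump n x) (g := fun x => bump n x * W x) ib
      (((hcb.mul hW).pow 2).integrable_of_hasCompactSupport (by
        simp_rw [mul_pow]; exact (hcs_sq n).mul_right))
      ((hcb.mul (hcb.mul hW)).integrable_of_hasCompactSupport
        (bump n).hasCompactSupport.mul_right) (μ := volume)
    have e1 : ∀ x, bump n x * (bump n x * W x) = bump n x ^ 2 * W x := by intro x; ring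
    simp_rw [e1, mul_pow] at h1
    have h2 : ∫ x, bump n x ^ 2 * W x ^ 2 ≤ P :=
      integral_bump_sq_le (fun x => sq_nonneg (W x)) (hW.pow 2)
    rw [← hc0] at h1
    have h3 : (∫ x, bump n x ^ 2 * W x) ^ 2 ≤ c0 * P :=
      h1.trans (mul_le_mul_of_nonneg_left h2 hc0p.le)
    rw [hm, div_pow, div_le_iff₀ (by (clear * - hc0p; positivity))]
    calc _ ≤ _ := h3
      _ = _ := by (clear * - hc0p; field_simp)
  set Q : ℝ := ∫ x in ball (0 : Eu n) 5, (W x - m) ^ 2 with hQ
  have hQ0 : 0 ≤ Q := integral_nonneg fun x => sq_nonneg _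
  have hQM : Q ≤ q * P := by
    have h1 : Q ≤ ∫ x in ball (0 : Eu n) 5, (2 * W x ^ 2 + 2 * m ^ 2) := by
      apply integral_mono
      · exact integrableOn_sq (hW.sub continuous_const) 0 5
      · apply Integrable.add
        · exact (integrableOn_sq hW 0 5).const_mul 2
        · exact integrableOn_const (measure_ball_lt_top.ne)
      · intro x
        simp only
        nlinarith only [sq_nonneg (W x + m)]
    rw [integral_add ((integrableOn_sq hW 0 5).const_mul 2)
      (integrableOn_const measure_ball_lt_top.ne), integral_const_mul, setIntegral_const,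
      smul_eq_mul, measureReal_def, ← hV5] at h1
    calc Q ≤ _ := h1
      _ ≤ 2 * P + V5 * (2 * (c0⁻¹ * P)) := by (clear * - hm2; gcongr)
      _ = q * P := by rw [hq]; ring
  -- L1 norm of ψ
  have hψ1 : (∫ x, |ψ x|) ^ 2 ≤ c0 * Q := by
    have h1 := cs (f := fun x : Eu n => bump n x) (g := fun x => bump n x * |W x - m|) ib
      (((hcb.mul (hW.sub continuous_const).abs).pow 2).integrable_of_hasCompactSupport (by
        simp_rw [mul_pow]; exact (hcs_sq n).mul_right))
      ((hcb.mul (hcb.mul (hW.sub continuous_const).abs)).integrable_of_hasCompactSupport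
        (bump n).hasCompactSupport.mul_right) (μ := volume)
    have e1 : ∀ x, bump n x * (bump n x * |W x - m|) = |ψ x| := by
      intro x
      simp only [hψ]
      rw [abs_mul, abs_of_nonneg (sq_nonneg (bump n x))]; ring
    have e2 : ∀ x, (bump n x * |W x - m|) ^ 2 = bump n x ^ 2 * (W x - m) ^ 2 := by
      intro x; rw [mul_pow, sq_abs]
    simp_rw [e1, e2] at h1
    rw [← hc0] at h1
    refine h1.trans (mul_le_mul_of_nonneg_left ?_ hc0p.le)
    exact integral_bump_sq_le (fun x => sq_nonneg (W x - m)) ((hW.sub continuous_const).pow 2)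
  have hψsupp : ∀ y : Eu n, 4 < ‖y‖ → ψ y = 0 := by
    intro y hy
    simp only [hψ]
    rw [bump_zero hy.le]; simp
  have hψi : Integrable ψ := hψs.continuous.integrable_of_hasCompactSupport hψc
  have hI0 : 0 ≤ ∫ x, |ψ x| := integral_nonneg fun x => abs_nonneg _
  have hfar : |∫ x, W x * farK ψ x| ≤ Ck * (1 + c0 * q) / 2 * (P + T ^ 2) := by
    have h1 : |∫ x, W x * farK ψ x| ≤ ∫ x, (Ck * ∫ y, |ψ y|) * (|W x| * ((1 + ‖x‖) ^ (n + 2))⁻¹) := by
      rw [← Real.norm_eq_abs]
      apply norm_integral_le_of_norm_le (hT.const_mul _)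
      refine Eventually.of_forall fun x => ?_
      rw [Real.norm_eq_abs, abs_mul]
      calc |W x| * |farK ψ x| ≤ |W x| * (Ck * ((1 + ‖x‖) ^ (n + 2))⁻¹ * ∫ y, |ψ y|) := by
            gcongr
            exact hK ψ hψi hψsupp hψ0 x
        _ = _ := by ring
    rw [integral_const_mul, ← hTdef] at h1
    have h2 : (∫ y, |ψ y|) * T ≤ (T ^ 2 + c0 * (q * P)) / 2 := by
      have h3 : (∫ y, |ψ y|) ^ 2 ≤ c0 * (q * P) :=
        hψ1.trans (mul_le_mul_of_nonneg_left hQM hc0p.le)
      nlinarith only [sq_nonneg ((∫ y, |ψ y|) - T), h3]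
    have h4 : T ^ 2 + c0 * (q * P) ≤ (1 + c0 * q) * (P + T ^ 2) := by
      have : 0 ≤ c0 * q := by (clear * - hc0p; positivity)
      nlinarith only [mul_nonneg this (sq_nonneg T), hP0, this]
    calc _ ≤ _ := h1
      _ = Ck * ((∫ y, |ψ y|) * T) := by ring
      _ ≤ Ck * ((T ^ 2 + c0 * (q * P)) / 2) := by (clear * - hCk h2; gcongr)
      _ ≤ Ck * (((1 + c0 * q) * (P + T ^ 2)) / 2) := by (clear * - hCk h4; gcongr)
      _ = _ := by ring
  -- the weak equation
  have hw := hweak ψ hψs hψc hψ0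
  rw [weak_split hn hW hT hψs hψc hψ0] at hw
  have hWψ : 0 ≤ ∫ x, W x * ψ x := by
    have i1 : Integrable (fun x => (W x - m) * ψ x) :=
      ((hW.sub continuous_const).mul hψs.continuous).integrable_of_hasCompactSupport hψc.mul_left
    have e : ∀ x, W x * ψ x = (W x - m) * ψ x + m * ψ x := by intro x; ring
    simp_rw [e]
    rw [integral_add i1 (hψi.const_mul _), integral_const_mul, hψ0, mul_zero, add_zero]
    apply integral_nonneg
    intro x
    simp only [hψ, Pi.zero_apply]
    nlinarith only [mul_nonneg (sq_nonneg (bump n x)) (sq_nonneg (W x - m))]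
  have hJle : ∫ z, nker z * J W ψ z ≤ Ck * (1 + c0 * q) / 2 * (P + T ^ 2) := by
    have := le_abs_self (∫ x, W x * farK ψ x)
    have h3 := mul_nonneg (kfar_nonneg n) hWψ
    linarith only [hfar, hw, this, h3]
  obtain ⟨_, hJint, _⟩ := near_split hn hW hψs hψc hψsupp
  -- the energy
  have hPnn : ∀ z, 0 ≤ ∫ x in ball (0 : Eu n) 2, (W (x + z) - W x) ^ 2 := fun z =>
    integral_nonneg fun x => sq_nonneg _
  have htE : ∀ z, tE W z = ENNReal.ofReal (∫ x in ball (0 : Eu n) 2, (W (x + z) - W x) ^ 2) := by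
    intro z
    unfold tE
    rw [ofReal_integral_eq_lintegral_ofReal]
    · exact integrableOn_sq ((hW.comp (continuous_id.add_const z)).sub hW) 0 2
    · exact Eventually.of_forall fun x => sq_nonneg _
  have hFint : Integrable (fun z => 2 * (nker z * J W ψ z) + L ^ 2 * Q * (‖z‖ ^ 2 * nker z)) :=
    (hJint.const_mul 2).add ((integrable_sq_nker hn).const_mul _)
  have hFge : ∀ z : Eu n, nker z * (∫ x in ball (0 : Eu n) 2, (W (x + z) - W x) ^ 2) ≤
      2 * (nker z * J W ψ z) + L ^ 2 * Q * (‖z‖ ^ 2 * nker z) := by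
    intro z
    by_cases hz : z ∈ ball (0 : Eu n) 1
    · rw [mem_ball_zero_iff] at hz
      have h1 := J_lower hL hW m hz
      have h2 := mul_le_mul_of_nonneg_left h1 (nker_nonneg z)
      calc _ ≤ _ := h2
        _ = _ := by rw [← hψ]; ring
    · have : nker z = 0 := by unfold nker; rw [indicator_of_notMem hz]
      rw [this]; simp only [zero_mul, mul_zero, add_zero, Std.le_refl]
  have hen : en W ≤ ∫⁻ z, ENNReal.ofReal
      (2 * (nker z * J W ψ z) + L ^ 2 * Q * (‖z‖ ^ 2 * nker z)) := by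
    unfold en
    apply lintegral_mono
    intro z
    simp only
    rw [htE, ← ENNReal.ofReal_mul (hPnn z), mul_comm]
    exact ENNReal.ofReal_le_ofReal (hFge z)
  rw [← ofReal_integral_eq_lintegral_ofReal hFint (Eventually.of_forall fun z =>
    (mul_nonneg (nker_nonneg z) (hPnn z)).trans (hFge z))] at hen
  refine hen.trans (ENNReal.ofReal_le_ofReal ?_)
  rw [integral_add (hJint.const_mul 2) ((integrable_sq_nker hn).const_mul _), integral_const_mul,
    integral_const_mul, ← hc2]
  have hPT : P ≤ P + T ^ 2 := by nlinarith only [sq_nonneg T]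
  calc 2 * (∫ z, nker z * J W ψ z) + L ^ 2 * Q * c2
      ≤ 2 * (Ck * (1 + c0 * q) / 2 * (P + T ^ 2)) + L ^ 2 * (q * (P + T ^ 2)) * c2 := by
        gcongr
        exact hQM.trans (by (clear * - hc0p hPT; gcongr))
    _ ≤ (Ck * (1 + c0 * q) + L ^ 2 * q * c2 + 1) * (P + T ^ 2) := by nlinarith only [sq_nonneg T,
                                                                       hP0]

theorem caccio (hn : 1 ≤ n) : ∃ C : ℝ, 0 < C ∧ ∀ W : Eu n → ℝ, ContDiff ℝ ∞ W →
    Integrable (fun x => W x ^ 2 * wt x) → WeakSol W →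
    en W ≤ ENNReal.ofReal (C * ∫ x, W x ^ 2 * wt x) := by
  obtain ⟨C, hC, h⟩ := caccio_split hn
  refine ⟨C * ((1 + 5) ^ ((n : ℝ) + 7 / 2) + c1 n), by have := c1_nonneg n; positivity,
    fun W hWs hM hw => ?_⟩
  obtain ⟨hT, hT2⟩ := tail_bound hWs.continuous.measurable hM
  refine (h W hWs hT hw).trans (ENNReal.ofReal_le_ofReal ?_)
  have h1 := local_le hWs.continuous hM (r := 5) (by norm_num)
  rw [mul_assoc]
  apply mul_le_mul_of_nonneg_left _ hC.le
  rw [add_mul]
  apply add_le_add h1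
  rw [mul_comm]
  exact hT2

end Vale.Agent.P120.Liou
end
end

section

section

/-! Solution class: closure under differences and dilations, gain of one power. -/

open MeasureTheory Metric Set Filter Topology
open scoped ENNReal NNReal ContDiff

namespace Vale.Agent.P120.Liou

variable {n : ℕ}

/-- smooth solutions with finite weighted norm -/
structure Sol (W : Eu n → ℝ) : Prop where
  smooth : ContDiff ℝ ∞ W
  fin : Integrable (fun x => W x ^ 2 * wt x)
  weak : WeakSol W

theorem lintegral_comp_smul_pos (F : Eu n → ℝ≥0∞) {R : ℝ} (hR : 0 < R) :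
    ENNReal.ofReal (R ^ n) * ∫⁻ x, F (R • x) = ∫⁻ x, F x := by
  have h1 := Measure.map_addHaar_smul (volume : Measure (Eu n)) hR.ne'
  have e : MeasurableEmbedding (fun x : Eu n => R • x) :=
    (Homeomorph.smulOfNeZero R hR.ne').measurableEmbedding
  have h2 : ∫⁻ x, F (R • x) = ∫⁻ y, F y ∂(Measure.map (R • ·) (volume : Measure (Eu n))) :=
    (e.lintegral_map F).symm
  rw [h2, h1, lintegral_smul_measure, finrank_euclideanSpace, Fintype.card_fin, smul_eq_mul,
    ← mul_assoc, ← ENNReal.ofReal_mul (by positivity), abs_of_pos (by positivity),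
    mul_inv_cancel₀ (by positivity)]
  simp

theorem Lam_scale (φ : Eu n → ℝ) {R : ℝ} (hR : 0 < R) (y : Eu n) :
    Lam (fun x => φ (R⁻¹ • x)) y = R⁻¹ * Lam φ (R⁻¹ • y) := by
  unfold Lam
  have e : ∀ z : Eu n, sd (fun x => φ (R⁻¹ • x)) y z * ker z =
      (R ^ (n + 1))⁻¹ * (fun z' => sd φ (R⁻¹ • y) z' * ker z') (R⁻¹ • z) := by
    intro z
    simp only [sd, ker, smul_add, smul_sub, norm_smul]
    rw [norm_inv, Real.norm_eq_abs, abs_of_pos hR, mul_pow, inv_pow, mul_inv, inv_inv]
    field_simp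
  have e2 := Measure.integral_comp_inv_smul_of_nonneg (volume : Measure (Eu n))
    (fun z' => sd φ (R⁻¹ • y) z' * ker z') hR.le
  simp_rw [e]
  rw [integral_const_mul]
  rw [e2, finrank_euclideanSpace, Fintype.card_fin, smul_eq_mul, ← mul_assoc]
  congr 1
  field_simp
  ring

theorem Sol.continuous {W : Eu n → ℝ} (h : Sol W) : Continuous W := h.smooth.continuous

theorem Sol.tw {W : Eu n → ℝ} (h : Sol W) : TW W := (tail_bound h.continuous.measurable h.fin).1

/-- translation covariance of the operator -/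
theorem Lam_translate (φ : Eu n → ℝ) (v x : Eu n) : Lam (fun y => φ (y - v)) x = Lam φ (x - v) := by
  unfold Lam sd
  congr 1
  funext z
  have e1 : x + z - v = x - v + z := by abel
  have e2 : x - z - v = x - v - z := by abel
  simp only [e1, e2]

theorem wt_translate (v x : Eu n) : wt x ≤ (1 + ‖v‖) ^ ((n : ℝ) + 7 / 2) * wt (x + v) := by
  unfold wt
  rw [Real.rpow_neg (by positivity), Real.rpow_neg (by positivity)]
  rw [← div_eq_mul_inv, le_div_iff₀ (by positivity), ← div_eq_inv_mul,
    div_le_iff₀ (by positivity), ← Real.mul_rpow (by positivity) (by positivity)]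
  apply Real.rpow_le_rpow (by positivity)
  · have := norm_add_le x v
    nlinarith only [norm_nonneg x, norm_nonneg v, mul_nonneg (norm_nonneg x) (norm_nonneg v), this]
  · positivity

theorem Sol.diff1 {W : Eu n → ℝ} (hn : 1 ≤ n) (h : Sol W) (v : Eu n) : Sol (dif v W) := by
  have hWv : ContDiff ℝ ∞ (fun x => W (x + v)) := h.smooth.comp (contDiff_id.add contDiff_const)
  have hfinv : Integrable (fun x => W (x + v) ^ 2 * wt x) := by
    have h1 : Integrable (fun x => W (x + v) ^ 2 * wt (x + v)) := h.fin.comp_add_right v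
    refine Integrable.mono' (h1.const_mul ((1 + ‖v‖) ^ ((n : ℝ) + 7 / 2)))
      ((hWv.continuous.pow 2).mul continuous_wt).aestronglyMeasurable
      (Eventually.of_forall fun x => ?_)
    rw [Real.norm_eq_abs, abs_of_nonneg (mul_nonneg (sq_nonneg _) (wt_pos x).le)]
    calc W (x + v) ^ 2 * wt x ≤ W (x + v) ^ 2 * ((1 + ‖v‖) ^ ((n : ℝ) + 7 / 2) * wt (x + v)) := by
          gcongr
          exact wt_translate v x
      _ = _ := by ring
  have hcont : Continuous (dif v W) := hWv.continuous.sub h.continuous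
  refine ⟨hWv.sub h.smooth, ?_, ?_⟩
  · refine Integrable.mono' ((hfinv.const_mul 2).add (h.fin.const_mul 2))
      ((hcont.pow 2).mul continuous_wt).aestronglyMeasurable
      (Eventually.of_forall fun x => ?_)
    rw [Real.norm_eq_abs, abs_of_nonneg (mul_nonneg (sq_nonneg _) (wt_pos x).le)]
    simp only [dif, Pi.add_apply]
    have := (wt_pos x).le
    nlinarith only [mul_nonneg (sq_nonneg (W (x + v) + W x)) this, this]
  · intro φ hφ hc h0
    have hφv : ContDiff ℝ ∞ (fun y => φ (y - v)) := hφ.comp (contDiff_id.sub contDiff_const)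
    have hcv : HasCompactSupport (fun y => φ (y - v)) := hc.comp_homeomorph (Homeomorph.subRight v)
    have h0v : ∫ y, φ (y - v) = 0 := by
      rw [integral_sub_right_eq_self φ v]; exact h0
    have i1 : Integrable (fun x => W x * Lam φ x) := integrable_Lam hn h.continuous h.tw hφ hc h0
    have i2 : Integrable (fun x => W x * Lam φ (x - v)) := by
      have := integrable_Lam hn h.continuous h.tw hφv hcv h0v
      simp_rw [Lam_translate] at this
      exact this
    have i3 : Integrable (fun x => W (x + v) * Lam φ x) := by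
      have := i2.comp_add_right v
      simpa only [add_sub_cancel_right] using this
    have e : ∀ x, dif v W x * Lam φ x = W (x + v) * Lam φ x - W x * Lam φ x := by
      intro x; simp only [dif]; ring
    simp_rw [e]
    rw [integral_sub i3 i1, h.weak φ hφ hc h0, sub_zero]
    have h4 := h.weak _ hφv hcv h0v
    simp_rw [Lam_translate] at h4
    rw [← integral_add_right_eq_self _ v] at h4
    simpa using h4

theorem Sol.diffs {W : Eu n → ℝ} (hn : 1 ≤ n) (h : Sol W) (vs : List (Eu n)) :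
    Sol (difs vs W) := by
  induction vs with
  | nil => exact h
  | cons v vs ih => exact ih.diff1 hn v

theorem wt_smul_le {R : ℝ} (hR : 0 < R) (x : Eu n) :
    wt x ≤ (max 1 R) ^ ((n : ℝ) + 7 / 2) * wt (R • x) := by
  unfold wt
  rw [Real.rpow_neg (by positivity), Real.rpow_neg (by positivity)]
  rw [← div_eq_mul_inv, le_div_iff₀ (by positivity), ← div_eq_inv_mul,
    div_le_iff₀ (by positivity), ← Real.mul_rpow (by positivity) (by positivity)]
  apply Real.rpow_le_rpow (by positivity)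
  · rw [norm_smul, Real.norm_eq_abs, abs_of_pos hR]
    have h1 := le_max_left 1 R
    have h2 := le_max_right 1 R
    nlinarith only [norm_nonneg x, mul_le_mul_of_nonneg_right h2 (norm_nonneg x), h1, h2]
  · positivity

theorem Sol.scale {W : Eu n → ℝ} (h : Sol W) {R : ℝ} (hR : 0 < R) :
    Sol (fun x => W (R • x)) := by
  have hs : ContDiff ℝ ∞ (fun x => W (R • x)) := h.smooth.comp (contDiff_const_smul R)
  refine ⟨hs, ?_, ?_⟩
  · have h1 : Integrable (fun x => W (R • x) ^ 2 * wt (R • x)) := by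
      have := (integrable_comp_smul_iff (volume : Measure (Eu n))
        (fun x => W x ^ 2 * wt x) hR.ne').mpr h.fin
      exact this
    refine Integrable.mono' (h1.const_mul ((max 1 R) ^ ((n : ℝ) + 7 / 2)))
      ((hs.continuous.pow 2).mul continuous_wt).aestronglyMeasurable
      (Eventually.of_forall fun x => ?_)
    rw [Real.norm_eq_abs, abs_of_nonneg (mul_nonneg (sq_nonneg _) (wt_pos x).le)]
    calc W (R • x) ^ 2 * wt x ≤ W (R • x) ^ 2 * ((max 1 R) ^ ((n : ℝ) + 7 / 2) * wt (R • x)) := by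
          gcongr
          exact wt_smul_le hR x
      _ = _ := by ring
  · intro φ hφ hc h0
    have hφR : ContDiff ℝ ∞ (fun y => φ (R⁻¹ • y)) := hφ.comp (contDiff_const_smul R⁻¹)
    have hcR : HasCompactSupport (fun y => φ (R⁻¹ • y)) :=
      hc.comp_homeomorph (Homeomorph.smulOfNeZero R⁻¹ (inv_ne_zero hR.ne'))
    have h0R : ∫ y, φ (R⁻¹ • y) = 0 := by
      rw [Measure.integral_comp_inv_smul_of_nonneg _ _ hR.le, h0]; simp only [finrank_euclideanSpace,
                                                                     Fintype.card_fin,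
                                                                     smul_eq_mul, mul_zero]
    have h4 := h.weak _ hφR hcR h0R
    simp_rw [Lam_scale φ hR] at h4
    have e : ∀ x : Eu n, W x * (R⁻¹ * Lam φ (R⁻¹ • x)) =
        R⁻¹ * (fun y => W (R • y) * Lam φ y) (R⁻¹ • x) := by
      intro x
      simp only
      rw [smul_smul, mul_inv_cancel₀ hR.ne', one_smul]
      ring
    have e2 := Measure.integral_comp_inv_smul_of_nonneg (volume : Measure (Eu n))
      (fun y => W (R • y) * Lam φ y) hR.le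
    simp_rw [e] at h4
    rw [integral_const_mul, e2, smul_eq_mul, finrank_euclideanSpace, Fintype.card_fin] at h4
    rcases mul_eq_zero.mp h4 with h5 | h5
    · exact absurd h5 (inv_ne_zero hR.ne')
    · rcases mul_eq_zero.mp h5 with h6 | h6
      · exact absurd h6 (by positivity)
      · exact h6

/-- weighted norm at scale `R` -/
noncomputable def Mw (R : ℝ) (W : Eu n → ℝ) : ℝ≥0∞ :=
  ∫⁻ x, ENNReal.ofReal (W x ^ 2 * wt (R⁻¹ • x))

theorem gain1 (hn : 1 ≤ n) : ∃ C : ℝ, 0 < C ∧ ∀ W : Eu n → ℝ, Sol W → ∀ v : Eu n, ‖v‖ ≤ 1 →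
    ∫⁻ x in ball (0 : Eu n) 1, ENNReal.ofReal (dif v W x ^ 2) ≤
      ENNReal.ofReal (C * ‖v‖) * Mw 1 W := by
  obtain ⟨C1, hC1, h1⟩ := translation_le hn
  obtain ⟨C2, hC2, h2⟩ := caccio hn
  refine ⟨C1 * C2, by positivity, fun W hW v hv => ?_⟩
  have h3 := h1 W hW.continuous v hv
  have h4 := h2 W hW.smooth hW.fin hW.weak
  have h5 : Mw 1 W = ENNReal.ofReal (∫ x, W x ^ 2 * wt x) := by
    unfold Mw
    rw [ofReal_integral_eq_lintegral_ofReal hW.fin
      (Eventually.of_forall fun x => mul_nonneg (sq_nonneg _) (wt_pos x).le)]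
    simp only [inv_one, one_smul]
  rw [ENNReal.ofReal_mul hC2.le, ← h5] at h4
  calc _ ≤ _ := h3
    _ ≤ ENNReal.ofReal (C1 * ‖v‖) * (ENNReal.ofReal C2 * Mw 1 W) := by (clear * - h4; gcongr)
    _ = _ := by
      rw [← mul_assoc, ← ENNReal.ofReal_mul (by positivity)]
      congr 2
      ring

theorem gainR (hn : 1 ≤ n) : ∃ C : ℝ, 0 < C ∧ ∀ W : Eu n → ℝ, Sol W → ∀ (v : Eu n) (R : ℝ),
    0 < R → ‖v‖ ≤ R → ∫⁻ x in ball (0 : Eu n) R, ENNReal.ofReal (dif v W x ^ 2) ≤
      ENNReal.ofReal (C * ‖v‖ / R) * Mw R W := by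
  obtain ⟨C, hC, h⟩ := gain1 hn
  refine ⟨C, hC, fun W hW v R hR hv => ?_⟩
  have h1 := h _ (hW.scale hR) (R⁻¹ • v) (by
    rw [norm_smul, norm_inv, Real.norm_eq_abs, abs_of_pos hR, ← div_eq_inv_mul]
    exact (div_le_one hR).mpr hv)
  have e1 : ∫⁻ x in ball (0 : Eu n) 1,
      ENNReal.ofReal (dif (R⁻¹ • v) (fun x => W (R • x)) x ^ 2) =
      ∫⁻ x, (ball (0 : Eu n) R).indicator (fun y => ENNReal.ofReal (dif v W y ^ 2)) (R • x) := by
    rw [← lintegral_indicator measurableSet_ball]
    congr 1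
    funext x
    have e2 : x ∈ ball (0 : Eu n) 1 ↔ R • x ∈ ball (0 : Eu n) R := by
      rw [mem_ball_zero_iff, mem_ball_zero_iff, norm_smul, Real.norm_eq_abs, abs_of_pos hR]
      constructor
      · intro hx; nlinarith only [hR, hx]
      · intro hx; by_contra hc; push Not at hc; nlinarith only [hR, hx, hc]
    by_cases hx : x ∈ ball (0 : Eu n) 1
    · rw [indicator_of_mem hx, indicator_of_mem (e2.mp hx)]
      simp only [dif, smul_add, smul_smul, mul_inv_cancel₀ hR.ne', one_smul]
    · rw [indicator_of_notMem hx, indicator_of_notMem (fun hh => hx (e2.mpr hh))]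
  have e3 : Mw 1 (fun x => W (R • x)) =
      ∫⁻ x, (fun y => ENNReal.ofReal (W y ^ 2 * wt (R⁻¹ • y))) (R • x) := by
    unfold Mw
    congr 1
    funext x
    simp only [inv_one, one_smul, smul_smul, inv_mul_cancel₀ hR.ne']
  rw [e1, e3, norm_smul, norm_inv, Real.norm_eq_abs, abs_of_pos hR] at h1
  have h2 := mul_le_mul_right (a := ENNReal.ofReal (R ^ n)) h1
  rw [lintegral_comp_smul_pos _ hR, mul_left_comm,
    lintegral_comp_smul_pos (fun y => ENNReal.ofReal (W y ^ 2 * wt (R⁻¹ • y))) hR,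
    lintegral_indicator measurableSet_ball] at h2
  have e4 : C * (R⁻¹ * ‖v‖) = C * ‖v‖ / R := by (clear * - hC hR; field_simp)
  rw [e4] at h2
  exact h2

end Vale.Agent.P120.Liou
end
end

section

section

/-! Dyadic summation; smooth solutions of moderate growth are affine. -/

open MeasureTheory Metric Set Filter Topology
open scoped ENNReal NNReal ContDiff

namespace Vale.Agent.P120.Liou

variable {n : ℕ}

theorem wt_le_one (x : Eu n) : wt x ≤ 1 := by
  unfold wt
  apply Real.rpow_le_one_of_one_le_of_nonpos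
  · have := norm_nonneg x; linarith only [this]
  · have : (0 : ℝ) ≤ n := Nat.cast_nonneg n
    linarith

theorem exists_dyadic {R : ℝ} (hR : 0 < R) (x : Eu n) : ∃ j : ℕ, ‖x‖ < 2 ^ j * R ∧
    wt (R⁻¹ • x) ≤ 2 ^ ((n : ℝ) + 7 / 2) * ((2 : ℝ) ^ j) ^ (-((n : ℝ) + 7 / 2)) := by
  have hs : (0 : ℝ) < (n : ℝ) + 7 / 2 := by positivity
  have hex : ∃ j : ℕ, ‖x‖ < 2 ^ j * R := by
    obtain ⟨j, hj⟩ := pow_unbounded_of_one_lt (‖x‖ / R) (by norm_num : (1 : ℝ) < 2)
    exact ⟨j, (div_lt_iff₀ hR).mp hj⟩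
  classical
  set j := Nat.find hex with hj
  refine ⟨j, Nat.find_spec hex, ?_⟩
  rcases Nat.eq_zero_or_pos j with h0 | hpos
  · rw [h0]
    simp only [pow_zero, Real.one_rpow, mul_one]
    exact (wt_le_one _).trans (Real.one_le_rpow (by norm_num) hs.le)
  · obtain ⟨k, hk⟩ : ∃ k, j = k + 1 := ⟨j - 1, by omega⟩
    have h1 : ¬ (‖x‖ < 2 ^ k * R) := Nat.find_min hex (by omega)
    push Not at h1
    have h2 : (2 : ℝ) ^ k ≤ 1 + ‖R⁻¹ • x‖ := by
      rw [norm_smul, norm_inv, Real.norm_eq_abs, abs_of_pos hR, ← div_eq_inv_mul]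
      have : (2 : ℝ) ^ k ≤ ‖x‖ / R := (le_div_iff₀ hR).mpr h1
      linarith only [this]
    rw [hk]
    calc wt (R⁻¹ • x) ≤ ((2 : ℝ) ^ k) ^ (-((n : ℝ) + 7 / 2)) := by
          unfold wt
          exact Real.rpow_le_rpow_of_nonpos (by positivity) h2 (by linarith only [])
      _ = _ := by
          rw [pow_succ, Real.mul_rpow (by positivity) (by norm_num), mul_left_comm,
            ← Real.rpow_add (by norm_num : (0 : ℝ) < 2)]
          simp only [neg_add_rev, add_add_neg_add_cancel, add_neg_cancel, Real.rpow_zero, mul_one]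

theorem Mw_le_tsum {F : Eu n → ℝ} (hF : Measurable F) {R : ℝ} (hR : 0 < R) :
    Mw R F ≤ ∑' j : ℕ, ENNReal.ofReal
      (2 ^ ((n : ℝ) + 7 / 2) * ((2 : ℝ) ^ j) ^ (-((n : ℝ) + 7 / 2))) *
      ∫⁻ x in ball (0 : Eu n) (2 ^ j * R), ENNReal.ofReal (F x ^ 2) := by
  have hm : Measurable (fun x => ENNReal.ofReal (F x ^ 2)) :=
    (hF.pow_const 2).ennreal_ofReal
  have e : ∀ j : ℕ, ENNReal.ofReal
      (2 ^ ((n : ℝ) + 7 / 2) * ((2 : ℝ) ^ j) ^ (-((n : ℝ) + 7 / 2))) *
      ∫⁻ x in ball (0 : Eu n) (2 ^ j * R), ENNReal.ofReal (F x ^ 2) =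
      ∫⁻ x, ENNReal.ofReal (2 ^ ((n : ℝ) + 7 / 2) * ((2 : ℝ) ^ j) ^ (-((n : ℝ) + 7 / 2))) *
        (ball (0 : Eu n) (2 ^ j * R)).indicator (fun x => ENNReal.ofReal (F x ^ 2)) x := by
    intro j
    rw [lintegral_const_mul _ (hm.indicator measurableSet_ball),
      lintegral_indicator measurableSet_ball]
  simp_rw [e]
  rw [← lintegral_tsum (fun j => ((hm.indicator measurableSet_ball).const_mul _).aemeasurable)]
  unfold Mw
  apply lintegral_mono
  intro x
  obtain ⟨j, hj1, hj2⟩ := exists_dyadic hR x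
  refine le_trans ?_ (ENNReal.le_tsum j)
  simp only
  rw [indicator_of_mem (by simpa only [mem_ball, dist_zero_right] using hj1), ← ENNReal.ofReal_mul (by positivity)]
  apply ENNReal.ofReal_le_ofReal
  rw [mul_comm]
  exact mul_le_mul_of_nonneg_right hj2 (sq_nonneg _)

theorem Mw_scale_le (W : Eu n → ℝ) {R t : ℝ} (ht : 1 ≤ t) :
    Mw (t * R) W ≤ ENNReal.ofReal (t ^ ((n : ℝ) + 7 / 2)) * Mw R W := by
  unfold Mw
  rw [← lintegral_const_mul' _ _ ENNReal.ofReal_ne_top]
  apply lintegral_mono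
  intro x
  simp only
  rw [← ENNReal.ofReal_mul (by positivity)]
  apply ENNReal.ofReal_le_ofReal
  have h := wt_smul_le (R := t) (by linarith only [ht]) (t⁻¹ • (R⁻¹ • x))
  rw [smul_smul t, mul_inv_cancel₀ (by linarith only [ht]), one_smul, max_eq_right ht, smul_smul,
    ← mul_inv] at h
  calc W x ^ 2 * wt ((t * R)⁻¹ • x) ≤ W x ^ 2 * (t ^ ((n : ℝ) + 7 / 2) * wt (R⁻¹ • x)) := by
        gcongr
    _ = _ := by ring

theorem gainM (hn : 1 ≤ n) : ∃ K : ℝ, 0 < K ∧ ∀ W : Eu n → ℝ, Sol W → ∀ (v : Eu n) (R : ℝ),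
    0 < R → ‖v‖ ≤ R → Mw R (dif v W) ≤ ENNReal.ofReal (K * ‖v‖ / R) * Mw R W := by
  obtain ⟨C, hC, h⟩ := gainR hn
  set s : ℝ := (n : ℝ) + 7 / 2 with hs
  refine ⟨2 ^ s * C * 2, by positivity, fun W hW v R hR hv => ?_⟩
  have hcont : Continuous (dif v W) := (hW.diff1 hn v).continuous
  refine (Mw_le_tsum hcont.measurable hR).trans ?_
  have h1 : ∀ j : ℕ, ENNReal.ofReal (2 ^ s * ((2 : ℝ) ^ j) ^ (-s)) *
      ∫⁻ x in ball (0 : Eu n) (2 ^ j * R), ENNReal.ofReal (dif v W x ^ 2) ≤
      ENNReal.ofReal (2 ^ s * C * ‖v‖ / R * (1 / 2) ^ j) * Mw R W := by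
    intro j
    have hj : (1 : ℝ) ≤ 2 ^ j := one_le_pow₀ (by norm_num)
    have h2 := h W hW v (2 ^ j * R) (by positivity) (by nlinarith only [hR, hv, hj])
    have h3 := Mw_scale_le W (R := R) hj
    calc _ ≤ ENNReal.ofReal (2 ^ s * ((2 : ℝ) ^ j) ^ (-s)) *
          (ENNReal.ofReal (C * ‖v‖ / (2 ^ j * R)) *
            (ENNReal.ofReal (((2 : ℝ) ^ j) ^ s) * Mw R W)) := by
          gcongr
          exact h2.trans (by gcongr)
      _ = ENNReal.ofReal (2 ^ s * C * ‖v‖ / R * (1 / 2) ^ j) * Mw R W := by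
        rw [← mul_assoc, ← mul_assoc, ← ENNReal.ofReal_mul (by positivity),
          ← ENNReal.ofReal_mul (by (clear * - hC hR; positivity))]
        congr 2
        rw [Real.rpow_neg (by positivity)]
        have : ((2 : ℝ) ^ j) ^ s ≠ 0 := by positivity
        rw [one_div, inv_pow]
        field_simp
  refine (ENNReal.tsum_le_tsum h1).trans ?_
  rw [ENNReal.tsum_mul_right]
  gcongr
  have hsum : Summable (fun j : ℕ => 2 ^ s * C * ‖v‖ / R * (1 / 2) ^ j) :=
    (summable_geometric_of_lt_one (by norm_num) (by norm_num)).mul_left _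
  rw [← ENNReal.ofReal_tsum_of_nonneg (fun j => by (clear * - hC hR; positivity)) hsum, tsum_mul_left,
    tsum_geometric_of_lt_one (by norm_num) (by norm_num)]
  apply ENNReal.ofReal_le_ofReal
  apply le_of_eq
  ring

theorem gain_list (hn : 1 ≤ n) {W : Eu n → ℝ} (hW : Sol W) (vs : List (Eu n)) :
    ∃ (B ρ : ℝ), 0 ≤ B ∧ 0 < ρ ∧ ∀ R : ℝ, ρ ≤ R →
      Mw R (difs vs W) ≤ ENNReal.ofReal (B / R ^ vs.length) * Mw R W := by
  obtain ⟨K, hK, h⟩ := gainM hn
  induction vs with
  | nil => exact ⟨1, 1, by norm_num, by norm_num, fun R _ => by simp only [difs_nil,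
                                                                  List.length_nil, pow_zero,
                                                                  ne_eq, one_ne_zero,
                                                                  not_false_eq_true, div_self,
                                                                  ENNReal.ofReal_one, one_mul,
                                                                  Std.le_refl]⟩
  | cons v vs ih =>
    obtain ⟨B, ρ, hB, hρ, h1⟩ := ih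
    refine ⟨K * ‖v‖ * B, max ρ ‖v‖, by positivity, lt_max_of_lt_left hρ, fun R hR => ?_⟩
    have hR1 : ρ ≤ R := (le_max_left _ _).trans hR
    have hR2 : ‖v‖ ≤ R := (le_max_right _ _).trans hR
    have hR0 : 0 < R := hρ.trans_le hR1
    have h2 := h _ (hW.diffs hn vs) v R hR0 hR2
    rw [difs_cons]
    calc _ ≤ _ := h2
      _ ≤ ENNReal.ofReal (K * ‖v‖ / R) * (ENNReal.ofReal (B / R ^ vs.length) * Mw R W) := by
        gcongr
        exact h1 R hR1
      _ = _ := by
        rw [← mul_assoc, ← ENNReal.ofReal_mul (by (clear * - hK hR0; positivity)), List.length_cons]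
        congr 2
        field_simp
        ring

theorem Mw_growth {W : Eu n → ℝ} (hW : Measurable W)
    (hint : ∀ R : ℝ, IntegrableOn (fun x => W x ^ 2) (ball (0 : Eu n) R)) {A : ℝ} (hA : 0 ≤ A)
    (growth : ∀ R : ℝ, 1 ≤ R → ∫ x in ball (0 : Eu n) R, W x ^ 2 ≤ A * R ^ (n + 3)) :
    ∃ B : ℝ, 0 ≤ B ∧ ∀ R : ℝ, 1 ≤ R → Mw R W ≤ ENNReal.ofReal (B * R ^ (n + 3)) := by
  set s : ℝ := (n : ℝ) + 7 / 2 with hs
  set r : ℝ := (2 : ℝ) ^ (-(1 / 2) : ℝ) with hr
  have hr0 : 0 ≤ r := by positivity
  have hr1 : r < 1 := Real.rpow_lt_one_of_one_lt_of_neg (by norm_num) (by norm_num)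
  have hr1' : 0 < 1 - r := by linarith only [hr1]
  refine ⟨2 ^ s * A * (1 - r)⁻¹, by (clear * - hA hr1; positivity), fun R hR => ?_⟩
  have hR0 : 0 < R := by linarith only [hR]
  refine (Mw_le_tsum hW hR0).trans ?_
  have h1 : ∀ j : ℕ, ENNReal.ofReal (2 ^ s * ((2 : ℝ) ^ j) ^ (-s)) *
      ∫⁻ x in ball (0 : Eu n) (2 ^ j * R), ENNReal.ofReal (W x ^ 2) ≤
      ENNReal.ofReal (2 ^ s * A * R ^ (n + 3) * r ^ j) := by
    intro j
    have hj : (1 : ℝ) ≤ 2 ^ j := one_le_pow₀ (by norm_num)
    have h2 := growth (2 ^ j * R) (by nlinarith only [hR, hj])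
    rw [← ofReal_integral_eq_lintegral_ofReal (hint _)
      (Eventually.of_forall fun x => sq_nonneg _), ← ENNReal.ofReal_mul (by positivity)]
    apply ENNReal.ofReal_le_ofReal
    calc _ ≤ 2 ^ s * ((2 : ℝ) ^ j) ^ (-s) * (A * (2 ^ j * R) ^ (n + 3)) := by gcongr
      _ = 2 ^ s * A * R ^ (n + 3) * (((2 : ℝ) ^ j) ^ (-s) * ((2 : ℝ) ^ j) ^ (n + 3)) := by
        rw [mul_pow]; ring
      _ = _ := by
        congr 1
        rw [hr, ← Real.rpow_natCast ((2 : ℝ) ^ j) (n + 3), ← Real.rpow_add (by positivity),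
          ← Real.rpow_natCast (2 : ℝ) j, ← Real.rpow_mul (by norm_num),
          ← Real.rpow_natCast _ j, ← Real.rpow_mul (by norm_num)]
        congr 1
        rw [hs]
        push_cast
        ring
  refine (ENNReal.tsum_le_tsum h1).trans ?_
  have hsum : Summable (fun j : ℕ => 2 ^ s * A * R ^ (n + 3) * r ^ j) :=
    (summable_geometric_of_lt_one hr0 hr1).mul_left _
  rw [← ENNReal.ofReal_tsum_of_nonneg (fun j => by (clear * - hA hR; positivity)) hsum, tsum_mul_left,
    tsum_geometric_of_lt_one hr0 hr1]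
  apply ENNReal.ofReal_le_ofReal
  apply le_of_eq
  ring

theorem difs_eq_zero (hn : 1 ≤ n) {W : Eu n → ℝ} (hW : Sol W) {A : ℝ}
    (growth : ∀ R : ℝ, 1 ≤ R → ∫ x in ball (0 : Eu n) R, W x ^ 2 ≤ A * R ^ (n + 3)) :
    ∀ vs : List (Eu n), vs.length = 2 + (n + 2) → difs vs W = fun _ => 0 := by
  intro vs hvs
  have hA : 0 ≤ A := by
    have h1 := growth 1 le_rfl
    have h2 : 0 ≤ ∫ x in ball (0 : Eu n) 1, W x ^ 2 := integral_nonneg fun x => sq_nonneg _
    simp only [one_pow, mul_one] at h1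
    linarith only [h2, h1]
  obtain ⟨B1, hB1, h1⟩ := Mw_growth hW.continuous.measurable (integrableOn_sq hW.continuous 0) hA growth
  obtain ⟨B2, ρ, hB2, hρ, h2⟩ := gain_list hn hW vs
  set F := difs vs W with hF
  have hFc : Continuous F := (hW.diffs hn vs).continuous
  have key : ∀ r : ℝ, 0 < r → ∫⁻ x in ball (0 : Eu n) r, ENNReal.ofReal (F x ^ 2) = 0 := by
    intro r hr
    have h3 : ∀ R : ℝ, max (max 1 ρ) r ≤ R → ∫⁻ x in ball (0 : Eu n) r, ENNReal.ofReal (F x ^ 2) ≤
        ENNReal.ofReal (2 ^ ((n : ℝ) + 7 / 2) * (B2 * B1) / R) := by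
      intro R hR
      have hR1 : 1 ≤ R := (le_max_left _ _).trans ((le_max_left _ _).trans hR)
      have hRρ : ρ ≤ R := (le_max_right _ _).trans ((le_max_left _ _).trans hR)
      have hRr : r ≤ R := (le_max_right _ _).trans hR
      have hR0 : 0 < R := by linarith only [hR1]
      calc ∫⁻ x in ball (0 : Eu n) r, ENNReal.ofReal (F x ^ 2)
          ≤ ∫⁻ x in ball (0 : Eu n) r, ENNReal.ofReal (2 ^ ((n : ℝ) + 7 / 2)) *
              ENNReal.ofReal (F x ^ 2 * wt (R⁻¹ • x)) := by
            apply setLIntegral_mono' measurableSet_ball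
            intro x hx
            rw [mem_ball_zero_iff] at hx
            rw [← ENNReal.ofReal_mul (by positivity)]
            apply ENNReal.ofReal_le_ofReal
            have h4 : ‖R⁻¹ • x‖ ≤ 1 := by
              rw [norm_smul, norm_inv, Real.norm_eq_abs, abs_of_pos hR0, ← div_eq_inv_mul]
              exact (div_le_one hR0).mpr (by linarith only [hRr, hx])
            have h5 := wt_ge h4
            norm_num at h5
            have h6 : 1 ≤ (2 : ℝ) ^ ((n : ℝ) + 7 / 2) * wt (R⁻¹ • x) := by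
              calc (1 : ℝ) = (2 : ℝ) ^ ((n : ℝ) + 7 / 2) * (2 : ℝ) ^ (-(7 / 2) + -(n : ℝ)) := by
                    rw [← Real.rpow_add (by positivity)]
                    ring_nf
                    simp
                _ ≤ _ := by
                    (clear * - h5; gcongr)
            nlinarith only [sq_nonneg (F x), h6]
        _ ≤ ENNReal.ofReal (2 ^ ((n : ℝ) + 7 / 2)) * Mw R F := by
            rw [lintegral_const_mul' _ _ ENNReal.ofReal_ne_top]
            gcongr
            exact setLIntegral_le_lintegral _ _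
        _ ≤ ENNReal.ofReal (2 ^ ((n : ℝ) + 7 / 2)) *
            (ENNReal.ofReal (B2 / R ^ vs.length) * ENNReal.ofReal (B1 * R ^ (n + 3))) := by
            gcongr
            exact (h2 R hRρ).trans (by gcongr; exact h1 R hR1)
        _ = _ := by
            rw [← ENNReal.ofReal_mul (by (clear * - hB2 hR1; positivity)), ← ENNReal.ofReal_mul (by positivity), hvs]
            congr 1
            have : 2 + (n + 2) = (n + 3) + 1 := by ring
            rw [this, pow_succ]
            field_simp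
    have h4 : Tendsto (fun R : ℝ => ENNReal.ofReal (2 ^ ((n : ℝ) + 7 / 2) * (B2 * B1) / R)) atTop
        (𝓝 0) := by
      have : Tendsto (fun R : ℝ => 2 ^ ((n : ℝ) + 7 / 2) * (B2 * B1) / R) atTop (𝓝 0) :=
        tendsto_const_nhds.div_atTop tendsto_id
      simpa only [ENNReal.ofReal_zero] using ENNReal.tendsto_ofReal this
    apply le_antisymm _ bot_le
    exact ge_of_tendsto h4 (eventually_atTop.mpr ⟨_, h3⟩)
  funext x
  by_contra hne
  have hx : 0 < F x ^ 2 := by positivity
  have hr : 0 < ‖x‖ + 1 := by positivity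
  have h5 := key (‖x‖ + 1) hr
  rw [← ofReal_integral_eq_lintegral_ofReal (integrableOn_sq hFc 0 _)
    (Eventually.of_forall fun x => sq_nonneg _), ENNReal.ofReal_eq_zero] at h5
  have h6 : 0 < ∫ y in ball (0 : Eu n) (‖x‖ + 1), F y ^ 2 := by
    rw [setIntegral_pos_iff_support_of_nonneg_ae
      (Eventually.of_forall fun y => sq_nonneg _) (integrableOn_sq hFc 0 _)]
    apply IsOpen.measure_pos
    · apply IsOpen.inter _ isOpen_ball
      exact (hFc.pow 2).isOpen_support
    · exact ⟨x, hx.ne', by simp only [mem_ball, dist_zero_right, lt_add_iff_pos_right, zero_lt_one]⟩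
  linarith only [h5, h6]

/-- smooth solutions with growth less than quadratic are affine -/
theorem smooth_liouville (hn : 1 ≤ n) {W : Eu n → ℝ} (hW : Sol W) {A : ℝ}
    (growth : ∀ R : ℝ, 1 ≤ R → ∫ x in ball (0 : Eu n) R, W x ^ 2 ≤ A * R ^ (n + 3)) :
    ∃ (a : Eu n) (b : ℝ), ∀ x, W x = b + inner ℝ a x := by
  apply affine_of_difs_two hW.continuous
  exact descend_all hW.continuous (p := 3) (k := 2) (by norm_num) growth (n + 2)
    (difs_eq_zero hn hW growth)

end Vale.Agent.P120.Liou
end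
end

section

section

/-! Mollification. -/

open MeasureTheory Metric Set Filter Topology ContinuousLinearMap
open scoped ENNReal NNReal ContDiff Convolution

namespace Vale.Agent.P120.Liou

variable {n : ℕ}

/-- mollified function -/
noncomputable def moll (φ : ContDiffBump (0 : Eu n)) (h : Eu n → ℝ) (x : Eu n) : ℝ :=
  ∫ y, φ.normed volume y * h (x - y)

theorem moll_eq (φ : ContDiffBump (0 : Eu n)) (h : Eu n → ℝ) :
    moll φ h = (φ.normed volume ⋆[lsmul ℝ ℝ, volume] h) := rfl

theorem locInt_of_sq {h : Eu n → ℝ} (hm : Measurable h)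
    (hint : ∀ R : ℝ, IntegrableOn (fun x => h x ^ 2) (ball (0 : Eu n) R)) :
    LocallyIntegrable h := by
  intro x
  refine ⟨ball 0 (‖x‖ + 1), isOpen_ball.mem_nhds (by simp only [mem_ball, dist_zero_right,
                                                       lt_add_iff_pos_right, zero_lt_one]), ?_⟩
  refine Integrable.mono' ((hint (‖x‖ + 1)).add
    (integrableOn_const (C := (1 : ℝ)) measure_ball_lt_top.ne)) hm.aestronglyMeasurable
    (Eventually.of_forall fun y => ?_)
  rw [Real.norm_eq_abs]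
  simp only [Pi.add_apply]
  nlinarith only [sq_abs (h y), sq_nonneg (|h y| - 1)]

theorem locInt_sq {h : Eu n → ℝ}
    (hint : ∀ R : ℝ, IntegrableOn (fun x => h x ^ 2) (ball (0 : Eu n) R)) :
    LocallyIntegrable (fun x => h x ^ 2) := fun x =>
  ⟨ball 0 (‖x‖ + 1), isOpen_ball.mem_nhds (by simp), hint _⟩

theorem integrable_moll (φ : ContDiffBump (0 : Eu n)) {g : Eu n → ℝ}
    (hg : LocallyIntegrable g) (x : Eu n) :
    Integrable (fun y => φ.normed volume y * g (x - y)) :=
  φ.hasCompactSupport_normed.convolutionExists_left (lsmul ℝ ℝ) φ.continuous_normed hg x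

theorem moll_sq_le (φ : ContDiffBump (0 : Eu n)) {h : Eu n → ℝ} (hm : Measurable h)
    (hint : ∀ R : ℝ, IntegrableOn (fun x => h x ^ 2) (ball (0 : Eu n) R)) (x : Eu n) :
    moll φ h x ^ 2 ≤ ∫ y, φ.normed volume y * h (x - y) ^ 2 := by
  have i1 := integrable_moll φ (locInt_of_sq hm hint) x
  have i2 := integrable_moll φ (locInt_sq hint) x
  have i3 : Integrable (φ.normed (volume : Measure (Eu n))) := φ.integrable_normed
  have h1 : 0 ≤ ∫ y, φ.normed volume y * (h (x - y) - moll φ h x) ^ 2 :=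
    integral_nonneg fun y => mul_nonneg (φ.nonneg_normed y) (sq_nonneg _)
  have e : ∀ y, φ.normed volume y * (h (x - y) - moll φ h x) ^ 2 =
      φ.normed volume y * h (x - y) ^ 2 - (2 * moll φ h x) * (φ.normed volume y * h (x - y))
        + moll φ h x ^ 2 * φ.normed volume y := by intro y; ring
  simp_rw [e] at h1
  rw [integral_add (f := fun y => φ.normed volume y * h (x - y) ^ 2
      - (2 * moll φ h x) * (φ.normed volume y * h (x - y))) (i2.sub (i1.const_mul _))
      (i3.const_mul _), integral_sub i2 (i1.const_mul _), integral_const_mul,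
      integral_const_mul, φ.integral_normed] at h1
  have h2 : ∫ y, φ.normed volume y * h (x - y) = moll φ h x := rfl
  rw [h2] at h1
  linarith only [h1]

theorem normed_zero {φ : ContDiffBump (0 : Eu n)} (hφ : φ.rOut ≤ 1) {y : Eu n}
    (hy : y ∉ ball (0 : Eu n) 1) : φ.normed volume y = 0 := by
  by_contra hne
  have h1 : y ∈ Function.support (φ.normed (volume : Measure (Eu n))) := hne
  rw [φ.support_normed_eq] at h1
  exact hy (ball_subset_ball hφ h1)

theorem moll_growth {φ : ContDiffBump (0 : Eu n)} (hφ : φ.rOut ≤ 1) {h : Eu n → ℝ}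
    (hm : Measurable h) (hint : ∀ R : ℝ, IntegrableOn (fun x => h x ^ 2) (ball (0 : Eu n) R))
    (R : ℝ) :
    ∫⁻ x in ball (0 : Eu n) R, ENNReal.ofReal (moll φ h x ^ 2) ≤
      ∫⁻ x in ball (0 : Eu n) (R + 1), ENNReal.ofReal (h x ^ 2) := by
  have hρm : Measurable (fun y : Eu n => ENNReal.ofReal (φ.normed volume y)) :=
    φ.continuous_normed.measurable.ennreal_ofReal
  have hhm : Measurable (fun p : Eu n × Eu n => ENNReal.ofReal (h (p.1 - p.2) ^ 2)) :=
    ((hm.comp (measurable_fst.sub measurable_snd)).pow_const 2).ennreal_ofReal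
  calc ∫⁻ x in ball (0 : Eu n) R, ENNReal.ofReal (moll φ h x ^ 2)
      ≤ ∫⁻ x in ball (0 : Eu n) R, ∫⁻ y, ENNReal.ofReal (φ.normed volume y) *
          ENNReal.ofReal (h (x - y) ^ 2) := by
        apply lintegral_mono
        intro x
        simp only
        refine (ENNReal.ofReal_le_ofReal (moll_sq_le φ hm hint x)).trans ?_
        rw [ofReal_integral_eq_lintegral_ofReal (integrable_moll φ (locInt_sq hint) x)
          (Eventually.of_forall fun y => mul_nonneg (φ.nonneg_normed y) (sq_nonneg _))]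
        apply lintegral_mono
        intro y
        simp only
        rw [ENNReal.ofReal_mul (φ.nonneg_normed y)]
    _ = ∫⁻ y, ∫⁻ x in ball (0 : Eu n) R, ENNReal.ofReal (φ.normed volume y) *
          ENNReal.ofReal (h (x - y) ^ 2) := by
        apply lintegral_lintegral_swap
        exact ((hρm.comp measurable_snd).mul hhm).aemeasurable
    _ ≤ ∫⁻ y, ENNReal.ofReal (φ.normed volume y) *
          ∫⁻ x in ball (0 : Eu n) (R + 1), ENNReal.ofReal (h x ^ 2) := by
        apply lintegral_mono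
        intro y
        simp only
        rw [lintegral_const_mul' _ _ ENNReal.ofReal_ne_top]
        by_cases hy : y ∈ ball (0 : Eu n) 1
        · apply mul_le_mul' le_rfl
          have e1 := setLIntegral_translate (fun x => ENNReal.ofReal (h x ^ 2)) (-y)
            (ball (0 : Eu n) (R + 1))
          rw [← e1]
          simp_rw [← sub_eq_add_neg]
          apply lintegral_mono_set
          intro x hx
          rw [mem_ball_zero_iff] at hx hy
          rw [mem_preimage, mem_ball_zero_iff]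
          exact (norm_sub_le _ _).trans_lt (by linarith only [hy, hx])
        · rw [normed_zero hφ hy]; simp only [ENNReal.ofReal_zero, zero_mul, Std.le_refl]
    _ = _ := by
        rw [lintegral_mul_const _ hρm, ← ofReal_integral_eq_lintegral_ofReal φ.integrable_normed
          (Eventually.of_forall fun y => φ.nonneg_normed y), φ.integral_normed]
        simp only [ENNReal.ofReal_one, one_mul]

theorem moll_contDiff (φ : ContDiffBump (0 : Eu n)) {h : Eu n → ℝ} (hg : LocallyIntegrable h) :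
    ContDiff ℝ ∞ (moll φ h) := by
  rw [moll_eq]
  exact φ.hasCompactSupport_normed.contDiff_convolution_left _ φ.contDiff_normed hg

theorem Mw_growth_int {φ : ContDiffBump (0 : Eu n)} (hφ : φ.rOut ≤ 1) {h : Eu n → ℝ}
    (hm : Measurable h) (hint : ∀ R : ℝ, IntegrableOn (fun x => h x ^ 2) (ball (0 : Eu n) R))
    {A : ℝ} (hA : 0 ≤ A)
    (growth : ∀ R : ℝ, 1 ≤ R → ∫ x in ball (0 : Eu n) R, h x ^ 2 ≤ A * R ^ (n + 3)) :
    ∀ R : ℝ, 1 ≤ R → ∫ x in ball (0 : Eu n) R, moll φ h x ^ 2 ≤
      (A * 2 ^ (n + 3)) * R ^ (n + 3) := by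
  intro R hR
  have hc : Continuous (moll φ h) := (moll_contDiff φ (locInt_of_sq hm hint)).continuous
  have h1 := moll_growth hφ hm hint R
  rw [← ofReal_integral_eq_lintegral_ofReal (integrableOn_sq hc 0 _)
    (Eventually.of_forall fun x => sq_nonneg _),
    ← ofReal_integral_eq_lintegral_ofReal (hint _)
    (Eventually.of_forall fun x => sq_nonneg _)] at h1
  have h2 := (ENNReal.ofReal_le_ofReal_iff (integral_nonneg fun x => sq_nonneg _)).mp h1
  have h3 := growth (R + 1) (by linarith only [hR])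
  calc _ ≤ _ := h2
    _ ≤ _ := h3
    _ ≤ A * (2 * R) ^ (n + 3) := by gcongr; linarith only [hR]
    _ = _ := by rw [mul_pow]; ring

theorem fin_of_Mw {W : Eu n → ℝ} (hW : Measurable W) (h : Mw 1 W < ⊤) :
    Integrable (fun x => W x ^ 2 * wt x) := by
  refine ⟨((hW.pow_const 2).mul continuous_wt.measurable).aestronglyMeasurable, ?_⟩
  rw [hasFiniteIntegral_iff_ofReal (Eventually.of_forall fun x =>
    mul_nonneg (sq_nonneg _) (wt_pos x).le)]
  unfold Mw at h
  simpa only [inv_one, one_smul] using h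

theorem TW_of_growth {h : Eu n → ℝ}
    (hm : Measurable h) (hint : ∀ R : ℝ, IntegrableOn (fun x => h x ^ 2) (ball (0 : Eu n) R))
    {A : ℝ} (hA : 0 ≤ A)
    (growth : ∀ R : ℝ, 1 ≤ R → ∫ x in ball (0 : Eu n) R, h x ^ 2 ≤ A * R ^ (n + 3)) :
    TW h := by
  obtain ⟨B, hB, h1⟩ := Mw_growth hm hint hA growth
  exact (tail_bound hm (fin_of_Mw hm ((h1 1 le_rfl).trans_lt ENNReal.ofReal_lt_top))).1

theorem nearK_zero {φ : Eu n → ℝ} {ρ : ℝ} (hs : ∀ y, ρ < ‖y‖ → φ y = 0) {x : Eu n}
    (hx : ρ + 1 < ‖x‖) : nearK φ x = 0 := by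
  unfold nearK
  have : ∀ z, sd φ x z * nker z = 0 := fun z => sd_nker_zero hs x z hx
  rw [integral_congr_ae (Eventually.of_forall this)]
  simp

theorem nearK_bound (hn : 1 ≤ n) {φ : Eu n → ℝ} (hφ : ContDiff ℝ ∞ φ)
    (hc : HasCompactSupport φ) : ∃ D : ℝ, 0 ≤ D ∧ ∀ x, |nearK φ x| ≤ D := by
  obtain ⟨D, hD, hsd⟩ := sd_bound hφ hc
  have hc2p : 0 ≤ ∫ z : Eu n, ‖z‖ ^ 2 * nker z :=
    integral_nonneg fun z => mul_nonneg (sq_nonneg _) (nker_nonneg z)
  refine ⟨D * ∫ z : Eu n, ‖z‖ ^ 2 * nker z, by (clear * - hD hc2p; positivity), fun x => ?_⟩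
  unfold nearK
  rw [← Real.norm_eq_abs, ← integral_const_mul]
  apply norm_integral_le_of_norm_le ((integrable_sq_nker hn).const_mul D)
  refine Eventually.of_forall fun z => ?_
  rw [Real.norm_eq_abs, abs_mul, abs_of_nonneg (nker_nonneg z), ← mul_assoc]
  exact mul_le_mul_of_nonneg_right (hsd x z) (nker_nonneg z)

theorem nearpart_decay (hn : 1 ≤ n) {φ : Eu n → ℝ} (hφ : ContDiff ℝ ∞ φ)
    (hc : HasCompactSupport φ) (p : ℕ) :
    ∃ B : ℝ, 0 ≤ B ∧ ∀ x, |nearK φ x + kfar n * φ x| ≤ B * ((1 + ‖x‖) ^ p)⁻¹ := by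
  obtain ⟨ρ, hρ, hs⟩ := exists_radius hc
  obtain ⟨E, hE⟩ := exists_bound hφ.continuous hc
  obtain ⟨D, hD, hnear⟩ := nearK_bound hn hφ hc
  have hE0 : 0 ≤ E := (abs_nonneg _).trans (hE 0)
  have hk := kfar_nonneg n
  refine ⟨(D + kfar n * E) * (2 + ρ) ^ p, by (clear * - hρ hD hE0 hk; positivity), fun x => ?_⟩
  by_cases hx : ρ + 1 < ‖x‖
  · rw [nearK_zero hs hx, hs x (by linarith only [hx])]
    simp only [mul_zero, add_zero, abs_zero]
    (clear * - hρ hD hE0 hk; positivity)
  · push Not at hx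
    have h4 : |kfar n * φ x| ≤ kfar n * E := by
      rw [abs_mul, abs_of_nonneg hk]
      exact mul_le_mul_of_nonneg_left (hE x) hk
    have h5 : 1 ≤ (2 + ρ) ^ p * ((1 + ‖x‖) ^ p)⁻¹ := by
      rw [← div_eq_mul_inv, one_le_div (by positivity)]
      exact pow_le_pow_left₀ (by positivity) (by linarith only [hx]) _
    have h6 : 0 ≤ D + kfar n * E := by (clear * - hD hE0 hk; positivity)
    calc _ ≤ |nearK φ x| + |kfar n * φ x| := abs_add_le _ _
      _ ≤ (D + kfar n * E) * 1 := by rw [mul_one]; linarith only [hnear x, hnear, h4]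
      _ ≤ (D + kfar n * E) * ((2 + ρ) ^ p * ((1 + ‖x‖) ^ p)⁻¹) :=
        mul_le_mul_of_nonneg_left h5 h6
      _ = _ := by ring

/-- decay of `Lam φ` -/
theorem Lam_decay (hn : 1 ≤ n) {φ : Eu n → ℝ} (hφ : ContDiff ℝ ∞ φ) (hc : HasCompactSupport φ)
    (h0 : ∫ x, φ x = 0) : ∃ B : ℝ, 0 ≤ B ∧ ∀ x, |Lam φ x| ≤ B * ((1 + ‖x‖) ^ (n + 2))⁻¹ := by
  obtain ⟨ρ, hρ, hs⟩ := exists_radius hc
  obtain ⟨C, hC, hK⟩ := farK_bound (n := n) ρ hρ
  obtain ⟨B, hB, h2⟩ := nearpart_decay hn hφ hc (n + 2)
  have hφi : Integrable φ := hφ.continuous.integrable_of_hasCompactSupport hc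
  have hI0 : 0 ≤ ∫ y, |φ y| := integral_nonneg fun y => abs_nonneg _
  refine ⟨B + C * ∫ y, |φ y|, by (clear * - hC hB; positivity), fun x => ?_⟩
  rw [Lam_eq hn hφ hc]
  have h1 := hK φ hφi hs h0 x
  calc |nearK φ x + kfar n * φ x - farK φ x| ≤ |nearK φ x + kfar n * φ x| + |farK φ x| :=
        abs_sub _ _
    _ ≤ _ := add_le_add (h2 x) h1
    _ = _ := by ring

theorem measurable_Lam (hn : 1 ≤ n) {φ : Eu n → ℝ} (hφ : ContDiff ℝ ∞ φ)
    (hc : HasCompactSupport φ) : Measurable (Lam φ) := by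
  have e : Lam φ = fun x => nearK φ x + kfar n * φ x - farK φ x := by
    funext x; exact Lam_eq hn hφ hc x
  rw [e]
  exact ((measurable_nearK hφ.continuous).add (hφ.continuous.measurable.const_mul _)).sub
    (measurable_farK hφ.continuous)

theorem moll_weak (hn : 1 ≤ n) {φ : ContDiffBump (0 : Eu n)} (hφ : φ.rOut ≤ 1) {h : Eu n → ℝ}
    (hm : Measurable h) (hT : TW h) (hw : WeakSol h) : WeakSol (moll φ h) := by
  intro ψ hψ hc h0
  obtain ⟨B, hB, hdec⟩ := Lam_decay hn hψ hc h0
  set ρ := φ.normed (volume : Measure (Eu n)) with hρ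
  have hpair : Integrable (fun p : Eu n × Eu n => ρ p.2 * h (p.1 - p.2) * Lam ψ p.1)
      ((volume : Measure (Eu n)).prod volume) := by
    have i1 : Integrable (fun p : Eu n × Eu n =>
        ρ p.2 * (|h (p.1 - p.2)| * ((1 + ‖p.1 - p.2‖) ^ (n + 2))⁻¹))
        ((volume : Measure (Eu n)).prod volume) :=
      Integrable.convolution_integrand (lsmul ℝ ℝ) φ.integrable_normed hT
    refine Integrable.mono' (i1.const_mul (2 ^ (n + 2) * B)) ?_ (Eventually.of_forall fun p => ?_)
    · apply Measurable.aestronglyMeasurable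
      exact ((φ.continuous_normed.measurable.comp measurable_snd).mul
        (hm.comp (measurable_fst.sub measurable_snd))).mul
        ((measurable_Lam hn hψ hc).comp measurable_fst)
    · obtain ⟨x, y⟩ := p
      simp only
      rw [Real.norm_eq_abs, abs_mul, abs_mul, abs_of_nonneg (φ.nonneg_normed y)]
      by_cases hy : y ∈ ball (0 : Eu n) 1
      · rw [mem_ball_zero_iff] at hy
        have h1 : ((1 + ‖x‖) ^ (n + 2))⁻¹ ≤ 2 ^ (n + 2) * ((1 + ‖x - y‖) ^ (n + 2))⁻¹ := by
          rw [← div_eq_mul_inv, le_div_iff₀ (by (clear * -; positivity)), ← div_eq_inv_mul,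
            div_le_iff₀ (by positivity), ← mul_pow]
          apply pow_le_pow_left₀ (by (clear * -; positivity))
          have := norm_sub_le x y
          nlinarith only [norm_nonneg x, hy, this]
        calc ρ y * |h (x - y)| * |Lam ψ x| ≤ ρ y * |h (x - y)| * (B * ((1 + ‖x‖) ^ (n + 2))⁻¹) := by
              have := φ.nonneg_normed (μ := volume) y
              gcongr
              exact hdec x
          _ ≤ ρ y * |h (x - y)| * (B * (2 ^ (n + 2) * ((1 + ‖x - y‖) ^ (n + 2))⁻¹)) := by
              have := φ.nonneg_normed (μ := volume) y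
              (clear * - hB h1 this; gcongr)
          _ = _ := by ring
      · rw [normed_zero hφ hy, show ρ y = 0 from normed_zero hφ hy]; simp
  have e1 : ∀ x, moll φ h x * Lam ψ x = ∫ y, ρ y * h (x - y) * Lam ψ x := by
    intro x; rw [integral_mul_const]; rfl
  simp_rw [e1]
  rw [integral_integral_swap hpair]
  have e2 : ∀ y, ∫ x, ρ y * h (x - y) * Lam ψ x = 0 := by
    intro y
    have e3 : ∀ x, ρ y * h (x - y) * Lam ψ x = ρ y * (h (x - y) * Lam ψ x) := by
      intro x; ring
    simp_rw [e3]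
    rw [integral_const_mul]
    have e4 : ∫ x, h (x - y) * Lam ψ x = ∫ x, h x * Lam ψ (x + y) := by
      rw [← integral_add_right_eq_self (fun x => h (x - y) * Lam ψ x) y]
      simp
    have e5 : ∀ x, Lam ψ (x + y) = Lam (fun x => ψ (x - (-y))) x := by
      intro x
      rw [Lam_translate, sub_neg_eq_add]
    rw [e4]
    simp_rw [e5]
    rw [hw]
    · simp
    · exact hψ.comp (contDiff_id.sub contDiff_const)
    · exact hc.comp_homeomorph (Homeomorph.subRight (-y))
    · rw [integral_sub_right_eq_self ψ (-y)]; exact h0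
  simp_rw [e2]
  simp

end Vale.Agent.P120.Liou
end
end

section

section

/-! Liouville theorem for signed measures, part 1: smooth solutions of moderate `L^1` growth
(and polynomial `L^2` growth) are affine. -/

open MeasureTheory Metric Set Filter Topology
open scoped ENNReal NNReal ContDiff

namespace Vale.Agent.P120.Liou

variable {n : ℕ}

/-- the growth function `R^(n+3/2)` -/
noncomputable def gr (n : ℕ) (R : ℝ) : ℝ := R ^ (n + 1) * Real.sqrt R

theorem gr_nonneg {R : ℝ} (hR : 0 ≤ R) : 0 ≤ gr n R := by unfold gr; positivity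

theorem gr_mul {a : ℝ} (ha : 0 ≤ a) (b : ℝ) : gr n (a * b) = gr n a * gr n b := by
  unfold gr
  rw [Real.sqrt_mul ha, mul_pow]
  ring

theorem gr_mono {a b : ℝ} (ha : 0 ≤ a) (hab : a ≤ b) : gr n a ≤ gr n b := by
  unfold gr
  exact mul_le_mul (pow_le_pow_left₀ ha hab _) (Real.sqrt_le_sqrt hab) (Real.sqrt_nonneg a)
    (pow_nonneg (ha.trans hab) _)

theorem gr_sq {R : ℝ} (hR : 0 ≤ R) : gr n R ^ 2 = R ^ (2 * n + 3) := by
  unfold gr
  rw [mul_pow, Real.sq_sqrt hR]
  ring

theorem exists_dyadic2 {R : ℝ} (hR : 0 < R) (x : Eu n) : ∃ j : ℕ, ‖x‖ ≤ 2 ^ j * R ∧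
    ((1 + ‖R⁻¹ • x‖) ^ (n + 2))⁻¹ ≤ 2 ^ (n + 2) * (((2 : ℝ) ^ j) ^ (n + 2))⁻¹ := by
  have hex : ∃ j : ℕ, ‖x‖ ≤ 2 ^ j * R := by
    obtain ⟨j, hj⟩ := pow_unbounded_of_one_lt (‖x‖ / R) (by norm_num : (1 : ℝ) < 2)
    exact ⟨j, ((div_lt_iff₀ hR).mp hj).le⟩
  classical
  set j := Nat.find hex with hj
  refine ⟨j, Nat.find_spec hex, ?_⟩
  rcases Nat.eq_zero_or_pos j with h0 | hpos
  · rw [h0]
    simp only [pow_zero, one_pow, inv_one, mul_one]
    have h1 : ((1 + ‖R⁻¹ • x‖) ^ (n + 2))⁻¹ ≤ 1 := by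
      apply inv_le_one_of_one_le₀
      apply one_le_pow₀
      have := norm_nonneg (R⁻¹ • x)
      linarith only [this]
    exact h1.trans (one_le_pow₀ (by norm_num))
  · obtain ⟨k, hk⟩ : ∃ k, j = k + 1 := ⟨j - 1, by omega⟩
    have h1 : ¬ (‖x‖ ≤ 2 ^ k * R) := Nat.find_min hex (by omega)
    push Not at h1
    have h2 : (2 : ℝ) ^ k ≤ 1 + ‖R⁻¹ • x‖ := by
      rw [norm_smul, norm_inv, Real.norm_eq_abs, abs_of_pos hR, ← div_eq_inv_mul]
      have : (2 : ℝ) ^ k ≤ ‖x‖ / R := (le_div_iff₀ hR).mpr h1.le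
      linarith only [this]
    rw [hk]
    calc ((1 + ‖R⁻¹ • x‖) ^ (n + 2))⁻¹ ≤ (((2 : ℝ) ^ k) ^ (n + 2))⁻¹ := by
          apply inv_anti₀ (by positivity)
          exact pow_le_pow_left₀ (by positivity) h2 _
      _ = _ := by
          rw [pow_succ (2 : ℝ) k, mul_pow]
          field_simp

theorem sqrt_two_pow (j : ℕ) : Real.sqrt ((2 : ℝ) ^ j) = Real.sqrt 2 ^ j := by
  rw [Real.sqrt_eq_iff_mul_self_eq (by positivity) (by positivity), ← mul_pow,
    Real.mul_self_sqrt (by norm_num)]

/-- the constant in the tail estimate -/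
noncomputable def Kt (n : ℕ) : ℝ := 2 ^ (n + 2) * (1 - Real.sqrt 2 / 2)⁻¹

theorem sqrt_two_half_lt : Real.sqrt 2 / 2 < 1 := by
  have : Real.sqrt 2 < 2 := by
    rw [Real.sqrt_lt' (by norm_num)]; norm_num
  linarith only [this]

theorem Kt_nonneg (n : ℕ) : 0 ≤ Kt n := by
  have := sqrt_two_half_lt
  have : 0 < 1 - Real.sqrt 2 / 2 := by linarith
  unfold Kt; positivity

theorem measurable_tw (R : ℝ) :
    Measurable (fun x : Eu n => ((1 + ‖R⁻¹ • x‖) ^ (n + 2))⁻¹) := by
  have : Measurable (fun x : Eu n => ‖R⁻¹ • x‖) := (measurable_const_smul R⁻¹).norm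
  exact ((this.const_add 1).pow_const _).inv

theorem tail_meas (μ : Measure (Eu n)) {B : ℝ} (hB : 0 ≤ B)
    (h : ∀ R : ℝ, 1 ≤ R → μ (closedBall 0 R) ≤ ENNReal.ofReal (B * gr n R)) {R : ℝ}
    (hR : 1 ≤ R) : ∫⁻ x, ENNReal.ofReal (((1 + ‖R⁻¹ • x‖) ^ (n + 2))⁻¹) ∂μ ≤
      ENNReal.ofReal (Kt n * B * gr n R) := by
  have hR0 : 0 < R := by linarith
  have hg : 0 ≤ gr n R := gr_nonneg hR0.le
  have hlt := sqrt_two_half_lt
  have h1 : ∫⁻ x, ENNReal.ofReal (((1 + ‖R⁻¹ • x‖) ^ (n + 2))⁻¹) ∂μ ≤
      ∑' j : ℕ, ENNReal.ofReal (2 ^ (n + 2) * (((2 : ℝ) ^ j) ^ (n + 2))⁻¹) *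
        μ (closedBall 0 (2 ^ j * R)) := by
    have e : ∀ j : ℕ, ENNReal.ofReal (2 ^ (n + 2) * (((2 : ℝ) ^ j) ^ (n + 2))⁻¹) *
        μ (closedBall 0 (2 ^ j * R)) =
        ∫⁻ x, (closedBall (0 : Eu n) (2 ^ j * R)).indicator
          (fun _ => ENNReal.ofReal (2 ^ (n + 2) * (((2 : ℝ) ^ j) ^ (n + 2))⁻¹)) x ∂μ := by
      intro j
      rw [lintegral_indicator_const measurableSet_closedBall]
    simp_rw [e]
    rw [← lintegral_tsum (fun j =>
      (measurable_const.indicator measurableSet_closedBall).aemeasurable)]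
    apply lintegral_mono
    intro x
    obtain ⟨j, hj1, hj2⟩ := exists_dyadic2 hR0 x
    refine le_trans ?_ (ENNReal.le_tsum j)
    simp only
    rw [indicator_of_mem (by simpa only [mem_closedBall, dist_zero_right] using hj1)]
    exact ENNReal.ofReal_le_ofReal hj2
  refine h1.trans ?_
  have h2 : ∀ j : ℕ, ENNReal.ofReal (2 ^ (n + 2) * (((2 : ℝ) ^ j) ^ (n + 2))⁻¹) *
        μ (closedBall 0 (2 ^ j * R)) ≤
      ENNReal.ofReal (2 ^ (n + 2) * B * gr n R * (Real.sqrt 2 / 2) ^ j) := by
    intro j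
    have hj : (1 : ℝ) ≤ 2 ^ j := one_le_pow₀ (by norm_num)
    have h3 := h (2 ^ j * R) (by nlinarith only [hR, hj])
    calc _ ≤ ENNReal.ofReal (2 ^ (n + 2) * (((2 : ℝ) ^ j) ^ (n + 2))⁻¹) *
          ENNReal.ofReal (B * gr n (2 ^ j * R)) := by gcongr
      _ = _ := by
        rw [← ENNReal.ofReal_mul (by positivity), gr_mul (by positivity)]
        congr 1
        have : gr n ((2 : ℝ) ^ j) = ((2 : ℝ) ^ j) ^ (n + 1) * Real.sqrt 2 ^ j := by
          unfold gr; rw [sqrt_two_pow]
        rw [this, div_pow]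
        field_simp
        ring
  refine (ENNReal.tsum_le_tsum h2).trans ?_
  have hsum : Summable (fun j : ℕ => 2 ^ (n + 2) * B * gr n R * (Real.sqrt 2 / 2) ^ j) :=
    (summable_geometric_of_lt_one (by positivity) hlt).mul_left _
  rw [← ENNReal.ofReal_tsum_of_nonneg (fun j => by positivity) hsum, tsum_mul_left,
    tsum_geometric_of_lt_one (by positivity) hlt]
  apply ENNReal.ofReal_le_ofReal
  apply le_of_eq
  unfold Kt
  ring

/-- `L^1` growth of a function -/
def L1g (B : ℝ) (W : Eu n → ℝ) : Prop := ∀ R : ℝ, 1 ≤ R →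
  ∫⁻ x in closedBall (0 : Eu n) R, ENNReal.ofReal |W x| ≤ ENNReal.ofReal (B * gr n R)

theorem tail_fun {W : Eu n → ℝ} (hW : Measurable W) {B : ℝ} (hB : 0 ≤ B) (h : L1g B W) {R : ℝ}
    (hR : 1 ≤ R) : ∫⁻ x, ENNReal.ofReal (|W x| * ((1 + ‖R⁻¹ • x‖) ^ (n + 2))⁻¹) ≤
      ENNReal.ofReal (Kt n * B * gr n R) := by
  have hm : Measurable (fun x => ENNReal.ofReal |W x|) := hW.abs.ennreal_ofReal
  have h1 := tail_meas (volume.withDensity (fun x => ENNReal.ofReal |W x|)) hB (fun R hR => by
    rw [withDensity_apply _ measurableSet_closedBall]; exact h R hR) hR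
  rw [lintegral_withDensity_eq_lintegral_mul _ hm (measurable_tw R).ennreal_ofReal] at h1
  refine le_trans (le_of_eq ?_) h1
  congr 1
  funext x
  rw [Pi.mul_apply, ENNReal.ofReal_mul (abs_nonneg _)]

theorem TW_of_L1g {W : Eu n → ℝ} (hW : Measurable W) {B : ℝ} (hB : 0 ≤ B) (h : L1g B W) :
    TW W := by
  refine ⟨(hW.abs.mul (by simpa using measurable_tw (n := n) 1)).aestronglyMeasurable, ?_⟩
  rw [hasFiniteIntegral_iff_ofReal (Eventually.of_forall fun x => by positivity)]
  have := tail_fun hW hB h le_rfl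
  simp only [inv_one, one_smul] at this
  exact this.trans_lt ENNReal.ofReal_lt_top

/-- smooth solutions with moderate `L^1` growth -/
structure LSol (W : Eu n → ℝ) : Prop where
  smooth : ContDiff ℝ ∞ W
  l1 : ∃ B : ℝ, 0 ≤ B ∧ L1g B W
  weak : WeakSol W

theorem LSol.continuous {W : Eu n → ℝ} (h : LSol W) : Continuous W := h.smooth.continuous

theorem LSol.tw {W : Eu n → ℝ} (h : LSol W) : TW W := by
  obtain ⟨B, hB, h1⟩ := h.l1
  exact TW_of_L1g h.continuous.measurable hB h1

theorem weak_dif {W : Eu n → ℝ} (hn : 1 ≤ n) (hc : Continuous W) (hT : TW W) (hw : WeakSol W)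
    (v : Eu n) : WeakSol (dif v W) := by
  intro φ hφ hc' h0
  have hφv : ContDiff ℝ ∞ (fun y => φ (y - v)) := hφ.comp (contDiff_id.sub contDiff_const)
  have hcv : HasCompactSupport (fun y => φ (y - v)) := hc'.comp_homeomorph (Homeomorph.subRight v)
  have h0v : ∫ y, φ (y - v) = 0 := by
    rw [integral_sub_right_eq_self φ v]; exact h0
  have i1 : Integrable (fun x => W x * Lam φ x) := integrable_Lam hn hc hT hφ hc' h0
  have i2 : Integrable (fun x => W x * Lam φ (x - v)) := by
    have := integrable_Lam hn hc hT hφv hcv h0v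
    simp_rw [Lam_translate] at this
    exact this
  have i3 : Integrable (fun x => W (x + v) * Lam φ x) := by
    have := i2.comp_add_right v
    simpa only [add_sub_cancel_right] using this
  have e : ∀ x, dif v W x * Lam φ x = W (x + v) * Lam φ x - W x * Lam φ x := by
    intro x; simp only [dif]; ring
  simp_rw [e]
  rw [integral_sub i3 i1, hw φ hφ hc' h0, sub_zero]
  have h4 := hw _ hφv hcv h0v
  simp_rw [Lam_translate] at h4
  rw [← integral_add_right_eq_self _ v] at h4
  simpa using h4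

theorem weak_scale {W : Eu n → ℝ} (hw : WeakSol W) {R : ℝ} (hR : 0 < R) :
    WeakSol (fun x => W (R • x)) := by
  intro φ hφ hc h0
  have hφR : ContDiff ℝ ∞ (fun y => φ (R⁻¹ • y)) := hφ.comp (contDiff_const_smul R⁻¹)
  have hcR : HasCompactSupport (fun y => φ (R⁻¹ • y)) :=
    hc.comp_homeomorph (Homeomorph.smulOfNeZero R⁻¹ (inv_ne_zero hR.ne'))
  have h0R : ∫ y, φ (R⁻¹ • y) = 0 := by
    rw [Measure.integral_comp_inv_smul_of_nonneg _ _ hR.le, h0]; simp only [finrank_euclideanSpace,
                                                                   Fintype.card_fin, smul_eq_mul,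
                                                                   mul_zero]
  have h4 := hw _ hφR hcR h0R
  simp_rw [Lam_scale φ hR] at h4
  have e : ∀ x : Eu n, W x * (R⁻¹ * Lam φ (R⁻¹ • x)) =
      R⁻¹ * (fun y => W (R • y) * Lam φ y) (R⁻¹ • x) := by
    intro x
    simp only
    rw [smul_smul, mul_inv_cancel₀ hR.ne', one_smul]
    ring
  have e2 := Measure.integral_comp_inv_smul_of_nonneg (volume : Measure (Eu n))
    (fun y => W (R • y) * Lam φ y) hR.le
  simp_rw [e] at h4
  rw [integral_const_mul, e2, smul_eq_mul, finrank_euclideanSpace, Fintype.card_fin] at h4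
  rcases mul_eq_zero.mp h4 with h5 | h5
  · exact absurd h5 (inv_ne_zero hR.ne')
  · rcases mul_eq_zero.mp h5 with h6 | h6
    · exact absurd h6 (by positivity)
    · exact h6

theorem l1_dif {f : Eu n → ℝ} (hf : Measurable f) (v : Eu n) (R : ℝ) :
    ∫⁻ x in closedBall (0 : Eu n) R, ENNReal.ofReal |dif v f x| ≤
      2 * ∫⁻ x in closedBall (0 : Eu n) (R + ‖v‖), ENNReal.ofReal |f x| := by
  have hm : Measurable (fun x => ENNReal.ofReal |f x|) := hf.abs.ennreal_ofReal
  calc ∫⁻ x in closedBall (0 : Eu n) R, ENNReal.ofReal |dif v f x|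
      ≤ ∫⁻ x in closedBall (0 : Eu n) R, (ENNReal.ofReal |f (x + v)| + ENNReal.ofReal |f x|) := by
        apply lintegral_mono
        intro x
        simp only [dif]
        rw [← ENNReal.ofReal_add (abs_nonneg _) (abs_nonneg _)]
        exact ENNReal.ofReal_le_ofReal (abs_sub _ _)
    _ = (∫⁻ x in closedBall (0 : Eu n) R, ENNReal.ofReal |f (x + v)|) +
        ∫⁻ x in closedBall (0 : Eu n) R, ENNReal.ofReal |f x| := by
        rw [lintegral_add_right _ hm]
    _ ≤ (∫⁻ x in closedBall (0 : Eu n) (R + ‖v‖), ENNReal.ofReal |f x|) +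
        ∫⁻ x in closedBall (0 : Eu n) (R + ‖v‖), ENNReal.ofReal |f x| := by
        apply add_le_add
        · have e1 := setLIntegral_translate (fun x => ENNReal.ofReal |f x|) v
            (closedBall (0 : Eu n) (R + ‖v‖))
          rw [← e1]
          apply lintegral_mono_set
          intro x hx
          rw [mem_closedBall_zero_iff] at hx
          rw [mem_preimage, mem_closedBall_zero_iff]
          exact (norm_add_le _ _).trans (by linarith only [hx])
        · apply lintegral_mono_set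
          exact closedBall_subset_closedBall (by linarith [norm_nonneg v])
    _ = _ := by rw [two_mul]

theorem LSol.diff1 {W : Eu n → ℝ} (hn : 1 ≤ n) (h : LSol W) (v : Eu n) : LSol (dif v W) := by
  have hWv : ContDiff ℝ ∞ (fun x => W (x + v)) := h.smooth.comp (contDiff_id.add contDiff_const)
  obtain ⟨B, hB, h1⟩ := h.l1
  have hv0 := norm_nonneg v
  have hg : 0 ≤ gr n (1 + ‖v‖) := gr_nonneg (by positivity)
  refine ⟨hWv.sub h.smooth, ⟨2 * B * gr n (1 + ‖v‖), by positivity, ?_⟩,
    weak_dif hn h.continuous h.tw h.weak v⟩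
  intro R hR
  refine (l1_dif h.continuous.measurable v R).trans ?_
  have h2 := h1 (R + ‖v‖) (by linarith only [hv0, hR])
  have h3 : gr n (R + ‖v‖) ≤ gr n (1 + ‖v‖) * gr n R := by
    rw [← gr_mul (by positivity)]
    apply gr_mono (by positivity)
    nlinarith only [hv0, hR]
  calc _ ≤ 2 * ENNReal.ofReal (B * gr n (R + ‖v‖)) := by gcongr
    _ = ENNReal.ofReal (2 * (B * gr n (R + ‖v‖))) := two_mul_ofReal _
    _ ≤ _ := by
      apply ENNReal.ofReal_le_ofReal
      calc 2 * (B * gr n (R + ‖v‖)) ≤ 2 * (B * (gr n (1 + ‖v‖) * gr n R)) := by gcongr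
        _ = _ := by ring

theorem LSol.diffs {W : Eu n → ℝ} (hn : 1 ≤ n) (h : LSol W) (vs : List (Eu n)) :
    LSol (difs vs W) := by
  induction vs with
  | nil => exact h
  | cons v vs ih => exact ih.diff1 hn v

/-- gain of one power with the split right-hand side -/
theorem gain_split (hn : 1 ≤ n) : ∃ C : ℝ, 0 < C ∧ ∀ W : Eu n → ℝ, LSol W →
    ∀ (v : Eu n) (R : ℝ), 1 ≤ R → ‖v‖ ≤ R →
    ∫⁻ x in ball (0 : Eu n) R, ENNReal.ofReal (dif v W x ^ 2) ≤
      ENNReal.ofReal (C * ‖v‖ / R) * ((∫⁻ x in ball (0 : Eu n) (5 * R), ENNReal.ofReal (W x ^ 2)) +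
        ENNReal.ofReal ((R ^ n)⁻¹) *
          (∫⁻ x, ENNReal.ofReal (|W x| * ((1 + ‖R⁻¹ • x‖) ^ (n + 2))⁻¹)) ^ 2) := by
  obtain ⟨C1, hC1, h1⟩ := translation_le hn
  obtain ⟨C2, hC2, h2⟩ := caccio_split hn
  refine ⟨C1 * C2, by positivity, fun W hW v R hR hv => ?_⟩
  have hR0 : 0 < R := by linarith only [hR]
  obtain ⟨B, hB, hl1⟩ := hW.l1
  set WR : Eu n → ℝ := fun x => W (R • x) with hWR
  have hs : ContDiff ℝ ∞ WR := hW.smooth.comp (contDiff_const_smul R)
  have hwR : WeakSol WR := weak_scale hW.weak hR0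
  have eT : ENNReal.ofReal (R ^ n) * ∫⁻ x, ENNReal.ofReal (|WR x| * ((1 + ‖x‖) ^ (n + 2))⁻¹) =
      ∫⁻ x, ENNReal.ofReal (|W x| * ((1 + ‖R⁻¹ • x‖) ^ (n + 2))⁻¹) := by
    rw [← lintegral_comp_smul_pos
      (fun x => ENNReal.ofReal (|W x| * ((1 + ‖R⁻¹ • x‖) ^ (n + 2))⁻¹)) hR0]
    congr 2
    funext x
    simp only [hWR, smul_smul, inv_mul_cancel₀ hR0.ne', one_smul]
  have hfin := tail_fun hW.continuous.measurable hB hl1 hR
  have hTR : TW WR := by
    refine ⟨(hs.continuous.measurable.abs.mul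
      (by simpa using measurable_tw (n := n) 1)).aestronglyMeasurable, ?_⟩
    rw [hasFiniteIntegral_iff_ofReal (Eventually.of_forall fun x => by (clear * -; positivity))]
    by_contra hcon
    rw [not_lt, top_le_iff] at hcon
    rw [hcon, ENNReal.mul_top (by simp only [ne_eq, ENNReal.ofReal_eq_zero, not_le]; positivity)] at eT
    rw [← eT] at hfin
    exact absurd (hfin.trans_lt ENNReal.ofReal_lt_top) (lt_irrefl _)
  have hv' : ‖R⁻¹ • v‖ ≤ 1 := by
    rw [norm_smul, norm_inv, Real.norm_eq_abs, abs_of_pos hR0, ← div_eq_inv_mul]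
    exact (div_le_one hR0).mpr hv
  have h3 := h1 WR hs.continuous (R⁻¹ • v) hv'
  have h4 := h2 WR hs hTR hwR
  have e1 : ∫⁻ x in ball (0 : Eu n) 1, ENNReal.ofReal (dif (R⁻¹ • v) WR x ^ 2) =
      ∫⁻ x, (ball (0 : Eu n) R).indicator (fun y => ENNReal.ofReal (dif v W y ^ 2)) (R • x) := by
    rw [← lintegral_indicator measurableSet_ball]
    congr 1
    funext x
    have e2 : x ∈ ball (0 : Eu n) 1 ↔ R • x ∈ ball (0 : Eu n) R := by
      rw [mem_ball_zero_iff, mem_ball_zero_iff, norm_smul, Real.norm_eq_abs, abs_of_pos hR0]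
      constructor
      · intro hx; nlinarith only [hR, hx]
      · intro hx; by_contra hc; push Not at hc; nlinarith only [hR, hx, hc]
    by_cases hx : x ∈ ball (0 : Eu n) 1
    · rw [indicator_of_mem hx, indicator_of_mem (e2.mp hx)]
      simp only [hWR, dif, smul_add, smul_smul, mul_inv_cancel₀ hR0.ne', one_smul]
    · rw [indicator_of_notMem hx, indicator_of_notMem (fun hh => hx (e2.mpr hh))]
  have e3 : ∫⁻ x in ball (0 : Eu n) 5, ENNReal.ofReal (WR x ^ 2) =
      ∫⁻ x, (ball (0 : Eu n) (5 * R)).indicator (fun y => ENNReal.ofReal (W y ^ 2)) (R • x) := by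
    rw [← lintegral_indicator measurableSet_ball]
    congr 1
    funext x
    have e2 : x ∈ ball (0 : Eu n) 5 ↔ R • x ∈ ball (0 : Eu n) (5 * R) := by
      rw [mem_ball_zero_iff, mem_ball_zero_iff, norm_smul, Real.norm_eq_abs, abs_of_pos hR0]
      constructor
      · intro hx; nlinarith only [hR, hx]
      · intro hx; by_contra hc; push Not at hc; nlinarith only [hR, hx, hc]
    by_cases hx : x ∈ ball (0 : Eu n) 5
    · rw [indicator_of_mem hx, indicator_of_mem (e2.mp hx)]
    · rw [indicator_of_notMem hx, indicator_of_notMem (fun hh => hx (e2.mpr hh))]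
  have hP0 : 0 ≤ ∫ x in ball (0 : Eu n) 5, WR x ^ 2 := integral_nonneg fun x => sq_nonneg _
  have hT0 : 0 ≤ ∫ x, |WR x| * ((1 + ‖x‖) ^ (n + 2))⁻¹ := integral_nonneg fun x => by (clear * -; positivity)
  rw [ENNReal.ofReal_mul hC2.le, ENNReal.ofReal_add hP0 (sq_nonneg _),
    ENNReal.ofReal_pow hT0,
    ofReal_integral_eq_lintegral_ofReal (integrableOn_sq hs.continuous 0 5)
      (Eventually.of_forall fun x => sq_nonneg _),
    ofReal_integral_eq_lintegral_ofReal hTR
      (Eventually.of_forall fun x => by (clear * -; positivity))] at h4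
  rw [e3] at h4
  rw [e1, norm_smul, norm_inv, Real.norm_eq_abs, abs_of_pos hR0] at h3
  have h5 := h3.trans (mul_le_mul_right (a := ENNReal.ofReal (C1 * (R⁻¹ * ‖v‖))) h4)
  have h6 := mul_le_mul_right (a := ENNReal.ofReal (R ^ n)) h5
  rw [lintegral_comp_smul_pos _ hR0, lintegral_indicator measurableSet_ball] at h6
  refine h6.trans (le_of_eq ?_)
  have e4 := lintegral_comp_smul_pos
    ((ball (0 : Eu n) (5 * R)).indicator (fun y => ENNReal.ofReal (W y ^ 2))) hR0
  rw [lintegral_indicator measurableSet_ball] at e4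
  rw [← eT, ← e4]
  set X := ∫⁻ x, ENNReal.ofReal (|WR x| * ((1 + ‖x‖) ^ (n + 2))⁻¹)
  set Y := ∫⁻ x, (ball (0 : Eu n) (5 * R)).indicator (fun y => ENNReal.ofReal (W y ^ 2)) (R • x)
  have e5 : C1 * C2 * ‖v‖ / R = C1 * (R⁻¹ * ‖v‖) * C2 := by field_simp
  rw [e5, ENNReal.ofReal_mul (p := C1 * (R⁻¹ * ‖v‖)) (by (clear * - hC1 hR; positivity)), mul_pow, ← mul_assoc (ENNReal.ofReal (R ^ n)⁻¹)]
  have e6 : ENNReal.ofReal (R ^ n)⁻¹ * ENNReal.ofReal (R ^ n) ^ 2 = ENNReal.ofReal (R ^ n) := by
    rw [← ENNReal.ofReal_pow (by positivity), ← ENNReal.ofReal_mul (by positivity)]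
    congr 1
    field_simp
  rw [e6]
  ring

/-- one difference lowers the exponent of the `L^2` growth by one -/
theorem L2_step (hn : 1 ≤ n) {W : Eu n → ℝ} (hW : LSol W) {A : ℝ} (hA : 0 ≤ A) {a : ℕ}
    (ha : n + 2 ≤ a) (h2 : ∀ R : ℝ, 1 ≤ R → ∫⁻ x in ball (0 : Eu n) R, ENNReal.ofReal (W x ^ 2) ≤
      ENNReal.ofReal (A * R ^ (a + 1))) (v : Eu n) :
    ∃ A' : ℝ, 0 ≤ A' ∧ ∀ R : ℝ, 1 ≤ R →
      ∫⁻ x in ball (0 : Eu n) R, ENNReal.ofReal (dif v W x ^ 2) ≤ ENNReal.ofReal (A' * R ^ a) := by
  obtain ⟨C, hC, hg⟩ := gain_split hn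
  obtain ⟨B, hB, hl1⟩ := hW.l1
  have hK := Kt_nonneg n
  set A₁ : ℝ := C * ‖v‖ * (A * 5 ^ (a + 1) + (Kt n * B) ^ 2) with hA₁
  have hA₁0 : 0 ≤ A₁ := by (clear * - hA hC; positivity)
  have key : ∀ R : ℝ, 1 ≤ R → ‖v‖ ≤ R →
      ∫⁻ x in ball (0 : Eu n) R, ENNReal.ofReal (dif v W x ^ 2) ≤ ENNReal.ofReal (A₁ * R ^ a) := by
    intro R hR hv
    have hR0 : 0 < R := by linarith only [hR]
    refine (hg W hW v R hR hv).trans ?_
    have h3 := h2 (5 * R) (by linarith only [hR])
    have h4 := tail_fun hW.continuous.measurable hB hl1 hR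
    have hgR : 0 ≤ gr n R := gr_nonneg hR0.le
    calc _ ≤ ENNReal.ofReal (C * ‖v‖ / R) * (ENNReal.ofReal (A * (5 * R) ^ (a + 1)) +
          ENNReal.ofReal ((R ^ n)⁻¹) * ENNReal.ofReal (Kt n * B * gr n R) ^ 2) := by (clear * - h3 h4; gcongr)
      _ = ENNReal.ofReal (C * ‖v‖ / R * (A * (5 * R) ^ (a + 1) +
          (R ^ n)⁻¹ * (Kt n * B * gr n R) ^ 2)) := by
        rw [← ENNReal.ofReal_pow (by (clear * - hB hK hgR; positivity)), ← ENNReal.ofReal_mul (by positivity),
          ← ENNReal.ofReal_add (by positivity) (by (clear * - hR; positivity)),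
          ← ENNReal.ofReal_mul (by (clear * - hC hR; positivity))]
      _ ≤ _ := by
        apply ENNReal.ofReal_le_ofReal
        have e1 : (R ^ n)⁻¹ * (Kt n * B * gr n R) ^ 2 = (Kt n * B) ^ 2 * R ^ (n + 3) := by
          rw [mul_pow _ (gr n R), gr_sq hR0.le]
          have : 2 * n + 3 = n + (n + 3) := by ring
          rw [this, pow_add R n (n + 3)]
          (clear * - hR; field_simp)
        have e2 : R ^ (n + 3) ≤ R ^ (a + 1) := pow_le_pow_right₀ hR (by omega)
        rw [e1]
        calc C * ‖v‖ / R * (A * (5 * R) ^ (a + 1) + (Kt n * B) ^ 2 * R ^ (n + 3))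
            ≤ C * ‖v‖ / R * (A * (5 * R) ^ (a + 1) + (Kt n * B) ^ 2 * R ^ (a + 1)) := by (clear * - hC hR e2; gcongr)
          _ = _ := by
            rw [hA₁, mul_pow, pow_succ R a]
            (clear * - hC hR; field_simp)
  set ρ : ℝ := max 1 ‖v‖ with hρ
  have hρ1 : 1 ≤ ρ := le_max_left _ _
  refine ⟨A₁ * ρ ^ a, by (clear * - hA hC; positivity), fun R hR => ?_⟩
  rcases le_total ρ R with h | h
  · refine (key R hR ((le_max_right _ _).trans h)).trans (ENNReal.ofReal_le_ofReal ?_)
    have : 1 ≤ ρ ^ a := one_le_pow₀ hρ1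
    have hRa : 0 ≤ R ^ a := by positivity
    nlinarith only [mul_nonneg hA₁0 hRa, hA₁0, this, hRa]
  · calc _ ≤ ∫⁻ x in ball (0 : Eu n) ρ, ENNReal.ofReal (dif v W x ^ 2) :=
          lintegral_mono_set (ball_subset_ball h)
      _ ≤ ENNReal.ofReal (A₁ * ρ ^ a) := key ρ hρ1 (le_max_right _ _)
      _ ≤ _ := by
        apply ENNReal.ofReal_le_ofReal
        have : 1 ≤ R ^ a := one_le_pow₀ hR
        exact le_mul_of_one_le_right (by (clear * - hA hC; positivity)) this

theorem L2_list (hn : 1 ≤ n) {W : Eu n → ℝ} (hW : LSol W) (vs : List (Eu n)) :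
    ∀ a : ℕ, n + 2 ≤ a → (∃ A : ℝ, 0 ≤ A ∧ ∀ R : ℝ, 1 ≤ R →
      ∫⁻ x in ball (0 : Eu n) R, ENNReal.ofReal (W x ^ 2) ≤
        ENNReal.ofReal (A * R ^ (a + vs.length))) →
    ∃ A : ℝ, 0 ≤ A ∧ ∀ R : ℝ, 1 ≤ R →
      ∫⁻ x in ball (0 : Eu n) R, ENNReal.ofReal (difs vs W x ^ 2) ≤ ENNReal.ofReal (A * R ^ a) := by
  induction vs with
  | nil => intro a _ h; simpa only [difs_nil, List.length_nil, add_zero] using h
  | cons v vs ih =>
    intro a ha h
    have h1 : ∃ A : ℝ, 0 ≤ A ∧ ∀ R : ℝ, 1 ≤ R →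
      ∫⁻ x in ball (0 : Eu n) R, ENNReal.ofReal (W x ^ 2) ≤
        ENNReal.ofReal (A * R ^ (a + 1 + vs.length)) := by
      have e : a + (v :: vs).length = a + 1 + vs.length := by
        rw [List.length_cons]; ring
      rw [← e]
      exact h
    obtain ⟨A, hA, h2⟩ := ih (a + 1) (by omega) h1
    rw [difs_cons]
    exact L2_step hn (hW.diffs hn vs) hA ha h2 v

theorem difs_append (us vs : List (Eu n)) (f : Eu n → ℝ) :
    difs (us ++ vs) f = difs us (difs vs f) := by
  unfold difs
  rw [List.foldr_append]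

theorem LSol.difs_zero (hn : 1 ≤ n) {W : Eu n → ℝ} (hW : LSol W) {A : ℝ} (hA : 0 ≤ A)
    (h2 : ∀ R : ℝ, 1 ≤ R → ∫⁻ x in ball (0 : Eu n) R, ENNReal.ofReal (W x ^ 2) ≤
      ENNReal.ofReal (A * R ^ (3 * n + 3))) (ws : List (Eu n))
    (hws : ws.length = 2 + (n + 2) + 2 * n) : difs ws W = fun _ => 0 := by
  obtain ⟨us, vs, rfl, hus, hvs⟩ : ∃ us vs, us ++ vs = ws ∧ us.length = 2 + (n + 2) ∧
      vs.length = 2 * n := by
    refine ⟨ws.take (2 + (n + 2)), ws.drop (2 + (n + 2)), List.take_append_drop _ _, ?_, ?_⟩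
    · rw [List.length_take, hws]; omega
    · rw [List.length_drop, hws]; omega
  rw [difs_append]
  have hF : LSol (difs vs W) := hW.diffs hn vs
  obtain ⟨A', hA', h3⟩ := L2_list hn hW vs (n + 3) (by omega) ⟨A, hA, by
    have e : n + 3 + vs.length = 3 * n + 3 := by rw [hvs]; ring
    rw [e]; exact h2⟩
  have h4 : ∀ R : ℝ, 1 ≤ R → ∫ x in ball (0 : Eu n) R, difs vs W x ^ 2 ≤ A' * R ^ (n + 3) := by
    intro R hR
    have h5 := h3 R hR
    rw [← ofReal_integral_eq_lintegral_ofReal (integrableOn_sq hF.continuous 0 _)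
      (Eventually.of_forall fun x => sq_nonneg _)] at h5
    exact (ENNReal.ofReal_le_ofReal_iff (by (clear * - hA' hR; positivity))).mp h5
  obtain ⟨B, hB, h6⟩ := Mw_growth hF.continuous.measurable (integrableOn_sq hF.continuous 0)
    hA' h4
  have hsol : Sol (difs vs W) := ⟨hF.smooth, fin_of_Mw hF.continuous.measurable
    ((h6 1 le_rfl).trans_lt ENNReal.ofReal_lt_top), hF.weak⟩
  exact difs_eq_zero hn hsol h4 us hus

theorem l1_difs {f : Eu n → ℝ} (hf : Continuous f) (vs : List (Eu n)) (R : ℝ) :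
    ∫⁻ x in closedBall (0 : Eu n) R, ENNReal.ofReal |difs vs f x| ≤
      2 ^ vs.length * ∫⁻ x in closedBall (0 : Eu n) (R + (vs.map norm).sum),
        ENNReal.ofReal |f x| := by
  induction vs generalizing R with
  | nil => simp only [difs_nil, List.length_nil, pow_zero, List.map_nil, List.sum_nil, add_zero,
             one_mul, Std.le_refl]
  | cons v vs ih =>
    rw [difs_cons]
    have h1 := l1_dif (continuous_difs hf vs).measurable v R
    have h2 := ih (R + ‖v‖)
    have e : R + ‖v‖ + (vs.map norm).sum = R + ((v :: vs).map norm).sum := by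
      simp [add_assoc]
    rw [e] at h2
    calc _ ≤ _ := h1
      _ ≤ 2 * (2 ^ vs.length * ∫⁻ x in closedBall (0 : Eu n) (R + ((v :: vs).map norm).sum),
          ENNReal.ofReal |f x|) := by gcongr
      _ = _ := by rw [List.length_cons]; ring

/-- descending step with `L^1` growth -/
theorem descend1 {f : Eu n → ℝ} (hf : Continuous f) {B : ℝ} (hB : 0 ≤ B) (h1 : L1g B f) {k : ℕ}
    (hk : 2 ≤ k) (h : ∀ vs : List (Eu n), vs.length = k + 1 → difs vs f = fun _ => 0) :
    ∀ vs : List (Eu n), vs.length = k → difs vs f = fun _ => 0 := by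
  intro vs hvs
  have hconst : ∀ x, difs vs f x = difs vs f 0 := by
    intro x
    apply const_of_dif_zero
    intro u
    exact h (u :: vs) (by simp [hvs])
  set c := difs vs f 0 with hc
  set s := (vs.map norm).sum with hs
  have hs0 : 0 ≤ s := by
    rw [hs]
    apply List.sum_nonneg
    intro x hx
    obtain ⟨v, _, rfl⟩ := List.mem_map.mp hx
    exact norm_nonneg v
  set w := (volume (ball (0 : Eu n) 1)).toReal with hw
  have hw0 : 0 < w := by
    rw [hw]
    apply ENNReal.toReal_pos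
    · exact (measure_ball_pos _ _ one_pos).ne'
    · exact measure_ball_lt_top.ne
  have hg : 0 ≤ gr n (1 + s) := gr_nonneg (by positivity)
  have key : ∀ N : ℕ, 1 ≤ N → Real.sqrt N * (|c| * w) ≤ 2 ^ k * (B * gr n (1 + s)) := by
    intro N hN
    have hN' : (1 : ℝ) ≤ N := by exact_mod_cast hN
    have hN0 : (0 : ℝ) < N := by linarith only [hN']
    have h2 := l1_difs hf (vs.map (fun v => N • v)) (N : ℝ)
    rw [difs_map_nsmul N k f h vs hvs] at h2
    have h3 : ((vs.map (fun v => N • v)).map norm).sum = N * s := by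
      rw [List.map_map, hs, ← List.sum_map_mul_left]
      congr 1
      apply List.map_congr_left
      intro v _
      simp [← Nat.cast_smul_eq_nsmul ℝ, norm_smul]
    rw [h3, List.length_map, hvs] at h2
    have h4 := h1 (N + N * s) (by nlinarith only [hs0, hN'])
    have h5 : ENNReal.ofReal ((N : ℝ) ^ k * |c| * (N ^ n * w)) ≤
        ENNReal.ofReal (2 ^ k * (B * gr n (N + N * s))) := by
      calc ENNReal.ofReal ((N : ℝ) ^ k * |c| * (N ^ n * w))
          = ENNReal.ofReal ((N : ℝ) ^ k * |c|) * volume (ball (0 : Eu n) N) := by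
            rw [ENNReal.ofReal_mul (by (clear * - hN; positivity)), hw, ← volReal_ball _ hN0,
              ENNReal.ofReal_toReal measure_ball_lt_top.ne]
        _ = ∫⁻ x in ball (0 : Eu n) N, ENNReal.ofReal |(N : ℝ) ^ k * difs vs f x| := by
            simp_rw [hconst]
            rw [setLIntegral_const, abs_mul, abs_of_nonneg (by positivity : (0 : ℝ) ≤ (N : ℝ) ^ k)]
        _ ≤ ∫⁻ x in closedBall (0 : Eu n) N, ENNReal.ofReal |(N : ℝ) ^ k * difs vs f x| :=
            lintegral_mono_set ball_subset_closedBall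
        _ ≤ _ := h2
        _ ≤ 2 ^ k * ENNReal.ofReal (B * gr n (N + N * s)) := by (clear * - h4; gcongr)
        _ = _ := by
            rw [ENNReal.ofReal_mul (p := 2 ^ k) (by positivity), ENNReal.ofReal_pow (by norm_num)]
            (clear * -; norm_num)
    have hgN : 0 ≤ gr n (N + N * s) := gr_nonneg (by (clear * - hs0 hN; positivity))
    have h6 := (ENNReal.ofReal_le_ofReal_iff (by (clear * - hB hgN; positivity))).mp h5
    have h7 : gr n (N + N * s) = gr n N * gr n (1 + s) := by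
      rw [← gr_mul hN0.le]; congr 1; ring
    rw [h7] at h6
    obtain ⟨q, rfl⟩ : ∃ q, k = 2 + q := ⟨k - 2, by omega⟩
    have h8 : (1 : ℝ) ≤ (N : ℝ) ^ q := one_le_pow₀ hN'
    have hsq : (N : ℝ) = Real.sqrt N * Real.sqrt N := (Real.mul_self_sqrt hN0.le).symm
    have hsp : 0 < Real.sqrt N := Real.sqrt_pos.mpr hN0
    have e1 : (N : ℝ) ^ (2 + q) * |c| * (N ^ n * w) =
        (N ^ (n + 1) * Real.sqrt N) * (N ^ q * (Real.sqrt N * (|c| * w))) := by
      calc (N : ℝ) ^ (2 + q) * |c| * (N ^ n * w) = N ^ (n + 1) * N * (N ^ q * (|c| * w)) := by ring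
        _ = N ^ (n + 1) * (Real.sqrt N * Real.sqrt N) * (N ^ q * (|c| * w)) := by rw [← hsq]
        _ = _ := by ring
    have e2 : (2 : ℝ) ^ (2 + q) * (B * (gr n N * gr n (1 + s))) =
        (N ^ (n + 1) * Real.sqrt N) * (2 ^ (2 + q) * (B * gr n (1 + s))) := by
      have : gr n (N : ℝ) = N ^ (n + 1) * Real.sqrt N := rfl
      rw [this]; ring
    rw [e1, e2] at h6
    have h9 := le_of_mul_le_mul_left h6 (by (clear * - hN; positivity))
    calc Real.sqrt N * (|c| * w) ≤ N ^ q * (Real.sqrt N * (|c| * w)) :=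
          le_mul_of_one_le_left (by (clear * - hw0 hN; positivity)) h8
      _ ≤ _ := h9
  have hc0 : c = 0 := by
    by_contra hne
    have hpos : 0 < |c| * w := by (clear * - hw0 hne; positivity)
    set D := 2 ^ k * (B * gr n (1 + s)) with hD
    have hD0 : 0 ≤ D := by (clear * - hB hg; positivity)
    obtain ⟨N, hN⟩ := exists_nat_gt ((D / (|c| * w)) ^ 2)
    have h2 := key (N + 1) (by omega)
    rw [← le_div_iff₀ hpos] at h2
    have h3 : ((N + 1 : ℕ) : ℝ) ≤ (D / (|c| * w)) ^ 2 := by
      calc ((N + 1 : ℕ) : ℝ) = Real.sqrt (N + 1 : ℕ) ^ 2 := (Real.sq_sqrt (by (clear * -; positivity))).symm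
        _ ≤ _ := by (clear * - h2; gcongr)
    push_cast at h3
    linarith only [hN, h3]
  funext x
  rw [hconst x, hc0]

theorem descend1_all {f : Eu n → ℝ} (hf : Continuous f) {B : ℝ} (hB : 0 ≤ B) (h1 : L1g B f)
    (m : ℕ) (h : ∀ vs : List (Eu n), vs.length = 2 + m → difs vs f = fun _ => 0) :
    ∀ vs : List (Eu n), vs.length = 2 → difs vs f = fun _ => 0 := by
  induction m with
  | zero => simpa only [add_zero] using h
  | succ m ih =>
    apply ih
    exact descend1 hf hB h1 (k := 2 + m) (by omega) (by simpa only [add_assoc] using h)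

theorem LSol.affine (hn : 1 ≤ n) {W : Eu n → ℝ} (hW : LSol W) {A : ℝ} (hA : 0 ≤ A)
    (h2 : ∀ R : ℝ, 1 ≤ R → ∫⁻ x in ball (0 : Eu n) R, ENNReal.ofReal (W x ^ 2) ≤
      ENNReal.ofReal (A * R ^ (3 * n + 3))) :
    ∃ (a : Eu n) (b : ℝ), ∀ x, W x = b + inner ℝ a x := by
  obtain ⟨B, hB, h1⟩ := hW.l1
  apply affine_of_difs_two hW.continuous
  apply descend1_all hW.continuous hB h1 (n + 2 + 2 * n)
  intro vs hvs
  exact hW.difs_zero hn hA h2 vs (by rw [hvs]; ring)

end Vale.Agent.P120.Liou
end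
end
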