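import Vale.Agent.P120.MathlibUsed
import Vale.Agent.P120.Bdl.B1
import Vale.Agent.P120.Bdl.B2

set_option linter.all false

section

section

/-! Part 1: packing of bad balls (Lemma 1). Owner module: PACK -/

open MeasureTheory Metric Set Filter Topology
open scoped ENNReal NNReal

namespace Vale.Agent.P120

/-- monotonicity of goodness -/
theorem Good.mono {n d : ℕ} {M M' : ℝ} {μ : Measure (Eu d)} {θ : Eu d → ℝ} {a : Eu d} {r : ℝ}
    (hr : 0 < r) (hM : 1 ≤ M) (hMM : M ≤ M') (h : Good n M' μ θ a r) : Good n M μ θ a r := by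
  intro ψ h1 h2 h3
  refine (h ψ ?_ ?_ h3).trans ?_
  · intro x y
    refine (h1 x y).trans ?_
    gcongr
  · intro x hx
    exact h2 x (le_trans (by gcongr) hx)
  · gcongr

/-- change of centre and scale -/
theorem Good.change (n : ℕ) (M K ρ : ℝ) (hM : 1 ≤ M) (hK : 0 ≤ K) (hρ : 0 < ρ) (hρ1 : ρ ≤ 1) :
    ∃ M' : ℝ, M ≤ M' ∧ ∀ M'' : ℝ, M' ≤ M'' → ∀ (d : ℕ) (μ : Measure (Eu d)) (θ : Eu d → ℝ)
      (a x : Eu d) (l r : ℝ), 0 < l → ρ * l ≤ r → r ≤ l → dist x a ≤ K * l →
      Good n M'' μ θ a l → Good n M μ θ x r := by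
  have hM0 : 0 < M := by linarith only [hM]
  refine ⟨M + K + M / ρ + M / ρ ^ n, ?_, ?_⟩
  · have : 0 < M / ρ := by positivity
    have : 0 < M / ρ ^ n := by positivity
    linarith
  intro M'' hM'' d μ θ a x l r hl hr1 hr2 hxa hgood ψ h1 h2 h3
  have p1 : 0 < M / ρ := by positivity
  have p2 : 0 < M / ρ ^ n := by positivity
  have hr : 0 < r := lt_of_lt_of_le (by positivity) hr1
  refine (hgood ψ ?_ ?_ h3).trans ?_
  · intro y z
    refine (h1 y z).trans ?_
    apply mul_le_mul_of_nonneg_right _ dist_nonneg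
    have e1 : M / r ≤ M / (ρ * l) := by gcongr
    have e2 : M / (ρ * l) = (M / ρ) / l := by field_simp
    have e3 : (M / ρ) / l ≤ M'' / l := by
      gcongr
      linarith only [hM, hK, hM'', p2]
    linarith only [e1, e2, e3]
  · intro y hy
    apply h2
    have e1 : (M + K) * l ≤ M'' * l := by
      gcongr; linarith only [hM'', p1, p2]
    have e2 : dist y a ≤ dist y x + dist x a := dist_triangle _ _ _
    have e3 : M * r ≤ M * l := by (clear * - hM hr2; gcongr)
    nlinarith only [hxa, hy, e1, e2, e3]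
  · have hM0'' : 0 < M'' := by linarith
    rw [div_le_div_iff₀ hM0'' hM0]
    have e1 : (ρ * l) ^ n ≤ r ^ n := by (clear * - hρ hl hr1; gcongr)
    have e2 : M ≤ ρ ^ n * M'' := by
      have : M / ρ ^ n ≤ M'' := by linarith only [hM, hK, hM'', p1]
      rwa [div_le_iff₀ (by positivity), mul_comm] at this
    calc l ^ n * M ≤ l ^ n * (ρ ^ n * M'') := by (clear * - hl e2; gcongr)
      _ = (ρ * l) ^ n * M'' := by rw [mul_pow]; ring
      _ ≤ r ^ n * M'' := by (clear * - hM0'' e1; gcongr)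

section aux

variable {n d : ℕ} {c C : ℝ} {D : ℝ≥0∞} {μ : Measure (Eu d)}

/-- in dimension zero the support is empty -/
theorem AR.nontrivial (hn : 1 ≤ n) (h : AR n c C D μ) {a : Eu d} (ha : a ∈ μ.support) :
    Nontrivial (Eu d) := by
  by_contra hcon
  rw [not_nontrivial_iff_subsingleton] at hcon
  have h1 : ∀ k : ℕ, μ univ ≤ ENNReal.ofReal (C * (1 / ((k : ℝ) + 1)) ^ n) := by
    intro k
    have : (univ : Set (Eu d)) ⊆ closedBall a (1 / ((k : ℝ) + 1)) := by
      intro y _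
      rw [Subsingleton.elim y a]
      exact mem_closedBall_self (by positivity)
    exact (measure_mono this).trans (h.upper a _ (by positivity))
  have h2 : Tendsto (fun k : ℕ => ENNReal.ofReal (C * (1 / ((k : ℝ) + 1)) ^ n)) atTop (𝓝 0) := by
    have h3 : Tendsto (fun k : ℕ => C * (1 / ((k : ℝ) + 1)) ^ n) atTop (𝓝 (C * 0 ^ n)) :=
      (tendsto_one_div_add_atTop_nhds_zero_nat.pow n).const_mul C
    rw [zero_pow (by omega), mul_zero] at h3
    have h4 := ENNReal.tendsto_ofReal h3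
    simpa only [one_div, inv_pow, ENNReal.ofReal_zero] using h4
  have h3 : μ univ ≤ 0 := ge_of_tendsto' h2 h1
  rw [Measure.mem_support_iff_forall] at ha
  have := ha univ univ_mem
  exact absurd this (not_lt.mpr h3)

/-- sup bound for test functions -/
theorem test_bound [Nontrivial (Eu d)] {M r : ℝ} (hM : 0 < M) (hr : 0 < r) {ψ : Eu d → ℝ}
    {a : Eu d}
    (h1 : ∀ x y, |ψ x - ψ y| ≤ M / r * dist x y) (h2 : ∀ x, M * r ≤ dist x a → ψ x = 0)
    (x : Eu d) : |ψ x| ≤ 2 * M ^ 2 := by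
  by_cases hx : M * r ≤ dist x a
  · rw [h2 x hx, abs_zero]; positivity
  push Not at hx
  obtain ⟨v, hv⟩ := exists_norm_eq (Eu d) (by positivity : 0 ≤ M * r)
  have hy : dist (a + v) a = M * r := by
    rw [dist_eq_norm, add_sub_cancel_left, hv]
  have h3 := h1 x (a + v)
  rw [h2 (a + v) hy.ge, sub_zero] at h3
  refine h3.trans ?_
  have h4 : dist x (a + v) ≤ 2 * (M * r) := by
    have := dist_triangle_right x (a + v) a
    rw [hy] at this
    linarith only [hx, this]
  calc M / r * dist x (a + v) ≤ M / r * (2 * (M * r)) := by (clear * - hM hr h4; gcongr)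
    _ = 2 * M ^ 2 := by field_simp

/-- almost orthogonality -/
theorem test_orth [Nontrivial (Eu d)] (h : AR n c C D μ) {M r s : ℝ} (hM : 0 < M) (hr : 0 < r)
    (hs : 0 < s) {ψ φ : Eu d → ℝ} {a b : Eu d}
    (h1 : ∀ x y, |ψ x - ψ y| ≤ M / r * dist x y) (h2 : ∀ x, M * r ≤ dist x a → ψ x = 0)
    (g1 : ∀ x y, |φ x - φ y| ≤ M / s * dist x y) (g2 : ∀ x, M * s ≤ dist x b → φ x = 0)
    (g3 : ∫ x, φ x ∂μ = 0) :
    |∫ x, ψ x * φ x ∂μ| ≤ 2 * C * M ^ (n + 4) * (s / r) * s ^ n := by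
  have := h.isLocallyFiniteMeasure
  have hL1 : LipC ψ := lipC_of_bound h1 h2
  have hL2 : LipC φ := lipC_of_bound g1 g2
  have i1 : Integrable (fun x => ψ x * φ x) μ :=
    (hL1.mul hL2).continuous.integrable_of_hasCompactSupport (hL1.mul hL2).2
  have i2 : Integrable φ μ := hL2.continuous.integrable_of_hasCompactSupport hL2.2
  have e1 : ∫ x, ψ x * φ x ∂μ = ∫ x, (ψ x - ψ b) * φ x ∂μ := by
    have : ∀ x, (ψ x - ψ b) * φ x = ψ x * φ x - ψ b * φ x := fun x => by ring
    simp_rw [this]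
    rw [integral_sub i1 (i2.const_mul _), integral_const_mul, g3, mul_zero, sub_zero]
  rw [e1]
  have e2 : ∫ x, (ψ x - ψ b) * φ x ∂μ = ∫ x in closedBall b (M * s), (ψ x - ψ b) * φ x ∂μ := by
    rw [setIntegral_eq_integral_of_forall_compl_eq_zero]
    intro x hx
    rw [mem_closedBall, not_le] at hx
    rw [g2 x hx.le, mul_zero]
  rw [e2]
  have hC := h.C_pos
  have e3 := norm_setIntegral_le_of_norm_le_const (μ := μ) (s := closedBall b (M * s))
    (f := fun x => (ψ x - ψ b) * φ x) (C := M / r * (M * s) * (2 * M ^ 2))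
    (h.measure_ball_lt_top b (M * s)) (by
      intro x hx
      rw [mem_closedBall] at hx
      rw [norm_mul, Real.norm_eq_abs, Real.norm_eq_abs]
      apply mul_le_mul _ (test_bound hM hs g1 g2 x) (abs_nonneg _) (by positivity)
      refine (h1 x b).trans ?_
      gcongr)
  rw [Real.norm_eq_abs] at e3
  refine e3.trans ?_
  have e4 : μ.real (closedBall b (M * s)) ≤ C * (M * s) ^ n := by
    have := h.upper b (M * s) (by positivity)
    exact ENNReal.toReal_le_of_le_ofReal (by (clear * - hM hs hC; positivity)) this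
  calc M / r * (M * s) * (2 * M ^ 2) * μ.real (closedBall b (M * s))
      ≤ M / r * (M * s) * (2 * M ^ 2) * (C * (M * s) ^ n) := by (clear * - hM hr hs e4; gcongr)
    _ = 2 * C * M ^ (n + 4) * (s / r) * s ^ n := by
        rw [mul_pow, pow_add]; ring

/-- counting separated points -/
theorem count_sep (h : AR n c C D μ) {ι : Type*} (J : Finset ι) (x : ι → Eu d) (s R : ℝ)
    (hs : 0 < s) (hR : 0 < R) (hsD : ENNReal.ofReal s ≤ D) (a : Eu d)
    (h1 : ∀ i ∈ J, x i ∈ μ.support ∧ dist (x i) a ≤ R)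
    (h2 : ∀ i ∈ J, ∀ j ∈ J, i ≠ j → s ≤ dist (x i) (x j)) :
    (J.card : ℝ) * s ^ n ≤ C / c * 2 ^ n * (R + s) ^ n := by
  have hc := h.c_pos
  have hC := h.C_pos
  have hdisj : (↑J : Set ι).PairwiseDisjoint fun i => ball (x i) (s / 2) := by
    intro i hi j hj hij
    apply ball_disjoint_ball
    have := h2 i hi j hj hij
    linarith only [this]
  have hm := measure_biUnion_finset (μ := μ) hdisj (fun i _ => measurableSet_ball)
  have hsub : (⋃ i ∈ J, ball (x i) (s / 2)) ⊆ closedBall a (R + s) := by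
    intro y hy
    simp only [mem_iUnion] at hy
    obtain ⟨i, hi, hy⟩ := hy
    rw [mem_ball] at hy
    rw [mem_closedBall]
    have := dist_triangle y (x i) a
    have := (h1 i hi).2
    linarith
  have hup := (measure_mono (μ := μ) hsub).trans (h.upper a (R + s) (by positivity))
  have hlow : J.card • ENNReal.ofReal (c * (s / 2) ^ n) ≤ ∑ i ∈ J, μ (ball (x i) (s / 2)) := by
    apply Finset.card_nsmul_le_sum
    intro i hi
    apply h.lower _ (h1 i hi).1 _ (by positivity)
    exact (ENNReal.ofReal_le_ofReal (by linarith only [hs])).trans hsD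
  rw [← hm] at hlow
  have hall := hlow.trans hup
  rw [nsmul_eq_mul, ← ENNReal.ofReal_natCast, ← ENNReal.ofReal_mul (by (clear * -; positivity)),
    ENNReal.ofReal_le_ofReal_iff (by positivity)] at hall
  rw [div_pow] at hall
  have e1 : (J.card : ℝ) * s ^ n = (J.card : ℝ) * (c * (s ^ n / 2 ^ n)) * (2 ^ n / c) := by
    (clear * - hs hc; field_simp)
  rw [e1]
  calc (J.card : ℝ) * (c * (s ^ n / 2 ^ n)) * (2 ^ n / c) ≤ C * (R + s) ^ n * (2 ^ n / c) := by
        gcongr
    _ = C / c * 2 ^ n * (R + s) ^ n := by ring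

/-- finite sums of `LipC` functions -/
theorem LipC.sum {ι : Type*} (I : Finset ι) (t : ι → ℝ) (ψ : ι → Eu d → ℝ)
    (h : ∀ i ∈ I, LipC (ψ i)) : LipC (fun x => ∑ i ∈ I, t i * ψ i x) := by
  classical
  induction I using Finset.induction_on with
  | empty =>
    simp only [Finset.sum_empty]
    exact lipC_of_bound (L := 0) (R := 0) (a := 0) (by simp only [sub_self, abs_zero, zero_mul,
                                                         Std.le_refl, implies_true]) (by simp only [dist_zero_right,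
                                                                   norm_nonneg, imp_self,
                                                                   implies_true])
  | insert i I hi ih =>
    simp only [Finset.sum_insert hi]
    exact ((h i (Finset.mem_insert_self i I)).const_mul (t i)).add
      (ih fun j hj => h j (Finset.mem_insert_of_mem hj))

theorem form_zero_left (n : ℕ) (e : ℝ) (μ : Measure (Eu d)) (θ : Eu d → ℝ) :
    form n e μ (fun _ => 0) θ = 0 := by
  unfold form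
  simp only [one_div, zero_mul, sub_self, zero_smul, integral_zero, smul_zero]

/-- linearity of the form over finite sums -/
theorem form_sum_left (hn : 1 ≤ n) (h : AR n c C D μ) {ι : Type*} (I : Finset ι) (t : ι → ℝ)
    (ψ : ι → Eu d → ℝ) (hψ : ∀ i ∈ I, LipC (ψ i)) {θ : Eu d → ℝ} (hθ : LipC θ) (e : ℝ)
    (he : 0 ≤ e) :
    form n e μ (fun x => ∑ i ∈ I, t i * ψ i x) θ = ∑ i ∈ I, t i • form n e μ (ψ i) θ := by
  classical
  induction I using Finset.induction_on with
  | empty =>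
    simp only [Finset.sum_empty]
    exact form_zero_left n e μ θ
  | insert i I hi ih =>
    simp only [Finset.sum_insert hi]
    have h1 : ∀ j ∈ I, LipC (ψ j) := fun j hj => hψ j (Finset.mem_insert_of_mem hj)
    rw [form_add_left hn h ((hψ i (Finset.mem_insert_self i I)).const_mul (t i))
      (LipC.sum I t ψ h1) hθ e he, form_smul_left, ih h1]

/-- `ℓ²` expansion of a finite sum -/
theorem integral_sq_sum_le [IsLocallyFiniteMeasure μ] {ι : Type*} (I : Finset ι) (t : ι → ℝ)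
    (ht : ∀ i ∈ I, |t i| ≤ 1) (ψ : ι → Eu d → ℝ) (hψ : ∀ i ∈ I, LipC (ψ i)) :
    ∫ x, (∑ i ∈ I, t i * ψ i x) ^ 2 ∂μ ≤ ∑ i ∈ I, ∑ j ∈ I, |∫ x, ψ i x * ψ j x ∂μ| := by
  have e1 : ∀ x, (∑ i ∈ I, t i * ψ i x) ^ 2 =
      ∑ i ∈ I, ∑ j ∈ I, (t i * t j) * (ψ i x * ψ j x) := by
    intro x
    rw [sq, Finset.sum_mul_sum]
    apply Finset.sum_congr rfl
    intro i _
    apply Finset.sum_congr rfl
    intro j _
    ring
  simp_rw [e1]
  have hint : ∀ i ∈ I, ∀ j ∈ I, Integrable (fun x => (t i * t j) * (ψ i x * ψ j x)) μ := by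
    intro i hi j hj
    have := (hψ i hi).mul (hψ j hj)
    exact (this.continuous.integrable_of_hasCompactSupport this.2).const_mul _
  rw [integral_finsetSum _ (fun i hi => integrable_finsetSum _ (fun j hj => hint i hi j hj))]
  apply Finset.sum_le_sum
  intro i hi
  rw [integral_finsetSum _ (fun j hj => hint i hi j hj)]
  apply Finset.sum_le_sum
  intro j hj
  rw [integral_const_mul]
  refine (le_abs_self _).trans ?_
  rw [abs_mul, abs_mul]
  have h1 := ht i hi
  have h2 := ht j hj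
  have h3 : |t i| * |t j| ≤ 1 := mul_le_one₀ h1 (abs_nonneg _) h2
  calc |t i| * |t j| * |∫ x, ψ i x * ψ j x ∂μ| ≤ 1 * |∫ x, ψ i x * ψ j x ∂μ| := by gcongr
    _ = _ := one_mul _

end aux

/-- The Schur estimate. -/
theorem schur_half (n d A : ℕ) (hn : 1 ≤ n) (hA : 2 ≤ A) (c C M : ℝ) (hM : 1 ≤ M) (hc : 0 < c)
    (hC : 0 < C) :
    ∃ Cs : ℝ, 0 < Cs ∧ ∀ (μ : Measure (Eu d)) (D : ℝ≥0∞), AR n c C D μ →
    ∀ (r₀ : ℝ), 0 < r₀ → ∀ (I : Finset (Eu d × ℕ)) (ψ : Eu d × ℕ → Eu d → ℝ),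
      (∀ i ∈ I, i.1 ∈ μ.support ∧ ENNReal.ofReal (r₀ * ((A : ℝ) ^ i.2)⁻¹) ≤ D) →
      (∀ i ∈ I, (∀ x y, |ψ i x - ψ i y| ≤ M / (r₀ * ((A : ℝ) ^ i.2)⁻¹) * dist x y) ∧
        (∀ x, M * (r₀ * ((A : ℝ) ^ i.2)⁻¹) ≤ dist x i.1 → ψ i x = 0) ∧ ∫ x, ψ i x ∂μ = 0) →
      (∀ i ∈ I, ∀ l ∈ I, i ≠ l → i.2 = l.2 → r₀ * ((A : ℝ) ^ i.2)⁻¹ ≤ dist i.1 l.1) →
      ∀ i ∈ I, ∑ j ∈ I with i.2 ≤ j.2, |∫ x, ψ i x * ψ j x ∂μ|
        ≤ Cs * (r₀ * ((A : ℝ) ^ i.2)⁻¹) ^ n := by
  have hM0 : 0 < M := by linarith only [hM]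
  refine ⟨2 * (2 * C * M ^ (n + 4) * (C / c * 2 ^ n * (3 * M) ^ n)), by positivity, ?_⟩
  intro μ D h r₀ hr₀ I ψ hI hψ hsep i hi
  have hAR : (2 : ℝ) ≤ (A : ℝ) := by exact_mod_cast hA
  have hA0 : (0 : ℝ) < (A : ℝ) := by linarith only [hAR]
  have : Nontrivial (Eu d) := h.nontrivial hn (hI i hi).1
  set r : ℕ → ℝ := fun k => r₀ * ((A : ℝ) ^ k)⁻¹ with hr
  have hrpos : ∀ k, 0 < r k := fun k => by simp only [hr]; positivity
  have hranti : ∀ k l, k ≤ l → r l ≤ (1 / 2) ^ (l - k) * r k := by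
    intro k l hkl
    obtain ⟨m, rfl⟩ := Nat.exists_eq_add_of_le hkl
    simp only [hr, Nat.add_sub_cancel_left, pow_add, mul_inv]
    have : ((A : ℝ) ^ m)⁻¹ ≤ (1 / 2) ^ m := by
      rw [← inv_pow]
      gcongr
      rw [one_div]
      exact inv_anti₀ (by norm_num) hAR
    calc r₀ * (((A : ℝ) ^ k)⁻¹ * ((A : ℝ) ^ m)⁻¹) ≤ r₀ * (((A : ℝ) ^ k)⁻¹ * (1 / 2) ^ m) := by
          (clear * - hA hr₀ this; gcongr)
      _ = _ := by ring
  have hrle : ∀ k l, k ≤ l → r l ≤ r k := by
    intro k l hkl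
    refine (hranti k l hkl).trans ?_
    have : ((1:ℝ) / 2) ^ (l - k) ≤ 1 := pow_le_one₀ (by norm_num) (by norm_num)
    calc (1 / 2) ^ (l - k) * r k ≤ 1 * r k := by
          have := (hrpos k).le
          gcongr
      _ = r k := one_mul _
  -- the level bound
  have hlevel : ∀ k, i.2 ≤ k → ∑ j ∈ I with j.2 = k, |∫ x, ψ i x * ψ j x ∂μ| ≤
      (2 * C * M ^ (n + 4) * (C / c * 2 ^ n * (3 * M) ^ n)) * r i.2 ^ n *
        (1 / 2) ^ (k - i.2) := by
    intro k hk
    set J : Finset (Eu d × ℕ) := I.filter (fun j => j.2 = k) with hJ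
    set J' : Finset (Eu d × ℕ) := J.filter (fun j => dist j.1 i.1 ≤ 2 * M * r i.2) with hJ'
    have hz : ∑ j ∈ J, |∫ x, ψ i x * ψ j x ∂μ| = ∑ j ∈ J', |∫ x, ψ i x * ψ j x ∂μ| := by
      symm
      apply Finset.sum_subset (Finset.filter_subset _ _)
      intro j hj hj'
      have hjI : j ∈ I := (Finset.mem_filter.mp hj).1
      have hjk : j.2 = k := (Finset.mem_filter.mp hj).2
      have hfar : ¬ dist j.1 i.1 ≤ 2 * M * r i.2 := by
        intro hcon
        exact hj' (Finset.mem_filter.mpr ⟨hj, hcon⟩)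
      push Not at hfar
      have : ∀ x, ψ i x * ψ j x = 0 := by
        intro x
        by_cases hx : M * r i.2 ≤ dist x i.1
        · rw [(hψ i hi).2.1 x hx, zero_mul]
        · push Not at hx
          rw [(hψ j hjI).2.1 x, mul_zero]
          have e1 : dist j.1 i.1 ≤ dist x j.1 + dist x i.1 := dist_triangle_left _ _ _
          have e2 : M * r j.2 ≤ M * r i.2 := by
            have := hrle i.2 j.2 (by omega)
            gcongr
          have e3 : M * r j.2 = M * (r₀ * ((A : ℝ) ^ j.2)⁻¹) := rfl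
          rw [← e3]
          linarith only [hfar, hx, e1, e2]
      simp_rw [this]
      simp
    rw [hz]
    have hcard : (J'.card : ℝ) * r k ^ n ≤ C / c * 2 ^ n * (3 * M * r i.2) ^ n := by
      by_cases hne : J'.Nonempty
      · obtain ⟨j₀, hj₀⟩ := hne
        have hj₀I : j₀ ∈ I := (Finset.mem_filter.mp (Finset.mem_filter.mp hj₀).1).1
        have hj₀k : j₀.2 = k := (Finset.mem_filter.mp (Finset.mem_filter.mp hj₀).1).2
        have hD := (hI j₀ hj₀I).2
        rw [hj₀k] at hD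
        have := count_sep h J' (fun j => j.1) (r k) (2 * M * r i.2) (hrpos k)
          (by have := hrpos i.2; positivity) hD i.1 (by
            intro j hj
            have hjI : j ∈ I := (Finset.mem_filter.mp (Finset.mem_filter.mp hj).1).1
            exact ⟨(hI j hjI).1, (Finset.mem_filter.mp hj).2⟩) (by
            intro j hj l hl hjl
            have hjI : j ∈ I := (Finset.mem_filter.mp (Finset.mem_filter.mp hj).1).1
            have hlI : l ∈ I := (Finset.mem_filter.mp (Finset.mem_filter.mp hl).1).1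
            have hjk : j.2 = k := (Finset.mem_filter.mp (Finset.mem_filter.mp hj).1).2
            have hlk : l.2 = k := (Finset.mem_filter.mp (Finset.mem_filter.mp hl).1).2
            have := hsep j hjI l hlI hjl (by rw [hjk, hlk])
            rwa [hjk] at this)
        refine this.trans ?_
        have h1 : 2 * M * r i.2 + r k ≤ 3 * M * r i.2 := by
          have e1 := hrle i.2 k hk
          have e2 := hrpos i.2
          nlinarith only [hM, e1, e2]
        have h2 : 0 ≤ 2 * M * r i.2 + r k := by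
          have e2 := hrpos i.2
          have e3 := hrpos k
          positivity
        (clear * - hA hM hc hC hr₀ h1; gcongr)
      · rw [Finset.not_nonempty_iff_eq_empty] at hne
        rw [hne, Finset.card_empty, Nat.cast_zero, zero_mul]
        have := hrpos i.2
        positivity
    have hterm : ∀ j ∈ J', |∫ x, ψ i x * ψ j x ∂μ| ≤
        2 * C * M ^ (n + 4) * ((1 / 2) ^ (k - i.2)) * r k ^ n := by
      intro j hj
      have hjI : j ∈ I := (Finset.mem_filter.mp (Finset.mem_filter.mp hj).1).1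
      have hjk : j.2 = k := (Finset.mem_filter.mp (Finset.mem_filter.mp hj).1).2
      have h1 := test_orth h hM0 (hrpos i.2) (hrpos j.2) (hψ i hi).1 (hψ i hi).2.1
        (hψ j hjI).1 (hψ j hjI).2.1 (hψ j hjI).2.2
      refine h1.trans ?_
      rw [hjk]
      have h2 : r k / r i.2 ≤ (1 / 2) ^ (k - i.2) := by
        rw [div_le_iff₀ (hrpos _)]
        exact hranti i.2 k hk
      have := hrpos k
      (clear * - hA hM hC hr₀ h2; gcongr)
    calc ∑ j ∈ J', |∫ x, ψ i x * ψ j x ∂μ|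
        ≤ ∑ j ∈ J', 2 * C * M ^ (n + 4) * ((1 / 2) ^ (k - i.2)) * r k ^ n :=
          Finset.sum_le_sum hterm
      _ = 2 * C * M ^ (n + 4) * ((1 / 2) ^ (k - i.2)) * ((J'.card : ℝ) * r k ^ n) := by
          rw [Finset.sum_const, nsmul_eq_mul]; ring
      _ ≤ 2 * C * M ^ (n + 4) * ((1 / 2) ^ (k - i.2)) *
          (C / c * 2 ^ n * (3 * M * r i.2) ^ n) := by (clear * - hM hC hcard; gcongr)
      _ = _ := by rw [mul_pow (3 * M)]; ring
  -- sum over the levels
  obtain ⟨K, hK⟩ : ∃ K : ℕ, ∀ j ∈ I, j.2 < K := by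
    refine ⟨I.sup (fun j => j.2) + 1, fun j hj => ?_⟩
    have := Finset.le_sup (f := fun j : Eu d × ℕ => j.2) hj
    exact Nat.lt_succ_of_le this
  have hfib := Finset.sum_fiberwise_of_maps_to (s := I.filter (fun j => i.2 ≤ j.2))
    (t := Finset.Ico i.2 K) (g := fun j => j.2) (by
      intro j hj
      rw [Finset.mem_filter] at hj
      rw [Finset.mem_Ico]
      exact ⟨hj.2, hK j hj.1⟩) (fun j => |∫ x, ψ i x * ψ j x ∂μ|)
  rw [← hfib]
  calc ∑ k ∈ Finset.Ico i.2 K, ∑ j ∈ (I.filter (fun j => i.2 ≤ j.2)) with j.2 = k,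
        |∫ x, ψ i x * ψ j x ∂μ|
      ≤ ∑ k ∈ Finset.Ico i.2 K, (2 * C * M ^ (n + 4) * (C / c * 2 ^ n * (3 * M) ^ n)) *
          r i.2 ^ n * (1 / 2) ^ (k - i.2) := by
        apply Finset.sum_le_sum
        intro k hk
        rw [Finset.mem_Ico] at hk
        refine le_trans ?_ (hlevel k hk.1)
        apply Finset.sum_le_sum_of_subset_of_nonneg
        · intro j hj
          rw [Finset.mem_filter, Finset.mem_filter] at hj
          rw [Finset.mem_filter]
          exact ⟨hj.1.1, hj.2⟩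
        · intro j _ _
          exact abs_nonneg _
    _ = (2 * C * M ^ (n + 4) * (C / c * 2 ^ n * (3 * M) ^ n)) * r i.2 ^ n *
          ∑ m ∈ Finset.range (K - i.2), (1 / 2 : ℝ) ^ m := by
        rw [Finset.sum_Ico_eq_sum_range, Finset.mul_sum]
        apply Finset.sum_congr rfl
        intro m _
        rw [Nat.add_sub_cancel_left]
    _ ≤ (2 * C * M ^ (n + 4) * (C / c * 2 ^ n * (3 * M) ^ n)) * r i.2 ^ n * 2 := by
        have h1 : ∑ m ∈ Finset.range (K - i.2), (1 / 2 : ℝ) ^ m ≤ 2 :=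
          (summable_geometric_two.sum_le_tsum (Finset.range (K - i.2))
            (fun m _ => by positivity)).trans tsum_geometric_two.le
        have := hrpos i.2
        gcongr
    _ = _ := by ring

/-- the full Schur estimate -/
theorem schur_full (n d A : ℕ) (hn : 1 ≤ n) (hA : 2 ≤ A) (c C M : ℝ) (hM : 1 ≤ M) (hc : 0 < c)
    (hC : 0 < C) :
    ∃ Cs : ℝ, 0 < Cs ∧ ∀ (μ : Measure (Eu d)) (D : ℝ≥0∞), AR n c C D μ →
    ∀ (r₀ : ℝ), 0 < r₀ → ∀ (I : Finset (Eu d × ℕ)) (ψ : Eu d × ℕ → Eu d → ℝ),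
      (∀ i ∈ I, i.1 ∈ μ.support ∧ ENNReal.ofReal (r₀ * ((A : ℝ) ^ i.2)⁻¹) ≤ D) →
      (∀ i ∈ I, (∀ x y, |ψ i x - ψ i y| ≤ M / (r₀ * ((A : ℝ) ^ i.2)⁻¹) * dist x y) ∧
        (∀ x, M * (r₀ * ((A : ℝ) ^ i.2)⁻¹) ≤ dist x i.1 → ψ i x = 0) ∧ ∫ x, ψ i x ∂μ = 0) →
      (∀ i ∈ I, ∀ l ∈ I, i ≠ l → i.2 = l.2 → r₀ * ((A : ℝ) ^ i.2)⁻¹ ≤ dist i.1 l.1) →
      ∑ i ∈ I, ∑ j ∈ I, |∫ x, ψ i x * ψ j x ∂μ|
        ≤ Cs * ∑ i ∈ I, (r₀ * ((A : ℝ) ^ i.2)⁻¹) ^ n := by
  obtain ⟨Cs, hCs, hs⟩ := schur_half n d A hn hA c C M hM hc hC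
  refine ⟨2 * Cs, by positivity, ?_⟩
  intro μ D h r₀ hr₀ I ψ hI hψ hsep
  have hhalf : ∑ i ∈ I, ∑ j ∈ I with i.2 ≤ j.2, |∫ x, ψ i x * ψ j x ∂μ|
      ≤ ∑ i ∈ I, Cs * (r₀ * ((A : ℝ) ^ i.2)⁻¹) ^ n :=
    Finset.sum_le_sum fun i hi => hs μ D h r₀ hr₀ I ψ hI hψ hsep i hi
  have hhalf' : ∑ i ∈ I, ∑ j ∈ I with j.2 ≤ i.2, |∫ x, ψ i x * ψ j x ∂μ| =
      ∑ i ∈ I, ∑ j ∈ I with i.2 ≤ j.2, |∫ x, ψ i x * ψ j x ∂μ| := by
    simp_rw [Finset.sum_filter]
    rw [Finset.sum_comm]
    apply Finset.sum_congr rfl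
    intro i _
    apply Finset.sum_congr rfl
    intro j _
    have : ∫ x, ψ j x * ψ i x ∂μ = ∫ x, ψ i x * ψ j x ∂μ := by
      congr 1; funext x; ring
    rw [this]
  have hsplit : ∑ i ∈ I, ∑ j ∈ I, |∫ x, ψ i x * ψ j x ∂μ| ≤
      ∑ i ∈ I, ∑ j ∈ I with i.2 ≤ j.2, |∫ x, ψ i x * ψ j x ∂μ| +
      ∑ i ∈ I, ∑ j ∈ I with j.2 ≤ i.2, |∫ x, ψ i x * ψ j x ∂μ| := by
    rw [← Finset.sum_add_distrib]
    apply Finset.sum_le_sum
    intro i _
    rw [Finset.sum_filter, Finset.sum_filter, ← Finset.sum_add_distrib]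
    apply Finset.sum_le_sum
    intro j _
    have h0 : 0 ≤ |∫ x, ψ i x * ψ j x ∂μ| := abs_nonneg _
    rcases le_total i.2 j.2 with hij | hij
    · rw [if_pos hij]
      split_ifs <;> linarith only [h0]
    · rw [if_pos hij]
      split_ifs <;> linarith only [h0]
  rw [hhalf'] at hsplit
  rw [← Finset.mul_sum] at hhalf
  linarith only [hhalf, hsplit]

/-- Lemma 1. `A ≥ 2` is the scale ratio. -/
theorem packing (n d A : ℕ) (hn : 1 ≤ n) (hA : 2 ≤ A) (c C C₁ M : ℝ) (hM : 1 ≤ M) :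
    ∃ Cp : ℝ, 0 < Cp ∧ ∀ (μ : Measure (Eu d)) (D : ℝ≥0∞), AR n c C D μ → RB n C₁ μ →
    ∀ (x₀ : Eu d) (r₀ : ℝ) (θ : Eu d → ℝ), 0 < r₀ → LipC θ → (∀ x, 0 ≤ θ x ∧ θ x ≤ 1) →
      (∀ x, 8 * r₀ ≤ dist x x₀ → θ x = 0) →
    ∀ (I : Finset (Eu d × ℕ)),
      (∀ i ∈ I, i.1 ∈ μ.support ∧ dist i.1 x₀ ≤ r₀ ∧
        ENNReal.ofReal (r₀ * ((A : ℝ) ^ i.2)⁻¹) ≤ D ∧
        ¬ Good n M μ θ i.1 (r₀ * ((A : ℝ) ^ i.2)⁻¹)) →
      (∀ i ∈ I, ∀ l ∈ I, i ≠ l → i.2 = l.2 → r₀ * ((A : ℝ) ^ i.2)⁻¹ ≤ dist i.1 l.1) →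
      ∑ i ∈ I, (r₀ * ((A : ℝ) ^ i.2)⁻¹) ^ n ≤ Cp * r₀ ^ n := by
  have hM0 : 0 < M := by linarith only [hM]
  by_cases hc : 0 < c
  swap
  · exact ⟨1, one_pos, fun μ D h => absurd h.c_pos hc⟩
  by_cases hC : 0 < C
  swap
  · exact ⟨1, one_pos, fun μ D h => absurd h.C_pos hC⟩
  obtain ⟨Cs, hCs, hschur⟩ := schur_full n d A hn hA c C M hM hc hC
  refine ⟨(M * d * C₁) ^ 2 * Cs * (C * 8 ^ n) + 1, by (clear * - hC hCs; positivity), ?_⟩
  intro μ D h hb x₀ r₀ θ hr₀ hθ hθ01 hθ8 I hI hsep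
  have := h.isLocallyFiniteMeasure
  have hA0 : (0 : ℝ) < (A : ℝ) := by
    have : (2 : ℝ) ≤ (A : ℝ) := by exact_mod_cast hA
    linarith only [this]
  have hr : ∀ k : ℕ, 0 < r₀ * ((A : ℝ) ^ k)⁻¹ := fun k => by positivity
  -- choose the test functions
  have hex : ∀ i : Eu d × ℕ, ∃ ψ : Eu d → ℝ, i ∈ I →
      (∀ x y, |ψ x - ψ y| ≤ M / (r₀ * ((A : ℝ) ^ i.2)⁻¹) * dist x y) ∧
      (∀ x, M * (r₀ * ((A : ℝ) ^ i.2)⁻¹) ≤ dist x i.1 → ψ x = 0) ∧ ∫ x, ψ x ∂μ = 0 ∧
      (r₀ * ((A : ℝ) ^ i.2)⁻¹) ^ n / M < ‖form n 0 μ ψ θ‖ := by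
    intro i
    by_cases hi : i ∈ I
    · have := (hI i hi).2.2.2
      unfold Good at this
      push Not at this
      obtain ⟨ψ, h1, h2, h3, h4⟩ := this
      exact ⟨ψ, fun _ => ⟨h1, h2, h3, h4⟩⟩
    · exact ⟨0, fun hi' => absurd hi' hi⟩
  choose ψ hψ using hex
  have hLip : ∀ i ∈ I, LipC (ψ i) := fun i hi => lipC_of_bound (hψ i hi).1 (hψ i hi).2.1
  set X : ℝ := ∑ i ∈ I, (r₀ * ((A : ℝ) ^ i.2)⁻¹) ^ n with hX
  have hX0 : 0 ≤ X := Finset.sum_nonneg fun i _ => by positivity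
  have hsch := hschur μ D h r₀ hr₀ I ψ (fun i hi => ⟨(hI i hi).1, (hI i hi).2.2.1⟩)
    (fun i hi => ⟨(hψ i hi).1, (hψ i hi).2.1, (hψ i hi).2.2.1⟩) hsep
  -- the norm of theta
  have hθ2 : ∫ x, θ x ^ 2 ∂μ ≤ C * (8 * r₀) ^ n := by
    have e1 : ∫ x, θ x ^ 2 ∂μ = ∫ x in closedBall x₀ (8 * r₀), θ x ^ 2 ∂μ := by
      rw [setIntegral_eq_integral_of_forall_compl_eq_zero]
      intro x hx
      rw [mem_closedBall, not_le] at hx
      rw [hθ8 x hx.le]
      norm_num
    rw [e1]
    have e2 := norm_setIntegral_le_of_norm_le_const (μ := μ) (s := closedBall x₀ (8 * r₀))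
      (f := fun x => θ x ^ 2) (C := 1) (h.measure_ball_lt_top x₀ (8 * r₀)) (by
        intro x _
        rw [Real.norm_eq_abs, abs_of_nonneg (sq_nonneg _)]
        exact pow_le_one₀ (hθ01 x).1 (hθ01 x).2)
    rw [one_mul] at e2
    refine (le_abs_self _).trans (e2.trans ?_)
    exact ENNReal.toReal_le_of_le_ofReal (by positivity) (h.upper x₀ (8 * r₀) (by positivity))
  -- the direction vectors
  set u : Eu d × ℕ → Eu d := fun i => (‖form n 0 μ (ψ i) θ‖)⁻¹ • form n 0 μ (ψ i) θ with hu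
  have hu1 : ∀ i ∈ I, ∀ k : Fin d, |u i k| ≤ 1 := by
    intro i _ k
    have h1 : ‖u i k‖ ≤ ‖u i‖ := PiLp.norm_apply_le (u i) k
    rw [Real.norm_eq_abs] at h1
    refine h1.trans ?_
    simp only [hu]
    rw [norm_smul, norm_inv, norm_norm]
    exact inv_mul_le_one
  have hnorm : ∀ i ∈ I, ‖form n 0 μ (ψ i) θ‖ = ∑ k : Fin d, u i k * (form n 0 μ (ψ i) θ) k := by
    intro i _
    have h1 := EuclideanSpace.real_norm_sq_eq (form n 0 μ (ψ i) θ)
    simp only [hu]
    by_cases hz : ‖form n 0 μ (ψ i) θ‖ = 0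
    · rw [hz]
      simp only [inv_zero, zero_smul, PiLp.zero_apply, zero_mul, Finset.sum_const_zero]
    · have : ∀ k : Fin d, ((‖form n 0 μ (ψ i) θ‖)⁻¹ • form n 0 μ (ψ i) θ) k *
          (form n 0 μ (ψ i) θ) k = (‖form n 0 μ (ψ i) θ‖)⁻¹ * (form n 0 μ (ψ i) θ) k ^ 2 := by
        intro k
        rw [PiLp.smul_apply, smul_eq_mul]
        ring
      simp_rw [this]
      rw [← Finset.mul_sum, ← h1]
      field_simp
  have hsum1 : X / M ≤ ∑ i ∈ I, ‖form n 0 μ (ψ i) θ‖ := by
    rw [hX, Finset.sum_div]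
    exact Finset.sum_le_sum fun i hi => (hψ i hi).2.2.2.le
  have hsum2 : ∑ i ∈ I, ‖form n 0 μ (ψ i) θ‖ =
      ∑ k : Fin d, (form n 0 μ (fun x => ∑ i ∈ I, u i k * ψ i x) θ) k := by
    rw [Finset.sum_congr rfl hnorm, Finset.sum_comm]
    apply Finset.sum_congr rfl
    intro k _
    rw [form_sum_left hn h I (fun i => u i k) ψ hLip hθ 0 le_rfl]
    simp only [WithLp.ofLp_sum, WithLp.ofLp_smul, Finset.sum_apply, Pi.smul_apply, smul_eq_mul]
  have hsum3 : ∀ k : Fin d, (form n 0 μ (fun x => ∑ i ∈ I, u i k * ψ i x) θ) k ≤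
      C₁ * Real.sqrt (Cs * X) * Real.sqrt (C * (8 * r₀) ^ n) := by
    intro k
    have h1 : ‖(form n 0 μ (fun x => ∑ i ∈ I, u i k * ψ i x) θ) k‖ ≤
        ‖form n 0 μ (fun x => ∑ i ∈ I, u i k * ψ i x) θ‖ := PiLp.norm_apply_le _ k
    rw [Real.norm_eq_abs] at h1
    refine (le_abs_self _).trans (h1.trans ?_)
    refine (RB.zero hn h hb (LipC.sum I (fun i => u i k) ψ hLip) hθ).trans ?_
    have h2 := integral_sq_sum_le (μ := μ) I (fun i => u i k) (fun i hi => hu1 i hi k) ψ hLip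
    have hC₁ := hb.1
    gcongr
    exact h2.trans hsch
  have hsum4 : X / M ≤ d * (C₁ * Real.sqrt (Cs * X) * Real.sqrt (C * (8 * r₀) ^ n)) := by
    refine hsum1.trans ?_
    rw [hsum2]
    refine (Finset.sum_le_sum fun k _ => hsum3 k).trans ?_
    rw [Finset.sum_const, Finset.card_univ, Fintype.card_fin, nsmul_eq_mul]
  have hfin : X ^ 2 ≤ (M * d * C₁) ^ 2 * (Cs * X) * (C * (8 * r₀) ^ n) := by
    have h1 : X ≤ M * (d * (C₁ * Real.sqrt (Cs * X) * Real.sqrt (C * (8 * r₀) ^ n))) := by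
      rw [div_le_iff₀ hM0] at hsum4
      linarith only [hsum4]
    calc X ^ 2 ≤ (M * (d * (C₁ * Real.sqrt (Cs * X) * Real.sqrt (C * (8 * r₀) ^ n)))) ^ 2 := by
          (clear * - hA hr₀ h1; gcongr)
      _ = (M * d * C₁) ^ 2 * (Real.sqrt (Cs * X)) ^ 2 * (Real.sqrt (C * (8 * r₀) ^ n)) ^ 2 := by
          ring
      _ = _ := by
          rw [Real.sq_sqrt (by (clear * - hA hCs hr₀; positivity)), Real.sq_sqrt (by positivity)]
  rcases hX0.eq_or_lt with hX00 | hXpos
  · rw [← hX00]; (clear * - hC hCs hr₀; positivity)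
  · have h2 : X ≤ (M * d * C₁) ^ 2 * Cs * (C * (8 * r₀) ^ n) := by
      have : X * X ≤ ((M * d * C₁) ^ 2 * Cs * (C * (8 * r₀) ^ n)) * X := by
        nlinarith only [hfin]
      exact le_of_mul_le_mul_right this hXpos
    refine h2.trans ?_
    rw [mul_pow 8 r₀]
    have h3 : 0 ≤ r₀ ^ n := by positivity
    linarith only [h3]

end Vale.Agent.P120
end
end

section

section

/-! The Liouville theorem in `L^2_loc`. -/

open MeasureTheory Metric Set Filter Topology ContinuousLinearMap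
open scoped ENNReal NNReal ContDiff Convolution

namespace Vale.Agent.P120.Liou

variable {n : ℕ}

theorem moll_affine (hn : 1 ≤ n) {φ : ContDiffBump (0 : Eu n)} (hφ : φ.rOut ≤ 1) {h : Eu n → ℝ}
    (hm : Measurable h) (hint : ∀ R : ℝ, IntegrableOn (fun x => h x ^ 2) (ball (0 : Eu n) R))
    {A : ℝ} (hA : 0 ≤ A)
    (growth : ∀ R : ℝ, 1 ≤ R → ∫ x in ball (0 : Eu n) R, h x ^ 2 ≤ A * R ^ (n + 3))
    (hw : WeakSol h) : ∃ (a : Eu n) (b : ℝ), ∀ x, moll φ h x = b + inner ℝ a x := by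
  have hs := moll_contDiff φ (locInt_of_sq hm hint)
  have hT := TW_of_growth hm hint hA growth
  have hg := Mw_growth_int hφ hm hint hA growth
  obtain ⟨B, hB, h1⟩ := Mw_growth hs.continuous.measurable (integrableOn_sq hs.continuous 0)
    (by positivity) hg
  have hsol : Sol (moll φ h) := ⟨hs, fin_of_Mw hs.continuous.measurable
    ((h1 1 le_rfl).trans_lt ENNReal.ofReal_lt_top), moll_weak hn hφ hm hT hw⟩
  exact smooth_liouville hn hsol hg

/-- a.e. limits of affine functions are affine -/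
theorem affine_of_ae_limit {h : Eu n → ℝ} {T : ℕ → Eu n → ℝ}
    (hT : ∀ k, ∃ (a : Eu n) (b : ℝ), ∀ x, T k x = b + inner ℝ a x)
    (hlim : ∀ᵐ x, Tendsto (fun k => T k x) atTop (𝓝 (h x))) :
    ∃ (b : ℝ) (a : Eu n), ∀ᵐ x, h x = b + inner ℝ a x := by
  choose a b hab using hT
  have hconv : ∀ x, ∃ l : ℝ, Tendsto (fun k => T k x) atTop (𝓝 l) := by
    intro x
    have h2 : ∀ᵐ s : Eu n, Tendsto (fun k => T k ((2 : ℝ) • x - s)) atTop
        (𝓝 (h ((2 : ℝ) • x - s))) := by
      have hq := (Measure.measurePreserving_sub_left (volume : Measure (Eu n))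
        ((2 : ℝ) • x)).quasiMeasurePreserving
      exact hq.ae hlim
    obtain ⟨s, hs1, hs2⟩ := (hlim.and h2).exists
    refine ⟨(h s + h ((2 : ℝ) • x - s)) / 2, ?_⟩
    have h3 := (hs1.add hs2).div_const 2
    refine h3.congr (fun k => ?_)
    rw [hab, hab, hab, inner_sub_right, inner_smul_right]
    ring
  choose L hL using hconv
  have hadd : ∀ x y, L (x + y) - L 0 = (L x - L 0) + (L y - L 0) := by
    intro x y
    have h1 : Tendsto (fun k => T k (x + y) - T k 0) atTop (𝓝 (L (x + y) - L 0)) :=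
      (hL _).sub (hL _)
    have h2 : Tendsto (fun k => (T k x - T k 0) + (T k y - T k 0)) atTop
        (𝓝 ((L x - L 0) + (L y - L 0))) := ((hL _).sub (hL _)).add ((hL _).sub (hL _))
    refine tendsto_nhds_unique h1 (h2.congr (fun k => ?_))
    rw [hab, hab, hab, hab, inner_add_right, inner_zero_right]
    ring
  have hsmul : ∀ (t : ℝ) x, L (t • x) - L 0 = t * (L x - L 0) := by
    intro t x
    have h1 : Tendsto (fun k => T k (t • x) - T k 0) atTop (𝓝 (L (t • x) - L 0)) :=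
      (hL _).sub (hL _)
    have h2 : Tendsto (fun k => t * (T k x - T k 0)) atTop
        (𝓝 (t * (L x - L 0))) := ((hL _).sub (hL _)).const_mul t
    refine tendsto_nhds_unique h1 (h2.congr (fun k => ?_))
    rw [hab, hab, hab, inner_smul_right, inner_zero_right]
    ring
  let ℓ : Eu n →ₗ[ℝ] ℝ :=
    { toFun := fun x => L x - L 0
      map_add' := hadd
      map_smul' := fun t x => by simpa using hsmul t x }
  let ℓc : Eu n →L[ℝ] ℝ := LinearMap.toContinuousLinearMap ℓ
  refine ⟨L 0, (InnerProductSpace.toDual ℝ (Eu n)).symm ℓc, ?_⟩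
  filter_upwards [hlim] with x hx
  rw [InnerProductSpace.toDual_symm_apply]
  have h1 : h x = L x := tendsto_nhds_unique hx (hL x)
  have h2 : ℓc x = L x - L 0 := rfl
  rw [h1, h2]
  ring

/-- the mollifiers -/
noncomputable def mb (n k : ℕ) : ContDiffBump (0 : Eu n) :=
  ⟨1 / (2 * ((k : ℝ) + 1)), 1 / ((k : ℝ) + 1), by positivity, by
    apply one_div_lt_one_div_of_lt
    · positivity
    · have : (0 : ℝ) < (k : ℝ) + 1 := by positivity
      linarith⟩

theorem liouville_meas (hn : 1 ≤ n) {h : Eu n → ℝ} (hm : Measurable h)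
    (hint : ∀ R : ℝ, IntegrableOn (fun x => h x ^ 2) (ball (0 : Eu n) R)) {A : ℝ}
    (growth : ∀ R : ℝ, 1 ≤ R → ∫ x in ball (0 : Eu n) R, h x ^ 2 ≤ A * R ^ (n + 3))
    (hw : WeakSol h) : ∃ (b : ℝ) (a : Eu n), ∀ᵐ x, h x = b + inner ℝ a x := by
  have hA : 0 ≤ A := by
    have h1 := growth 1 le_rfl
    have h2 : 0 ≤ ∫ x in ball (0 : Eu n) 1, h x ^ 2 := integral_nonneg fun x => sq_nonneg _
    simp only [one_pow, mul_one] at h1
    linarith only [h2, h1]
  apply affine_of_ae_limit (T := fun k => moll (mb n k) h)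
  · intro k
    apply moll_affine hn _ hm hint hA growth hw
    show 1 / ((k : ℝ) + 1) ≤ 1
    rw [div_le_one (by positivity)]
    have : (0 : ℝ) ≤ k := Nat.cast_nonneg k
    linarith only []
  · have := ContDiffBump.ae_convolution_tendsto_right_of_locallyIntegrable
      (μ := (volume : Measure (Eu n))) (φ := fun k => mb n k) (l := atTop) (K := 2) (g := h)
      (by
        show Tendsto (fun k : ℕ => 1 / ((k : ℝ) + 1)) atTop (𝓝 0)
        exact tendsto_one_div_add_atTop_nhds_zero_nat)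
      (Eventually.of_forall fun k => by
        show 1 / ((k : ℝ) + 1) ≤ 2 * (1 / (2 * ((k : ℝ) + 1)))
        apply le_of_eq
        field_simp)
      (locInt_of_sq hm hint)
    exact this

theorem continuous_farK {ψ : Eu n → ℝ} (hψ : Continuous ψ) (hc : HasCompactSupport ψ) :
    Continuous (farK ψ) := by
  obtain ⟨B, hB⟩ := exists_bound hψ hc
  unfold farK
  apply continuous_of_dominated (bound := fun z => B * fker z)
  · intro x
    exact ((hψ.comp (continuous_const.add continuous_id)).aestronglyMeasurable).mul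
      measurable_fker.aestronglyMeasurable
  · intro x
    refine Eventually.of_forall fun z => ?_
    rw [Real.norm_eq_abs, abs_mul, abs_of_nonneg (fker_nonneg z)]
    exact mul_le_mul_of_nonneg_right (hB _) (fker_nonneg z)
  · exact integrable_fker.const_mul B
  · refine Eventually.of_forall fun z => ?_
    exact (hψ.comp (continuous_id.add continuous_const)).mul continuous_const

theorem continuous_nearK (hn : 1 ≤ n) {ψ : Eu n → ℝ} (hψ : ContDiff ℝ ∞ ψ)
    (hc : HasCompactSupport ψ) : Continuous (nearK ψ) := by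
  obtain ⟨D, hD, hsd⟩ := sd_bound hψ hc
  unfold nearK
  apply continuous_of_dominated (bound := fun z => D * (‖z‖ ^ 2 * nker z))
  · intro x
    exact ((continuous_sd hψ.continuous).comp
      (Continuous.prodMk continuous_const continuous_id)).aestronglyMeasurable.mul
      measurable_nker.aestronglyMeasurable
  · intro x
    refine Eventually.of_forall fun z => ?_
    rw [Real.norm_eq_abs, abs_mul, abs_of_nonneg (nker_nonneg z), ← mul_assoc]
    exact mul_le_mul_of_nonneg_right (hsd x z) (nker_nonneg z)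
  · exact (integrable_sq_nker hn).const_mul D
  · refine Eventually.of_forall fun z => ?_
    exact ((continuous_sd hψ.continuous).comp
      (Continuous.prodMk continuous_id continuous_const)).mul continuous_const

theorem continuous_Lam (hn : 1 ≤ n) {φ : Eu n → ℝ} (hφ : ContDiff ℝ ∞ φ)
    (hc : HasCompactSupport φ) : Continuous (Lam φ) := by
  have e : Lam φ = fun x => nearK φ x + kfar n * φ x - farK φ x := by
    funext x; exact Lam_eq hn hφ hc x
  rw [e]
  exact ((continuous_nearK hn hφ hc).add (hφ.continuous.const_mul _)).sub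
    (continuous_farK hφ.continuous hc)

theorem farK_bound1 {ψ : Eu n → ℝ} (hψ : Continuous ψ) (hc : HasCompactSupport ψ) :
    ∃ B : ℝ, 0 ≤ B ∧ ∀ x, |farK ψ x| ≤ B * ((1 + ‖x‖) ^ (n + 1))⁻¹ := by
  obtain ⟨ρ, hρ, hs⟩ := exists_radius hc
  have hψi : Integrable ψ := hψ.integrable_of_hasCompactSupport hc
  have hI0 : 0 ≤ ∫ y, |ψ y| := integral_nonneg fun y => abs_nonneg _
  refine ⟨(1 + 2 * ρ) ^ (n + 1) * (2 ^ (n + 1) * 2 ^ (n + 1)) * ∫ y, |ψ y|, by positivity,
    fun x => ?_⟩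
  have hone : (1 : ℝ) ≤ 2 ^ (n + 1) * 2 ^ (n + 1) := by
    have : (1 : ℝ) ≤ 2 ^ (n + 1) := one_le_pow₀ (by norm_num)
    nlinarith only [this]
  have key : ∀ y, |ψ y| * fker (y - x) ≤
      |ψ y| * ((1 + 2 * ρ) ^ (n + 1) * (2 ^ (n + 1) * 2 ^ (n + 1)) * ((1 + ‖x‖) ^ (n + 1))⁻¹) := by
    intro y
    rcases lt_or_ge ρ ‖y‖ with hy | hy
    · rw [hs y hy]; simp
    · apply mul_le_mul_of_nonneg_left _ (abs_nonneg _)
      rcases le_or_gt ‖x‖ (2 * ρ) with hx | hx
      · refine (fker_le_one _).trans ?_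
        have h2 : 1 ≤ (1 + 2 * ρ) ^ (n + 1) * ((1 + ‖x‖) ^ (n + 1))⁻¹ := by
          rw [← div_eq_mul_inv, one_le_div (by positivity)]
          exact pow_le_pow_left₀ (by positivity) (by linarith only [hx]) _
        calc (1 : ℝ) ≤ ((1 + 2 * ρ) ^ (n + 1) * ((1 + ‖x‖) ^ (n + 1))⁻¹) * 1 := by
              rw [mul_one]; exact h2
          _ ≤ ((1 + 2 * ρ) ^ (n + 1) * ((1 + ‖x‖) ^ (n + 1))⁻¹) *
              (2 ^ (n + 1) * 2 ^ (n + 1)) := by gcongr
          _ = _ := by ring
      · have hx1 : 0 < ‖x‖ := by linarith only [hρ, hx]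
        have h1 : ‖x‖ / 2 ≤ ‖y - x‖ := by
          have := norm_sub_norm_le x y
          rw [norm_sub_rev] at this
          linarith only [hy, hx, this]
        have h2 : fker (y - x) ≤ ((‖x‖ / 2) ^ (n + 1))⁻¹ := by
          have h3 : fker (y - x) ≤ ker (y - x) := by
            have := nker_add_fker (y - x)
            have := nker_nonneg (y - x)
            linarith
          refine h3.trans ?_
          unfold ker
          apply inv_anti₀ (by positivity)
          exact pow_le_pow_left₀ (by positivity) h1 _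
        refine h2.trans ?_
        have h4 : ((‖x‖ / 2) ^ (n + 1))⁻¹ ≤
            (2 ^ (n + 1) * 2 ^ (n + 1)) * ((1 + ‖x‖) ^ (n + 1))⁻¹ := by
          rw [← mul_pow, ← div_eq_mul_inv, ← div_pow, ← inv_pow]
          apply pow_le_pow_left₀ (by positivity)
          rw [inv_div, div_le_div_iff₀ hx1 (by positivity)]
          linarith only [hρ, hx]
        refine h4.trans ?_
        have h5 : (1 : ℝ) ≤ (1 + 2 * ρ) ^ (n + 1) := one_le_pow₀ (by linarith only [hρ])
        calc _ = 1 * ((2 ^ (n + 1) * 2 ^ (n + 1)) * ((1 + ‖x‖) ^ (n + 1))⁻¹) := by ring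
          _ ≤ (1 + 2 * ρ) ^ (n + 1) * ((2 ^ (n + 1) * 2 ^ (n + 1)) * ((1 + ‖x‖) ^ (n + 1))⁻¹) := by
            gcongr
          _ = _ := by ring
  rw [farK_eq, ← Real.norm_eq_abs]
  calc _ ≤ ∫ y, |ψ y| * ((1 + 2 * ρ) ^ (n + 1) * (2 ^ (n + 1) * 2 ^ (n + 1)) *
        ((1 + ‖x‖) ^ (n + 1))⁻¹) := by
        apply norm_integral_le_of_norm_le (hψi.abs.mul_const _)
        refine Eventually.of_forall fun y => ?_
        rw [Real.norm_eq_abs, abs_mul, abs_of_nonneg (fker_nonneg _)]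
        exact key y
    _ = _ := by rw [integral_mul_const]; ring

theorem Lam_decay1 (hn : 1 ≤ n) {φ : Eu n → ℝ} (hφ : ContDiff ℝ ∞ φ) (hc : HasCompactSupport φ) :
    ∃ B : ℝ, ∀ x, |Lam φ x| ≤ B * ((1 + ‖x‖) ^ (n + 1))⁻¹ := by
  obtain ⟨B, hB, h2⟩ := nearpart_decay hn hφ hc (n + 1)
  obtain ⟨C, hC, h1⟩ := farK_bound1 hφ.continuous hc
  refine ⟨B + C, fun x => ?_⟩
  rw [Lam_eq hn hφ hc]
  calc |nearK φ x + kfar n * φ x - farK φ x| ≤ |nearK φ x + kfar n * φ x| + |farK φ x| :=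
        abs_sub _ _
    _ ≤ _ := add_le_add (h2 x) (h1 x)
    _ = _ := by ring

end Vale.Agent.P120.Liou
end
end

section

section

/-! Fourier-free Liouville theorem on `R^n` (Lemma 7').
Owner module: LIOU -/

open MeasureTheory Metric Set Filter Topology
open scoped ENNReal NNReal

namespace Vale.Agent.P120

/-- the operator `(-Δ)^{1/2}` up to a constant, on smooth functions -/
noncomputable def fracL (n : ℕ) (φ : Eu n → ℝ) (x : Eu n) : ℝ :=
  ∫ z, (φ x - (φ (x + z) + φ (x - z)) / 2) * (‖z‖ ^ (n + 1))⁻¹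

/-- basic bound: `fracL φ` is bounded with decay `|x|^{-n-1}`, and `|x|^{-n-2}` if `∫ φ = 0` -/
theorem fracL_bound (n : ℕ) (hn : 1 ≤ n) (φ : Eu n → ℝ) (hφ : ContDiff ℝ (⊤ : ℕ∞) φ)
    (hφ' : HasCompactSupport φ) :
    (∃ B : ℝ, ∀ x, |fracL n φ x| ≤ B * ((1 + ‖x‖) ^ (n + 1))⁻¹) ∧
    (∫ x, φ x = 0 → ∃ B : ℝ, ∀ x, |fracL n φ x| ≤ B * ((1 + ‖x‖) ^ (n + 2))⁻¹) ∧
    Continuous (fracL n φ) := by
  refine ⟨Liou.Lam_decay1 hn hφ hφ', fun h0 => ?_, Liou.continuous_Lam hn hφ hφ'⟩
  obtain ⟨B, _, hB⟩ := Liou.Lam_decay hn hφ hφ' h0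
  exact ⟨B, hB⟩

/-- Liouville theorem for `(-Δ)^{1/2} h = const`, growth less than quadratic in `L^2` average. -/
theorem liouville (n : ℕ) (hn : 1 ≤ n) (h : Eu n → ℝ)
    (hloc : ∀ R : ℝ, MemLp h 2 (volume.restrict (ball 0 R))) (A : ℝ)
    (growth : ∀ R : ℝ, 1 ≤ R → ∫ x in ball (0 : Eu n) R, h x ^ 2 ≤ A * R ^ (n + 3))
    (weak : ∀ φ : Eu n → ℝ, ContDiff ℝ (⊤ : ℕ∞) φ → HasCompactSupport φ → ∫ x, φ x = 0 →
      ∫ x, h x * fracL n φ x = 0) :
    ∃ (b : ℝ) (a : Eu n), ∀ᵐ x, h x = b + inner ℝ a x := by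
  have hae : AEStronglyMeasurable h (volume : Measure (Eu n)) := by
    have h1 : AEStronglyMeasurable h ((volume : Measure (Eu n)).restrict
        (⋃ k : ℕ, ball (0 : Eu n) k)) :=
      aestronglyMeasurable_iUnion_iff.mpr fun k => (hloc k).aestronglyMeasurable
    rwa [iUnion_ball_nat, Measure.restrict_univ] at h1
  set g := hae.mk h with hg
  have hgm : Measurable g := hae.stronglyMeasurable_mk.measurable
  have heq : h =ᵐ[volume] g := hae.ae_eq_mk
  have hint : ∀ R : ℝ, IntegrableOn (fun x => g x ^ 2) (ball (0 : Eu n) R) := by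
    intro R
    refine (hloc R).integrable_sq.congr ?_
    filter_upwards [ae_restrict_of_ae heq] with x hx
    rw [hx]
  have hgr : ∀ R : ℝ, 1 ≤ R → ∫ x in ball (0 : Eu n) R, g x ^ 2 ≤ A * R ^ (n + 3) := by
    intro R hR
    refine le_trans (le_of_eq ?_) (growth R hR)
    apply integral_congr_ae
    filter_upwards [ae_restrict_of_ae heq] with x hx
    rw [hx]
  have hw : Liou.WeakSol g := by
    intro φ hφ hc h0
    rw [← weak φ hφ hc h0]
    apply integral_congr_ae
    filter_upwards [heq] with x hx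
    rw [hx]
    rfl
  obtain ⟨b, a, hab⟩ := Liou.liouville_meas hn hgm hint hgr hw
  refine ⟨b, a, ?_⟩
  filter_upwards [heq, hab] with x h1 h2
  rw [h1, h2]

/-- volume of the unit ball of `R^n` -/
noncomputable def kap (n : ℕ) : ℝ := (volume (ball (0 : Eu n) 1)).toReal

end Vale.Agent.P120
end
end

section

section

/-! The Caccioppoli inequality for general upper regular measures. Complete (no sorry).
Owner module: CACC (helper829) -/

open MeasureTheory Metric Set Filter Topology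
open scoped ENNReal NNReal InnerProductSpace

namespace Vale.Agent.P120

variable {d : ℕ}

/-- upper regularity at all centres -/
def UpReg (n : ℕ) (C : ℝ) (ν : Measure (Eu d)) : Prop :=
  ∀ (x : Eu d) (r : ℝ), 0 < r → ν (closedBall x r) ≤ ENNReal.ofReal (C * r ^ n)

theorem UpReg.isLocallyFiniteMeasure {n : ℕ} {C : ℝ} {ν : Measure (Eu d)} (h : UpReg n C ν) :
    IsLocallyFiniteMeasure ν := by
  refine ⟨fun x => ⟨closedBall x 1, closedBall_mem_nhds x one_pos, ?_⟩⟩
  exact (h x 1 one_pos).trans_lt ENNReal.ofReal_lt_top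

theorem sq_mul_sK_le (n : ℕ) (hn : 1 ≤ n) (z : Eu d) :
    ‖z‖ ^ 2 * sK n 0 z ≤ (‖z‖ ^ (n - 1))⁻¹ := by
  rw [sK_zero_eq]
  rcases eq_or_ne z 0 with rfl | hz
  · simp only [norm_zero]
    rw [zero_pow two_ne_zero, zero_mul]
    positivity
  · have hz' : 0 < ‖z‖ := norm_pos_iff.2 hz
    obtain ⟨k, rfl⟩ : ∃ k, n = k + 1 := ⟨n - 1, by omega⟩
    rw [Nat.add_sub_cancel]
    apply le_of_eq
    field_simp
    ring

end Vale.Agent.P120
end
end

section

section

/-! Comparison of measures on `R^n` from comparison on balls.  Owner: helper829 -/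

open MeasureTheory Metric Set Filter Topology
open scoped ENNReal NNReal InnerProductSpace

namespace Vale.Agent.P120

variable {n : ℕ}

/-- index of the grid cube of side `s` containing `x` -/
noncomputable def gridIdx (s : ℝ) (x : Eu n) (i : Fin n) : ℤ := ⌊x i / s⌋

/-- centre of the grid cube -/
noncomputable def gridCtr (s : ℝ) (k : Fin n → ℤ) : Eu n :=
  WithLp.toLp 2 (fun i => s * ((k i : ℝ) + 1 / 2))

theorem abs_coord_le_norm (x : Eu n) (i : Fin n) : |x i| ≤ ‖x‖ := by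
  have := EuclideanSpace.norm_eq x
  rw [this]
  apply Real.le_sqrt_of_sq_le
  rw [← Real.norm_eq_abs]
  exact Finset.single_le_sum (f := fun i => ‖x i‖ ^ 2) (fun i _ => sq_nonneg _) (Finset.mem_univ i)

theorem norm_le_of_coord (x : Eu n) (A : ℝ) (hA : 0 ≤ A) (h : ∀ i, |x i| ≤ A) : ‖x‖ ≤ n * A := by
  rw [EuclideanSpace.norm_eq]
  rw [Real.sqrt_le_left (by positivity)]
  calc ∑ i, ‖x i‖ ^ 2 ≤ ∑ _i : Fin n, A ^ 2 :=
        Finset.sum_le_sum fun i _ => by
          rw [Real.norm_eq_abs]; exact pow_le_pow_left₀ (abs_nonneg _) (h i) 2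
    _ = n * A ^ 2 := by simp only [Finset.sum_const, Finset.card_univ, Fintype.card_fin,
                          nsmul_eq_mul]
    _ ≤ (n * A) ^ 2 := by
        rw [mul_pow]
        have : (n : ℝ) ≤ (n : ℝ) ^ 2 := by
          rcases Nat.eq_zero_or_pos n with h0 | h0
          · simp [h0]
          · have h1 : (1 : ℝ) ≤ n := by exact_mod_cast h0
            nlinarith only [h1]
        gcongr

theorem dist_gridCtr_le (s : ℝ) (hs : 0 < s) (x : Eu n) :
    dist x (gridCtr s (gridIdx s x)) ≤ n * (s / 2) := by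
  rw [dist_eq_norm]
  refine norm_le_of_coord _ _ (by positivity) fun i => ?_
  have h1 : (x - gridCtr s (gridIdx s x)) i = x i - s * ((⌊x i / s⌋ : ℝ) + 1 / 2) := by
    simp only [gridCtr, gridIdx, one_div, PiLp.sub_apply]
  rw [h1]
  have h2 := Int.floor_le (x i / s)
  have h3 := (Int.lt_floor_add_one (x i / s)).le
  rw [le_div_iff₀ hs] at h2
  rw [div_le_iff₀ hs] at h3
  rw [abs_le]
  constructor <;> nlinarith only [h2, h3]

theorem gridIdx_of_mem_ball (s : ℝ) (hs : 0 < s) (k : Fin n → ℤ) (x : Eu n)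
    (hx : x ∈ ball (gridCtr s k) (s / 2)) : gridIdx s x = k := by
  funext i
  rw [mem_ball, dist_eq_norm] at hx
  have h1 := (abs_coord_le_norm (x - gridCtr s k) i).trans_lt hx
  have h2 : (x - gridCtr s k) i = x i - s * ((k i : ℝ) + 1 / 2) := by simp [gridCtr]
  rw [h2, abs_lt] at h1
  unfold gridIdx
  rw [Int.floor_eq_iff]
  constructor
  · rw [le_div_iff₀ hs]; nlinarith only [h1.1, h1]
  · rw [div_lt_iff₀ hs]; nlinarith only [h1.2, h1]

/-- comparison on compact sets inside open sets -/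
theorem compact_le_of_balls (hn : 1 ≤ n) (α β : Measure (Eu n)) (K : ℝ≥0∞)
    (h : ∀ (x : Eu n) (s : ℝ), 0 < s → α (closedBall x (n * s)) ≤ K * β (ball x (s / 2)))
    (A U : Set (Eu n)) (hA : IsCompact A) (hU : IsOpen U) (hAU : A ⊆ U) :
    α A ≤ K * β U := by
  obtain ⟨ε, hε, hεU⟩ := hA.exists_thickening_subset_open hU hAU
  have hn' : (1 : ℝ) ≤ n := by exact_mod_cast hn
  set s : ℝ := ε / (2 * n) with hs
  have hs0 : 0 < s := by positivity
  let I : Set (Fin n → ℤ) := {k | ∃ x ∈ A, gridIdx s x = k}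
  have hcov : A ⊆ ⋃ k : I, closedBall (gridCtr s (k : Fin n → ℤ)) (n * s) := by
    intro x hx
    refine mem_iUnion.2 ⟨⟨gridIdx s x, x, hx, rfl⟩, ?_⟩
    rw [mem_closedBall]
    refine (dist_gridCtr_le s hs0 x).trans ?_
    have : (0 : ℝ) ≤ n * s := by positivity
    linarith only [this]
  have hdisj : Pairwise (Function.onFun Disjoint
      fun k : I => ball (gridCtr s (k : Fin n → ℤ)) (s / 2)) := by
    intro k l hkl
    refine disjoint_left.2 fun x hx hx' => hkl ?_
    apply Subtype.ext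
    rw [← gridIdx_of_mem_ball s hs0 _ x hx, ← gridIdx_of_mem_ball s hs0 _ x hx']
  have hsub : (⋃ k : I, ball (gridCtr s (k : Fin n → ℤ)) (s / 2)) ⊆ U := by
    refine iUnion_subset fun k x hx => hεU ?_
    obtain ⟨k, a, ha, rfl⟩ := k
    rw [mem_thickening_iff]
    refine ⟨a, ha, ?_⟩
    have h1 := dist_gridCtr_le s hs0 a
    rw [mem_ball] at hx
    simp only at hx
    have h2 := dist_triangle_right x a (gridCtr s (gridIdx s a))
    have h3 : (n : ℝ) * s = ε / 2 := by rw [hs]; field_simp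
    have h4 : s ≤ n * s := by nlinarith only [hn', hs0]
    linarith
  calc α A ≤ α (⋃ k : I, closedBall (gridCtr s (k : Fin n → ℤ)) (n * s)) := measure_mono hcov
    _ ≤ ∑' k : I, α (closedBall (gridCtr s (k : Fin n → ℤ)) (n * s)) := measure_iUnion_le _
    _ ≤ ∑' k : I, K * β (ball (gridCtr s (k : Fin n → ℤ)) (s / 2)) :=
        ENNReal.tsum_le_tsum fun k => h _ s hs0
    _ = K * ∑' k : I, β (ball (gridCtr s (k : Fin n → ℤ)) (s / 2)) := ENNReal.tsum_mul_left
    _ = K * β (⋃ k : I, ball (gridCtr s (k : Fin n → ℤ)) (s / 2)) := by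
        rw [measure_iUnion hdisj fun k => measurableSet_ball]
    _ ≤ K * β U := by (clear * - hsub; gcongr)

/-- comparison of measures from comparison on balls -/
theorem le_smul_of_balls (hn : 1 ≤ n) (α β : Measure (Eu n)) [IsLocallyFiniteMeasure α]
    [IsLocallyFiniteMeasure β] (K : ℝ≥0∞) (hK : K ≠ ⊤)
    (h : ∀ (x : Eu n) (s : ℝ), 0 < s → α (closedBall x (n * s)) ≤ K * β (ball x (s / 2))) :
    α ≤ K • β := by
  have hcomp : ∀ A : Set (Eu n), IsCompact A → α A ≤ K * β A := by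
    intro A hA
    refine ENNReal.le_of_forall_pos_le_add fun ε hε _ => ?_
    have hε' : (ε : ℝ≥0∞) / (K + 1) ≠ 0 := by
      refine (ENNReal.div_pos ?_ ?_).ne'
      · exact_mod_cast hε.ne'
      · exact ENNReal.add_ne_top.2 ⟨hK, ENNReal.one_ne_top⟩
    obtain ⟨U, hAU, hUo, hU⟩ := A.exists_isOpen_le_add β hε'
    calc α A ≤ K * β U := compact_le_of_balls hn α β K h A U hA hUo hAU
      _ ≤ K * (β A + ε / (K + 1)) := by (clear * - hU; gcongr)
      _ = K * β A + K * (ε / (K + 1)) := mul_add _ _ _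
      _ ≤ K * β A + ε := by
        gcongr
        calc K * (ε / (K + 1)) ≤ (K + 1) * (ε / (K + 1)) := by gcongr; exact le_self_add
          _ = ε := ENNReal.mul_div_cancel (by simp) (ENNReal.add_ne_top.2 ⟨hK, ENNReal.one_ne_top⟩)
  rw [Measure.le_iff]
  intro A hA
  rw [Measure.smul_apply, smul_eq_mul, hA.measure_eq_iSup_isCompact α]
  refine iSup_le fun A' => iSup_le fun hA' => iSup_le fun hA'c => ?_
  calc α A' ≤ K * β A' := hcomp A' hA'c
    _ ≤ K * β A := by (clear * - hA'; gcongr)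

end Vale.Agent.P120
end
end

section

section

/-! The limits of the height measures live on the plane and have `L^1` growth.
Owner: helper892 -/

open MeasureTheory Metric Set Filter Topology
open scoped ENNReal NNReal

namespace Vale.Agent.P120

variable {d n : ℕ} {c C : ℝ}

theorem icut_one {S : ℝ} (hS : 0 < S) {x : Eu d} (hx : ‖x‖ ≤ S) : cut 0 S x = 1 := by
  have h1 : dist x 0 / S ≤ 1 := by
    rw [dist_zero_right, div_le_one hS]; exact hx
  unfold cut
  rw [min_eq_left (by linarith only [h1]), max_eq_right zero_le_one]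

theorem icut_zero {S : ℝ} (hS : 0 < S) {x : Eu d} (hx : 2 * S ≤ ‖x‖) :
    cut 0 S x = 0 := by
  have h1 : 2 ≤ dist x 0 / S := by
    rw [dist_zero_right, le_div_iff₀ hS]; exact hx
  unfold cut
  rw [max_eq_left]
  exact (min_le_right _ _).trans (by linarith only [h1])

theorem icut_nonneg (a : Eu d) (S : ℝ) (x : Eu d) : 0 ≤ cut a S x := le_max_left _ _

theorem icut_le_one (a : Eu d) (S : ℝ) (x : Eu d) : cut a S x ≤ 1 := by
  unfold cut
  exact max_le zero_le_one (min_le_left _ _)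

theorem icut_cont (a : Eu d) (S : ℝ) : Continuous (cut a S) := by
  unfold cut
  fun_prop

theorem AR.real_ball_le {D : ℝ≥0∞} {μ : Measure (Eu d)} (h : AR n c C D μ) {R : ℝ} (hR : 0 < R) :
    μ.real (closedBall 0 R) ≤ C * R ^ n := by
  have hC := h.C_pos
  exact ENNReal.toReal_le_of_le_ofReal (by positivity) (h.upper 0 R hR)

theorem Ht.l1_growth {A : ℝ} {ν : Measure (Eu d)} {h : Eu d → ℝ} (hν : AR n c C ⊤ ν)
    (H : Ht n A ν h) {R : ℝ} (hR : 1 ≤ R) :
    ∫ x in closedBall (0 : Eu d) R, |h x| ∂ν ≤ (A + C) / 2 * (R ^ (n + 1) * Real.sqrt R) := by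
  have hR0 : 0 < R := by linarith only [hR]
  have hlf := hν.isLocallyFiniteMeasure
  have hcont := H.continuous
  have hs : 0 < Real.sqrt R := Real.sqrt_pos.2 hR0
  have hss : Real.sqrt R * Real.sqrt R = R := Real.mul_self_sqrt hR0.le
  set lam : ℝ := (R * Real.sqrt R)⁻¹ with hlam
  have hlampos : 0 < lam := by positivity
  have hfin : ν (closedBall (0 : Eu d) R) < ⊤ := (isCompact_closedBall _ _).measure_lt_top
  have i1 : IntegrableOn (fun x => |h x|) (closedBall 0 R) ν :=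
    hcont.abs.continuousOn.integrableOn_compact (isCompact_closedBall _ _)
  have i2 : IntegrableOn (fun x => h x ^ 2) (closedBall 0 R) ν :=
    (hcont.pow 2).continuousOn.integrableOn_compact (isCompact_closedBall _ _)
  have i3 : IntegrableOn (fun _ : Eu d => lam⁻¹ / 2) (closedBall 0 R) ν :=
    integrableOn_const hfin.ne
  have h1 : ∫ x in closedBall (0 : Eu d) R, |h x| ∂ν ≤
      ∫ x in closedBall (0 : Eu d) R, (lam / 2 * h x ^ 2 + lam⁻¹ / 2) ∂ν := by
    apply integral_mono i1 ((i2.const_mul _).add i3)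
    intro x
    have h2 : 0 ≤ (lam * |h x| - 1) ^ 2 := sq_nonneg _
    have h3 : |h x| ^ 2 = h x ^ 2 := sq_abs _
    have h4 : lam⁻¹ * lam = 1 := inv_mul_cancel₀ hlampos.ne'
    have h5 : 0 ≤ lam⁻¹ * (lam * |h x| - 1) ^ 2 := by (clear * - hR; positivity)
    have h6 : lam⁻¹ * (lam * |h x| - 1) ^ 2 = lam * h x ^ 2 - 2 * |h x| + lam⁻¹ := by
      rw [← h3]
      field_simp
      ring
    simp only [Pi.add_apply]
    linarith only [h5, h6]
  rw [integral_add (i2.const_mul _) i3, integral_const_mul] at h1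
  have h7 := H.growth R hR
  have h8 : ∫ _ in closedBall (0 : Eu d) R, lam⁻¹ / 2 ∂ν ≤ lam⁻¹ / 2 * (C * R ^ n) := by
    rw [setIntegral_const, smul_eq_mul, mul_comm]
    exact mul_le_mul_of_nonneg_left (hν.real_ball_le hR0) (by positivity)
  have h9 : lam / 2 * ∫ x in closedBall (0 : Eu d) R, h x ^ 2 ∂ν ≤
      lam / 2 * (A * R ^ (n + 3)) := mul_le_mul_of_nonneg_left h7 (by positivity)
  have h10 : lam / 2 * (A * R ^ (n + 3)) = A / 2 * (R ^ (n + 1) * Real.sqrt R) := by
    have : R ^ (n + 3) = R ^ (n + 1) * (R * (Real.sqrt R * Real.sqrt R)) := by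
      rw [hss]; ring
    rw [this, hlam]
    (clear * - hR; field_simp)
  have h11 : lam⁻¹ / 2 * (C * R ^ n) = C / 2 * (R ^ (n + 1) * Real.sqrt R) := by
    rw [hlam, inv_inv]; ring
  linarith

section
variable {A : ℝ} {𝒰 : Ultrafilter ℕ} {ν : ℕ → Measure (Eu d)}
    {ν' : Measure (Eu d)} {ι : Eu n →ₗᵢ[ℝ] Eu d} {g : ℝ} {h : ℕ → Eu d → ℝ}
    {σp σm : Measure (Eu d)}

/-- reversed roles of the signs -/
theorem Ht.neg {A : ℝ} {ν : Measure (Eu d)} {h : Eu d → ℝ} (H : Ht n A ν h) :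
    Ht n A ν (fun x => -h x) where
  A_nonneg := H.A_nonneg
  lip := by
    obtain ⟨L, hL⟩ := H.lip
    exact ⟨L, hL.neg⟩
  growth := by
    intro R hR
    simpa only [even_two, Even.neg_pow] using H.growth R hR
  weak := by
    intro ψ hψ hψ0
    have h1 := (H.weak ψ hψ hψ0).neg
    rw [neg_zero] at h1
    refine h1.congr ?_
    intro S
    unfold hform
    rw [← mul_neg, ← integral_neg]
    congr 2
    funext p
    ring

theorem ImpSeq.neg (H : ImpSeq n c C A 𝒰 ν ν' ι g h σp σm) :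
    ImpSeq n c C A 𝒰 ν ν' ι g (fun k x => -h k x) σm σp where
  ar := H.ar
  zero_mem := H.zero_mem
  vl := H.vl
  ar' := H.ar'
  g_pos := H.g_pos
  planar := H.planar
  ht := fun k => (H.ht k).neg
  vlp := H.vlm
  vlm := by simpa using H.vlp
  lfp := H.lfm
  lfm := H.lfp

/-- functions vanishing on the plane have zero integral -/
theorem ImpSeq.integral_eq_zero (H : ImpSeq n c C A 𝒰 ν ν' ι g h σp σm) (f : Eu d → ℝ)
    (hf : Continuous f) (R : ℝ) (hR : 1 ≤ R) (hfR : ∀ x, R < ‖x‖ → f x = 0)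
    (hf0 : ∀ x, 0 ≤ f x) (hfι : ∀ v, f (ι v) = 0) : ∫ x, f x ∂σp = 0 := by
  have hcs : HasCompactSupport f := hasCompactSupport_of_ball hfR
  have hA := (H.ht 0).A_nonneg
  have hnn : 0 ≤ ∫ x, f x ∂σp := integral_nonneg hf0
  have hR0 : 0 < R := by linarith
  have key : ∀ δ : ℝ, 0 < δ → ∫ x, f x ∂σp ≤ δ / 2 * (A * R ^ (n + 3)) := by
    intro δ hδ
    have h1 := H.vlp f hf hcs
    have hf2 : Continuous (fun x => f x ^ 2) := hf.pow 2
    have hcs2 : HasCompactSupport (fun x => f x ^ 2) :=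
      hasCompactSupport_of_ball (R := R) (fun x hx => by rw [hfR x hx]; norm_num)
    have h2 := H.vl (fun x => f x ^ 2) hf2 hcs2
    have h3 : ∫ x, f x ^ 2 ∂ν' = 0 := by
      rw [H.planar _ hf2 hcs2]
      simp [hfι]
    rw [h3] at h2
    have h4 : Tendsto (fun k => δ / 2 * (A * R ^ (n + 3)) + (2 * δ)⁻¹ * ∫ x, f x ^ 2 ∂(ν k))
        (𝒰 : Filter ℕ) (𝓝 (δ / 2 * (A * R ^ (n + 3)))) := by
      simpa only [mul_inv_rev, mul_zero,
        add_zero] using (h2.const_mul ((2 * δ)⁻¹)).const_add (δ / 2 * (A * R ^ (n + 3)))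
    refine le_of_tendsto_of_tendsto' h1 h4 ?_
    intro k
    have hc : Continuous (h k) := (H.ht k).continuous
    have := (H.ar k).isLocallyFiniteMeasure
    have e1 := integral_withDensity_pos (μ := ν k) (h := h k) (f := f) hc.measurable
    simp only at e1 ⊢
    rw [e1]
    have i2 : IntegrableOn (fun x => h k x ^ 2) (closedBall 0 R) (ν k) :=
      (hc.pow 2).continuousOn.integrableOn_compact (isCompact_closedBall _ _)
    have i3 : Integrable (fun x => f x ^ 2) (ν k) := hf2.integrable_of_hasCompactSupport hcs2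
    have i1 : Integrable (fun x => max (h k x) 0 * f x) (ν k) :=
      ((hc.max continuous_const).mul hf).integrable_of_hasCompactSupport hcs.mul_left
    have h5 : ∫ x, max (h k x) 0 * f x ∂(ν k) =
        ∫ x in closedBall (0 : Eu d) R, max (h k x) 0 * f x ∂(ν k) := by
      symm
      apply setIntegral_eq_integral_of_forall_compl_eq_zero
      intro x hx
      rw [hfR x (by simpa only [mem_closedBall, dist_zero_right, not_le] using hx), mul_zero]
    rw [h5]
    have h6 : ∫ x in closedBall (0 : Eu d) R, max (h k x) 0 * f x ∂(ν k) ≤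
        ∫ x in closedBall (0 : Eu d) R, (δ / 2 * h k x ^ 2 + (2 * δ)⁻¹ * f x ^ 2) ∂(ν k) := by
      apply integral_mono i1.integrableOn ((i2.const_mul _).add (i3.const_mul _).integrableOn)
      intro x
      simp only [Pi.add_apply]
      have hm : max (h k x) 0 ^ 2 ≤ h k x ^ 2 := by
        rcases le_total (h k x) 0 with h0 | h0
        · rw [max_eq_right h0]; simpa only [ne_eq, OfNat.ofNat_ne_zero, not_false_eq_true,
                                  zero_pow] using sq_nonneg (h k x)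
        · rw [max_eq_left h0]
      have h7 : 0 ≤ (2 * δ)⁻¹ * (δ * max (h k x) 0 - f x) ^ 2 := by (clear * - hδ; positivity)
      have h8 : (2 * δ)⁻¹ * (δ * max (h k x) 0 - f x) ^ 2 =
          δ / 2 * max (h k x) 0 ^ 2 - max (h k x) 0 * f x + (2 * δ)⁻¹ * f x ^ 2 := by
        field_simp
        ring
      have h9 : δ / 2 * max (h k x) 0 ^ 2 ≤ δ / 2 * h k x ^ 2 :=
        mul_le_mul_of_nonneg_left hm (by positivity)
      linarith
    refine h6.trans ?_
    rw [integral_add (i2.const_mul _) (i3.const_mul _).integrableOn, integral_const_mul,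
      integral_const_mul]
    have h10 := (H.ht k).growth R hR
    have h11 : ∫ x in closedBall (0 : Eu d) R, f x ^ 2 ∂(ν k) ≤ ∫ x, f x ^ 2 ∂(ν k) :=
      setIntegral_le_integral i3 (ae_of_all _ fun x => sq_nonneg _)
    have h12 : δ / 2 * ∫ x in closedBall (0 : Eu d) R, h k x ^ 2 ∂(ν k) ≤
        δ / 2 * (A * R ^ (n + 3)) := mul_le_mul_of_nonneg_left h10 (by positivity)
    have h13 : (2 * δ)⁻¹ * ∫ x in closedBall (0 : Eu d) R, f x ^ 2 ∂(ν k) ≤
        (2 * δ)⁻¹ * ∫ x, f x ^ 2 ∂(ν k) := mul_le_mul_of_nonneg_left h11 (by positivity)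
    linarith
  apply le_antisymm _ hnn
  apply le_of_forall_pos_le_add
  intro ε hε
  set Q : ℝ := A * R ^ (n + 3) with hQ
  have hQ0 : 0 ≤ Q := by (clear * - hR hA; positivity)
  have := key (2 * ε / (Q + 1)) (by (clear * - hR hA hε; positivity))
  refine this.trans ?_
  rw [zero_add]
  have h14 : 2 * ε / (Q + 1) / 2 * Q = ε * (Q / (Q + 1)) := by (clear * - hε hQ0; field_simp)
  rw [h14]
  have h15 : Q / (Q + 1) ≤ 1 := by
    rw [div_le_one (by positivity)]; linarith only []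
  nlinarith only [hε, h15]

theorem isClosed_range_isometry (ι : Eu n →ₗᵢ[ℝ] Eu d) : IsClosed (Set.range ι) :=
  ι.isometry.isClosedEmbedding.isClosed_range

/-- the limits live on the plane -/
theorem ImpSeq.null_compl (H : ImpSeq n c C A 𝒰 ν ν' ι g h σp σm) :
    σp (Set.range ι)ᶜ = 0 := by
  have hlf := H.lfp
  have hne : (Set.range ι).Nonempty := ⟨ι 0, 0, rfl⟩
  set F : ℕ → Eu d → ℝ := fun j x => min 1 (infDist x (Set.range ι)) * cut 0 (j + 1) x with hF
  have hFc : ∀ j, Continuous (F j) := fun j =>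
    (continuous_const.min (continuous_infDist_pt _)).mul (icut_cont _ _)
  have hF0 : ∀ j x, 0 ≤ F j x := fun j x =>
    mul_nonneg (le_min zero_le_one infDist_nonneg) (icut_nonneg _ _ _)
  have hFR : ∀ (j : ℕ) (x : Eu d), (2 * ((j : ℝ) + 1)) < ‖x‖ → F j x = 0 := by
    intro j x hx
    simp only [hF]
    rw [icut_zero (by (clear * -; positivity)) hx.le, mul_zero]
  have hFι : ∀ j v, F j (ι v) = 0 := by
    intro j v
    simp only [hF]
    rw [infDist_zero_of_mem (Set.mem_range_self v)]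
    simp only [zero_le_one, inf_of_le_right, zero_mul]
  have h1 : ∀ j, ∫ x, F j x ∂σp = 0 := fun j =>
    H.integral_eq_zero (F j) (hFc j) (2 * ((j : ℝ) + 1)) (by
      have : (0 : ℝ) ≤ j := Nat.cast_nonneg j
      linarith only []) (hFR j) (hF0 j) (hFι j)
  have h2 : ∀ j, F j =ᵐ[σp] 0 := by
    intro j
    have hi : Integrable (F j) σp :=
      (hFc j).integrable_of_hasCompactSupport (hasCompactSupport_of_ball (hFR j))
    exact (integral_eq_zero_iff_of_nonneg (hF0 j) hi).1 (h1 j)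
  have h3 : ∀ᵐ x ∂σp, ∀ j, F j x = 0 := ae_all_iff.2 fun j => h2 j
  have h4 : ∀ᵐ x ∂σp, x ∈ Set.range ι := by
    filter_upwards [h3] with x hx
    obtain ⟨j, hj⟩ := exists_nat_gt ‖x‖
    have h5 := hx j
    simp only [hF] at h5
    rw [icut_one (by positivity) (by linarith only [hj] : ‖x‖ ≤ (j : ℝ) + 1), mul_one] at h5
    have h6 : infDist x (Set.range ι) = 0 := by
      rcases min_choice (1 : ℝ) (infDist x (Set.range ι)) with h7 | h7
      · rw [h7] at h5; norm_num at h5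
      · rw [h7] at h5; exact h5
    have h8 : x ∈ closure (Set.range ι) := (mem_closure_iff_infDist_zero hne).2 h6
    rwa [(isClosed_range_isometry ι).closure_eq] at h8
  exact h4

/-- growth of the limits -/
theorem ImpSeq.growth (H : ImpSeq n c C A 𝒰 ν ν' ι g h σp σm) {R : ℝ} (hR : 1 ≤ R) :
    σp (closedBall 0 R) ≤
      ENNReal.ofReal ((A + C) / 2 * ((2 * R) ^ (n + 1) * Real.sqrt (2 * R))) := by
  have hlf := H.lfp
  have hR0 : 0 < R := by linarith only [hR]
  have hcs : HasCompactSupport (cut (0 : Eu d) R) :=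
    hasCompactSupport_of_ball (R := 2 * R) (fun x hx => icut_zero hR0 hx.le)
  have hcc : Continuous (cut (0 : Eu d) R) := icut_cont _ _
  have hfin : σp (closedBall (0 : Eu d) R) ≠ ⊤ := (isCompact_closedBall _ _).measure_lt_top.ne
  have h1 : σp.real (closedBall 0 R) ≤ ∫ x, cut 0 R x ∂σp := by
    have e1 : σp.real (closedBall 0 R) = ∫ x in closedBall (0 : Eu d) R, (1 : ℝ) ∂σp := by
      simp only [integral_const, MeasurableSet.univ, measureReal_restrict_apply, univ_inter,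
        smul_eq_mul, mul_one]
    have e2 : ∫ x in closedBall (0 : Eu d) R, (1 : ℝ) ∂σp =
        ∫ x in closedBall (0 : Eu d) R, cut 0 R x ∂σp := by
      apply setIntegral_congr_fun measurableSet_closedBall
      intro x hx
      rw [icut_one hR0 (by simpa only [mem_closedBall, dist_zero_right] using hx)]
    rw [e1, e2]
    exact setIntegral_le_integral (hcc.integrable_of_hasCompactSupport hcs)
      (ae_of_all _ fun x => icut_nonneg _ _ _)
  have h2 : ∫ x, cut 0 R x ∂σp ≤ (A + C) / 2 * ((2 * R) ^ (n + 1) * Real.sqrt (2 * R)) := by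
    refine le_of_tendsto' (H.vlp _ hcc hcs) ?_
    intro k
    have hc : Continuous (h k) := (H.ht k).continuous
    have := (H.ar k).isLocallyFiniteMeasure
    have e1 := integral_withDensity_pos (μ := ν k) (h := h k) (f := cut 0 R) hc.measurable
    simp only at e1 ⊢
    rw [e1]
    have h5 : ∫ x, max (h k x) 0 * cut 0 R x ∂(ν k) =
        ∫ x in closedBall (0 : Eu d) (2 * R), max (h k x) 0 * cut 0 R x ∂(ν k) := by
      symm
      apply setIntegral_eq_integral_of_forall_compl_eq_zero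
      intro x hx
      have hx' : 2 * R < ‖x‖ := by simpa only [mem_closedBall, dist_zero_right, not_le] using hx
      rw [icut_zero hR0 hx'.le, mul_zero]
    rw [h5]
    refine le_trans ?_ ((H.ht k).l1_growth (H.ar k) (by linarith only [hR] : 1 ≤ 2 * R))
    apply integral_mono
    · exact (((hc.max continuous_const).mul hcc).continuousOn).integrableOn_compact
        (isCompact_closedBall _ _)
    · exact (hc.abs.continuousOn).integrableOn_compact (isCompact_closedBall _ _)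
    · intro x
      simp only
      have h6 : max (h k x) 0 ≤ |h k x| := max_le (le_abs_self _) (abs_nonneg _)
      calc max (h k x) 0 * cut 0 R x ≤ |h k x| * 1 :=
            mul_le_mul h6 (icut_le_one _ _ _) (icut_nonneg _ _ _) (abs_nonneg _)
        _ = |h k x| := mul_one _
  rw [← ENNReal.ofReal_toReal hfin]
  exact ENNReal.ofReal_le_ofReal (h1.trans h2)

end

end Vale.Agent.P120
end
end

section

section

/-! Vague limits along an ultrafilter.  Owner module: VLIM -/

open MeasureTheory Metric Set Filter Topology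
open scoped ENNReal NNReal RealInnerProductSpace

namespace Vale.Agent.P120

variable {d n : ℕ}

/-- Uniform local boundedness of a sequence of measures. -/
def ULB (μ : ℕ → Measure (Eu d)) : Prop :=
  ∀ R : ℝ, ∃ B : ℝ≥0, ∀ k, μ k (closedBall 0 R) ≤ B

theorem ULB.locallyFinite {μ : ℕ → Measure (Eu d)} (h : ULB μ) (k : ℕ) :
    IsLocallyFiniteMeasure (μ k) := by
  refine ⟨fun x => ?_⟩
  obtain ⟨B, hB⟩ := h (‖x‖ + 1)
  refine ⟨closedBall 0 (‖x‖ + 1), ?_, (hB k).trans_lt ENNReal.coe_lt_top⟩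
  refine mem_of_superset (ball_mem_nhds x one_pos) ?_
  intro y hy
  rw [mem_ball, dist_eq_norm] at hy
  rw [mem_closedBall, dist_zero_right]
  calc ‖y‖ = ‖(y - x) + x‖ := by rw [sub_add_cancel]
    _ ≤ ‖y - x‖ + ‖x‖ := norm_add_le _ _
    _ ≤ ‖x‖ + 1 := by linarith

/-- integral of a compactly supported function is bounded by sup norm times mass -/
theorem abs_integral_le_of_ball {μ : Measure (Eu d)} {f : Eu d → ℝ} {R M : ℝ} {B : ℝ≥0}
    (hB : μ (closedBall 0 R) ≤ B) (hM : ∀ x, |f x| ≤ M) (hR : ∀ x, x ∉ closedBall 0 R → f x = 0) :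
    |∫ x, f x ∂μ| ≤ M * B := by
  have hM0 : 0 ≤ M := (abs_nonneg _).trans (hM 0)
  have h1 : ∫ x, f x ∂μ = ∫ x in closedBall 0 R, f x ∂μ :=
    (setIntegral_eq_integral_of_forall_compl_eq_zero hR).symm
  rw [h1, ← Real.norm_eq_abs]
  have h2 : ‖∫ x in closedBall 0 R, f x ∂μ‖ ≤ M * (μ (closedBall 0 R)).toReal :=
    norm_setIntegral_le_of_norm_le_const (hB.trans_lt ENNReal.coe_lt_top) fun x _ => hM x
  refine h2.trans (mul_le_mul_of_nonneg_left ?_ hM0)
  have := ENNReal.toReal_mono ENNReal.coe_ne_top hB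
  simpa only [ge_iff_le, ENNReal.coe_toReal] using this

/-- compactly supported continuous functions: explicit radius and bound -/
theorem exists_bound_of_compactSupport {f : Eu d → ℝ} (hf : Continuous f)
    (hc : HasCompactSupport f) : ∃ R M : ℝ, 0 < R ∧ 0 < M ∧ (∀ x, |f x| ≤ M) ∧
      ∀ x, x ∉ closedBall (0 : Eu d) R → f x = 0 := by
  obtain ⟨M, hM⟩ := hf.bounded_above_of_compact_support hc
  obtain ⟨R, hR⟩ := hc.isCompact.isBounded.subset_closedBall (0 : Eu d)
  refine ⟨max R 1, max M 1, by positivity, by positivity,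
    fun x => (hM x).trans (le_max_left _ _), fun x hx => ?_⟩
  by_contra hne
  exact hx (closedBall_subset_closedBall (le_max_left _ _) (hR (subset_tsupport _ hne)))

/-- real sequences bounded in absolute value converge along an ultrafilter -/
theorem exists_tendsto_of_abs_le (𝒰 : Ultrafilter ℕ) {u : ℕ → ℝ} {M : ℝ} (h : ∀ k, |u k| ≤ M) :
    ∃ l : ℝ, Tendsto u (𝒰 : Filter ℕ) (𝓝 l) := by
  have hcomp : IsCompact (Icc (-M) M) := isCompact_Icc
  have hle : ((𝒰.map u : Ultrafilter ℝ) : Filter ℝ) ≤ 𝓟 (Icc (-M) M) := by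
    rw [Filter.le_principal_iff, Ultrafilter.coe_map, Filter.mem_map]
    refine Filter.univ_mem' fun k => ?_
    exact ⟨(abs_le.1 (h k)).1, (abs_le.1 (h k)).2⟩
  obtain ⟨l, -, hl⟩ := hcomp.ultrafilter_le_nhds _ hle
  exact ⟨l, hl⟩

open CompactlySupported in
/-- Existence of vague limits along an ultrafilter. -/
theorem exists_vagueLim_gen (𝒰 : Ultrafilter ℕ) {μ : ℕ → Measure (Eu d)} (h : ULB μ) :
    ∃ ν : Measure (Eu d), ν.Regular ∧ VagueLim 𝒰 μ ν := by
  have := fun k => h.locallyFinite k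
  have hex : ∀ f : C_c(Eu d, ℝ), ∃ l : ℝ,
      Tendsto (fun k => ∫ x, f x ∂(μ k)) (𝒰 : Filter ℕ) (𝓝 l) := by
    intro f
    obtain ⟨R, M, hR, hM, hfM, hfR⟩ := exists_bound_of_compactSupport f.continuous
      f.hasCompactSupport
    obtain ⟨B, hB⟩ := h R
    exact exists_tendsto_of_abs_le 𝒰 (M := M * B) fun k =>
      abs_integral_le_of_ball (hB k) hfM hfR
  choose L hL using hex
  let Λ : C_c(Eu d, ℝ) →ₚ[ℝ] ℝ :=
  { toFun f := L f
    map_add' f g := by
      refine tendsto_nhds_unique (hL (f + g)) ?_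
      have h1 := (hL f).add (hL g)
      refine h1.congr fun k => ?_
      rw [← integral_add f.integrable g.integrable]
      rfl
    map_smul' c f := by
      refine tendsto_nhds_unique (hL (c • f)) ?_
      have h1 := (hL f).const_mul c
      refine h1.congr fun k => ?_
      rw [← integral_const_mul]
      rfl
    monotone' f g hfg := by
      refine le_of_tendsto_of_tendsto' (hL f) (hL g) fun k => ?_
      exact integral_mono f.integrable g.integrable hfg }
  refine ⟨RealRMK.rieszMeasure Λ, inferInstance, fun f hf hc => ?_⟩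
  let F : C_c(Eu d, ℝ) := ⟨⟨f, hf⟩, hc⟩
  have h1 := RealRMK.integral_rieszMeasure Λ F
  have h2 : ∫ x, f x ∂(RealRMK.rieszMeasure Λ) = L F := h1
  rw [h2]
  exact hL F

/-- ramp cutoff: `1` on `closedBall a ρ`, `0` off `ball a ρ'` -/
noncomputable def ramp (a : Eu d) (ρ ρ' : ℝ) (x : Eu d) : ℝ :=
  max 0 (min 1 ((ρ' - dist x a) / (ρ' - ρ)))

theorem continuous_ramp (a : Eu d) (ρ ρ' : ℝ) : Continuous (ramp a ρ ρ') := by
  unfold ramp; fun_prop

theorem ramp_nonneg (a : Eu d) (ρ ρ' : ℝ) (x : Eu d) : 0 ≤ ramp a ρ ρ' x := le_max_left _ _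

theorem ramp_le_one (a : Eu d) (ρ ρ' : ℝ) (x : Eu d) : ramp a ρ ρ' x ≤ 1 :=
  max_le zero_le_one (min_le_left _ _)

theorem ramp_eq_one {a : Eu d} {ρ ρ' : ℝ} (h : ρ < ρ') {x : Eu d} (hx : dist x a ≤ ρ) :
    ramp a ρ ρ' x = 1 := by
  have h1 : 1 ≤ (ρ' - dist x a) / (ρ' - ρ) := by
    rw [le_div_iff₀ (by linarith)]; linarith
  rw [ramp, min_eq_left h1, max_eq_right zero_le_one]

theorem ramp_eq_zero {a : Eu d} {ρ ρ' : ℝ} (h : ρ < ρ') {x : Eu d} (hx : ρ' ≤ dist x a) :
    ramp a ρ ρ' x = 0 := by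
  have h1 : (ρ' - dist x a) / (ρ' - ρ) ≤ 0 :=
    div_nonpos_of_nonpos_of_nonneg (by linarith only [hx]) (by linarith)
  rw [ramp, max_eq_left ((min_le_right _ _).trans h1)]

theorem hasCompactSupport_ramp (a : Eu d) {ρ ρ' : ℝ} (h : ρ < ρ') :
    HasCompactSupport (ramp a ρ ρ') := by
  refine HasCompactSupport.intro (isCompact_closedBall a ρ') fun x hx => ?_
  rw [mem_closedBall, not_le] at hx
  exact ramp_eq_zero h hx.le

theorem integrable_of_cc {μ : Measure (Eu d)} [IsLocallyFiniteMeasure μ] {f : Eu d → ℝ}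
    (hf : Continuous f) (hc : HasCompactSupport f) : Integrable f μ :=
  hf.integrable_of_hasCompactSupport hc

theorem measure_le_integral_ramp {μ : Measure (Eu d)} [IsLocallyFiniteMeasure μ] (a : Eu d)
    {ρ ρ' : ℝ} (h : ρ < ρ') :
    (μ (closedBall a ρ)).toReal ≤ ∫ x, ramp a ρ ρ' x ∂μ := by
  have h1 : (μ (closedBall a ρ)).toReal = ∫ x, (closedBall a ρ).indicator 1 x ∂μ :=
    (integral_indicator_one measurableSet_closedBall).symm
  rw [h1]
  refine integral_mono ?_ (integrable_of_cc (continuous_ramp _ _ _) (hasCompactSupport_ramp a h)) ?_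
  · exact (integrable_indicator_iff measurableSet_closedBall).2
      (integrableOn_const (measure_closedBall_lt_top).ne)
  · intro x
    by_cases hx : x ∈ closedBall a ρ
    · simp only [indicator_of_mem hx, Pi.one_apply]
      exact (ramp_eq_one h hx).ge
    · simp only [indicator_of_notMem hx]
      exact ramp_nonneg _ _ _ _

theorem integral_ramp_le_measure {μ : Measure (Eu d)} [IsLocallyFiniteMeasure μ] (a : Eu d)
    {ρ ρ' : ℝ} (h : ρ < ρ') :
    ∫ x, ramp a ρ ρ' x ∂μ ≤ (μ (ball a ρ')).toReal := by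
  have h1 : (μ (ball a ρ')).toReal = ∫ x, (ball a ρ').indicator 1 x ∂μ :=
    (integral_indicator_one measurableSet_ball).symm
  rw [h1]
  refine integral_mono (integrable_of_cc (continuous_ramp _ _ _) (hasCompactSupport_ramp a h)) ?_ ?_
  · exact (integrable_indicator_iff measurableSet_ball).2
      (integrableOn_const (measure_ball_lt_top).ne)
  · intro x
    by_cases hx : x ∈ ball a ρ'
    · simp only [indicator_of_mem hx, Pi.one_apply]
      exact ramp_le_one _ _ _ _
    · simp only [indicator_of_notMem hx]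
      rw [mem_ball, not_lt] at hx
      exact (ramp_eq_zero h hx).le

/-- upper bounds pass to the limit -/
theorem VagueLim.measure_closedBall_le {𝒰 : Ultrafilter ℕ} {μ : ℕ → Measure (Eu d)}
    {ν : Measure (Eu d)} (h : VagueLim 𝒰 μ ν) (hμ : ∀ k, IsLocallyFiniteMeasure (μ k))
    [IsLocallyFiniteMeasure ν] {x : Eu d} {r r' : ℝ} (hr : r < r') {B : ℝ}
    (hB : ∀ᶠ k in (𝒰 : Filter ℕ), μ k (closedBall x r') ≤ ENNReal.ofReal B) :
    ν (closedBall x r) ≤ ENNReal.ofReal B := by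
  have h1 := h _ (continuous_ramp x r r') (hasCompactSupport_ramp x hr)
  have h2 : ∫ y, ramp x r r' y ∂ν ≤ max B 0 := by
    refine le_of_tendsto h1 ?_
    filter_upwards [hB] with k hk
    have := hμ k
    refine (integral_ramp_le_measure x hr).trans ?_
    have h3 : μ k (ball x r') ≤ ENNReal.ofReal B := (measure_mono ball_subset_closedBall).trans hk
    have h4 := ENNReal.toReal_mono ENNReal.ofReal_ne_top h3
    rwa [ENNReal.toReal_ofReal'] at h4
  have h3 : (ν (closedBall x r)).toReal ≤ max B 0 := (measure_le_integral_ramp x hr).trans h2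
  rw [← ENNReal.toReal_ofReal'] at h3
  exact (ENNReal.toReal_le_toReal (measure_closedBall_lt_top).ne ENNReal.ofReal_ne_top).1 h3

/-- lower bounds pass to the limit -/
theorem VagueLim.le_measure_ball {𝒰 : Ultrafilter ℕ} {μ : ℕ → Measure (Eu d)}
    {ν : Measure (Eu d)} (h : VagueLim 𝒰 μ ν) (hμ : ∀ k, IsLocallyFiniteMeasure (μ k))
    [IsLocallyFiniteMeasure ν] {x : Eu d} {r r' : ℝ} (hr : r < r') {B : ℝ}
    (hB : ∀ᶠ k in (𝒰 : Filter ℕ), ENNReal.ofReal B ≤ μ k (closedBall x r)) :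
    ENNReal.ofReal B ≤ ν (ball x r') := by
  have h1 := h _ (continuous_ramp x r r') (hasCompactSupport_ramp x hr)
  have h2 : max B 0 ≤ ∫ y, ramp x r r' y ∂ν := by
    refine ge_of_tendsto h1 ?_
    filter_upwards [hB] with k hk
    have := hμ k
    refine le_trans ?_ (measure_le_integral_ramp x hr)
    have h4 := ENNReal.toReal_mono (measure_closedBall_lt_top).ne hk
    rwa [ENNReal.toReal_ofReal'] at h4
  have h3 : max B 0 ≤ (ν (ball x r')).toReal := h2.trans (integral_ramp_le_measure x hr)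
  rw [← ENNReal.toReal_ofReal'] at h3
  exact (ENNReal.toReal_le_toReal ENNReal.ofReal_ne_top (measure_ball_lt_top).ne).1 h3

theorem tendsto_ofReal_pow_right (C : ℝ) (n : ℕ) (r : ℝ) :
    Tendsto (fun s : ℝ => ENNReal.ofReal (C * s ^ n)) (𝓝[>] r) (𝓝 (ENNReal.ofReal (C * r ^ n))) := by
  have h : Continuous (fun s : ℝ => ENNReal.ofReal (C * s ^ n)) :=
    ENNReal.continuous_ofReal.comp (by fun_prop)
  exact (h.tendsto r).mono_left nhdsWithin_le_nhds

theorem tendsto_ofReal_pow_left (C : ℝ) (n : ℕ) (r : ℝ) :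
    Tendsto (fun s : ℝ => ENNReal.ofReal (C * s ^ n)) (𝓝[<] r) (𝓝 (ENNReal.ofReal (C * r ^ n))) := by
  have h : Continuous (fun s : ℝ => ENNReal.ofReal (C * s ^ n)) :=
    ENNReal.continuous_ofReal.comp (by fun_prop)
  exact (h.tendsto r).mono_left nhdsWithin_le_nhds

theorem VagueLim.upper {𝒰 : Ultrafilter ℕ} {μ : ℕ → Measure (Eu d)}
    {ν : Measure (Eu d)} (h : VagueLim 𝒰 μ ν) (hμ : ∀ k, IsLocallyFiniteMeasure (μ k))
    [IsLocallyFiniteMeasure ν] {C : ℝ}
    (hC : ∀ k (x : Eu d) (r : ℝ), 0 < r → μ k (closedBall x r) ≤ ENNReal.ofReal (C * r ^ n))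
    (x : Eu d) (r : ℝ) (hr : 0 < r) : ν (closedBall x r) ≤ ENNReal.ofReal (C * r ^ n) := by
  refine ge_of_tendsto (tendsto_ofReal_pow_right C n r) ?_
  filter_upwards [self_mem_nhdsWithin] with s hs
  exact h.measure_closedBall_le hμ hs (Eventually.of_forall fun k => hC k x s (hr.trans hs))

/-- a point of the support of the limit is a limit of points of the supports -/
theorem VagueLim.eventually_exists_support {𝒰 : Ultrafilter ℕ} {μ : ℕ → Measure (Eu d)}
    {ν : Measure (Eu d)} (h : VagueLim 𝒰 μ ν) (hμ : ∀ k, IsLocallyFiniteMeasure (μ k))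
    [IsLocallyFiniteMeasure ν] {x : Eu d} (hx : x ∈ ν.support) {δ : ℝ} (hδ : 0 < δ) :
    ∀ᶠ k in (𝒰 : Filter ℕ), ∃ y ∈ (μ k).support, dist y x < δ := by
  by_contra hcon
  rw [← Ultrafilter.eventually_not] at hcon
  have h1 : ν (closedBall x (δ / 4)) ≤ ENNReal.ofReal 0 := by
    refine h.measure_closedBall_le hμ (r' := δ / 2) (by linarith) ?_
    filter_upwards [hcon] with k hk
    push Not at hk
    have h2 : closedBall x (δ / 2) ⊆ (μ k).supportᶜ := by
      intro y hy hy'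
      have := hk y hy'
      rw [mem_closedBall] at hy
      linarith only [hδ, hy, this]
    calc μ k (closedBall x (δ / 2)) ≤ μ k ((μ k).supportᶜ) := measure_mono h2
      _ = 0 := Measure.measure_compl_support
      _ ≤ _ := bot_le
  have h2 := (Measure.mem_support_iff_forall x).1 hx (closedBall x (δ / 4))
    (closedBall_mem_nhds x (by positivity))
  rw [ENNReal.ofReal_zero] at h1
  exact absurd h1 (not_le.2 h2)

/-- limits of points of the supports are in the support of the limit -/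
theorem VagueLim.mem_support {𝒰 : Ultrafilter ℕ} {μ : ℕ → Measure (Eu d)}
    {ν : Measure (Eu d)} (h : VagueLim 𝒰 μ ν) (hμ : ∀ k, IsLocallyFiniteMeasure (μ k))
    [IsLocallyFiniteMeasure ν] {x : Eu d} {xs : ℕ → Eu d}
    (hx : Tendsto xs (𝒰 : Filter ℕ) (𝓝 x))
    (hlow : ∀ r : ℝ, 0 < r → ∃ b : ℝ, 0 < b ∧
      ∀ᶠ k in (𝒰 : Filter ℕ), ENNReal.ofReal b ≤ μ k (ball (xs k) r)) : x ∈ ν.support := by
  rw [Measure.mem_support_iff_forall]
  intro U hU
  obtain ⟨ε, hε, hεU⟩ := Metric.mem_nhds_iff.1 hU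
  obtain ⟨b, hb, hb'⟩ := hlow (ε / 4) (by positivity)
  have h1 : ENNReal.ofReal b ≤ ν (ball x ε) := by
    refine h.le_measure_ball hμ (r := ε / 2) (by linarith only [hε]) ?_
    filter_upwards [hb', hx (ball_mem_nhds x (show 0 < ε / 4 by positivity))] with k hk hk'
    refine hk.trans (measure_mono ?_)
    intro y hy
    rw [mem_ball] at hy
    have hk'' : dist (xs k) x < ε / 4 := hk'
    rw [mem_closedBall]
    linarith [dist_triangle y (xs k) x]
  calc 0 < ENNReal.ofReal b := ENNReal.ofReal_pos.2 hb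
    _ ≤ ν (ball x ε) := h1
    _ ≤ ν U := measure_mono hεU

theorem AR.ulb {c C : ℝ} {D : ℕ → ℝ≥0∞} {μ : ℕ → Measure (Eu d)}
    (hμ : ∀ k, AR n c C (D k) (μ k)) : ULB μ := by
  intro R
  refine ⟨(C * (max R 1) ^ n).toNNReal, fun k => ?_⟩
  refine (measure_mono (closedBall_subset_closedBall (le_max_left R 1))).trans ?_
  exact (hμ k).upper 0 (max R 1) (by positivity)

/-- regularity passes to the limit -/
theorem VagueLim.ar_gen {𝒰 : Ultrafilter ℕ} {μ : ℕ → Measure (Eu d)} {ν : Measure (Eu d)}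
    (h : VagueLim 𝒰 μ ν) [IsLocallyFiniteMeasure ν] {c C : ℝ} {D : ℕ → ℝ≥0∞}
    (hD : Tendsto D (𝒰 : Filter ℕ) (𝓝 ⊤)) (hμ : ∀ k, AR n c C (D k) (μ k)) :
    AR n c C ⊤ ν := by
  have hloc := fun k => (AR.ulb hμ).locallyFinite k
  refine ⟨(hμ 0).c_pos, (hμ 0).C_pos, h.upper hloc fun k => (hμ k).upper, ?_⟩
  intro x hx r hr _
  refine le_of_tendsto (tendsto_ofReal_pow_left c n r) ?_
  have hmem : Ioo 0 r ∈ 𝓝[<] r := Ioo_mem_nhdsLT hr
  filter_upwards [hmem] with ρ hρ
  have hδ : 0 < (r - ρ) / 3 := by linarith only [hρ.2, hρ]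
  refine h.le_measure_ball hloc (r := ρ + (r - ρ) / 3) (by linarith [hρ.2]) ?_
  have hDk : ∀ᶠ k in (𝒰 : Filter ℕ), ENNReal.ofReal ρ < D k :=
    hD.eventually (lt_mem_nhds ENNReal.ofReal_lt_top)
  filter_upwards [h.eventually_exists_support hloc hx hδ, hDk] with k hk hk'
  obtain ⟨y, hy, hyx⟩ := hk
  refine ((hμ k).lower y hy ρ hρ.1 hk'.le).trans (measure_mono ?_)
  intro z hz
  rw [mem_ball] at hz
  rw [mem_closedBall]
  linarith only [dist_triangle z y x, hyx, hz]

/-- support convergence for the regular class -/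
theorem VagueLim.mem_support_of_ar {𝒰 : Ultrafilter ℕ} {μ : ℕ → Measure (Eu d)}
    {ν : Measure (Eu d)} (h : VagueLim 𝒰 μ ν) [IsLocallyFiniteMeasure ν] {c C : ℝ}
    {D : ℕ → ℝ≥0∞} (hD : Tendsto D (𝒰 : Filter ℕ) (𝓝 ⊤)) (hμ : ∀ k, AR n c C (D k) (μ k))
    {x : Eu d} {xs : ℕ → Eu d} (hx : Tendsto xs (𝒰 : Filter ℕ) (𝓝 x))
    (hxs : ∀ᶠ k in (𝒰 : Filter ℕ), xs k ∈ (μ k).support) : x ∈ ν.support := by
  refine h.mem_support (fun k => (AR.ulb hμ).locallyFinite k) hx fun r hr => ?_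
  refine ⟨c * r ^ n, mul_pos (hμ 0).c_pos (pow_pos hr n), ?_⟩
  have hDk : ∀ᶠ k in (𝒰 : Filter ℕ), ENNReal.ofReal r < D k :=
    hD.eventually (lt_mem_nhds ENNReal.ofReal_lt_top)
  filter_upwards [hxs, hDk] with k hk hk'
  exact (hμ k).lower _ hk r hr hk'.le

/-- uniform convergence of the slice integrals -/
theorem VagueLim.uniform_slices {𝒰 : Ultrafilter ℕ} {μ : ℕ → Measure (Eu d)}
    {ν : Measure (Eu d)} (h : VagueLim 𝒰 μ ν) (hμ : ULB μ) [IsLocallyFiniteMeasure ν]
    {F : Eu d × Eu d → ℝ} (hF : Continuous F) (hc : HasCompactSupport F) {ε : ℝ} (hε : 0 < ε) :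
    ∀ᶠ k in (𝒰 : Filter ℕ), ∀ x : Eu d, |∫ y, F (x, y) ∂(μ k) - ∫ y, F (x, y) ∂ν| ≤ ε := by
  have hloc := fun k => hμ.locallyFinite k
  obtain ⟨R, hR0, hR⟩ : ∃ R : ℝ, 0 < R ∧ ∀ p : Eu d × Eu d, F p ≠ 0 →
      p.1 ∈ closedBall (0 : Eu d) R ∧ p.2 ∈ closedBall (0 : Eu d) R := by
    obtain ⟨R, hR⟩ := hc.isCompact.isBounded.subset_closedBall (0 : Eu d × Eu d)
    refine ⟨max R 1, by positivity, fun p hp => ?_⟩
    have h1 := hR (subset_tsupport _ hp)
    rw [mem_closedBall, dist_zero_right, Prod.norm_def] at h1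
    constructor
    · rw [mem_closedBall, dist_zero_right]
      exact (le_max_left _ _).trans (h1.trans (le_max_left _ _))
    · rw [mem_closedBall, dist_zero_right]
      exact (le_max_right _ _).trans (h1.trans (le_max_left _ _))
  obtain ⟨B, hB⟩ := hμ R
  set B' : ℝ≥0 := max B (ν (closedBall 0 R)).toNNReal with hB'
  have hB1 : ∀ k, μ k (closedBall 0 R) ≤ (B' : ℝ≥0∞) := fun k =>
    (hB k).trans (ENNReal.coe_le_coe.2 (le_max_left _ _))
  have hB2 : ν (closedBall 0 R) ≤ (B' : ℝ≥0∞) := by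
    rw [← ENNReal.coe_toNNReal (measure_closedBall_lt_top (μ := ν) (x := 0) (r := R)).ne]
    exact ENNReal.coe_le_coe.2 (le_max_right _ _)
  -- uniform continuity
  have huc : UniformContinuous F := hc.uniformContinuous_of_continuous hF
  set ε' : ℝ := ε / (2 * B' + 1) with hε'
  have hε'0 : 0 < ε' := by (clear * - hε; positivity)
  obtain ⟨δ, hδ, hδF⟩ := Metric.uniformContinuous_iff.1 huc ε' hε'0
  have hslice : ∀ x : Eu d, Continuous (fun y => F (x, y)) := fun x => by fun_prop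
  have hslicec : ∀ x : Eu d, HasCompactSupport (fun y => F (x, y)) := fun x => by
    refine HasCompactSupport.intro (isCompact_closedBall (0 : Eu d) R) fun y hy => ?_
    by_contra hne
    exact hy (hR (x, y) hne).2
  have hdiff : ∀ (m : Measure (Eu d)), IsLocallyFiniteMeasure m →
      m (closedBall 0 R) ≤ (B' : ℝ≥0∞) → ∀ x x' : Eu d, dist x x' < δ →
      |∫ y, F (x, y) ∂m - ∫ y, F (x', y) ∂m| ≤ ε' * B' := by
    intro m hm hmB x x' hxx
    rw [← integral_sub (integrable_of_cc (hslice x) (hslicec x))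
      (integrable_of_cc (hslice x') (hslicec x'))]
    refine abs_integral_le_of_ball hmB (fun y => ?_) (fun y hy => ?_)
    · have h1 : dist (x, y) (x', y) < δ := by
        rw [Prod.dist_eq, dist_self]
        exact max_lt hxx hδ
      have h2 := hδF h1
      rw [Real.dist_eq] at h2
      exact h2.le
    · have h1 : F (x, y) = 0 := by
        by_contra hne
        exact hy (hR (x, y) hne).2
      have h2 : F (x', y) = 0 := by
        by_contra hne
        exact hy (hR (x', y) hne).2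
      rw [h1, h2, sub_zero]
  obtain ⟨t, htsub, ht, hcov⟩ :=
    (isCompact_closedBall (0 : Eu d) R).finite_cover_balls hδ
  have hpt : ∀ᶠ k in (𝒰 : Filter ℕ), ∀ x ∈ t,
      |∫ y, F (x, y) ∂(μ k) - ∫ y, F (x, y) ∂ν| < ε' := by
    rw [Filter.eventually_all_finite ht]
    intro x _
    have h1 := h _ (hslice x) (hslicec x)
    have h2 := Metric.tendsto_nhds.1 h1 ε' hε'0
    simpa [Real.dist_eq] using h2
  filter_upwards [hpt] with k hk x
  by_cases hx : x ∈ closedBall (0 : Eu d) R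
  · obtain ⟨x₀, hx₀, hxx₀⟩ := mem_iUnion₂.1 (hcov hx)
    have h1 := hdiff (μ k) (hloc k) (hB1 k) x x₀ hxx₀
    have h2 := hdiff ν inferInstance hB2 x x₀ hxx₀
    have h3 := hk x₀ hx₀
    have h4 : ε' * (2 * B' + 1) = ε := by rw [hε']; (clear * - hε; field_simp)
    have h5 : |∫ y, F (x, y) ∂(μ k) - ∫ y, F (x, y) ∂ν| ≤
        |∫ y, F (x, y) ∂(μ k) - ∫ y, F (x₀, y) ∂(μ k)| +
        |∫ y, F (x₀, y) ∂(μ k) - ∫ y, F (x₀, y) ∂ν| +
        |∫ y, F (x, y) ∂ν - ∫ y, F (x₀, y) ∂ν| := by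
      rw [abs_sub_comm (∫ y, F (x, y) ∂ν) (∫ y, F (x₀, y) ∂ν)]
      exact (abs_sub_le _ (∫ y, F (x₀, y) ∂ν) _).trans
        (add_le_add_left (abs_sub_le _ (∫ y, F (x₀, y) ∂(μ k)) _) _)
    nlinarith only [h1, h2, h3, h4, h5]
  · have h1 : ∀ y, F (x, y) = 0 := fun y => by
      by_contra hne
      exact hx (hR (x, y) hne).1
    simp only [h1, integral_zero, sub_zero, abs_zero]
    exact hε.le

/-- product integrals converge (two sequences) -/
theorem VagueLim.prod_gen {𝒰 : Ultrafilter ℕ} {μ μ' : ℕ → Measure (Eu d)}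
    {ν ν' : Measure (Eu d)} (h : VagueLim 𝒰 μ ν) (h' : VagueLim 𝒰 μ' ν') (hμ : ULB μ)
    (hμ' : ULB μ') [IsLocallyFiniteMeasure ν] [IsLocallyFiniteMeasure ν']
    {F : Eu d × Eu d → ℝ} (hF : Continuous F) (hc : HasCompactSupport F) :
    Tendsto (fun k => ∫ p, F p ∂((μ k).prod (μ' k))) (𝒰 : Filter ℕ)
      (𝓝 (∫ p, F p ∂(ν.prod ν'))) := by
  have hloc := fun k => hμ.locallyFinite k
  have hloc' := fun k => hμ'.locallyFinite k
  obtain ⟨R, hR0, hR⟩ : ∃ R : ℝ, 0 < R ∧ ∀ p : Eu d × Eu d, F p ≠ 0 →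
      p.1 ∈ closedBall (0 : Eu d) R ∧ p.2 ∈ closedBall (0 : Eu d) R := by
    obtain ⟨R, hR⟩ := hc.isCompact.isBounded.subset_closedBall (0 : Eu d × Eu d)
    refine ⟨max R 1, by positivity, fun p hp => ?_⟩
    have h1 := hR (subset_tsupport _ hp)
    rw [mem_closedBall, dist_zero_right, Prod.norm_def] at h1
    constructor
    · rw [mem_closedBall, dist_zero_right]
      exact (le_max_left _ _).trans (h1.trans (le_max_left _ _))
    · rw [mem_closedBall, dist_zero_right]
      exact (le_max_right _ _).trans (h1.trans (le_max_left _ _))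
  have hslice : ∀ x : Eu d, Continuous (fun y => F (x, y)) := fun x => by fun_prop
  have hslicec : ∀ x : Eu d, HasCompactSupport (fun y => F (x, y)) := fun x => by
    refine HasCompactSupport.intro (isCompact_closedBall (0 : Eu d) R) fun y hy => ?_
    by_contra hne
    exact hy (hR (x, y) hne).2
  set G : Eu d → ℝ := fun x => ∫ y, F (x, y) ∂ν' with hG
  have hGR : ∀ x, x ∉ closedBall (0 : Eu d) R → G x = 0 := by
    intro x hx
    have h1 : ∀ y, F (x, y) = 0 := fun y => by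
      by_contra hne
      exact hx (hR (x, y) hne).1
    simp only [hG, h1, integral_zero]
  have hGc : Continuous G := by
    have h1 : G = fun x => ∫ y in closedBall (0 : Eu d) R, F (x, y) ∂ν' := by
      funext x
      refine (setIntegral_eq_integral_of_forall_compl_eq_zero fun y hy => ?_).symm
      by_contra hne
      exact hy (hR (x, y) hne).2
    rw [h1]
    exact continuous_parametric_integral_of_continuous (f := fun x y => F (x, y)) hF
      (isCompact_closedBall (0 : Eu d) R)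
  have hGcs : HasCompactSupport G :=
    HasCompactSupport.intro (isCompact_closedBall (0 : Eu d) R) hGR
  have hint : ∀ (m m' : Measure (Eu d)), IsLocallyFiniteMeasure m → IsLocallyFiniteMeasure m' →
      ∫ p, F p ∂(m.prod m') = ∫ x, ∫ y, F (x, y) ∂m' ∂m := by
    intro m m' hm hm'
    exact integral_prod _ (hF.integrable_of_hasCompactSupport hc)
  obtain ⟨B, hB⟩ := hμ R
  rw [hint ν ν' inferInstance inferInstance]
  have hmain : Tendsto (fun k => ∫ x, G x ∂(μ k)) (𝒰 : Filter ℕ) (𝓝 (∫ x, G x ∂ν)) :=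
    h G hGc hGcs
  have hdiff : Tendsto (fun k => ∫ x, (∫ y, F (x, y) ∂(μ' k)) ∂(μ k) - ∫ x, G x ∂(μ k))
      (𝒰 : Filter ℕ) (𝓝 0) := by
    rw [Metric.tendsto_nhds]
    intro ε hε
    have hε' : 0 < ε / (2 * (B + 1)) := by (clear * - hε; positivity)
    filter_upwards [h'.uniform_slices hμ' hF hc hε'] with k hk
    rw [Real.dist_eq, sub_zero]
    have := hloc k
    have := hloc' k
    have hGk : Integrable (fun x => ∫ y, F (x, y) ∂(μ' k)) (μ k) :=
      (hF.integrable_of_hasCompactSupport hc (μ := (μ k).prod (μ' k))).integral_prod_left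
    rw [← integral_sub hGk (integrable_of_cc hGc hGcs)]
    have h1 := abs_integral_le_of_ball (f := fun x => ∫ y, F (x, y) ∂(μ' k) - G x) (hB k) hk
      (fun x hx => by
        have h1 : ∀ y, F (x, y) = 0 := fun y => by
          by_contra hne
          exact hx (hR (x, y) hne).1
        simp only [h1, integral_zero, hGR x hx, sub_zero])
    refine h1.trans_lt ?_
    have hB0 : (0 : ℝ) ≤ B := B.2
    rw [div_mul_eq_mul_div, div_lt_iff₀ (by (clear * -; positivity))]
    nlinarith only [hε]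
  have hsum := hdiff.add hmain
  rw [zero_add] at hsum
  refine hsum.congr fun k => ?_
  have := hloc k
  have := hloc' k
  rw [hint (μ k) (μ' k) inferInstance inferInstance]
  ring

/-- product integrals of vector valued functions converge -/
theorem VagueLim.prod_vec {𝒰 : Ultrafilter ℕ} {μ : ℕ → Measure (Eu d)}
    {ν : Measure (Eu d)} (h : VagueLim 𝒰 μ ν) (hμ : ULB μ) [IsLocallyFiniteMeasure ν]
    {F : Eu d × Eu d → Eu d} (hF : Continuous F) (hc : HasCompactSupport F) :
    Tendsto (fun k => ∫ p, F p ∂((μ k).prod (μ k))) (𝒰 : Filter ℕ)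
      (𝓝 (∫ p, F p ∂(ν.prod ν))) := by
  have hloc := fun k => hμ.locallyFinite k
  have hcoord : ∀ (m : Measure (Eu d)), IsLocallyFiniteMeasure m → ∀ i : Fin d,
      (∫ p, F p ∂(m.prod m)) i = ∫ p, F p i ∂(m.prod m) := by
    intro m hm i
    have hint : Integrable F (m.prod m) := hF.integrable_of_hasCompactSupport hc
    exact ((EuclideanSpace.proj i : Eu d →L[ℝ] ℝ).integral_comp_comm hint).symm
  refine ((EuclideanSpace.equiv (Fin d) ℝ).toHomeomorph.isInducing.tendsto_nhds_iff).2 ?_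
  rw [tendsto_pi_nhds]
  intro i
  have h1 := h.prod_gen h hμ hμ (F := fun p => F p i)
    ((EuclideanSpace.proj i : Eu d →L[ℝ] ℝ).continuous.comp hF)
    (hc.comp_left (g := fun v : Eu d => v i) (by simp))
  have h2 : (fun k => ∫ p, F p i ∂((μ k).prod (μ k))) =
      fun k => (∫ p, F p ∂((μ k).prod (μ k))) i := by
    funext k
    exact (hcoord (μ k) (hloc k) i).symm
  rw [h2, ← hcoord ν inferInstance i] at h1
  exact h1

/-- the integrand of the regularised form is continuous with compact support -/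
theorem form_integrand_cc (n : ℕ) {e : ℝ} (he : 0 < e) {ψ θ : Eu d → ℝ} (hψ : Continuous ψ)
    (hψ' : HasCompactSupport ψ) (hθ : Continuous θ) (hθ' : HasCompactSupport θ) :
    Continuous (fun p : Eu d × Eu d =>
      (ψ p.1 * θ p.2 - ψ p.2 * θ p.1) • rK n e (p.1 - p.2)) ∧
    HasCompactSupport (fun p : Eu d × Eu d =>
      (ψ p.1 * θ p.2 - ψ p.2 * θ p.1) • rK n e (p.1 - p.2)) := by
  constructor
  · have h1 : Continuous (fun p : Eu d × Eu d => ψ p.1 * θ p.2 - ψ p.2 * θ p.1) := by fun_prop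
    exact h1.smul ((continuous_rK n e he).comp (by fun_prop))
  · obtain ⟨R, M, hR, hM, hψM, hψR⟩ := exists_bound_of_compactSupport hψ hψ'
    obtain ⟨R', M', hR', hM', hθM, hθR⟩ := exists_bound_of_compactSupport hθ hθ'
    refine HasCompactSupport.intro
      ((isCompact_closedBall (0 : Eu d) (max R R')).prod
        (isCompact_closedBall (0 : Eu d) (max R R'))) fun p hp => ?_
    have h1 : ψ p.1 * θ p.2 = 0 ∧ ψ p.2 * θ p.1 = 0 := by
      rw [Set.mem_prod, not_and_or] at hp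
      rcases hp with hp | hp
      · have h1 : ψ p.1 = 0 := hψR _ fun h =>
          hp (closedBall_subset_closedBall (le_max_left _ _) h)
        have h2 : θ p.1 = 0 := hθR _ fun h =>
          hp (closedBall_subset_closedBall (le_max_right _ _) h)
        simp [h1, h2]
      · have h1 : ψ p.2 = 0 := hψR _ fun h =>
          hp (closedBall_subset_closedBall (le_max_left _ _) h)
        have h2 : θ p.2 = 0 := hθR _ fun h =>
          hp (closedBall_subset_closedBall (le_max_right _ _) h)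
        simp [h1, h2]
    simp [h1.1, h1.2]

theorem VagueLim.form_pos {𝒰 : Ultrafilter ℕ} {μ : ℕ → Measure (Eu d)}
    {ν : Measure (Eu d)} (h : VagueLim 𝒰 μ ν) (hμ : ULB μ) [IsLocallyFiniteMeasure ν]
    (n : ℕ) {e : ℝ} (he : 0 < e) {ψ θ : Eu d → ℝ} (hψ : Continuous ψ)
    (hψ' : HasCompactSupport ψ) (hθ : Continuous θ) (hθ' : HasCompactSupport θ) :
    Tendsto (fun k => form n e (μ k) ψ θ) (𝒰 : Filter ℕ) (𝓝 (form n e ν ψ θ)) := by
  obtain ⟨h1, h2⟩ := form_integrand_cc n he hψ hψ' hθ hθ'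
  exact (h.prod_vec hμ h1 h2).const_smul (1 / 2 : ℝ)

/-- explicit data of two Lipschitz functions with compact support -/
theorem LipC.cross {ψ θ : Eu d → ℝ} (hψ : LipC ψ) (hθ : LipC θ) : ∃ R L : ℝ, 0 < R ∧ 0 ≤ L ∧
    (∀ x, R < dist x 0 → ψ x = 0 ∧ θ x = 0) ∧
    ∀ x y, |ψ x * θ y - ψ y * θ x| ≤ L * dist x y := by
  obtain ⟨R, M, hR, hM, hψM, hψR⟩ := exists_bound_of_compactSupport hψ.continuous hψ.2
  obtain ⟨R', M', hR', hM', hθM, hθR⟩ := exists_bound_of_compactSupport hθ.continuous hθ.2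
  obtain ⟨Lψ, hLψ⟩ := hψ.1
  obtain ⟨Lθ, hLθ⟩ := hθ.1
  refine ⟨max R R', M * Lθ + M' * Lψ, by positivity, by (clear * - hM hM'; positivity), fun x hx => ⟨?_, ?_⟩,
    fun x y => ?_⟩
  · refine hψR x fun h => ?_
    rw [mem_closedBall] at h
    exact absurd hx (not_lt.2 (h.trans (le_max_left _ _)))
  · refine hθR x fun h => ?_
    rw [mem_closedBall] at h
    exact absurd hx (not_lt.2 (h.trans (le_max_right _ _)))
  · have h1 : ψ x * θ y - ψ y * θ x = ψ x * (θ y - θ x) + θ x * (ψ x - ψ y) := by ring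
    rw [h1]
    have h2 : |θ y - θ x| ≤ Lθ * dist x y := by
      rw [dist_comm x y, ← Real.dist_eq]
      exact hLθ.dist_le_mul y x
    have h3 : |ψ x - ψ y| ≤ Lψ * dist x y := by
      rw [← Real.dist_eq]
      exact hLψ.dist_le_mul x y
    calc |ψ x * (θ y - θ x) + θ x * (ψ x - ψ y)|
        ≤ |ψ x * (θ y - θ x)| + |θ x * (ψ x - ψ y)| := abs_add_le _ _
      _ = |ψ x| * |θ y - θ x| + |θ x| * |ψ x - ψ y| := by rw [abs_mul, abs_mul]
      _ ≤ M * (Lθ * dist x y) + M' * (Lψ * dist x y) :=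
          add_le_add (mul_le_mul (hψM x) h2 (abs_nonneg _) hM.le)
            (mul_le_mul (hθM x) h3 (abs_nonneg _) hM'.le)
      _ = (M * Lθ + M' * Lψ) * dist x y := by ring

/-- bounded sequences converge along an ultrafilter -/
theorem exists_tendsto_of_norm_le (𝒰 : Ultrafilter ℕ) {u : ℕ → Eu d} {M : ℝ}
    (h : ∀ k, ‖u k‖ ≤ M) : ∃ l : Eu d, Tendsto u (𝒰 : Filter ℕ) (𝓝 l) := by
  have hcomp : IsCompact (closedBall (0 : Eu d) M) := isCompact_closedBall _ _
  have hle : ((𝒰.map u : Ultrafilter (Eu d)) : Filter (Eu d)) ≤ 𝓟 (closedBall (0 : Eu d) M) := by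
    rw [Filter.le_principal_iff, Ultrafilter.coe_map, Filter.mem_map]
    refine Filter.univ_mem' fun k => ?_
    simpa only [mem_preimage, mem_closedBall, dist_zero_right] using h k
  obtain ⟨l, -, hl⟩ := hcomp.ultrafilter_le_nhds _ hle
  exact ⟨l, hl⟩

theorem starProjection_span_eq {m : ℕ} {e : Fin m → Eu d} (he : Orthonormal ℝ e) (v : Eu d) :
    (Submodule.span ℝ (range e)).starProjection v = ∑ i, ⟪e i, v⟫ • e i := by
  refine (Submodule.eq_starProjection_of_mem_of_inner_eq_zero ?_ ?_)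
  · exact Submodule.sum_mem _ fun i _ => Submodule.smul_mem _ _
      (Submodule.subset_span (mem_range_self i))
  · intro w hw
    induction hw using Submodule.span_induction with
    | mem w hw =>
      obtain ⟨j, rfl⟩ := hw
      rw [inner_sub_left, he.inner_left_fintype]
      simp [real_inner_comm]
    | zero => simp only [inner_zero_right]
    | add x y _ _ hx hy => rw [inner_add_right, hx, hy, add_zero]
    | smul a x _ hx => rw [inner_smul_right, hx, mul_zero]

theorem dP_span_eq {m : ℕ} {e : Fin m → Eu d} (he : Orthonormal ℝ e) (b x : Eu d) :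
    dP (Submodule.span ℝ (range e)) b x = ‖(x - b) - ∑ i, ⟪e i, x - b⟫ • e i‖ := by
  rw [dP, Submodule.starProjection_orthogonal_val, starProjection_span_eq he]

theorem exists_orthonormal_span {m : ℕ} (W : Submodule ℝ (Eu d)) (hW : Module.finrank ℝ W = m) :
    ∃ e : Fin m → Eu d, Orthonormal ℝ e ∧ Submodule.span ℝ (range e) = W := by
  let b := (stdOrthonormalBasis ℝ W).reindex (finCongr hW)
  refine ⟨fun i => (b i : Eu d), b.orthonormal.comp_linearIsometry W.subtypeₗᵢ, ?_⟩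
  have h1 : range (fun i => (b i : Eu d)) = W.subtype '' range b := by
    rw [← range_comp]; rfl
  rw [h1, ← Submodule.map_span, ← OrthonormalBasis.coe_toBasis, b.toBasis.span_eq,
    Submodule.map_top, Submodule.range_subtype]


theorem VagueLim.flat {𝒰 : Ultrafilter ℕ} {μ : ℕ → Measure (Eu d)} {ν : Measure (Eu d)}
    (hsupp : ∀ x ∈ ν.support, ∀ δ : ℝ, 0 < δ →
      ∀ᶠ k in (𝒰 : Filter ℕ), ∃ y ∈ (μ k).support, dist y x < δ)
    {m : ℕ} (hm : m ≤ d) (h0 : ∀ k, (0 : Eu d) ∈ (μ k).support) (R δ : ℝ) (hR : 0 < R)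
    (hδ : 0 ≤ δ) (hf : ∀ᶠ k in (𝒰 : Filter ℕ), Flat m (μ k) 0 R δ) : Flat m ν 0 R δ := by
  have hex : ∀ k, ∃ (e : Fin m → Eu d) (b : Eu d), Orthonormal ℝ e ∧ ‖b‖ ≤ δ * R ∧
      (Flat m (μ k) 0 R δ → ∀ x ∈ (μ k).support, dist x 0 < R →
        ‖(x - b) - ∑ i, ⟪e i, x - b⟫ • e i‖ ≤ δ * R) := by
    intro k
    by_cases hk : Flat m (μ k) 0 R δ
    · obtain ⟨W, b, hW, hb⟩ := hk
      obtain ⟨e, he, heW⟩ := exists_orthonormal_span W hW
      refine ⟨e, Wᗮ.starProjection b, he, ?_, fun _ x hx hx' => ?_⟩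
      · have h1 := hb 0 (h0 k) (by simpa using hR)
        rw [dP, zero_sub, map_neg, norm_neg] at h1
        exact h1
      · have h1 := hb x hx hx'
        rw [← dP_span_eq he, heW, dP, map_sub]
        rw [dP, map_sub] at h1
        have h2 : Wᗮ.starProjection (Wᗮ.starProjection b) = Wᗮ.starProjection b :=
          (Submodule.starProjection_eq_self_iff).2 (Submodule.starProjection_apply_mem _ _)
        rwa [h2]
    · refine ⟨fun i => EuclideanSpace.basisFun (Fin d) ℝ (Fin.castLE hm i), 0,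
        (EuclideanSpace.basisFun (Fin d) ℝ).orthonormal.comp _ (Fin.castLE_injective hm), ?_,
        fun h => absurd h hk⟩
      rw [norm_zero]; positivity
  choose e b he hb hflat using hex
  have hlim : ∀ i, ∃ l : Eu d, Tendsto (fun k => e k i) (𝒰 : Filter ℕ) (𝓝 l) := fun i =>
    exists_tendsto_of_norm_le 𝒰 (M := 1) fun k => ((he k).1 i).le
  choose e' he' using hlim
  obtain ⟨b', hb'⟩ := exists_tendsto_of_norm_le 𝒰 hb
  have he'o : Orthonormal ℝ e' := by
    rw [orthonormal_iff_ite]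
    intro i j
    refine tendsto_nhds_unique ((he' i).inner (he' j)) ?_
    have h1 : (fun k => ⟪e k i, e k j⟫) = fun _ => if i = j then (1 : ℝ) else 0 := by
      funext k
      exact orthonormal_iff_ite.1 (he k) i j
    rw [h1]
    exact tendsto_const_nhds
  refine ⟨Submodule.span ℝ (range e'), b', ?_, fun x hx hx' => ?_⟩
  · rw [finrank_span_eq_card he'o.linearIndependent, Fintype.card_fin]
  · rw [dP_span_eq he'o]
    have hlim : Tendsto (fun k => ‖(x - b k) - ∑ i, ⟪e k i, x - b k⟫ • e k i‖) (𝒰 : Filter ℕ)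
        (𝓝 ‖(x - b') - ∑ i, ⟪e' i, x - b'⟫ • e' i‖) := by
      refine Tendsto.norm ((tendsto_const_nhds.sub hb').sub ?_)
      refine tendsto_finsetSum _ fun i _ => ?_
      exact ((he' i).inner (tendsto_const_nhds.sub hb')).smul (he' i)
    refine le_of_forall_pos_le_add fun η hη => ?_
    refine le_of_tendsto hlim ?_
    have hx'' : 0 < min η (R - dist x 0) := lt_min hη (by linarith only [hx'])
    filter_upwards [hf, hsupp x hx _ hx''] with k hk hk'
    obtain ⟨y, hy, hyx⟩ := hk'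
    have h1 : dist y 0 < R := by
      have := dist_triangle y x 0
      have := min_le_right η (R - dist x 0)
      linarith
    have h2 := hflat k hk y hy h1
    rw [← dP_span_eq (he k)] at h2 ⊢
    have h3 : dP (Submodule.span ℝ (range (e k))) (b k) x ≤
        dP (Submodule.span ℝ (range (e k))) (b k) y + dist y x := by
      rw [dP, dP]
      have h4 : x - b k = (y - b k) - (y - x) := by abel
      rw [h4, map_sub]
      refine (norm_sub_le _ _).trans (add_le_add le_rfl ?_)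
      rw [dist_eq_norm]
      exact Submodule.norm_starProjection_apply_le _ _
    have h4 := min_le_left η (R - dist x 0)
    linarith only [hyx, h2, h3, h4]


theorem abs_le_of_lip (hd : 0 < d) {L K : ℝ} (hL : 0 < L) (hK : 0 < K) {φ : Eu d → ℝ}
    (hφ : ∀ x y, |φ x - φ y| ≤ L * dist x y) (hφK : ∀ x, K ≤ dist x 0 → φ x = 0) (x : Eu d) :
    |φ x| ≤ L * (2 * K) := by
  by_cases hx : K ≤ dist x 0
  · rw [hφK x hx, abs_zero]; positivity
  · push Not at hx
    have hz : dist (EuclideanSpace.single (⟨0, hd⟩ : Fin d) K : Eu d) 0 = K := by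
      rw [dist_zero_right, PiLp.norm_single, Real.norm_eq_abs, abs_of_pos hK]
    have h1 := hφ x (EuclideanSpace.single (⟨0, hd⟩ : Fin d) K)
    rw [hφK _ hz.ge, sub_zero] at h1
    refine h1.trans (mul_le_mul_of_nonneg_left ?_ hL.le)
    have h2 := dist_triangle_right x (EuclideanSpace.single (⟨0, hd⟩ : Fin d) K) 0
    linarith

/-- equi-Lipschitz families with common support: ultrafilter limit, with uniform convergence -/
theorem exists_unif_limit (𝒰 : Ultrafilter ℕ) (hd : 0 < d) {L K : ℝ} (hL : 0 < L) (hK : 0 < K)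
    {φ : ℕ → Eu d → ℝ} (hφ : ∀ k x y, |φ k x - φ k y| ≤ L * dist x y)
    (hφK : ∀ k x, K ≤ dist x 0 → φ k x = 0) :
    ∃ f : Eu d → ℝ, (∀ x y, |f x - f y| ≤ L * dist x y) ∧ (∀ x, K ≤ dist x 0 → f x = 0) ∧
      ∀ ε : ℝ, 0 < ε → ∀ᶠ k in (𝒰 : Filter ℕ), ∀ x, |φ k x - f x| ≤ ε := by
  have hbd : ∀ k x, |φ k x| ≤ L * (2 * K) := fun k x => abs_le_of_lip hd hL hK (hφ k) (hφK k) x
  have hex : ∀ x, ∃ l : ℝ, Tendsto (fun k => φ k x) (𝒰 : Filter ℕ) (𝓝 l) := fun x =>
    exists_tendsto_of_abs_le 𝒰 fun k => hbd k x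
  choose f hf using hex
  have hfL : ∀ x y, |f x - f y| ≤ L * dist x y := fun x y =>
    le_of_tendsto' ((hf x).sub (hf y)).abs fun k => hφ k x y
  have hfK : ∀ x, K ≤ dist x 0 → f x = 0 := by
    intro x hx
    refine tendsto_nhds_unique (hf x) ?_
    have : (fun k => φ k x) = fun _ => (0 : ℝ) := funext fun k => hφK k x hx
    rw [this]
    exact tendsto_const_nhds
  refine ⟨f, hfL, hfK, fun ε hε => ?_⟩
  obtain ⟨t, -, ht, hcov⟩ := (isCompact_closedBall (0 : Eu d) K).finite_cover_balls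
    (e := ε / (3 * L)) (by positivity)
  have hpt : ∀ᶠ k in (𝒰 : Filter ℕ), ∀ x ∈ t, |φ k x - f x| < ε / 3 := by
    rw [Filter.eventually_all_finite ht]
    intro x _
    have h2 := Metric.tendsto_nhds.1 (hf x) (ε / 3) (by positivity)
    simpa [Real.dist_eq] using h2
  filter_upwards [hpt] with k hk x
  by_cases hx : K ≤ dist x 0
  · rw [hφK k x hx, hfK x hx, sub_zero, abs_zero]; exact hε.le
  · push Not at hx
    obtain ⟨x₀, hx₀, hxx₀⟩ := mem_iUnion₂.1 (hcov (mem_closedBall.2 hx.le))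
    rw [mem_ball] at hxx₀
    have h1 := hφ k x x₀
    have h2 := hfL x x₀
    have h3 := hk x₀ hx₀
    have h4 : L * dist x x₀ ≤ ε / 3 := by
      calc L * dist x x₀ ≤ L * (ε / (3 * L)) := mul_le_mul_of_nonneg_left hxx₀.le hL.le
        _ = ε / 3 := by field_simp
    have h5 : |φ k x - f x| ≤ |φ k x - φ k x₀| + |φ k x₀ - f x₀| + |f x - f x₀| := by
      rw [abs_sub_comm (f x) (f x₀)]
      exact (abs_sub_le _ (f x₀) _).trans (add_le_add_left (abs_sub_le _ (φ k x₀) _) _)
    linarith only [h1, h2, h3, h4, h5]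


/-- Existence of vague limits, general local bounds, with control of balls. -/
theorem exists_vagueLim' (𝒰 : Ultrafilter ℕ) (ρ : ℕ → Measure (Eu d))
    (h : ∀ R : ℝ, ∃ B : ℝ, ∀ k, ρ k (closedBall 0 R) ≤ ENNReal.ofReal B) :
    ∃ ρ' : Measure (Eu d), IsLocallyFiniteMeasure ρ' ∧ ρ'.Regular ∧ VagueLim 𝒰 ρ ρ' ∧
      ∀ R B : ℝ, (∀ k, ρ k (closedBall 0 R) ≤ ENNReal.ofReal B) →
        ρ' (ball 0 R) ≤ ENNReal.ofReal B := by
  have hU : ULB ρ := fun R => by
    obtain ⟨B, hB⟩ := h R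
    exact ⟨B.toNNReal, hB⟩
  obtain ⟨ρ', hreg, hl⟩ := exists_vagueLim_gen 𝒰 hU
  refine ⟨ρ', inferInstance, hreg, hl, fun R B hB => ?_⟩
  obtain ⟨u, hu, huR, hulim⟩ := exists_seq_strictMono_tendsto R
  have h1 : ball (0 : Eu d) R ⊆ ⋃ m, closedBall (0 : Eu d) (u m) := by
    intro x hx
    rw [mem_ball] at hx
    obtain ⟨m, hm⟩ := (hulim.eventually (lt_mem_nhds hx)).exists
    exact mem_iUnion.2 ⟨m, mem_closedBall.2 hm.le⟩
  refine (measure_mono h1).trans ?_
  have hmono : Monotone fun m => closedBall (0 : Eu d) (u m) := fun a b hab =>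
    closedBall_subset_closedBall (hu.monotone hab)
  rw [hmono.measure_iUnion]
  refine iSup_le fun m => ?_
  exact hl.measure_closedBall_le (fun k => hU.locallyFinite k) (huR m)
    (Eventually.of_forall hB)

/-! ### The statements used elsewhere -/

/-- the ultrafilter used throughout -/
noncomputable abbrev UU : Ultrafilter ℕ := Filter.hyperfilter ℕ

theorem ulb_of_upper {n : ℕ} {C : ℝ} {μ : ℕ → Measure (Eu d)}
    (h : ∀ k (x : Eu d) (r : ℝ), 0 < r → μ k (closedBall x r) ≤ ENNReal.ofReal (C * r ^ n)) :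
    ULB μ := by
  intro R
  refine ⟨(C * (max R 1) ^ n).toNNReal, fun k => ?_⟩
  refine (measure_mono (closedBall_subset_closedBall (le_max_left R 1))).trans ?_
  exact h k 0 (max R 1) (by positivity)

/-- existence of vague limits -/
theorem exists_vagueLim (n : ℕ) (C : ℝ) (μ : ℕ → Measure (Eu d))
    (h : ∀ k (x : Eu d) (r : ℝ), 0 < r → μ k (closedBall x r) ≤ ENNReal.ofReal (C * r ^ n)) :
    ∃ ν : Measure (Eu d), IsLocallyFiniteMeasure ν ∧ VagueLim UU μ ν := by
  obtain ⟨ν, hν, hl⟩ := exists_vagueLim_gen UU (ulb_of_upper h)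
  exact ⟨ν, inferInstance, hl⟩

variable {c C C₁ : ℝ} {μ : ℕ → Measure (Eu d)} {D : ℕ → ℝ≥0∞} {ν : Measure (Eu d)}

/-- regularity passes to the limit, same constants -/
theorem AR.lim (h : ∀ k, AR n c C (D k) (μ k)) (hD : Tendsto D (UU : Filter ℕ) (𝓝 ⊤))
    (hν : IsLocallyFiniteMeasure ν) (hl : VagueLim UU μ ν) : AR n c C ⊤ ν :=
  hl.ar_gen hD h

/-- limit points of supports are in the support of the limit -/
theorem mem_support_lim (h : ∀ k, AR n c C (D k) (μ k)) (hD : Tendsto D (UU : Filter ℕ) (𝓝 ⊤))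
    (hν : IsLocallyFiniteMeasure ν) (hl : VagueLim UU μ ν) {x : ℕ → Eu d} {y : Eu d}
    (hx : ∀ᶠ k in (UU : Filter ℕ), x k ∈ (μ k).support)
    (hy : Tendsto x (UU : Filter ℕ) (𝓝 y)) : y ∈ ν.support :=
  hl.mem_support_of_ar hD h hy hx

/-- forms converge, `e ≥ 0` -/
theorem VagueLim.form (hn : 1 ≤ n) (h : ∀ k, AR n c C (D k) (μ k))
    (hD : Tendsto D (UU : Filter ℕ) (𝓝 ⊤)) (hν : IsLocallyFiniteMeasure ν)
    (hl : VagueLim UU μ ν) {ψ θ : Eu d → ℝ} (hψ : LipC ψ) (hθ : LipC θ) (e : ℝ) (he : 0 ≤ e) :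
    Tendsto (fun k => form n e (μ k) ψ θ) (UU : Filter ℕ) (𝓝 (form n e ν ψ θ)) := by
  rcases he.eq_or_lt with rfl | he
  · obtain ⟨R, L, hR, hL, h1, h2⟩ := hψ.cross hθ
    obtain ⟨C', hC', hreg⟩ := form_reg n hn C (h 0).C_pos
    have hν' : AR n c C ⊤ ν := AR.lim h hD hν hl
    rw [Metric.tendsto_nhds]
    intro ε hε
    set K : ℝ := C' * L * R ^ n with hK
    have hK0 : 0 ≤ K := by (clear * - hR hL hC'; positivity)
    set e : ℝ := ε / (3 * (K + 1)) with he
    have he0 : 0 < e := by (clear * - hR hL hC' hε; positivity)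
    have hKe : K * e < ε / 3 := by
      rw [he, mul_div_assoc', div_lt_iff₀ (by (clear * - hR hL hC'; positivity))]
      nlinarith only [hε]
    have h3 := Metric.tendsto_nhds.1 (hl.form_pos (AR.ulb h) n he0 hψ.continuous hψ.2
      hθ.continuous hθ.2) (ε / 3) (by positivity)
    filter_upwards [h3] with k hk
    have h4 := hreg d c (D k) (μ k) (h k) ψ θ 0 R L e hψ hθ hR hL he0 h1 h2
    have h5 := hreg d c ⊤ ν hν' ψ θ 0 R L e hψ hθ hR hL he0 h1 h2
    rw [dist_eq_norm] at hk ⊢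
    have h6 : Vale.Agent.P120.form n 0 (μ k) ψ θ - Vale.Agent.P120.form n 0 ν ψ θ =
        (Vale.Agent.P120.form n 0 (μ k) ψ θ - Vale.Agent.P120.form n e (μ k) ψ θ) +
        (Vale.Agent.P120.form n e (μ k) ψ θ - Vale.Agent.P120.form n e ν ψ θ) -
        (Vale.Agent.P120.form n 0 ν ψ θ - Vale.Agent.P120.form n e ν ψ θ) := by abel
    rw [h6]
    refine (norm_sub_le _ _).trans_lt ?_
    have h7 := norm_add_le (Vale.Agent.P120.form n 0 (μ k) ψ θ - Vale.Agent.P120.form n e (μ k) ψ θ)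
      (Vale.Agent.P120.form n e (μ k) ψ θ - Vale.Agent.P120.form n e ν ψ θ)
    have h8 : C' * L * R ^ n * e = K * e := rfl
    linarith only [hKe, hk, h4, h5, h7]
  · exact hl.form_pos (AR.ulb h) n he hψ.continuous hψ.2 hθ.continuous hθ.2

theorem RB.lim (_hn : 1 ≤ n) (h : ∀ k, AR n c C (D k) (μ k)) (hb : ∀ k, RB n C₁ (μ k))
    (_hD : Tendsto D (UU : Filter ℕ) (𝓝 ⊤)) (hν : IsLocallyFiniteMeasure ν)
    (hl : VagueLim UU μ ν) : RB n C₁ ν := by
  refine ⟨(hb 0).1, fun e he ψ θ hψ hψ' hθ hθ' => ?_⟩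
  have h1 := (hl.form_pos (AR.ulb h) n he hψ hψ' hθ hθ').norm
  have h2 : Tendsto (fun k => ∫ x, ψ x ^ 2 ∂(μ k)) (UU : Filter ℕ) (𝓝 (∫ x, ψ x ^ 2 ∂ν)) :=
    hl _ (hψ.pow 2) (hψ'.comp_left (g := fun t : ℝ => t ^ 2) (by simp))
  have h3 : Tendsto (fun k => ∫ x, θ x ^ 2 ∂(μ k)) (UU : Filter ℕ) (𝓝 (∫ x, θ x ^ 2 ∂ν)) :=
    hl _ (hθ.pow 2) (hθ'.comp_left (g := fun t : ℝ => t ^ 2) (by simp))
  have h4 := ((h2.sqrt.const_mul C₁).mul h3.sqrt)
  exact le_of_tendsto_of_tendsto' h1 h4 fun k => (hb k).2 e he ψ θ hψ hψ' hθ hθ'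

theorem cut_eq_one_vl {a : Eu d} {S : ℝ} (hS : 0 < S) {x : Eu d} (hx : dist x a ≤ S) :
    cut a S x = 1 := by
  have h1 : dist x a / S ≤ 1 := (div_le_one hS).2 hx
  rw [cut, min_eq_left (by linarith only [h1]), max_eq_right zero_le_one]

theorem cut_nonneg_vl (a : Eu d) (S : ℝ) (x : Eu d) : 0 ≤ cut a S x := le_max_left _ _

theorem cut_le_one_vl (a : Eu d) (S : ℝ) (x : Eu d) : cut a S x ≤ 1 :=
  max_le zero_le_one (min_le_left _ _)

theorem tent_nonneg_vl (a : Eu d) (s : ℝ) (x : Eu d) : 0 ≤ tent a s x := le_max_left _ _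

theorem tent_eq_zero_vl {a : Eu d} {s : ℝ} (hs : 0 < s) {x : Eu d} (hx : s ≤ dist x a) :
    tent a s x = 0 := by
  have h1 : 1 ≤ dist x a / s := (one_le_div hs).2 hx
  rw [tent, max_eq_left (by linarith only [h1])]

theorem tent_pos {a : Eu d} {s : ℝ} (hs : 0 < s) {x : Eu d} (hx : dist x a < s) :
    0 < tent a s x := by
  have h1 : dist x a / s < 1 := (div_lt_one hs).2 hx
  exact lt_max_of_lt_right (by linarith only [h1])

theorem abs_tent_sub_le_vl (a : Eu d) {s : ℝ} (hs : 0 < s) (x y : Eu d) :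
    |tent a s x - tent a s y| ≤ s⁻¹ * dist x y := by
  have h1 : |tent a s x - tent a s y| ≤
      max |(0 : ℝ) - 0| |(1 - dist x a / s) - (1 - dist y a / s)| :=
    abs_max_sub_max_le_max _ _ _ _
  refine h1.trans (max_le ?_ ?_)
  · simp only [sub_self, abs_zero]; positivity
  · have h2 : (1 - dist x a / s) - (1 - dist y a / s) = s⁻¹ * (dist y a - dist x a) := by
      field_simp; ring
    rw [h2, abs_mul, abs_of_pos (inv_pos.2 hs)]
    refine mul_le_mul_of_nonneg_left ?_ (inv_pos.2 hs).le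
    rw [dist_comm x y]
    exact abs_dist_sub_le _ _ _

theorem integral_tent_pos {ν : Measure (Eu d)} [IsLocallyFiniteMeasure ν] {a : Eu d}
    (ha : a ∈ ν.support) {s : ℝ} (hs : 0 < s) : 0 < ∫ x, tent a s x ∂ν := by
  have hL : LipC (tent a s) := lipC_tent a s hs
  rw [integral_pos_iff_support_of_nonneg (fun x => tent_nonneg_vl a s x)
    (integrable_of_cc hL.continuous hL.2)]
  refine ((Measure.mem_support_iff_forall a).1 ha (ball a s) (ball_mem_nhds a hs)).trans_le
    (measure_mono fun x hx => ?_)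
  exact (tent_pos hs hx).ne'

/-- far-field control upgrades decay along the standard cutoffs to the quantitative bound -/
theorem er_bound_of_cut {n : ℕ} (hn : 1 ≤ n) {C C' : ℝ} (hfar : ∀ (d : ℕ) (c : ℝ) (D : ℝ≥0∞)
      (μ : Measure (Eu d)), AR n c C D μ →
      ∀ (ψ θ : Eu d → ℝ) (a : Eu d) (R S e : ℝ), LipC ψ → LipC θ → 0 < R → 2 * R ≤ S → 0 ≤ e →
      (∀ x, R < dist x a → ψ x = 0) → (∀ x, dist x a ≤ S → θ x = 0) → (∀ x, |θ x| ≤ 1) →
      ∫ x, ψ x ∂μ = 0 → ‖form n e μ ψ θ‖ ≤ C' * (R / S) * ∫ x, |ψ x| ∂μ)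
    {d : ℕ} {c : ℝ} {ν : Measure (Eu d)} (hνAR : AR n c C ⊤ ν) (ψ : Eu d → ℝ) (hψ : LipC ψ)
    (hψ0 : ∫ x, ψ x ∂ν = 0) (a : Eu d) (R S : ℝ) (τ : Eu d → ℝ) (hR : 0 < R) (hS : 2 * R ≤ S)
    (hψR : ∀ x, R < dist x a → ψ x = 0) (hτ : LipC τ) (hτ01 : ∀ x, 0 ≤ τ x ∧ τ x ≤ 1)
    (hτ1 : ∀ x, dist x a ≤ S → τ x = 1)
    (hA : Tendsto (fun S' : ℝ => form n 0 ν ψ (cut 0 S')) atTop (𝓝 0)) :
    ‖form n 0 ν ψ τ‖ ≤ C' * (R / S) * ∫ x, |ψ x| ∂ν := by
  have hS0 : 0 < S := by linarith only [hR, hS]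
  have hB : ∀ᶠ S' : ℝ in atTop, ‖form n 0 ν ψ τ‖ ≤
      ‖form n 0 ν ψ (cut 0 S')‖ + C' * (R / S) * ∫ x, |ψ x| ∂ν := by
    filter_upwards [eventually_ge_atTop (S + ‖a‖)] with S' h2
    have hS'0 : 0 < S' := by linarith [norm_nonneg a]
    have hcL : LipC (cut (0 : Eu d) S') := lipC_cut 0 S' hS'0
    have hdiff : LipC (fun x => τ x - cut 0 S' x) := hτ.sub hcL
    have hF := hfar d c ⊤ ν hνAR ψ (fun x => τ x - cut 0 S' x) a R S 0 hψ
      hdiff hR hS le_rfl hψR (fun x hx => by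
        have h3 : dist x 0 ≤ S' := by
          rw [dist_zero_right]
          rw [dist_eq_norm] at hx
          calc ‖x‖ = ‖(x - a) + a‖ := by rw [sub_add_cancel]
            _ ≤ ‖x - a‖ + ‖a‖ := norm_add_le _ _
            _ ≤ S' := by linarith
        simp only [hτ1 x (by rwa [dist_eq_norm] at hx ⊢), cut_eq_one_vl hS'0 h3, sub_self])
      (fun x => by
        rw [abs_le]
        have h1 := hτ01 x
        have h2 := cut_nonneg_vl (0 : Eu d) S' x
        have h3 := cut_le_one_vl (0 : Eu d) S' x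
        constructor <;> linarith only [h1.1, h1.2, h1, h3, h2]) hψ0
    rw [form_sub_right hn hνAR hτ hcL hψ 0 le_rfl] at hF
    have h3 : ‖form n 0 ν ψ τ‖ ≤ ‖form n 0 ν ψ (cut 0 S')‖ +
        ‖form n 0 ν ψ τ - form n 0 ν ψ (cut 0 S')‖ := by
      have := norm_add_le (form n 0 ν ψ (cut 0 S'))
        (form n 0 ν ψ τ - form n 0 ν ψ (cut 0 S'))
      rwa [add_sub_cancel] at this
    exact h3.trans (add_le_add le_rfl hF)
  have hlim : Tendsto (fun S' : ℝ => ‖form n 0 ν ψ (cut 0 S')‖ +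
      C' * (R / S) * ∫ x, |ψ x| ∂ν) atTop
      (𝓝 (‖(0 : Eu d)‖ + C' * (R / S) * ∫ x, |ψ x| ∂ν)) :=
    hA.norm.add tendsto_const_nhds
  rw [norm_zero, zero_add] at hlim
  exact ge_of_tendsto hlim hB

/-- Lemma 5: limits of `M_k`-good measures are exactly reflectionless. -/
theorem lim_of_good (n : ℕ) (hn : 1 ≤ n) (C : ℝ) (hC : 0 < C) : ∃ C₂ : ℝ, 0 < C₂ ∧
    ∀ (d : ℕ) (c C₁ : ℝ) (μ : ℕ → Measure (Eu d)) (D : ℕ → ℝ≥0∞) (ν : Measure (Eu d))
      (M : ℕ → ℝ) (θ : ℕ → Eu d → ℝ), (∀ k, AR n c C (D k) (μ k)) → (∀ k, RB n C₁ (μ k)) →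
      Tendsto D (UU : Filter ℕ) (𝓝 ⊤) → IsLocallyFiniteMeasure ν → VagueLim UU μ ν →
      (∀ k, (0 : Eu d) ∈ (μ k).support) → Tendsto M (UU : Filter ℕ) atTop →
      (∀ k, LipC (θ k)) → (∀ k x, 0 ≤ θ k x ∧ θ k x ≤ 1) → (∀ k x, dist x 0 ≤ M k → θ k x = 1) →
      (∀ k, Good n (M k) (μ k) (θ k) 0 1) → Lim n c C C₁ C₂ ν := by
  obtain ⟨C', hC', hfar⟩ := form_far n hn C hC
  refine ⟨C', hC', ?_⟩
  intro d c C₁ μ D ν M θ hAR hRB hD hν hl h0 hM hθL hθ01 hθ1 hgood
  have hνAR : AR n c C ⊤ ν := AR.lim hAR hD hν hl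
  have hνRB : RB n C₁ ν := RB.lim hn hAR hRB hD hν hl
  have hloc := fun k => (AR.ulb hAR).locallyFinite k
  have h0ν : (0 : Eu d) ∈ ν.support :=
    mem_support_lim hAR hD hν hl (x := fun _ => 0) (Eventually.of_forall h0) tendsto_const_nhds
  refine ⟨hνAR, hνRB, hC'.le, ?_⟩
  intro a R S ψ τ hR hS hψ hψR hψ0 hτ hτ01 hτ1
  set φ : Eu d → ℝ := tent 0 1 with hφ
  have hφL : LipC φ := lipC_tent 0 1 one_pos
  set R' : ℝ := max 1 (‖a‖ + R) with hR'
  have hR'0 : 0 < R' := by positivity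
  have hψR' : ∀ x, R' < dist x 0 → ψ x = 0 := by
    intro x hx
    refine hψR x ?_
    rw [dist_zero_right] at hx
    have h1 : ‖a‖ + R ≤ R' := le_max_right _ _
    have h2 : ‖x‖ ≤ dist x a + ‖a‖ := by
      rw [dist_eq_norm]
      calc ‖x‖ = ‖(x - a) + a‖ := by rw [sub_add_cancel]
        _ ≤ _ := norm_add_le _ _
    linarith only [hx, h1, h2]
  have hφR' : ∀ x, R' < dist x 0 → φ x = 0 := by
    intro x hx
    exact tent_eq_zero_vl one_pos ((le_max_left 1 _).trans hx.le)
  have hψabs : Continuous fun x => |ψ x| := hψ.continuous.abs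
  have hψabs' : HasCompactSupport fun x => |ψ x| := hψ.2.comp_left (g := fun t : ℝ => |t|) (by simp)
  obtain ⟨L, hL⟩ := hψ.1
  -- the multiples
  have hI : 0 < ∫ x, φ x ∂ν := integral_tent_pos h0ν one_pos
  have hIk : Tendsto (fun k => ∫ x, φ x ∂(μ k)) (UU : Filter ℕ) (𝓝 (∫ x, φ x ∂ν)) :=
    hl _ hφL.continuous hφL.2
  have hψk : Tendsto (fun k => ∫ x, ψ x ∂(μ k)) (UU : Filter ℕ) (𝓝 0) := by
    have := hl _ hψ.continuous hψ.2
    rwa [hψ0] at this
  set m : ℕ → ℝ := fun k => (∫ x, ψ x ∂(μ k)) / (∫ x, φ x ∂(μ k)) with hm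
  have hmlim : Tendsto m (UU : Filter ℕ) (𝓝 0) := by
    have := hψk.div hIk hI.ne'
    rwa [zero_div] at this
  -- Step A
  have hA : ∀ S' : ℝ, 2 * R' ≤ S' →
      ‖form n 0 ν ψ (cut 0 S')‖ ≤ C' * (R' / S') * ∫ x, |ψ x| ∂ν := by
    intro S' hS'
    have hS'0 : 0 < S' := by linarith only [hR'0, hS']
    have hcL : LipC (cut (0 : Eu d) S') := lipC_cut 0 S' hS'0
    have hbound : ∀ᶠ k in (UU : Filter ℕ),
        ‖form n 0 (μ k) ψ (cut 0 S') - m k • form n 0 (μ k) φ (cut 0 S')‖ ≤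
          1 / M k + C' * (R' / S') * (∫ x, |ψ x| ∂(μ k) + |m k| * ∫ x, φ x ∂(μ k)) := by
      have e1 : ∀ᶠ k in (UU : Filter ℕ), 0 < ∫ x, φ x ∂(μ k) :=
        hIk.eventually (lt_mem_nhds hI)
      have e2 : ∀ᶠ k in (UU : Filter ℕ), |m k| < 1 := by
        have := hmlim.abs
        rw [abs_zero] at this
        exact this.eventually (gt_mem_nhds one_pos)
      filter_upwards [e1, e2, hM.eventually_ge_atTop (L + 1), hM.eventually_ge_atTop S']
        with k hk1 hk2 hk3 hk4
      set ψk : Eu d → ℝ := fun x => ψ x - m k * φ x with hψkdef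
      have hψkL : LipC ψk := hψ.sub (hφL.const_mul (m k))
      have hMk : R' < M k := by linarith only [hR'0, hS', hk4]
      have hψkR : ∀ x, R' < dist x 0 → ψk x = 0 := by
        intro x hx
        simp only [hψkdef, hψR' x hx, hφR' x hx, mul_zero, sub_zero]
      have hψkint : ∫ x, ψk x ∂(μ k) = 0 := by
        have := hloc k
        rw [integral_sub (integrable_of_cc hψ.continuous hψ.2)
          ((integrable_of_cc hφL.continuous hφL.2).const_mul _), integral_const_mul]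
        rw [hm]
        field_simp
        simp
      have hG := hgood k ψk (fun x y => by
          have h1 : ψk x - ψk y = (ψ x - ψ y) - m k * (φ x - φ y) := by
            simp only [hψkdef]; ring
          rw [h1, div_one]
          have h2 : |ψ x - ψ y| ≤ L * dist x y := by
            rw [← Real.dist_eq]; exact hL.dist_le_mul x y
          have h3 : |m k * (φ x - φ y)| ≤ 1 * dist x y := by
            rw [abs_mul]
            have h4 := abs_tent_sub_le_vl (0 : Eu d) one_pos x y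
            rw [inv_one, one_mul] at h4
            exact mul_le_mul hk2.le h4 (abs_nonneg _) zero_le_one
          have h4 := abs_sub (ψ x - ψ y) (m k * (φ x - φ y))
          calc |ψ x - ψ y - m k * (φ x - φ y)| ≤ |ψ x - ψ y| + |m k * (φ x - φ y)| := h4
            _ ≤ L * dist x y + 1 * dist x y := add_le_add h2 h3
            _ = (L + 1) * dist x y := by ring
            _ ≤ M k * dist x y := mul_le_mul_of_nonneg_right hk3 dist_nonneg)
        (fun x hx => hψkR x (by linarith only [hR'0, hS', hk4, hx])) hψkint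
      rw [one_pow] at hG
      have hdiff : LipC (fun x => θ k x - cut 0 S' x) := (hθL k).sub hcL
      have hF := hfar d c (D k) (μ k) (hAR k) ψk (fun x => θ k x - cut 0 S' x) 0 R' S' 0 hψkL
        hdiff hR'0 hS' le_rfl hψkR (fun x hx => by
          simp only [hθ1 k x (hx.trans hk4), cut_eq_one_vl hS'0 hx, sub_self])
        (fun x => by
          rw [abs_le]
          have h1 := hθ01 k x
          have h2 := cut_nonneg_vl (0 : Eu d) S' x
          have h3 := cut_le_one_vl (0 : Eu d) S' x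
          constructor <;> linarith only [h1.1, h1.2, h1, h3, h2]) hψkint
      rw [form_sub_right hn (hAR k) (hθL k) hcL hψkL 0 le_rfl] at hF
      have h1 : form n 0 (μ k) ψ (cut 0 S') - m k • form n 0 (μ k) φ (cut 0 S') =
          form n 0 (μ k) ψk (cut 0 S') := by
        rw [← form_smul_left, ← form_sub_left hn (hAR k) hψ (hφL.const_mul (m k)) hcL 0 le_rfl]
      rw [h1]
      have h2 : ‖form n 0 (μ k) ψk (cut 0 S')‖ ≤ ‖form n 0 (μ k) ψk (θ k)‖ +
          ‖form n 0 (μ k) ψk (θ k) - form n 0 (μ k) ψk (cut 0 S')‖ := by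
        have := norm_sub_le (form n 0 (μ k) ψk (θ k))
          (form n 0 (μ k) ψk (θ k) - form n 0 (μ k) ψk (cut 0 S'))
        rwa [sub_sub_cancel] at this
      refine h2.trans (add_le_add hG (hF.trans ?_))
      refine mul_le_mul_of_nonneg_left ?_ (by (clear * - hC' hS'0; positivity))
      have := hloc k
      have i1 : Integrable (fun x => |ψ x|) (μ k) := integrable_of_cc hψabs hψabs'
      have i2 : Integrable (fun x => |m k| * φ x) (μ k) :=
        (integrable_of_cc hφL.continuous hφL.2).const_mul _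
      rw [← integral_const_mul, ← integral_add i1 i2]
      refine integral_mono (integrable_of_cc hψkL.continuous hψkL.2).abs (i1.add i2) fun x => ?_
      have h4 := abs_sub (ψ x) (m k * φ x)
      rw [abs_mul, abs_of_nonneg (tent_nonneg_vl (0 : Eu d) 1 x)] at h4
      exact h4
    have l1 : Tendsto (fun k => form n 0 (μ k) ψ (cut 0 S') - m k • form n 0 (μ k) φ (cut 0 S'))
        (UU : Filter ℕ) (𝓝 (form n 0 ν ψ (cut 0 S') - (0 : ℝ) • form n 0 ν φ (cut 0 S'))) :=
      (hl.form hn hAR hD hν hψ hcL 0 le_rfl).sub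
        (hmlim.smul (hl.form hn hAR hD hν hφL hcL 0 le_rfl))
    rw [zero_smul, sub_zero] at l1
    have l2 : Tendsto (fun k => 1 / M k + C' * (R' / S') *
        (∫ x, |ψ x| ∂(μ k) + |m k| * ∫ x, φ x ∂(μ k))) (UU : Filter ℕ)
        (𝓝 (0 + C' * (R' / S') * (∫ x, |ψ x| ∂ν + |0| * ∫ x, φ x ∂ν))) := by
      refine Tendsto.add ?_ (Tendsto.const_mul _ ((hl _ hψabs hψabs').add (hmlim.abs.mul hIk)))
      have h1 := hM.inv_tendsto_atTop
      simp only [one_div]
      exact h1
    rw [abs_zero, zero_mul, add_zero, zero_add] at l2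
    exact le_of_tendsto_of_tendsto l1.norm l2 hbound
  refine er_bound_of_cut hn hfar hνAR ψ hψ hψ0 a R S τ hR hS hψR hτ hτ01 hτ1 ?_
  have hlim : Tendsto (fun S' : ℝ => C' * (R' / S') * ∫ x, |ψ x| ∂ν) atTop
      (𝓝 (C' * 0 * ∫ x, |ψ x| ∂ν)) :=
    Tendsto.mul_const _ (Tendsto.const_mul _ (tendsto_const_nhds.div_atTop tendsto_id))
  rw [mul_zero, zero_mul] at hlim
  refine squeeze_zero_norm' ?_ hlim
  filter_upwards [eventually_ge_atTop (2 * R')] with S' h1
  exact hA S' h1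

/-- limits of the class `Lim` stay in the class -/
theorem lim_of_lim (n : ℕ) (hn : 1 ≤ n) (C : ℝ) (hC : 0 < C) : ∃ C₂ : ℝ, 0 < C₂ ∧
    ∀ (d : ℕ) (c C₁ C₂' : ℝ) (μ : ℕ → Measure (Eu d)) (ν : Measure (Eu d)),
      (∀ k, Lim n c C C₁ C₂' (μ k)) → IsLocallyFiniteMeasure ν → VagueLim UU μ ν →
      (∀ k, (0 : Eu d) ∈ (μ k).support) → Lim n c C C₁ C₂ ν := by
  obtain ⟨C', hC', hfar⟩ := form_far n hn C hC
  refine ⟨C', hC', ?_⟩
  intro d c C₁ C₂' μ ν hLim hν hl h0
  have hAR : ∀ k, AR n c C ⊤ (μ k) := fun k => (hLim k).ar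
  have hD : Tendsto (fun _ : ℕ => (⊤ : ℝ≥0∞)) (UU : Filter ℕ) (𝓝 ⊤) := tendsto_const_nhds
  have hνAR : AR n c C ⊤ ν := AR.lim hAR hD hν hl
  have hνRB : RB n C₁ ν := RB.lim hn hAR (fun k => (hLim k).rb) hD hν hl
  have hloc := fun k => (AR.ulb hAR).locallyFinite k
  have h0ν : (0 : Eu d) ∈ ν.support :=
    mem_support_lim hAR hD hν hl (x := fun _ => 0) (Eventually.of_forall h0) tendsto_const_nhds
  refine ⟨hνAR, hνRB, hC'.le, ?_⟩
  intro a R S ψ τ hR hS hψ hψR hψ0 hτ hτ01 hτ1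
  set φ : Eu d → ℝ := tent 0 1 with hφ
  have hφL : LipC φ := lipC_tent 0 1 one_pos
  set R' : ℝ := max 1 (‖a‖ + R) with hR'
  have hR'0 : 0 < R' := by positivity
  have hψR' : ∀ x, R' < dist x 0 → ψ x = 0 := by
    intro x hx
    refine hψR x ?_
    rw [dist_zero_right] at hx
    have h1 : ‖a‖ + R ≤ R' := le_max_right _ _
    have h2 : ‖x‖ ≤ dist x a + ‖a‖ := by
      rw [dist_eq_norm]
      calc ‖x‖ = ‖(x - a) + a‖ := by rw [sub_add_cancel]
        _ ≤ _ := norm_add_le _ _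
    linarith only [hx, h1, h2]
  have hφR' : ∀ x, R' < dist x 0 → φ x = 0 := by
    intro x hx
    exact tent_eq_zero_vl one_pos ((le_max_left 1 _).trans hx.le)
  have hψabs : Continuous fun x => |ψ x| := hψ.continuous.abs
  have hψabs' : HasCompactSupport fun x => |ψ x| := hψ.2.comp_left (g := fun t : ℝ => |t|) (by simp)
  have hI : 0 < ∫ x, φ x ∂ν := integral_tent_pos h0ν one_pos
  have hIk : Tendsto (fun k => ∫ x, φ x ∂(μ k)) (UU : Filter ℕ) (𝓝 (∫ x, φ x ∂ν)) :=
    hl _ hφL.continuous hφL.2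
  have hψk : Tendsto (fun k => ∫ x, ψ x ∂(μ k)) (UU : Filter ℕ) (𝓝 0) := by
    have := hl _ hψ.continuous hψ.2
    rwa [hψ0] at this
  set m : ℕ → ℝ := fun k => (∫ x, ψ x ∂(μ k)) / (∫ x, φ x ∂(μ k)) with hm
  have hmlim : Tendsto m (UU : Filter ℕ) (𝓝 0) := by
    have := hψk.div hIk hI.ne'
    rwa [zero_div] at this
  have hC₂' : 0 ≤ C₂' := (hLim 0).er.1
  have hA : ∀ S' : ℝ, 2 * R' ≤ S' →
      ‖form n 0 ν ψ (cut 0 S')‖ ≤ C₂' * (R' / S') * ∫ x, |ψ x| ∂ν := by
    intro S' hS'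
    have hS'0 : 0 < S' := by linarith only [hR'0, hS']
    have hcL : LipC (cut (0 : Eu d) S') := lipC_cut 0 S' hS'0
    have hbound : ∀ᶠ k in (UU : Filter ℕ),
        ‖form n 0 (μ k) ψ (cut 0 S') - m k • form n 0 (μ k) φ (cut 0 S')‖ ≤
          C₂' * (R' / S') * (∫ x, |ψ x| ∂(μ k) + |m k| * ∫ x, φ x ∂(μ k)) := by
      have e1 : ∀ᶠ k in (UU : Filter ℕ), 0 < ∫ x, φ x ∂(μ k) :=
        hIk.eventually (lt_mem_nhds hI)
      filter_upwards [e1] with k hk1
      set ψk : Eu d → ℝ := fun x => ψ x - m k * φ x with hψkdef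
      have hψkL : LipC ψk := hψ.sub (hφL.const_mul (m k))
      have hψkR : ∀ x, R' < dist x 0 → ψk x = 0 := by
        intro x hx
        simp only [hψkdef, hψR' x hx, hφR' x hx, mul_zero, sub_zero]
      have hψkint : ∫ x, ψk x ∂(μ k) = 0 := by
        have := hloc k
        rw [integral_sub (integrable_of_cc hψ.continuous hψ.2)
          ((integrable_of_cc hφL.continuous hφL.2).const_mul _), integral_const_mul]
        rw [hm]
        field_simp
        simp
      have hG := (hLim k).er.2 0 R' S' ψk (cut 0 S') hR'0 hS' hψkL hψkR hψkint hcL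
        (fun x => ⟨cut_nonneg_vl _ _ _, cut_le_one_vl _ _ _⟩) (fun x hx => cut_eq_one_vl hS'0 hx)
      have h1 : form n 0 (μ k) ψ (cut 0 S') - m k • form n 0 (μ k) φ (cut 0 S') =
          form n 0 (μ k) ψk (cut 0 S') := by
        rw [← form_smul_left, ← form_sub_left hn (hAR k) hψ (hφL.const_mul (m k)) hcL 0 le_rfl]
      rw [h1]
      refine hG.trans ?_
      refine mul_le_mul_of_nonneg_left ?_ (by (clear * - hC₂' hS'0; positivity))
      have := hloc k
      have i1 : Integrable (fun x => |ψ x|) (μ k) := integrable_of_cc hψabs hψabs'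
      have i2 : Integrable (fun x => |m k| * φ x) (μ k) :=
        (integrable_of_cc hφL.continuous hφL.2).const_mul _
      rw [← integral_const_mul, ← integral_add i1 i2]
      refine integral_mono (integrable_of_cc hψkL.continuous hψkL.2).abs (i1.add i2) fun x => ?_
      have h4 := abs_sub (ψ x) (m k * φ x)
      rw [abs_mul, abs_of_nonneg (tent_nonneg_vl (0 : Eu d) 1 x)] at h4
      exact h4
    have l1 : Tendsto (fun k => form n 0 (μ k) ψ (cut 0 S') - m k • form n 0 (μ k) φ (cut 0 S'))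
        (UU : Filter ℕ) (𝓝 (form n 0 ν ψ (cut 0 S') - (0 : ℝ) • form n 0 ν φ (cut 0 S'))) :=
      (hl.form hn hAR hD hν hψ hcL 0 le_rfl).sub
        (hmlim.smul (hl.form hn hAR hD hν hφL hcL 0 le_rfl))
    rw [zero_smul, sub_zero] at l1
    have l2 : Tendsto (fun k => C₂' * (R' / S') *
        (∫ x, |ψ x| ∂(μ k) + |m k| * ∫ x, φ x ∂(μ k))) (UU : Filter ℕ)
        (𝓝 (C₂' * (R' / S') * (∫ x, |ψ x| ∂ν + |0| * ∫ x, φ x ∂ν))) :=
      Tendsto.const_mul _ ((hl _ hψabs hψabs').add (hmlim.abs.mul hIk))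
    rw [abs_zero, zero_mul, add_zero] at l2
    exact le_of_tendsto_of_tendsto l1.norm l2 hbound
  refine er_bound_of_cut hn hfar hνAR ψ hψ hψ0 a R S τ hR hS hψR hτ hτ01 hτ1 ?_
  have hlim : Tendsto (fun S' : ℝ => C₂' * (R' / S') * ∫ x, |ψ x| ∂ν) atTop
      (𝓝 (C₂' * 0 * ∫ x, |ψ x| ∂ν)) :=
    Tendsto.mul_const _ (Tendsto.const_mul _ (tendsto_const_nhds.div_atTop tendsto_id))
  rw [mul_zero, zero_mul] at hlim
  refine squeeze_zero_norm' ?_ hlim
  filter_upwards [eventually_ge_atTop (2 * R')] with S' h1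
  exact hA S' h1

/-- flatness with planes near the origin passes to the limit -/
theorem flat_lim {m : ℕ} (hm : m ≤ d) (h : ∀ k, AR n c C (D k) (μ k))
    (_hD : Tendsto D (UU : Filter ℕ) (𝓝 ⊤)) (hν : IsLocallyFiniteMeasure ν)
    (hl : VagueLim UU μ ν) (h0 : ∀ k, (0 : Eu d) ∈ (μ k).support) (R δ : ℝ) (hR : 0 < R)
    (hδ : 0 ≤ δ) (hf : ∀ᶠ k in (UU : Filter ℕ), Flat m (μ k) 0 R δ) : Flat m ν 0 R δ :=
  VagueLim.flat (fun _ hx _ hδ' => hl.eventually_exists_support
    (fun k => (AR.ulb h).locallyFinite k) hx hδ') hm h0 R δ hR hδ hf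

/-- contradiction form of near flatness: if the vague limit is `g` times Lebesgue measure on a
plane then `NF` holds eventually -/
theorem nf_of_lim (hn : 1 ≤ n) (h : ∀ k, AR n c C (D k) (μ k)) (_hν : IsLocallyFiniteMeasure ν)
    (hl : VagueLim UU μ ν) (b : Eu d) (ι : Eu n →ₗᵢ[ℝ] Eu d) (g : ℝ)
    (hflat : ∀ f : Eu d → ℝ, Continuous f → HasCompactSupport f →
      ∫ x, f x ∂ν = g * ∫ v, f (b + ι v)) (K ε : ℝ) (hK : 0 < K) (hε : 0 < ε) :
    ∀ᶠ k in (UU : Filter ℕ), NF n (μ k) 0 1 K ε b ι g := by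
  have hd : 0 < d := by
    have h1 := LinearMap.finrank_le_finrank_of_injective (f := ι.toLinearMap) ι.injective
    simp only [finrank_euclideanSpace, Fintype.card_fin] at h1
    omega
  by_contra hcon
  rw [← Ultrafilter.eventually_not] at hcon
  have hex : ∀ k, ∃ φ : Eu d → ℝ, (∀ x y, |φ x - φ y| ≤ 1 * dist x y) ∧
      (∀ x, K ≤ dist x 0 → φ x = 0) ∧
      (¬ NF n (μ k) 0 1 K ε b ι g → ε < |∫ x, φ x ∂(μ k) - g * ∫ v, φ (b + ι v)|) := by
    intro k
    by_cases hk : NF n (μ k) 0 1 K ε b ι g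
    · exact ⟨fun _ => 0, fun x y => by simp only [sub_self, abs_zero, one_mul, dist_nonneg], fun x _ => rfl, fun h => absurd hk h⟩
    · have hk' := hk
      rw [NF] at hk'
      push Not at hk'
      obtain ⟨φ, h1, h2, h3⟩ := hk'
      exact ⟨φ, fun x y => by simpa only [one_mul, div_one] using h1 x y, fun x hx => h2 x (by simpa only [mul_one,
                                                                         dist_zero_right] using hx),
        fun _ => by simpa using h3⟩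
  choose φ h1 h2 h3 using hex
  obtain ⟨f, hf1, hf2, hf3⟩ := exists_unif_limit UU hd one_pos hK h1 h2
  have lc : ∀ {φ : Eu d → ℝ}, (∀ x y, |φ x - φ y| ≤ 1 * dist x y) → Continuous φ := by
    intro φ hφ
    refine (LipschitzWith.of_dist_le_mul (K := 1) fun x y => ?_).continuous
    rw [Real.dist_eq]
    simpa only [NNReal.coe_one, one_mul] using hφ x y
  have cs : ∀ {φ : Eu d → ℝ}, (∀ x, K ≤ dist x 0 → φ x = 0) → HasCompactSupport φ := by
    intro φ hφ
    refine HasCompactSupport.intro (isCompact_closedBall (0 : Eu d) K) fun x hx => hφ x ?_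
    rw [mem_closedBall, not_le] at hx
    exact hx.le
  obtain ⟨B, hB⟩ := AR.ulb h K
  set V : ℝ := (volume (closedBall (0 : Eu n) (K + ‖b‖))).toReal with hV
  have hV0 : 0 ≤ V := ENNReal.toReal_nonneg
  have hB0 : (0 : ℝ) ≤ B := B.2
  set η : ℝ := ε / (2 * (B + |g| * V + 1)) with hη
  have hη0 : 0 < η := by (clear * - hε; positivity)
  have hηe : η * (B + |g| * V + 1) = ε / 2 := by rw [hη]; (clear * - hε hV0; field_simp)
  have hlimf := Metric.tendsto_nhds.1 (hl f (lc hf1) (cs hf2)) (ε / 2) (by positivity)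
  have hfin : ∀ᶠ k in (UU : Filter ℕ), False := by
    filter_upwards [hcon, hf3 η hη0, hlimf] with k hk hk1 hk2
    have := (AR.ulb h).locallyFinite k
    have h4 := h3 k hk
    have e1 : |∫ x, φ k x ∂(μ k) - ∫ x, f x ∂(μ k)| ≤ η * B := by
      rw [← integral_sub (integrable_of_cc (lc (h1 k)) (cs (h2 k))) (integrable_of_cc (lc hf1) (cs hf2))]
      refine abs_integral_le_of_ball (hB k) hk1 fun x hx => ?_
      rw [mem_closedBall, not_le] at hx
      rw [h2 k x hx.le, hf2 x hx.le, sub_zero]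
    have hιc : Continuous (fun v : Eu n => b + ι v) := by
      have := ι.continuous
      fun_prop
    have hιR : ∀ {ψ : Eu d → ℝ}, (∀ x, K ≤ dist x 0 → ψ x = 0) →
        ∀ v : Eu n, v ∉ closedBall (0 : Eu n) (K + ‖b‖) → ψ (b + ι v) = 0 := by
      intro ψ hψ v hv
      refine hψ _ ?_
      rw [mem_closedBall, not_le, dist_zero_right] at hv
      rw [dist_zero_right]
      have h5 : ‖ι v‖ ≤ ‖b + ι v‖ + ‖b‖ := by
        calc ‖ι v‖ = ‖(b + ι v) - b‖ := by rw [add_sub_cancel_left]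
          _ ≤ _ := norm_sub_le _ _
      rw [ι.norm_map] at h5
      linarith only [hv, h5]
    have hιcs : ∀ {ψ : Eu d → ℝ}, (∀ x, K ≤ dist x 0 → ψ x = 0) →
        HasCompactSupport (fun v : Eu n => ψ (b + ι v)) := fun hψ =>
      HasCompactSupport.intro (isCompact_closedBall (0 : Eu n) (K + ‖b‖)) (hιR hψ)
    have e2 : |(∫ v, φ k (b + ι v)) - ∫ v, f (b + ι v)| ≤ η * V := by
      have i1 : Integrable (fun v : Eu n => φ k (b + ι v)) :=
        ((lc (h1 k)).comp hιc).integrable_of_hasCompactSupport (hιcs (h2 k))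
      have i2 : Integrable (fun v : Eu n => f (b + ι v)) :=
        ((lc hf1).comp hιc).integrable_of_hasCompactSupport (hιcs hf2)
      rw [← integral_sub i1 i2]
      have h5 : ∫ v, (φ k (b + ι v) - f (b + ι v)) =
          ∫ v in closedBall (0 : Eu n) (K + ‖b‖), (φ k (b + ι v) - f (b + ι v)) := by
        refine (setIntegral_eq_integral_of_forall_compl_eq_zero fun v hv => ?_).symm
        rw [hιR (h2 k) v hv, hιR hf2 v hv, sub_zero]
      rw [h5, ← Real.norm_eq_abs]
      exact norm_setIntegral_le_of_norm_le_const measure_closedBall_lt_top fun v _ => hk1 _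
    rw [Real.dist_eq, hflat f (lc hf1) (cs hf2)] at hk2
    have e3 : |∫ x, φ k x ∂(μ k) - g * ∫ v, φ k (b + ι v)| ≤
        |∫ x, φ k x ∂(μ k) - ∫ x, f x ∂(μ k)| + |∫ x, f x ∂(μ k) - g * ∫ v, f (b + ι v)| +
        |g| * |(∫ v, φ k (b + ι v)) - ∫ v, f (b + ι v)| := by
      rw [← abs_mul, ← abs_neg (g * _)]
      refine le_trans (le_of_eq ?_) ((abs_add_le _ _).trans (add_le_add_left (abs_add_le _ _) _))
      congr 1
      ring
    have e4 : |g| * |(∫ v, φ k (b + ι v)) - ∫ v, f (b + ι v)| ≤ |g| * (η * V) :=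
      mul_le_mul_of_nonneg_left e2 (abs_nonneg _)
    have e5 : η * B + |g| * (η * V) ≤ ε / 2 := by
      rw [← hηe]
      have : 0 ≤ η * 1 := by (clear * - hε; positivity)
      nlinarith only [hη0, hηe, hk2, h4, e1, e3, e4]
    linarith only [hη0, hηe, hk2, h4, e1, e3, e4]
  obtain ⟨_, hF⟩ := hfin.exists
  exact hF

end Vale.Agent.P120
end
end

section

section

/-! Existence of the weak limits of the height measures.  Owner: helper647 -/

open MeasureTheory Metric Set Filter Topology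
open scoped ENNReal NNReal

namespace Vale.Agent.P120

variable {d n : ℕ} {c C : ℝ}

theorem Ht.withDensity_le {A : ℝ} {ν : Measure (Eu d)} {h : Eu d → ℝ} (hν : AR n c C ⊤ ν)
    (H : Ht n A ν h) (R : ℝ) :
    (ν.withDensity fun x => ENNReal.ofReal (h x)) (closedBall 0 R) ≤
      ENNReal.ofReal ((A + C) / 2 * ((max R 1) ^ (n + 1) * Real.sqrt (max R 1))) := by
  have hlf := hν.isLocallyFiniteMeasure
  have hcont := H.continuous
  have h1 : (ν.withDensity fun x => ENNReal.ofReal (h x)) (closedBall 0 R) ≤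
      (ν.withDensity fun x => ENNReal.ofReal (h x)) (closedBall 0 (max R 1)) :=
    measure_mono (closedBall_subset_closedBall (le_max_left _ _))
  refine h1.trans ?_
  rw [withDensity_apply _ measurableSet_closedBall]
  have i1 : IntegrableOn (fun x => |h x|) (closedBall 0 (max R 1)) ν :=
    hcont.abs.continuousOn.integrableOn_compact (isCompact_closedBall _ _)
  calc ∫⁻ x in closedBall (0 : Eu d) (max R 1), ENNReal.ofReal (h x) ∂ν
      ≤ ∫⁻ x in closedBall (0 : Eu d) (max R 1), ENNReal.ofReal |h x| ∂ν :=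
        lintegral_mono fun x => ENNReal.ofReal_le_ofReal (le_abs_self _)
    _ = ENNReal.ofReal (∫ x in closedBall (0 : Eu d) (max R 1), |h x| ∂ν) :=
        (ofReal_integral_eq_lintegral_ofReal i1 (ae_of_all _ fun x => abs_nonneg _)).symm
    _ ≤ _ := ENNReal.ofReal_le_ofReal (H.l1_growth hν (le_max_right _ _))

theorem exists_impSeq (_hn : 1 ≤ n) {A : ℝ} {𝒰 : Ultrafilter ℕ} {ν : ℕ → Measure (Eu d)}
    {ν' : Measure (Eu d)} {ι : Eu n →ₗᵢ[ℝ] Eu d} {g : ℝ} {h : ℕ → Eu d → ℝ}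
    (ar : ∀ k, AR n c C ⊤ (ν k)) (zero_mem : ∀ k, (0 : Eu d) ∈ (ν k).support)
    (vl : VagueLim 𝒰 ν ν') (ar' : AR n c C ⊤ ν') (g_pos : 0 < g)
    (planar : ∀ f : Eu d → ℝ, Continuous f → HasCompactSupport f →
      ∫ x, f x ∂ν' = g * ∫ v : Eu n, f (ι v))
    (ht : ∀ k, Ht n A (ν k) (h k)) :
    ∃ σp σm : Measure (Eu d), ImpSeq n c C A 𝒰 ν ν' ι g h σp σm := by
  obtain ⟨σp, hp1, _, hp2, _⟩ := exists_vagueLim' 𝒰
    (fun k => (ν k).withDensity fun x => ENNReal.ofReal (h k x))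
    (fun R => ⟨_, fun k => (ht k).withDensity_le (ar k) R⟩)
  obtain ⟨σm, hm1, _, hm2, _⟩ := exists_vagueLim' 𝒰
    (fun k => (ν k).withDensity fun x => ENNReal.ofReal (-h k x))
    (fun R => ⟨_, fun k => (ht k).neg.withDensity_le (ar k) R⟩)
  exact ⟨σp, σm, ar, zero_mem, vl, ar', g_pos, planar, ht, hp2, hm2, hp1, hm1⟩

end Vale.Agent.P120
end
end

section

section

/-! Comparison of the truncated regularised operator with `fracL` on `R^n`.
Owner: helper892 -/

open MeasureTheory Metric Set Filter Topology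
open scoped ENNReal NNReal

namespace Vale.Agent.P120

variable {d n : ℕ}

/-- upper regularity of Lebesgue measure -/
theorem volume_upper (n : ℕ) : ∃ C : ℝ, 0 < C ∧ ∀ (x : Eu n) (r : ℝ), 0 < r →
    volume (closedBall x r) ≤ ENNReal.ofReal (C * r ^ n) := by
  have hfin : (volume (ball (0 : Eu n) 1)) ≠ ⊤ := measure_ball_lt_top.ne
  refine ⟨(volume (ball (0 : Eu n) 1)).toReal + 1, by positivity, fun x r hr => ?_⟩
  rw [Measure.addHaar_closedBall volume x hr.le, finrank_euclideanSpace_fin,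
    ← ENNReal.ofReal_toReal hfin, ← ENNReal.ofReal_mul (by positivity)]
  apply ENNReal.ofReal_le_ofReal
  rw [ENNReal.toReal_ofReal ENNReal.toReal_nonneg]
  nlinarith only [pow_pos hr n, hr]

theorem abs_integral_le_of_lintegral {α : Type*} [MeasurableSpace α] {μ : Measure α}
    {F : α → ℝ} {G : α → ℝ} (hF : AEStronglyMeasurable F μ) (hFG : ∀ x, |F x| ≤ G x) {B : ℝ}
    (hB : 0 ≤ B) (h : ∫⁻ x, ENNReal.ofReal (G x) ∂μ ≤ ENNReal.ofReal B) :
    Integrable F μ ∧ |∫ x, F x ∂μ| ≤ B ∧ ∫ x, |F x| ∂μ ≤ B := by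
  have h1 : ∫⁻ x, ‖F x‖ₑ ∂μ ≤ ENNReal.ofReal B := by
    refine le_trans (lintegral_mono fun x => ?_) h
    rw [Real.enorm_eq_ofReal_abs]
    exact ENNReal.ofReal_le_ofReal (hFG x)
  have hint : Integrable F μ := ⟨hF, by
    rw [hasFiniteIntegral_iff_enorm]; exact h1.trans_lt ENNReal.ofReal_lt_top⟩
  have h2 : ∫ x, |F x| ∂μ ≤ B := by
    have h3 : ∫ x, |F x| ∂μ = (∫⁻ x, ‖F x‖ₑ ∂μ).toReal := by
      rw [← integral_norm_eq_lintegral_enorm hF]
      simp [Real.norm_eq_abs]
    rw [h3]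
    exact ENNReal.toReal_le_of_le_ofReal hB h1
  refine ⟨hint, ?_, h2⟩
  exact (abs_integral_le_integral_abs).trans h2

/-- translation: `v ↦ u - v` and symmetrisation -/
theorem integral_symm_diff (φ k : Eu n → ℝ) (hk : ∀ z, k (-z) = k z) (u : Eu n)
    (h1 : Integrable (fun z => (φ u - φ (u + z)) * k z)) :
    ∫ v, (φ u - φ v) * k (u - v) = ∫ z, (φ u - (φ (u + z) + φ (u - z)) / 2) * k z := by
  have h2 : Integrable (fun z => (φ u - φ (u - z)) * k z) := by
    have := h1.comp_neg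
    refine this.congr (ae_of_all _ fun z => ?_)
    simp only
    rw [hk, ← sub_eq_add_neg]
  have e1 : ∫ v, (φ u - φ v) * k (u - v) = ∫ z, (φ u - φ (u - z)) * k z := by
    have := integral_sub_left_eq_self (fun z => (φ u - φ (u - z)) * k z) (volume : Measure (Eu n)) u
    rw [← this]
    congr 1
    funext v
    simp
  have e2 : ∫ z, (φ u - φ (u - z)) * k z = ∫ z, (φ u - φ (u + z)) * k z := by
    rw [← integral_neg_eq_self (fun z => (φ u - φ (u + z)) * k z)]
    congr 1
    funext z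
    rw [hk, ← sub_eq_add_neg]
  have e3 : ∫ z, (φ u - (φ (u + z) + φ (u - z)) / 2) * k z =
      (1 / 2) * (∫ z, (φ u - φ (u - z)) * k z) + (1 / 2) * ∫ z, (φ u - φ (u + z)) * k z := by
    rw [← integral_const_mul, ← integral_const_mul,
      ← integral_add (h2.const_mul _) (h1.const_mul _)]
    congr 1
    funext z
    ring
  rw [e1, e3, e2]
  ring


theorem sK_le_e (n : ℕ) (e : ℝ) (he : 0 < e) (z : Eu d) : sK n e z ≤ (e ^ (n + 1))⁻¹ := by
  unfold sK
  have h1 : e ≤ Real.sqrt (‖z‖ ^ 2 + e ^ 2) := by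
    apply Real.le_sqrt_of_sq_le
    nlinarith only [sq_nonneg ‖z‖]
  exact inv_anti₀ (by positivity) (pow_le_pow_left₀ he.le h1 _)

theorem integrable_sK_imp (n : ℕ) (e : ℝ) (he : 0 < e) :
    Integrable (sK (d := n) n e) := by
  obtain ⟨Cv, hCv, hv⟩ := volume_upper n
  obtain ⟨C₂, hC₂, h₂⟩ := lintegral_far n 1 le_rfl Cv hCv
  have hm : AEStronglyMeasurable (sK (d := n) n e) volume :=
    (continuous_sK n e he).aestronglyMeasurable
  refine ⟨hm, ?_⟩
  rw [hasFiniteIntegral_iff_enorm]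
  have hcov : (univ : Set (Eu n)) ⊆ closedBall 0 1 ∪ {y | 1 ≤ dist y 0} := by
    intro y _
    rcases le_total (dist y 0) 1 with h | h
    · left; exact h
    · right; exact h
  calc ∫⁻ z, ‖sK (d := n) n e z‖ₑ = ∫⁻ z in univ, ‖sK (d := n) n e z‖ₑ := by
        rw [Measure.restrict_univ]
    _ ≤ ∫⁻ z in closedBall (0 : Eu n) 1 ∪ {y | 1 ≤ dist y 0}, ‖sK (d := n) n e z‖ₑ :=
        lintegral_mono_set hcov
    _ ≤ (∫⁻ z in closedBall (0 : Eu n) 1, ‖sK (d := n) n e z‖ₑ) +
          ∫⁻ z in {y : Eu n | 1 ≤ dist y 0}, ‖sK (d := n) n e z‖ₑ := lintegral_union_le _ _ _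
    _ < ⊤ := by
        apply ENNReal.add_lt_top.2
        constructor
        · refine lt_of_le_of_lt (lintegral_mono (g := fun _ => ENNReal.ofReal ((e ^ (n + 1))⁻¹))
            fun z => ?_) ?_
          · rw [Real.enorm_eq_ofReal_abs, abs_of_nonneg (sK_nonneg _ _ _)]
            exact ENNReal.ofReal_le_ofReal (sK_le_e n e he z)
          · rw [setLIntegral_const]
            exact ENNReal.mul_lt_top ENNReal.ofReal_lt_top
              ((hv 0 1 one_pos).trans_lt ENNReal.ofReal_lt_top)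
        · refine lt_of_le_of_lt ?_ ((h₂ n volume hv 0 1 one_pos).trans_lt ENNReal.ofReal_lt_top)
          apply setLIntegral_mono' (measurableSet_le measurable_const (by fun_prop))
          intro z hz
          have hz' : z ≠ 0 := by
            rintro rfl
            have : (1 : ℝ) ≤ dist (0 : Eu n) 0 := hz
            rw [dist_self] at this
            linarith only [this]
          rw [Real.enorm_eq_ofReal_abs, abs_of_nonneg (sK_nonneg _ _ _), zero_sub, norm_neg]
          exact ENNReal.ofReal_le_ofReal (sK_le n e z hz')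

/-- the regularisation error -/
theorem reg_error (n : ℕ) (hn : 1 ≤ n) (φ : Eu n → ℝ) (hφc : Continuous φ) (Rφ : ℝ)
    (hR1 : 1 ≤ Rφ) (hφR : ∀ v, Rφ < ‖v‖ → φ v = 0) (M : ℝ) (hM : ∀ v, |φ v| ≤ M)
    (hD : ∀ u z, |φ u - (φ (u + z) + φ (u - z)) / 2| ≤ M * ‖z‖ ^ 2) :
    ∃ K : ℝ, 0 < K ∧ ∀ (e : ℝ) (u : Eu n), 0 < e → e ≤ 1 →
      Integrable (fun z => (φ u - (φ (u + z) + φ (u - z)) / 2) * (sK n 0 z - sK n e z)) ∧
      |∫ z, (φ u - (φ (u + z) + φ (u - z)) / 2) * (sK n 0 z - sK n e z)| ≤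
        K * e * ((1 + ‖u‖) ^ (n + 2))⁻¹ := by
  obtain ⟨Cv, hCv, hv⟩ := volume_upper n
  obtain ⟨C₁, hC₁, h₁⟩ := lintegral_near_reg n hn Cv hCv
  obtain ⟨C₃, hC₃, h₃⟩ := rK_reg_le n
  have hM0 : 0 ≤ M := (abs_nonneg _).trans (hM 0)
  set K : ℝ := M * C₃ * C₁ * (2 * Rφ + 2) ^ (n + 2) + M * C₃ * 4 ^ (n + 3) * (Cv * Rφ ^ n) + 1
    with hK
  have hKpos : 0 < K := by (clear * - hR1 hCv hC₁ hC₃ hM0; positivity)
  refine ⟨K, hKpos, ?_⟩
  intro e u he he1
  have hmeas : AEStronglyMeasurable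
      (fun z => (φ u - (φ (u + z) + φ (u - z)) / 2) * (sK n 0 z - sK n e z)) volume := by
    apply AEStronglyMeasurable.mul
    · apply Continuous.aestronglyMeasurable
      fun_prop
    · exact ((measurable_sK n 0).sub (measurable_sK n e)).aestronglyMeasurable
  have hker : ∀ z : Eu n, z ≠ 0 → |sK n 0 z - sK n e z| ≤
      C₃ * (‖z‖ ^ (n + 1))⁻¹ * min 1 (e ^ 2 / ‖z‖ ^ 2) := fun z hz => (h₃ n e z hz).2.1
  by_cases hu : ‖u‖ ≤ 2 * Rφ + 1
  · have hG : ∀ z, |(φ u - (φ (u + z) + φ (u - z)) / 2) * (sK n 0 z - sK n e z)| ≤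
        M * C₃ * ((‖(0 : Eu n) - z‖ ^ (n - 1))⁻¹ * min 1 (e ^ 2 / ‖(0 : Eu n) - z‖ ^ 2)) := by
      intro z
      rw [zero_sub, norm_neg]
      rcases eq_or_ne z 0 with rfl | hz
      · have : φ u - (φ (u + 0) + φ (u - 0)) / 2 = 0 := by
          rw [add_zero, sub_zero]; ring
        rw [this, zero_mul, abs_zero]
        (clear * - hC₃ hM0 he; positivity)
      · have hz' : 0 < ‖z‖ := norm_pos_iff.2 hz
        rw [abs_mul]
        calc |φ u - (φ (u + z) + φ (u - z)) / 2| * |sK n 0 z - sK n e z|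
            ≤ (M * ‖z‖ ^ 2) * (C₃ * (‖z‖ ^ (n + 1))⁻¹ * min 1 (e ^ 2 / ‖z‖ ^ 2)) :=
              mul_le_mul (hD u z) (hker z hz) (abs_nonneg _) (by positivity)
          _ = M * C₃ * ((‖z‖ ^ (n - 1))⁻¹ * min 1 (e ^ 2 / ‖z‖ ^ 2)) := by
              obtain ⟨j, rfl⟩ : ∃ j, n = j + 1 := ⟨n - 1, by omega⟩
              rw [Nat.add_sub_cancel]
              have : ‖z‖ ^ (j + 1 + 1) = ‖z‖ ^ j * ‖z‖ ^ 2 := by ring
              rw [this]
              field_simp
    have hlint : ∫⁻ z, ENNReal.ofReal (M * C₃ * ((‖(0 : Eu n) - z‖ ^ (n - 1))⁻¹ *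
        min 1 (e ^ 2 / ‖(0 : Eu n) - z‖ ^ 2))) ≤ ENNReal.ofReal (M * C₃ * (C₁ * e)) := by
      simp_rw [ENNReal.ofReal_mul (by (clear * - hC₃ hM0; positivity) : 0 ≤ M * C₃)]
      rw [lintegral_const_mul' _ _ ENNReal.ofReal_ne_top]
      gcongr
      exact h₁ n volume hv 0 e he
    obtain ⟨a1, a2, -⟩ := abs_integral_le_of_lintegral hmeas hG (by (clear * - hC₁ hC₃ hM0 he; positivity)) hlint
    refine ⟨a1, a2.trans ?_⟩
    have h5 : 1 ≤ (2 * Rφ + 2) ^ (n + 2) * ((1 + ‖u‖) ^ (n + 2))⁻¹ := by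
      rw [← div_eq_mul_inv, le_div_iff₀ (by (clear * -; positivity)), one_mul]
      apply pow_le_pow_left₀ (by positivity)
      linarith only [hu]
    calc M * C₃ * (C₁ * e) ≤ M * C₃ * (C₁ * e) *
          ((2 * Rφ + 2) ^ (n + 2) * ((1 + ‖u‖) ^ (n + 2))⁻¹) :=
          le_mul_of_one_le_right (by (clear * - hC₁ hC₃ hM0 he; positivity)) h5
      _ = (M * C₃ * C₁ * (2 * Rφ + 2) ^ (n + 2)) * e * ((1 + ‖u‖) ^ (n + 2))⁻¹ := by ring
      _ ≤ K * e * ((1 + ‖u‖) ^ (n + 2))⁻¹ := by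
          gcongr
          rw [hK]
          have : 0 ≤ M * C₃ * 4 ^ (n + 3) * (Cv * Rφ ^ n) := by (clear * - hR1 hCv hC₃ hM0; positivity)
          linarith only [this]
  · push Not at hu
    have hupos : 0 < ‖u‖ := by linarith only [hR1, hu]
    have hφu : φ u = 0 := hφR u (by linarith only [hR1, hu])
    set B : ℝ := M / 2 * (C₃ * ((2 / ‖u‖) ^ (n + 3) * e ^ 2)) with hB
    have hB0 : 0 ≤ B := by (clear * - hC₃ hM0 he hupos; positivity)
    have hG : ∀ z, |(φ u - (φ (u + z) + φ (u - z)) / 2) * (sK n 0 z - sK n e z)| ≤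
        (closedBall (-u) Rφ).indicator (fun _ => B) z + (closedBall u Rφ).indicator
          (fun _ => B) z := by
      intro z
      have hi1 : 0 ≤ (closedBall (-u) Rφ).indicator (fun _ => B) z :=
        indicator_nonneg (fun _ _ => hB0) _
      have hi2 : 0 ≤ (closedBall u Rφ).indicator (fun _ => B) z :=
        indicator_nonneg (fun _ _ => hB0) _
      rw [hφu, zero_sub]
      -- each of the two terms
      have hkz : ‖u‖ / 2 ≤ ‖z‖ → |sK n 0 z - sK n e z| ≤ C₃ * ((2 / ‖u‖) ^ (n + 3) * e ^ 2) := by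
        intro hz
        have hz0 : z ≠ 0 := by
          rintro rfl
          rw [norm_zero] at hz; linarith only [hR1, hu, hz]
        have hzp : 0 < ‖z‖ := norm_pos_iff.2 hz0
        refine (hker z hz0).trans ?_
        rw [mul_assoc]
        apply mul_le_mul_of_nonneg_left _ hC₃.le
        have h6 : (‖z‖ ^ (n + 1))⁻¹ * min 1 (e ^ 2 / ‖z‖ ^ 2) ≤
            (‖z‖ ^ (n + 1))⁻¹ * (e ^ 2 / ‖z‖ ^ 2) :=
          mul_le_mul_of_nonneg_left (min_le_right _ _) (by positivity)
        refine h6.trans ?_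
        have h7 : (‖z‖ ^ (n + 1))⁻¹ * (e ^ 2 / ‖z‖ ^ 2) = (‖z‖⁻¹) ^ (n + 3) * e ^ 2 := by
          rw [inv_pow, show n + 3 = n + 1 + 2 by ring, pow_add]
          field_simp
          ring
        rw [h7]
        apply mul_le_mul_of_nonneg_right _ (by positivity)
        apply pow_le_pow_left₀ (by positivity)
        rw [inv_le_comm₀ hzp (by positivity), inv_div]
        exact hz
      have hterm : ∀ s : Eu n, ‖s‖ = ‖u‖ → ∀ (hs : |φ (s + z)| ≠ 0), ‖u‖ / 2 ≤ ‖z‖ := by
        intro s hsu hs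
        have h8 : ‖s + z‖ ≤ Rφ := by
          by_contra hcon
          push Not at hcon
          exact hs (by rw [hφR _ hcon, abs_zero])
        have h9 : ‖s‖ ≤ ‖s + z‖ + ‖z‖ := by
          have := norm_sub_le (s + z) z
          simpa only [ge_iff_le, add_sub_cancel_right] using this
        linarith only [hu, hsu, h8, h9]
      have p1 : |φ (u + z)| * |sK n 0 z - sK n e z| ≤
          2 * (closedBall (-u) Rφ).indicator (fun _ => B) z := by
        by_cases hs : |φ (u + z)| = 0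
        · rw [hs, zero_mul]; (clear * - hi1; positivity)
        · have h10 := hkz (hterm u rfl hs)
          have h11 : z ∈ closedBall (-u) Rφ := by
            rw [mem_closedBall, dist_eq_norm, sub_neg_eq_add, add_comm]
            by_contra hcon
            push Not at hcon
            exact hs (by rw [hφR _ hcon, abs_zero])
          rw [indicator_of_mem h11, hB]
          calc |φ (u + z)| * |sK n 0 z - sK n e z|
              ≤ M * (C₃ * ((2 / ‖u‖) ^ (n + 3) * e ^ 2)) :=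
                mul_le_mul (hM _) h10 (abs_nonneg _) hM0
            _ = 2 * (M / 2 * (C₃ * ((2 / ‖u‖) ^ (n + 3) * e ^ 2))) := by ring
      have p2 : |φ (u - z)| * |sK n 0 z - sK n e z| ≤
          2 * (closedBall u Rφ).indicator (fun _ => B) z := by
        by_cases hs : |φ (u - z)| = 0
        · rw [hs, zero_mul]; (clear * - hi2; positivity)
        · have h12 : ‖u‖ / 2 ≤ ‖z‖ := by
            have h8 : ‖u - z‖ ≤ Rφ := by
              by_contra hcon
              push Not at hcon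
              exact hs (by rw [hφR _ hcon, abs_zero])
            have h9 : ‖u‖ ≤ ‖u - z‖ + ‖z‖ := by
              have := norm_add_le (u - z) z
              simpa only [ge_iff_le, sub_add_cancel] using this
            linarith only [hu, h8, h9]
          have h10 := hkz h12
          have h11 : z ∈ closedBall u Rφ := by
            rw [mem_closedBall, dist_comm, dist_eq_norm]
            by_contra hcon
            push Not at hcon
            exact hs (by rw [hφR _ hcon, abs_zero])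
          rw [indicator_of_mem h11, hB]
          calc |φ (u - z)| * |sK n 0 z - sK n e z|
              ≤ M * (C₃ * ((2 / ‖u‖) ^ (n + 3) * e ^ 2)) :=
                mul_le_mul (hM _) h10 (abs_nonneg _) hM0
            _ = 2 * (M / 2 * (C₃ * ((2 / ‖u‖) ^ (n + 3) * e ^ 2))) := by ring
      rw [abs_mul, abs_neg, abs_div, abs_two]
      calc |φ (u + z) + φ (u - z)| / 2 * |sK n 0 z - sK n e z|
          ≤ (|φ (u + z)| + |φ (u - z)|) / 2 * |sK n 0 z - sK n e z| := by
            gcongr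
            exact abs_add_le _ _
        _ = (|φ (u + z)| * |sK n 0 z - sK n e z| + |φ (u - z)| * |sK n 0 z - sK n e z|) / 2 := by
            ring
        _ ≤ _ := by linarith only [p1, p2]
    have hlint : ∫⁻ z, ENNReal.ofReal ((closedBall (-u) Rφ).indicator (fun _ => B) z +
        (closedBall u Rφ).indicator (fun _ => B) z) ≤
        ENNReal.ofReal (B * (Cv * Rφ ^ n) + B * (Cv * Rφ ^ n)) := by
      have hind : ∀ (x : Eu n), ∫⁻ z, ENNReal.ofReal ((closedBall x Rφ).indicator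
          (fun _ => B) z) ≤ ENNReal.ofReal (B * (Cv * Rφ ^ n)) := by
        intro x
        have h13 : ∀ z, ENNReal.ofReal ((closedBall x Rφ).indicator (fun _ => B) z) =
            (closedBall x Rφ).indicator (fun _ => ENNReal.ofReal B) z := by
          intro z
          by_cases hz : z ∈ closedBall x Rφ
          · rw [indicator_of_mem hz, indicator_of_mem hz]
          · rw [indicator_of_notMem hz, indicator_of_notMem hz, ENNReal.ofReal_zero]
        simp_rw [h13]
        rw [lintegral_indicator measurableSet_closedBall, setLIntegral_const,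
          ENNReal.ofReal_mul hB0]
        gcongr
        exact hv x Rφ (by linarith only [hR1])
      rw [ENNReal.ofReal_add (by (clear * - hR1 hCv hC₃ hM0 he hupos; positivity)) (by (clear * - hR1 hCv hC₃ hM0 he hupos; positivity))]
      refine le_trans ?_ (add_le_add (hind (-u)) (hind u))
      rw [← lintegral_add_left]
      · apply lintegral_mono
        intro z
        exact ENNReal.ofReal_add_le
      · apply Measurable.ennreal_ofReal
        exact measurable_const.indicator measurableSet_closedBall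
    obtain ⟨a1, a2, -⟩ := abs_integral_le_of_lintegral hmeas hG (by (clear * - hR1 hCv hC₃ hM0 he hupos; positivity)) hlint
    refine ⟨a1, a2.trans ?_⟩
    have h14 : (2 / ‖u‖) ^ (n + 3) ≤ 4 ^ (n + 3) * ((1 + ‖u‖) ^ (n + 2))⁻¹ := by
      have h15 : 2 / ‖u‖ ≤ 4 / (1 + ‖u‖) := by
        rw [div_le_div_iff₀ hupos (by positivity)]
        linarith only [hR1, hu]
      calc (2 / ‖u‖) ^ (n + 3) ≤ (4 / (1 + ‖u‖)) ^ (n + 3) :=
            pow_le_pow_left₀ (by positivity) h15 _
        _ = 4 ^ (n + 3) * ((1 + ‖u‖) ^ (n + 3))⁻¹ := by rw [div_pow, div_eq_mul_inv]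
        _ ≤ 4 ^ (n + 3) * ((1 + ‖u‖) ^ (n + 2))⁻¹ := by
            gcongr
            · linarith only [hR1, hu]
            · norm_num
    have h16 : e ^ 2 ≤ e := by nlinarith only [he, he1]
    calc B * (Cv * Rφ ^ n) + B * (Cv * Rφ ^ n)
        = M * (C₃ * ((2 / ‖u‖) ^ (n + 3) * e ^ 2)) * (Cv * Rφ ^ n) := by rw [hB]; ring
      _ ≤ M * (C₃ * ((4 ^ (n + 3) * ((1 + ‖u‖) ^ (n + 2))⁻¹) * e)) * (Cv * Rφ ^ n) := by
          (clear * - hR1 hCv hC₃ hM0 he hupos h14 h16; gcongr)
      _ = (M * C₃ * 4 ^ (n + 3) * (Cv * Rφ ^ n)) * e * ((1 + ‖u‖) ^ (n + 2))⁻¹ := by ring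
      _ ≤ K * e * ((1 + ‖u‖) ^ (n + 2))⁻¹ := by
          gcongr
          rw [hK]
          have : 0 ≤ M * C₃ * C₁ * (2 * Rφ + 2) ^ (n + 2) := by (clear * - hR1 hC₁ hC₃ hM0; positivity)
          linarith only [this]


/-- comparison of the truncated regularised operator with `fracL` -/
theorem potential_compare (n : ℕ) (hn : 1 ≤ n) (φ : Eu n → ℝ) (hφc : Continuous φ) (Rφ : ℝ)
    (hR1 : 1 ≤ Rφ) (hφR : ∀ v, Rφ < ‖v‖ → φ v = 0) (M : ℝ) (hM : ∀ v, |φ v| ≤ M)
    (hD : ∀ u z, |φ u - (φ (u + z) + φ (u - z)) / 2| ≤ M * ‖z‖ ^ 2) (h0 : ∫ v, φ v = 0) :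
    ∃ K : ℝ, 0 < K ∧ ∀ (S e : ℝ) (u : Eu n), 2 * Rφ ≤ S → 0 < e → e ≤ 1 →
      |(∫ v, (φ u * cut 0 S v - φ v * cut 0 S u) * sK n e (u - v)) - fracL n φ u| ≤
        K * (1 / S + e) * ((1 + ‖u‖) ^ (n + 2))⁻¹ +
          K * {x : Eu n | S ≤ ‖x‖}.indicator (fun x => (‖x‖ ^ (n + 2))⁻¹) u := by
  obtain ⟨Cv, hCv, hv⟩ := volume_upper n
  obtain ⟨C₂, hC₂, h₂⟩ := lintegral_far n 1 le_rfl Cv hCv
  obtain ⟨C₄, hC₄, h₄⟩ := sK_sub_le n
  obtain ⟨K₁, hK₁, hreg⟩ := reg_error n hn φ hφc Rφ hR1 hφR M hM hD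
  have hM0 : 0 ≤ M := (abs_nonneg _).trans (hM 0)
  have hcs : HasCompactSupport φ := hasCompactSupport_of_ball hφR
  set K : ℝ := K₁ + M * C₂ * 2 * (1 + Rφ) ^ (n + 2) + M * C₄ * Rφ * (Cv * Rφ ^ n) with hK
  have hKpos : 0 < K := by (clear * - hR1 hCv hC₂ hC₄ hK₁ hM0; positivity)
  refine ⟨K, hKpos, ?_⟩
  intro S e u hS he he1
  have hS0 : 0 < S := by linarith only [hR1, hS]
  have hkint : Integrable (fun v => sK n e (u - v)) :=
    (integrable_sK_imp n e he).comp_sub_left u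
  have hθ : Continuous (cut (0 : Eu n) S) := icut_cont _ _
  have hφint : Integrable φ := hφc.integrable_of_hasCompactSupport hcs
  -- the three pieces
  have i1 : Integrable (fun v => (φ u - φ v) * sK n e (u - v)) := by
    refine Integrable.bdd_mul (c := 2 * M) hkint ?_ ?_
    · exact (continuous_const.sub hφc).aestronglyMeasurable
    · refine ae_of_all _ fun v => ?_
      rw [Real.norm_eq_abs]
      refine (abs_sub _ _).trans ?_
      linarith only [hM u, hM v, hM]
  have i2 : Integrable (fun v => φ u * (1 - cut 0 S v) * sK n e (u - v)) := by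
    refine Integrable.bdd_mul (c := M) hkint ?_ ?_
    · exact (continuous_const.mul (continuous_const.sub hθ)).aestronglyMeasurable
    · refine ae_of_all _ fun v => ?_
      rw [Real.norm_eq_abs, abs_mul]
      have : |1 - cut 0 S v| ≤ 1 := by
        rw [abs_le]
        constructor <;> linarith only [icut_nonneg 0 S v, icut_le_one 0 S v]
      calc |φ u| * |1 - cut 0 S v| ≤ M * 1 := mul_le_mul (hM u) this (abs_nonneg _) hM0
        _ = M := mul_one _
  have i3 : Integrable (fun v => (1 - cut 0 S u) * (φ v * sK n e (u - v))) := by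
    apply Integrable.const_mul
    refine Integrable.bdd_mul (c := M) hkint hφc.aestronglyMeasurable ?_
    exact ae_of_all _ fun v => by rw [Real.norm_eq_abs]; exact hM v
  have hdec : ∫ v, (φ u * cut 0 S v - φ v * cut 0 S u) * sK n e (u - v) =
      (∫ v, (φ u - φ v) * sK n e (u - v)) - (∫ v, φ u * (1 - cut 0 S v) * sK n e (u - v)) +
        ∫ v, (1 - cut 0 S u) * (φ v * sK n e (u - v)) := by
    have i12 : Integrable
      (fun a => (φ u - φ a) * sK n e (u - a) - φ u * (1 - cut 0 S a) * sK n e (u - a)) volume :=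
      i1.sub i2
    rw [← integral_sub i1 i2, ← integral_add i12 i3]
    congr 1
    funext v
    ring
  -- first piece
  have i1' : Integrable (fun z => (φ u - φ (u + z)) * sK n e z) := by
    refine Integrable.bdd_mul (c := 2 * M) (integrable_sK_imp n e he) ?_ ?_
    · apply Continuous.aestronglyMeasurable
      fun_prop
    · refine ae_of_all _ fun v => ?_
      rw [Real.norm_eq_abs]
      refine (abs_sub _ _).trans ?_
      linarith only [hM u, hM (u + v), hM]
  have e1 : ∫ v, (φ u - φ v) * sK n e (u - v) =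
      ∫ z, (φ u - (φ (u + z) + φ (u - z)) / 2) * sK n e z :=
    integral_symm_diff φ (sK n e) (fun z => sK_neg n e z) u i1'
  obtain ⟨r1, r2⟩ := hreg e u he he1
  have i4 : Integrable (fun z => (φ u - (φ (u + z) + φ (u - z)) / 2) * sK n e z) := by
    refine Integrable.bdd_mul (c := 2 * M) (integrable_sK_imp n e he) ?_ ?_
    · apply Continuous.aestronglyMeasurable
      fun_prop
    · refine ae_of_all _ fun v => ?_
      rw [Real.norm_eq_abs, abs_le]
      have a1 := abs_le.1 (hM u)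
      have a2 := abs_le.1 (hM (u + v))
      have a3 := abs_le.1 (hM (u - v))
      constructor <;> linarith only [a1.1, a1.2, a2.1, a2.2, a3.1, a3.2, a1, a2, a3]
  have e2 : fracL n φ u = (∫ z, (φ u - (φ (u + z) + φ (u - z)) / 2) * (sK n 0 z - sK n e z)) +
      ∫ z, (φ u - (φ (u + z) + φ (u - z)) / 2) * sK n e z := by
    rw [← integral_add r1 i4]
    unfold fracL
    congr 1
    funext z
    rw [sK_zero_eq]
    ring
  -- second piece
  have b2 : |∫ v, φ u * (1 - cut 0 S v) * sK n e (u - v)| ≤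
      M * C₂ * 2 * (1 + Rφ) ^ (n + 2) * (1 / S) * ((1 + ‖u‖) ^ (n + 2))⁻¹ := by
    by_cases hu : Rφ < ‖u‖
    · have : ∀ v, φ u * (1 - cut 0 S v) * sK n e (u - v) = 0 := by
        intro v
        rw [hφR u hu]; ring
      simp only [this, integral_zero, abs_zero]
      (clear * - hR1 hC₂ hM0 hS0; positivity)
    · push Not at hu
      have hG : ∀ v, |φ u * (1 - cut 0 S v) * sK n e (u - v)| ≤
          {v | S / 2 ≤ dist v u}.indicator (fun v => M * (‖u - v‖ ^ (n + 1))⁻¹) v := by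
        intro v
        by_cases hv' : ‖v‖ ≤ S
        · rw [icut_one hS0 hv']
          simp only [sub_self, mul_zero, zero_mul, abs_zero]
          apply indicator_nonneg
          intro _ _
          (clear * - hM0; positivity)
        · push Not at hv'
          have h5 : S / 2 ≤ dist v u := by
            rw [dist_eq_norm]
            have := norm_sub_norm_le v u
            linarith only [hS, hu, hv', this]
          rw [indicator_of_mem (show v ∈ {v | S / 2 ≤ dist v u} from h5)]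
          have hne : u - v ≠ 0 := by
            intro h6
            rw [dist_comm, dist_eq_norm, h6, norm_zero] at h5
            linarith only [hR1, hS, h5]
          rw [abs_mul, abs_mul]
          have h7 : |1 - cut 0 S v| ≤ 1 := by
            rw [abs_le]
            constructor <;> linarith only [icut_nonneg 0 S v, icut_le_one 0 S v]
          have h8 : |sK n e (u - v)| ≤ (‖u - v‖ ^ (n + 1))⁻¹ := by
            rw [abs_of_nonneg (sK_nonneg _ _ _)]
            exact sK_le n e _ hne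
          calc |φ u| * |1 - cut 0 S v| * |sK n e (u - v)|
              ≤ (M * 1) * (‖u - v‖ ^ (n + 1))⁻¹ :=
                mul_le_mul (mul_le_mul (hM u) h7 (abs_nonneg _) hM0) h8 (abs_nonneg _)
                  (by (clear * - hM0; positivity))
            _ = M * (‖u - v‖ ^ (n + 1))⁻¹ := by rw [mul_one]
      have hms : MeasurableSet {v : Eu n | S / 2 ≤ dist v u} :=
        measurableSet_le measurable_const (by fun_prop)
      have hlint : ∫⁻ v, ENNReal.ofReal ({v | S / 2 ≤ dist v u}.indicator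
          (fun v => M * (‖u - v‖ ^ (n + 1))⁻¹) v) ≤ ENNReal.ofReal (M * (C₂ * ((S / 2) ^ 1)⁻¹)) := by
        have h9 : ∀ v, ENNReal.ofReal ({v | S / 2 ≤ dist v u}.indicator
            (fun v => M * (‖u - v‖ ^ (n + 1))⁻¹) v) = {v | S / 2 ≤ dist v u}.indicator
            (fun v => ENNReal.ofReal M * ENNReal.ofReal ((‖u - v‖ ^ (n + 1))⁻¹)) v := by
          intro v
          by_cases hv' : v ∈ {v | S / 2 ≤ dist v u}
          · rw [indicator_of_mem hv', indicator_of_mem hv', ENNReal.ofReal_mul hM0]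
          · rw [indicator_of_notMem hv', indicator_of_notMem hv', ENNReal.ofReal_zero]
        simp_rw [h9]
        rw [lintegral_indicator hms, lintegral_const_mul' _ _ ENNReal.ofReal_ne_top,
          ENNReal.ofReal_mul hM0]
        gcongr
        exact h₂ n volume hv u (S / 2) (by positivity)
      obtain ⟨-, a2, -⟩ := abs_integral_le_of_lintegral i2.aestronglyMeasurable hG
        (by (clear * - hC₂ hM0 hS0; positivity)) hlint
      refine a2.trans ?_
      have h5 : 1 ≤ (1 + Rφ) ^ (n + 2) * ((1 + ‖u‖) ^ (n + 2))⁻¹ := by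
        rw [← div_eq_mul_inv, le_div_iff₀ (by (clear * -; positivity)), one_mul]
        apply pow_le_pow_left₀ (by (clear * -; positivity))
        linarith only [hu]
      calc M * (C₂ * ((S / 2) ^ 1)⁻¹) = M * C₂ * 2 * (1 / S) := by
            rw [pow_one]; (clear * - hC₂ hS0; field_simp)
        _ ≤ M * C₂ * 2 * (1 / S) * ((1 + Rφ) ^ (n + 2) * ((1 + ‖u‖) ^ (n + 2))⁻¹) :=
            le_mul_of_one_le_right (by (clear * - hC₂ hM0 hS0; positivity)) h5
        _ = _ := by ring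
  -- third piece
  have b3 : |∫ v, (1 - cut 0 S u) * (φ v * sK n e (u - v))| ≤
      M * C₄ * Rφ * (Cv * Rφ ^ n) * {x : Eu n | S ≤ ‖x‖}.indicator
        (fun x => (‖x‖ ^ (n + 2))⁻¹) u := by
    by_cases hu : ‖u‖ ≤ S
    · have : ∀ v, (1 - cut 0 S u) * (φ v * sK n e (u - v)) = 0 := by
        intro v
        rw [icut_one hS0 hu]; ring
      simp only [this, integral_zero, abs_zero]
      have : 0 ≤ {x : Eu n | S ≤ ‖x‖}.indicator (fun x => (‖x‖ ^ (n + 2))⁻¹) u :=
        indicator_nonneg (fun _ _ => by (clear * -; positivity)) _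
      (clear * - hR1 hCv hC₄ hM0 this; positivity)
    · push Not at hu
      rw [indicator_of_mem (show u ∈ {x : Eu n | S ≤ ‖x‖} from hu.le)]
      have hupos : 0 < ‖u‖ := by linarith only [hR1, hS, hu]
      have hu0 : u ≠ 0 := norm_pos_iff.1 hupos
      have i5 : Integrable (fun v => φ v * sK n e (u - v)) := by
        refine Integrable.bdd_mul (c := M) hkint hφc.aestronglyMeasurable ?_
        exact ae_of_all _ fun v => by rw [Real.norm_eq_abs]; exact hM v
      have h10 : ∫ v, φ v * sK n e (u - v) = ∫ v, φ v * (sK n e (u - v) - sK n e u) := by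
        have : ∫ v, φ v * sK n e u = 0 := by rw [integral_mul_const, h0, zero_mul]
        rw [← sub_zero (∫ v, φ v * sK n e (u - v)), ← this,
          ← integral_sub i5 (hφint.mul_const _)]
        congr 1
        funext v
        ring
      rw [integral_const_mul, h10, abs_mul]
      have h7 : |1 - cut 0 S u| ≤ 1 := by
        rw [abs_le]
        constructor <;> linarith only [icut_nonneg 0 S u, icut_le_one 0 S u]
      have hG : ∀ v, |φ v * (sK n e (u - v) - sK n e u)| ≤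
          (closedBall (0 : Eu n) Rφ).indicator
            (fun _ => M * (C₄ * Rφ * (‖u‖ ^ (n + 2))⁻¹)) v := by
        intro v
        by_cases hv' : ‖v‖ ≤ Rφ
        · have hmem : v ∈ closedBall (0 : Eu n) Rφ := by simpa only [mem_closedBall,
                                                           dist_zero_right] using hv'
          rw [indicator_of_mem hmem, abs_mul]
          have h11 : |sK n e (u - v) - sK n e u| ≤ C₄ * Rφ * (‖u‖ ^ (n + 2))⁻¹ := by
            rw [abs_sub_comm]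
            refine (h₄ n e u (u - v) ?_ hu0).trans ?_
            · rw [sub_sub_cancel]; linarith only [hS, hu, hv']
            · rw [sub_sub_cancel]
              (clear * - hC₄ hu0 hv'; gcongr)
          exact mul_le_mul (hM v) h11 (abs_nonneg _) hM0
        · push Not at hv'
          rw [hφR v hv', zero_mul, abs_zero]
          apply indicator_nonneg
          intro _ _
          (clear * - hR1 hC₄ hM0 hu0; positivity)
      have hlint : ∫⁻ v, ENNReal.ofReal ((closedBall (0 : Eu n) Rφ).indicator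
            (fun _ => M * (C₄ * Rφ * (‖u‖ ^ (n + 2))⁻¹)) v) ≤
          ENNReal.ofReal (M * (C₄ * Rφ * (‖u‖ ^ (n + 2))⁻¹) * (Cv * Rφ ^ n)) := by
        have h13 : ∀ z, ENNReal.ofReal ((closedBall (0 : Eu n) Rφ).indicator
            (fun _ => M * (C₄ * Rφ * (‖u‖ ^ (n + 2))⁻¹)) z) =
            (closedBall (0 : Eu n) Rφ).indicator
              (fun _ => ENNReal.ofReal (M * (C₄ * Rφ * (‖u‖ ^ (n + 2))⁻¹))) z := by
          intro z
          by_cases hz : z ∈ closedBall (0 : Eu n) Rφ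
          · rw [indicator_of_mem hz, indicator_of_mem hz]
          · rw [indicator_of_notMem hz, indicator_of_notMem hz, ENNReal.ofReal_zero]
        simp_rw [h13]
        rw [lintegral_indicator measurableSet_closedBall, setLIntegral_const,
          ENNReal.ofReal_mul (p := M * (C₄ * Rφ * (‖u‖ ^ (n + 2))⁻¹)) (by (clear * - hR1 hC₄ hM0 hu0; positivity))]
        gcongr
        exact hv 0 Rφ (by linarith only [hR1])
      have i6 : Integrable (fun v => φ v * (sK n e (u - v) - sK n e u)) := by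
        have := i5.sub (hφint.mul_const (sK n e u))
        refine this.congr (ae_of_all _ fun v => ?_)
        simp only [Pi.sub_apply]
        ring
      obtain ⟨-, a2, -⟩ := abs_integral_le_of_lintegral i6.aestronglyMeasurable hG
        (by (clear * - hR1 hCv hC₄ hM0 hu0; positivity)) hlint
      calc |1 - cut 0 S u| * |∫ v, φ v * (sK n e (u - v) - sK n e u)|
          ≤ 1 * (M * (C₄ * Rφ * (‖u‖ ^ (n + 2))⁻¹) * (Cv * Rφ ^ n)) :=
            mul_le_mul h7 a2 (abs_nonneg _) zero_le_one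
        _ = _ := by ring
  rw [hdec, e1, e2]
  have hfin : |(∫ z, (φ u - (φ (u + z) + φ (u - z)) / 2) * sK n e z) -
      (∫ v, φ u * (1 - cut 0 S v) * sK n e (u - v)) +
      (∫ v, (1 - cut 0 S u) * (φ v * sK n e (u - v))) -
      ((∫ z, (φ u - (φ (u + z) + φ (u - z)) / 2) * (sK n 0 z - sK n e z)) +
      ∫ z, (φ u - (φ (u + z) + φ (u - z)) / 2) * sK n e z)| ≤
      |∫ z, (φ u - (φ (u + z) + φ (u - z)) / 2) * (sK n 0 z - sK n e z)| +
      |∫ v, φ u * (1 - cut 0 S v) * sK n e (u - v)| +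
      |∫ v, (1 - cut 0 S u) * (φ v * sK n e (u - v))| := by
    set X := ∫ z, (φ u - (φ (u + z) + φ (u - z)) / 2) * (sK n 0 z - sK n e z)
    set Y := ∫ v, φ u * (1 - cut 0 S v) * sK n e (u - v)
    set Z := ∫ v, (1 - cut 0 S u) * (φ v * sK n e (u - v))
    set W := ∫ z, (φ u - (φ (u + z) + φ (u - z)) / 2) * sK n e z
    have : W - Y + Z - (X + W) = -X - Y + Z := by ring
    rw [this, abs_le]
    constructor <;>
      linarith only [abs_le.1 (le_refl |X|), abs_le.1 (le_refl |Y|), abs_le.1 (le_refl |Z|)]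
  refine hfin.trans ?_
  set I : ℝ := {x : Eu n | S ≤ ‖x‖}.indicator (fun x => (‖x‖ ^ (n + 2))⁻¹) u with hI
  have hI0 : 0 ≤ I := indicator_nonneg (fun _ _ => by (clear * -; positivity)) _
  set w : ℝ := ((1 + ‖u‖) ^ (n + 2))⁻¹ with hw
  have hw0 : 0 ≤ w := by (clear * -; positivity)
  have hS1 : 0 < 1 / S := by positivity
  have c1 : K₁ * e * w ≤ K * e * w := by
    gcongr
    rw [hK]
    have : 0 ≤ M * C₂ * 2 * (1 + Rφ) ^ (n + 2) := by (clear * - hR1 hC₂ hM0; positivity)
    have : 0 ≤ M * C₄ * Rφ * (Cv * Rφ ^ n) := by (clear * - hR1 hCv hC₄ hM0; positivity)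
    linarith
  have c2 : M * C₂ * 2 * (1 + Rφ) ^ (n + 2) * (1 / S) * w ≤ K * (1 / S) * w := by
    gcongr
    rw [hK]
    have : 0 ≤ M * C₄ * Rφ * (Cv * Rφ ^ n) := by (clear * - hR1 hCv hC₄ hM0; positivity)
    linarith only [hK₁, this]
  have c3 : M * C₄ * Rφ * (Cv * Rφ ^ n) * I ≤ K * I := by
    gcongr
    rw [hK]
    have : 0 ≤ M * C₂ * 2 * (1 + Rφ) ^ (n + 2) := by (clear * - hR1 hC₂ hM0; positivity)
    linarith only [hK₁, this]
  calc _ ≤ K₁ * e * w + M * C₂ * 2 * (1 + Rφ) ^ (n + 2) * (1 / S) * w +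
        M * C₄ * Rφ * (Cv * Rφ ^ n) * I := add_le_add (add_le_add r2 b2) b3
    _ ≤ K * e * w + K * (1 / S) * w + K * I := add_le_add (add_le_add c1 c2) c3
    _ = K * (1 / S + e) * w + K * I := by ring

end Vale.Agent.P120
end
end

section

section

/-! The scalar form attached to a height function.  Owner: helper758 -/

open MeasureTheory Metric Set Filter Topology
open scoped ENNReal NNReal

namespace Vale.Agent.P120

variable {d n : ℕ} {c C : ℝ}

/-! ### general lemmas -/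

theorem hf_integrable_of_near_bound (hn : 1 ≤ n) {D : ℝ≥0∞} {ν : Measure (Eu d)}
    (hν : AR n c C D ν) {f : Eu d × Eu d → ℝ} (hf : AEStronglyMeasurable f (ν.prod ν))
    (K R : ℝ) (hb : ∀ x y, |f (x, y)| ≤ K * (‖x - y‖ ^ (n - 1))⁻¹)
    (hs : ∀ x y, R < ‖x‖ ∨ R < ‖y‖ → f (x, y) = 0) : Integrable f (ν.prod ν) := by
  have := hν.isLocallyFiniteMeasure
  obtain ⟨C', hC', hnear⟩ := lintegral_near n hn C hν.C_pos
  refine ⟨hf, ?_⟩
  rw [hasFiniteIntegral_iff_enorm]
  set R' := max R 1 with hR'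
  have hR'0 : 0 < R' := lt_max_of_lt_right one_pos
  have hK : ∀ x y, ‖f (x, y)‖ₑ ≤ (closedBall (0 : Eu d) R').indicator (fun x =>
      ENNReal.ofReal |K| * (closedBall x (2 * R')).indicator
        (fun y => ENNReal.ofReal ((‖x - y‖ ^ (n - 1))⁻¹)) y) x := by
    intro x y
    by_cases hx : x ∈ closedBall (0 : Eu d) R'
    · rw [indicator_of_mem hx]
      by_cases hy : y ∈ closedBall x (2 * R')
      · rw [indicator_of_mem hy, ← ENNReal.ofReal_mul (abs_nonneg _), Real.enorm_eq_ofReal_abs]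
        apply ENNReal.ofReal_le_ofReal
        refine (hb x y).trans ?_
        gcongr
        exact le_abs_self K
      · have : f (x, y) = 0 := by
          apply hs
          right
          rw [mem_closedBall, dist_zero_right] at hx
          rw [mem_closedBall, dist_eq_norm, not_le] at hy
          have h1 : ‖y - x‖ ≤ ‖y‖ + ‖x‖ := norm_sub_le _ _
          have h2 : R ≤ R' := le_max_left _ _
          linarith only [hx, hy, h1, h2]
        rw [this, enorm_zero]
        exact zero_le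
    · have : f (x, y) = 0 := by
        apply hs
        left
        rw [mem_closedBall, dist_zero_right, not_le] at hx
        exact (le_max_left _ _).trans_lt hx
      rw [this, enorm_zero]
      exact zero_le
  calc ∫⁻ p, ‖f p‖ₑ ∂(ν.prod ν)
      = ∫⁻ x, ∫⁻ y, ‖f (x, y)‖ₑ ∂ν ∂ν := lintegral_prod _ hf.enorm
    _ ≤ ∫⁻ x, (closedBall (0 : Eu d) R').indicator (fun _ =>
          ENNReal.ofReal |K| * ENNReal.ofReal (C' * (2 * R'))) x ∂ν := by
        apply lintegral_mono
        intro x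
        refine (lintegral_mono (hK x)).trans ?_
        by_cases hx : x ∈ closedBall (0 : Eu d) R'
        · simp only [indicator_of_mem hx]
          rw [lintegral_const_mul' _ _ ENNReal.ofReal_ne_top]
          gcongr
          rw [lintegral_indicator isClosed_closedBall.measurableSet]
          exact hnear d ν hν.upper x (2 * R') (by positivity)
        · simp only [indicator_of_notMem hx, lintegral_const, zero_mul]
          exact le_rfl
    _ = ENNReal.ofReal |K| * ENNReal.ofReal (C' * (2 * R')) * ν (closedBall 0 R') := by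
        rw [lintegral_indicator isClosed_closedBall.measurableSet, setLIntegral_const]
    _ < ⊤ := ENNReal.mul_lt_top (ENNReal.mul_lt_top ENNReal.ofReal_lt_top
          ENNReal.ofReal_lt_top) (hν.measure_ball_lt_top 0 R')

theorem LipC.hf_exists_radius {ψ : Eu d → ℝ} (h : LipC ψ) :
    ∃ R : ℝ, 1 ≤ R ∧ ∀ x, R < ‖x‖ → ψ x = 0 := by
  obtain ⟨R, hR⟩ := h.2.isCompact.isBounded.subset_closedBall (0 : Eu d)
  refine ⟨max R 1, le_max_right _ _, fun x hx => ?_⟩
  by_contra hne
  have h1 : x ∈ closedBall (0 : Eu d) R := hR (subset_tsupport _ hne)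
  rw [mem_closedBall, dist_zero_right] at h1
  have := le_max_left R 1
  linarith only [hx, h1, this]

theorem hf_antisymm_lip {ψ θ : Eu d → ℝ} (hψ : LipC ψ) (hθ : LipC θ) :
    ∃ L : ℝ, 0 ≤ L ∧ ∀ x y, |ψ x * θ y - ψ y * θ x| ≤ L * ‖x - y‖ := by
  obtain ⟨⟨Lψ, hLψ⟩, -⟩ := id hψ
  obtain ⟨⟨Lθ, hLθ⟩, -⟩ := id hθ
  obtain ⟨Bψ, hBψ0, hBψ⟩ := hψ.exists_bound
  obtain ⟨Bθ, hBθ0, hBθ⟩ := hθ.exists_bound
  refine ⟨Bψ * Lθ + Bθ * Lψ, by (clear * - hBψ0 hBθ0; positivity), fun x y => ?_⟩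
  have h1 : |ψ x - ψ y| ≤ Lψ * ‖x - y‖ := by
    have := hLψ.dist_le_mul x y
    rwa [Real.dist_eq, dist_eq_norm] at this
  have h2 : |θ x - θ y| ≤ Lθ * ‖x - y‖ := by
    have := hLθ.dist_le_mul x y
    rwa [Real.dist_eq, dist_eq_norm] at this
  have e : ψ x * θ y - ψ y * θ x = -(ψ x * (θ x - θ y)) + θ x * (ψ x - ψ y) := by ring
  rw [e]
  calc |-(ψ x * (θ x - θ y)) + θ x * (ψ x - ψ y)|
      ≤ |-(ψ x * (θ x - θ y))| + |θ x * (ψ x - ψ y)| := abs_add_le _ _
    _ = |ψ x| * |θ x - θ y| + |θ x| * |ψ x - ψ y| := by rw [abs_neg, abs_mul, abs_mul]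
    _ ≤ Bψ * (Lθ * ‖x - y‖) + Bθ * (Lψ * ‖x - y‖) := by
        gcongr
        · exact hBψ x
        · exact hBθ x
    _ = _ := by ring

/-! ### I1 -/

/-- if `θ = 1` where `ψ ≠ 0`, the antisymmetrised integrand is a product of differences -/
theorem hform_eq_of_one (n : ℕ) (e : ℝ) (ν : Measure (Eu d)) (h ψ θ : Eu d → ℝ)
    (hθ : ∀ x, ψ x ≠ 0 → θ x = 1) :
    hform n e ν h ψ θ = (1 / 2 : ℝ) * ∫ p, (h p.1 - h p.2) * (ψ p.1 - ψ p.2) *
      (θ p.1 * θ p.2) * sK n e (p.1 - p.2) ∂(ν.prod ν) := by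
  unfold hform
  congr 2
  funext p
  have h1 : ∀ x, ψ x = ψ x * θ x := by
    intro x
    by_cases hx : ψ x = 0
    · simp [hx]
    · rw [hθ x hx, mul_one]
  have h2 : ψ p.1 * θ p.2 - ψ p.2 * θ p.1 = (ψ p.1 - ψ p.2) * (θ p.1 * θ p.2) := by
    rw [sub_mul]
    nth_rewrite 1 [h1 p.1]
    nth_rewrite 1 [h1 p.2]
    ring
  rw [h2]
  ring

theorem integrable_hform (hn : 1 ≤ n) {D : ℝ≥0∞} {ν : Measure (Eu d)} (hν : AR n c C D ν)
    {h ψ θ : Eu d → ℝ} (hh : ∃ L : ℝ≥0, LipschitzWith L h) (hψ : LipC ψ) (hθ : LipC θ)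
    (e : ℝ) (_he : 0 ≤ e) :
    Integrable (fun p : Eu d × Eu d => (h p.1 - h p.2) * (ψ p.1 * θ p.2 - ψ p.2 * θ p.1) *
      sK n e (p.1 - p.2)) (ν.prod ν) := by
  obtain ⟨Lh, hLh⟩ := hh
  obtain ⟨L, hL0, hL⟩ := hf_antisymm_lip hψ hθ
  obtain ⟨Rψ, hRψ1, hRψ⟩ := hψ.hf_exists_radius
  obtain ⟨Rθ, hRθ1, hRθ⟩ := hθ.hf_exists_radius
  have hmeas : Measurable (fun p : Eu d × Eu d => (h p.1 - h p.2) *
      (ψ p.1 * θ p.2 - ψ p.2 * θ p.1) * sK n e (p.1 - p.2)) := by
    have h1 := hLh.continuous.measurable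
    have h2 := hψ.continuous.measurable
    have h3 := hθ.continuous.measurable
    have h4 := measurable_sK (d := d) n e
    fun_prop
  refine hf_integrable_of_near_bound hn hν hmeas.aestronglyMeasurable (Lh * L) (max Rψ Rθ) ?_ ?_
  · intro x y
    by_cases hxy : x = y
    · subst hxy
      simp only [sub_self, zero_mul, abs_zero]
      (clear * - hL0; positivity)
    · have hz : x - y ≠ 0 := sub_ne_zero.2 hxy
      have hz' : 0 < ‖x - y‖ := norm_pos_iff.2 hz
      have h1 : |h x - h y| ≤ Lh * ‖x - y‖ := by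
        have := hLh.dist_le_mul x y
        rwa [Real.dist_eq, dist_eq_norm] at this
      simp only
      rw [abs_mul, abs_mul, abs_of_nonneg (sK_nonneg n e (x - y))]
      calc |h x - h y| * |ψ x * θ y - ψ y * θ x| * sK n e (x - y)
          ≤ (Lh * ‖x - y‖) * (L * ‖x - y‖) * (‖x - y‖ ^ (n + 1))⁻¹ := by
            gcongr
            · exact sK_nonneg n e _
            · exact hL x y
            · exact sK_le n e _ hz
        _ = Lh * L * (‖x - y‖ ^ (n - 1))⁻¹ := by
            obtain ⟨m, rfl⟩ : ∃ m, n = m + 1 := ⟨n - 1, by omega⟩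
            rw [Nat.add_sub_cancel, pow_succ, pow_succ]
            (clear * - hz; field_simp)
  · intro x y hxy
    simp only
    have hψx : Rψ < ‖x‖ → ψ x = 0 := hRψ x
    rcases hxy with hx | hy
    · rw [hRψ x ((le_max_left _ _).trans_lt hx), hRθ x ((le_max_right _ _).trans_lt hx)]
      simp
    · rw [hRψ y ((le_max_left _ _).trans_lt hy), hRθ y ((le_max_right _ _).trans_lt hy)]
      simp

/-- affine heights: the scalar form is a component of the vector form -/
theorem hform_affine (hn : 1 ≤ n) {D : ℝ≥0∞} {ν : Measure (Eu d)} (hν : AR n c C D ν)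
    {ψ θ : Eu d → ℝ} (hψ : LipC ψ) (hθ : LipC θ) (e : ℝ) (he : 0 ≤ e) (v : Eu d) (κ : ℝ) :
    hform n e ν (fun x => inner ℝ v x + κ) ψ θ = inner ℝ v (form n e ν ψ θ) := by
  unfold hform form
  rw [inner_smul_right, ← integral_inner (integrable_form hn hν hψ hθ e he)]
  congr 2
  funext p
  simp only [rK, inner_smul_right, inner_sub_right]
  ring

/-- affine heights on a reflectionless measure satisfy the weak equation -/
theorem Ht.of_lim (hn : 1 ≤ n) {C₁ C₂ A : ℝ} {ν : Measure (Eu d)} (hν : Lim n c C C₁ C₂ ν)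
    (v : Eu d) (κ : ℝ) (hA : 0 ≤ A)
    (hg : ∀ R : ℝ, 1 ≤ R → ∫ x in closedBall (0 : Eu d) R, (inner ℝ v x + κ) ^ 2 ∂ν
      ≤ A * R ^ (n + 3)) :
    Ht n A ν (fun x => inner ℝ v x + κ) := by
  refine ⟨hA, ?_, hg, ?_⟩
  · refine ⟨‖v‖₊, LipschitzWith.of_dist_le_mul fun x y => ?_⟩
    rw [Real.dist_eq, dist_eq_norm, add_sub_add_right_eq_sub, ← inner_sub_right]
    exact abs_real_inner_le_norm v (x - y)
  · intro ψ hψ hψ0
    obtain ⟨R, hR1, hR⟩ := hψ.hf_exists_radius
    obtain ⟨hC₂, her⟩ := hν.er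
    have hbound : ∀ S : ℝ, 2 * R ≤ S →
        |hform n 0 ν (fun x => inner ℝ v x + κ) ψ (cut 0 S)| ≤
          ‖v‖ * (C₂ * (R / S) * ∫ x, |ψ x| ∂ν) := by
      intro S hS
      have hS0 : 0 < S := by linarith only [hR1, hS]
      rw [hform_affine hn hν.ar hψ (lipC_cut 0 S hS0) 0 le_rfl]
      refine (abs_real_inner_le_norm _ _).trans ?_
      gcongr
      refine her 0 R S ψ (cut 0 S) (by linarith only [hR1]) hS hψ ?_ hψ0 (lipC_cut 0 S hS0) ?_ ?_
      · intro x hx
        rw [dist_zero_right] at hx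
        exact hR x hx
      · intro x
        unfold cut
        refine ⟨le_max_left _ _, max_le zero_le_one (min_le_left _ _)⟩
      · intro x hx
        unfold cut
        have : dist x 0 / S ≤ 1 := (div_le_one hS0).2 hx
        rw [min_eq_left (by linarith only [this]), max_eq_right zero_le_one]
    rw [tendsto_zero_iff_abs_tendsto_zero]
    have hlim : Tendsto (fun S : ℝ => ‖v‖ * (C₂ * (R / S) * ∫ x, |ψ x| ∂ν)) atTop (𝓝 0) := by
      have h1 : Tendsto (fun S : ℝ => R / S) atTop (𝓝 0) :=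
        tendsto_const_nhds.div_atTop tendsto_id
      have h2 := ((h1.const_mul C₂).mul_const (∫ x, |ψ x| ∂ν)).const_mul ‖v‖
      simpa only [mul_zero, zero_mul] using h2
    refine squeeze_zero' (Eventually.of_forall fun S => abs_nonneg _) ?_ hlim
    filter_upwards [eventually_ge_atTop (2 * R)] with S hS
    exact hbound S hS

theorem Ht.integrableOn_ball {ν : Measure (Eu d)} {h : Eu d → ℝ} {D : ℝ≥0∞}
    (hν : AR n c C D ν) (hh : Continuous h) (R : ℝ) :
    IntegrableOn h (closedBall (0 : Eu d) R) ν := by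
  have := hν.isLocallyFiniteMeasure
  exact hh.continuousOn.integrableOn_compact (isCompact_closedBall 0 R)

theorem Ht.l1_ball {A : ℝ} {ν : Measure (Eu d)} {h : Eu d → ℝ} {D : ℝ≥0∞}
    (hν : AR n c C D ν) (hh : Ht n A ν h) (R : ℝ) (hR : 1 ≤ R) :
    ∫ x in closedBall (0 : Eu d) R, |h x| ∂ν ≤
      Real.sqrt C * Real.sqrt A * (R ^ (n + 1) * Real.sqrt R) := by
  have := hν.isLocallyFiniteMeasure
  have hR0 : 0 < R := by linarith
  obtain ⟨L, hL⟩ := hh.lip
  have hcont : Continuous h := hL.continuous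
  set B := closedBall (0 : Eu d) R with hB
  have hfin : IsFiniteMeasure (ν.restrict B) := by
    refine ⟨?_⟩
    rw [Measure.restrict_apply_univ]
    exact hν.measure_ball_lt_top 0 R
  have hCS := integral_mul_le_Lp_mul_Lq_of_nonneg (μ := ν.restrict B)
    (p := 2) (q := 2) Real.HolderConjugate.two_two (f := fun x => |h x|) (g := fun _ => (1 : ℝ))
    (Eventually.of_forall fun x => abs_nonneg _) (Eventually.of_forall fun x => zero_le_one)
    (by
      have hbd : ∃ M, ∀ x ∈ B, ‖|h x|‖ ≤ M :=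
        (isCompact_closedBall (0 : Eu d) R).exists_bound_of_continuousOn
          (hcont.abs.continuousOn)
      obtain ⟨M, hM⟩ := hbd
      refine MemLp.of_bound hcont.abs.aestronglyMeasurable M ?_
      rw [ae_restrict_iff' isClosed_closedBall.measurableSet]
      exact Eventually.of_forall hM)
    (memLp_const 1)
  have e1 : ∫ x in B, |h x| ^ (2 : ℝ) ∂ν = ∫ x in B, h x ^ 2 ∂ν := by
    congr 1
    funext x
    rw [Real.rpow_two, sq_abs]
  have e2 : ∫ x in B, (1 : ℝ) ^ (2 : ℝ) ∂ν ≤ C * R ^ n := by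
    simp only [Real.one_rpow, integral_const, smul_eq_mul, mul_one]
    rw [Measure.real, Measure.restrict_apply_univ]
    exact ENNReal.toReal_le_of_le_ofReal (by have := hν.C_pos; positivity) (hν.upper 0 R hR0)
  simp only [mul_one] at hCS
  rw [e1] at hCS
  refine hCS.trans ?_
  rw [← Real.sqrt_eq_rpow, ← Real.sqrt_eq_rpow]
  have h1 := hh.growth R hR
  have hA := hh.A_nonneg
  have hC := hν.C_pos
  calc √(∫ x in B, h x ^ 2 ∂ν) * √(∫ x in B, (1 : ℝ) ^ (2 : ℝ) ∂ν)
      ≤ √(A * R ^ (n + 3)) * √(C * R ^ n) := by (clear * - e2 h1; gcongr)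
    _ = √(A * C * (R ^ (n + 1)) ^ 2 * R) := by
        rw [← Real.sqrt_mul (by positivity)]
        congr 1
        ring
    _ = √C * √A * (R ^ (n + 1) * √R) := by
        rw [Real.sqrt_mul (by (clear * - hR hA hC; positivity)), Real.sqrt_mul (by positivity), Real.sqrt_mul hA,
          Real.sqrt_sq (by positivity)]
        ring

theorem hf_tail_alg (T a b s : ℝ) (hT : 0 < T) (n : ℕ) :
    (T ^ (n + 2))⁻¹ * (a * b * ((T * 2) ^ (n + 1) * (√T * s))) =
      a * (2 ^ (n + 1) * s) * b * (√T)⁻¹ := by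
  have hsq : 0 < √T := Real.sqrt_pos.2 hT
  have e2 : √T * √T = T := Real.mul_self_sqrt hT.le
  have e7 : T ^ (n + 2) = T ^ (n + 1) * (√T * √T) := by
    rw [e2, pow_succ]
  rw [e7, mul_pow T 2]
  field_simp

/-- `L^1` growth and tail -/
theorem Ht.tail_integral (_hn : 1 ≤ n) (c C : ℝ) (hC : 0 < C) : ∃ K : ℝ, 0 < K ∧
    ∀ (d : ℕ) (A : ℝ) (ν : Measure (Eu d)) (h : Eu d → ℝ), AR n c C ⊤ ν → Ht n A ν h →
    (∀ R : ℝ, 1 ≤ R → ∫ x in closedBall (0 : Eu d) R, |h x| ∂ν ≤
      K * Real.sqrt A * (R ^ (n + 1) * Real.sqrt R)) ∧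
    (∀ S : ℝ, 1 ≤ S →
      IntegrableOn (fun y => |h y| * (‖y‖ ^ (n + 2))⁻¹) {y | S ≤ ‖y‖} ν ∧
      ∫ y in {y : Eu d | S ≤ ‖y‖}, |h y| * (‖y‖ ^ (n + 2))⁻¹ ∂ν
        ≤ K * Real.sqrt A * (Real.sqrt S)⁻¹) := by
  have hs2 : (1 : ℝ) < √2 := by
    rw [show (1 : ℝ) = √1 by simp]
    exact Real.sqrt_lt_sqrt (by norm_num) (by norm_num)
  set q : ℝ := (√2)⁻¹ with hq
  have hq0 : 0 < q := by positivity
  have hq1 : q < 1 := inv_lt_one_of_one_lt₀ hs2
  have h1q : 0 < 1 - q := by linarith only [hq1]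
  have hfac : 1 ≤ 2 ^ (n + 1) * √2 * (1 - q)⁻¹ := by
    have h1 : (1 : ℝ) ≤ 2 ^ (n + 1) := one_le_pow₀ (by norm_num)
    have h2 : 1 ≤ (1 - q)⁻¹ := (one_le_inv₀ h1q).2 (by linarith only [hq0])
    calc (1 : ℝ) = 1 * 1 * 1 := by norm_num
      _ ≤ 2 ^ (n + 1) * √2 * (1 - q)⁻¹ := by gcongr
  refine ⟨√C * (2 ^ (n + 1) * √2 * (1 - q)⁻¹), by positivity, ?_⟩
  intro d A ν h hν hh
  have := hν.isLocallyFiniteMeasure
  obtain ⟨L, hL⟩ := hh.lip
  have hcont : Continuous h := hL.continuous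
  have hmeas : Measurable (fun y : Eu d => |h y| * (‖y‖ ^ (n + 2))⁻¹) := by
    have := hcont.measurable
    fun_prop
  constructor
  · intro R hR
    refine (Ht.l1_ball hν hh R hR).trans ?_
    have h0 : 0 ≤ √C * √A * (R ^ (n + 1) * √R) := by
      have : 0 < R := by linarith only [hq0, hq1, hR]
      (clear * - hC hR; positivity)
    calc √C * √A * (R ^ (n + 1) * √R) = (√C * √A * (R ^ (n + 1) * √R)) * 1 := by ring
      _ ≤ (√C * √A * (R ^ (n + 1) * √R)) * (2 ^ (n + 1) * √2 * (1 - q)⁻¹) := by (clear * - hC hfac hR; gcongr)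
      _ = _ := by ring
  · intro S hS
    have hS0 : 0 < S := by linarith only [hq0, hq1, hS]
    let An : ℕ → Set (Eu d) := fun k => {y | S * 2 ^ k ≤ ‖y‖ ∧ ‖y‖ ≤ S * 2 ^ (k + 1)}
    have hsub : {y : Eu d | S ≤ ‖y‖} ⊆ ⋃ k, An k := by
      intro y hy
      have hy' : S ≤ ‖y‖ := hy
      have hlim : Tendsto (fun k : ℕ => S * 2 ^ k) atTop atTop := by
        apply Tendsto.const_mul_atTop hS0
        exact tendsto_pow_atTop_atTop_of_one_lt (by norm_num)
      have hex : ∃ k : ℕ, ‖y‖ < S * 2 ^ k := (hlim.eventually_gt_atTop _).exists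
      classical
      let k₀ := Nat.find hex
      have hk₀ : ‖y‖ < S * 2 ^ k₀ := Nat.find_spec hex
      have hk₀pos : k₀ ≠ 0 := by
        intro h0
        rw [h0] at hk₀
        simp at hk₀
        linarith only [hy', hk₀]
      obtain ⟨k, hk⟩ := Nat.exists_eq_succ_of_ne_zero hk₀pos
      rw [mem_iUnion]
      refine ⟨k, ?_, ?_⟩
      · by_contra hcon
        push Not at hcon
        have : k₀ ≤ k := Nat.find_min' hex hcon
        omega
      · rw [hk] at hk₀; exact hk₀.le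
    have hlint : ∫⁻ y in {y : Eu d | S ≤ ‖y‖}, ENNReal.ofReal (|h y| * (‖y‖ ^ (n + 2))⁻¹) ∂ν ≤
        ENNReal.ofReal (√C * (2 ^ (n + 1) * √2 * (1 - q)⁻¹) * √A * (√S)⁻¹) := by
      calc ∫⁻ y in {y : Eu d | S ≤ ‖y‖}, ENNReal.ofReal (|h y| * (‖y‖ ^ (n + 2))⁻¹) ∂ν
          ≤ ∫⁻ y in ⋃ k, An k, ENNReal.ofReal (|h y| * (‖y‖ ^ (n + 2))⁻¹) ∂ν :=
            lintegral_mono_set hsub
        _ ≤ ∑' k, ∫⁻ y in An k, ENNReal.ofReal (|h y| * (‖y‖ ^ (n + 2))⁻¹) ∂ν :=
            lintegral_iUnion_le _ _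
        _ ≤ ∑' k : ℕ, ENNReal.ofReal (√C * (2 ^ (n + 1) * √2) * √A * (√S)⁻¹ * q ^ k) := by
            apply ENNReal.tsum_le_tsum
            intro k
            have hrk : 0 < S * 2 ^ k := by positivity
            have hrk1 : 1 ≤ S * 2 ^ (k + 1) := by
              have : (1 : ℝ) ≤ 2 ^ (k + 1) := one_le_pow₀ (by norm_num)
              nlinarith only [hq0, hq1, hS, this]
            have hAn : MeasurableSet (An k) :=
              (measurableSet_le measurable_const measurable_norm).inter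
                (measurableSet_le measurable_norm measurable_const)
            calc ∫⁻ y in An k, ENNReal.ofReal (|h y| * (‖y‖ ^ (n + 2))⁻¹) ∂ν
                ≤ ∫⁻ y in An k, ENNReal.ofReal (((S * 2 ^ k) ^ (n + 2))⁻¹) *
                    ENNReal.ofReal |h y| ∂ν := by
                  apply setLIntegral_mono' hAn
                  intro y hy
                  rw [← ENNReal.ofReal_mul (by positivity)]
                  apply ENNReal.ofReal_le_ofReal
                  rw [mul_comm]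
                  gcongr
                  exact hy.1
              _ = ENNReal.ofReal (((S * 2 ^ k) ^ (n + 2))⁻¹) *
                    ∫⁻ y in An k, ENNReal.ofReal |h y| ∂ν :=
                  lintegral_const_mul' _ _ ENNReal.ofReal_ne_top
              _ ≤ ENNReal.ofReal (((S * 2 ^ k) ^ (n + 2))⁻¹) *
                    ∫⁻ y in closedBall (0 : Eu d) (S * 2 ^ (k + 1)), ENNReal.ofReal |h y| ∂ν := by
                  gcongr
                  intro y hy
                  rw [mem_closedBall, dist_zero_right]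
                  exact hy.2
              _ = ENNReal.ofReal (((S * 2 ^ k) ^ (n + 2))⁻¹) *
                    ENNReal.ofReal (∫ y in closedBall (0 : Eu d) (S * 2 ^ (k + 1)), |h y| ∂ν) := by
                  rw [ofReal_integral_eq_lintegral_ofReal]
                  · exact (Ht.integrableOn_ball hν hcont _).abs
                  · exact Eventually.of_forall fun _ => abs_nonneg _
              _ ≤ ENNReal.ofReal (((S * 2 ^ k) ^ (n + 2))⁻¹) *
                    ENNReal.ofReal (√C * √A * ((S * 2 ^ (k + 1)) ^ (n + 1) *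
                      √(S * 2 ^ (k + 1)))) := by
                  gcongr
                  exact Ht.l1_ball hν hh _ hrk1
              _ = ENNReal.ofReal (√C * (2 ^ (n + 1) * √2) * √A * (√S)⁻¹ * q ^ k) := by
                  rw [← ENNReal.ofReal_mul (by positivity)]
                  congr 1
                  have e1 : S * 2 ^ (k + 1) = (S * 2 ^ k) * 2 := by ring
                  have e2 : √(S * 2 ^ k) * √(S * 2 ^ k) = S * 2 ^ k :=
                    Real.mul_self_sqrt hrk.le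
                  have e3 : √(S * 2 ^ k) = √S * √2 ^ k := by
                    rw [Real.sqrt_mul hS0.le]
                    congr 1
                    rw [Real.sqrt_eq_iff_mul_self_eq (by positivity) (by positivity), ← mul_pow,
                      Real.mul_self_sqrt (by norm_num)]
                  have e4 : q ^ k = (√2 ^ k)⁻¹ := by rw [hq, inv_pow]
                  have e5 : √C * (2 ^ (n + 1) * √2) * √A * (√S)⁻¹ * (√2 ^ k)⁻¹ =
                      √C * (2 ^ (n + 1) * √2) * √A * (√(S * 2 ^ k))⁻¹ := by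
                    rw [e3, mul_inv]; ring
                  rw [e1, Real.sqrt_mul hrk.le, e4, e5]
                  exact hf_tail_alg (S * 2 ^ k) (√C) (√A) (√2) hrk n
        _ = ENNReal.ofReal (√C * (2 ^ (n + 1) * √2 * (1 - q)⁻¹) * √A * (√S)⁻¹) := by
            rw [← ENNReal.ofReal_tsum_of_nonneg]
            · congr 1
              rw [tsum_mul_left, tsum_geometric_of_lt_one hq0.le hq1]
              ring
            · intro k; (clear * - hC hS; positivity)
            · exact (summable_geometric_of_lt_one hq0.le hq1).mul_left _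
    have hint : IntegrableOn (fun y => |h y| * (‖y‖ ^ (n + 2))⁻¹) {y : Eu d | S ≤ ‖y‖} ν := by
      refine ⟨hmeas.aestronglyMeasurable, ?_⟩
      rw [hasFiniteIntegral_iff_ofReal (Eventually.of_forall fun y => by (clear * -; positivity))]
      exact hlint.trans_lt ENNReal.ofReal_lt_top
    refine ⟨hint, ?_⟩
    rw [← ENNReal.ofReal_le_ofReal_iff (by (clear * - hC hq1 hS; positivity)), ofReal_integral_eq_lintegral_ofReal hint
      (Eventually.of_forall fun y => by (clear * -; positivity))]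
    exact hlint

theorem hf_abs_integral_prod_le {ν : Measure (Eu d)} [SFinite ν] {G : Eu d × Eu d → ℝ}
    {a : Eu d → ℝ} (b : ℝ) (hb : 0 ≤ b) (ha : Integrable a ν)
    (hG : AEStronglyMeasurable G (ν.prod ν))
    (h : ∀ x, ∫⁻ y, ‖G (x, y)‖ₑ ∂ν ≤ ENNReal.ofReal (|a x| * b)) :
    |∫ p, G p ∂(ν.prod ν)| ≤ (∫ x, |a x| ∂ν) * b := by
  have h1 : ‖∫ p, G p ∂(ν.prod ν)‖ₑ ≤ ENNReal.ofReal ((∫ x, |a x| ∂ν) * b) := by
    calc ‖∫ p, G p ∂(ν.prod ν)‖ₑ ≤ ∫⁻ p, ‖G p‖ₑ ∂(ν.prod ν) := enorm_integral_le_lintegral_enorm _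
      _ = ∫⁻ x, ∫⁻ y, ‖G (x, y)‖ₑ ∂ν ∂ν := lintegral_prod _ hG.enorm
      _ ≤ ∫⁻ x, ENNReal.ofReal (|a x| * b) ∂ν := lintegral_mono h
      _ = ENNReal.ofReal ((∫ x, |a x| ∂ν) * b) := by
          rw [← ofReal_integral_eq_lintegral_ofReal, integral_mul_const]
          · exact ha.abs.mul_const b
          · exact Eventually.of_forall fun x => by positivity
  rw [Real.enorm_eq_ofReal_abs] at h1
  have h2 : 0 ≤ ∫ x, |a x| ∂ν := integral_nonneg fun x => abs_nonneg _
  exact (ENNReal.ofReal_le_ofReal_iff (by positivity)).1 h1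

theorem hf_integrable_of_bdd {D : ℝ≥0∞} {ν : Measure (Eu d)} (hν : AR n c C D ν)
    {f : Eu d × Eu d → ℝ} (hf : AEStronglyMeasurable f (ν.prod ν)) (M R : ℝ)
    (hb : ∀ x y, |f (x, y)| ≤ M) (hs : ∀ x y, R < ‖x‖ ∨ R < ‖y‖ → f (x, y) = 0) :
    Integrable f (ν.prod ν) := by
  have := hν.isLocallyFiniteMeasure
  have h1 : IntegrableOn f (closedBall (0 : Eu d) R ×ˢ closedBall (0 : Eu d) R) (ν.prod ν) := by
    refine Measure.integrableOn_of_bounded (M := M) ?_ hf ?_
    · rw [Measure.prod_prod]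
      exact (ENNReal.mul_lt_top (hν.measure_ball_lt_top 0 R) (hν.measure_ball_lt_top 0 R)).ne
    · exact Eventually.of_forall fun p => hb p.1 p.2
  refine h1.integrable_of_forall_notMem_eq_zero ?_
  rintro ⟨x, y⟩ hp
  apply hs
  by_contra hcon
  push Not at hcon
  apply hp
  rw [mem_prod, mem_closedBall, mem_closedBall, dist_zero_right, dist_zero_right]
  exact hcon

theorem hform_sub_right (hn : 1 ≤ n) {D : ℝ≥0∞} {ν : Measure (Eu d)} (hν : AR n c C D ν)
    {h ψ θ θ' : Eu d → ℝ} (hh : ∃ L : ℝ≥0, LipschitzWith L h) (hψ : LipC ψ) (hθ : LipC θ)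
    (hθ' : LipC θ') (e : ℝ) (he : 0 ≤ e) :
    hform n e ν h ψ (fun x => θ x - θ' x) = hform n e ν h ψ θ - hform n e ν h ψ θ' := by
  unfold hform
  rw [← mul_sub, ← integral_sub (integrable_hform hn hν hh hψ hθ e he)
    (integrable_hform hn hν hh hψ hθ' e he)]
  congr 2
  funext p
  ring

/-- the form with separated supports -/
theorem hform_far (hn : 1 ≤ n) (c C : ℝ) (hC : 0 < C) : ∃ K : ℝ, 0 < K ∧
    ∀ (d : ℕ) (A : ℝ) (ν : Measure (Eu d)) (h : Eu d → ℝ), AR n c C ⊤ ν → Ht n A ν h →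
    ∀ (ψ η : Eu d → ℝ) (R S : ℝ), LipC ψ → LipC η → 1 ≤ R → 2 * R ≤ S →
      (∀ x, R < ‖x‖ → ψ x = 0) → (∀ x, ‖x‖ ≤ S → η x = 0) → (∀ x, |η x| ≤ 1) →
      ∫ x, ψ x ∂ν = 0 →
      |hform n 0 ν h ψ η| ≤
        K * ((∫ x, |ψ x * h x| ∂ν) / S + R * (∫ x, |ψ x| ∂ν) * Real.sqrt A / Real.sqrt S) := by
  obtain ⟨C1, hC1, hfar⟩ := lintegral_far n 1 le_rfl C hC
  obtain ⟨C2, hC2, hsub⟩ := sK_sub_le n
  obtain ⟨K3, hK3, htail⟩ := Ht.tail_integral hn c C hC
  refine ⟨2 * C1 + C2 * K3, by positivity, ?_⟩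
  intro d A ν h hν hh ψ η R S hψ hη hR hS hψR hηS hη1 hψ0
  have := hν.isLocallyFiniteMeasure
  obtain ⟨Lh, hLh⟩ := hh.lip
  have hcont : Continuous h := hLh.continuous
  have hS0 : 0 < S := by linarith only [hR, hS]
  have hR0 : 0 < R := by linarith only [hR]
  obtain ⟨Bψ, hBψ0, hBψ⟩ := hψ.exists_bound
  obtain ⟨Rη, hRη1, hRη⟩ := hη.hf_exists_radius
  have hm1 := hcont.measurable
  have hm2 := hψ.continuous.measurable
  have hm3 := hη.continuous.measurable
  have hm4 := measurable_sK (d := d) n 0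
  have hsep : ∀ x y : Eu d, ψ x ≠ 0 → η y ≠ 0 → ‖x‖ ≤ R ∧ S ≤ ‖y‖ ∧ S / 2 ≤ ‖x - y‖ := by
    intro x y hx hy
    have h1 : ‖x‖ ≤ R := by
      by_contra hcon
      exact hx (hψR x (not_le.1 hcon))
    have h2 : S < ‖y‖ := by
      by_contra hcon
      exact hy (hηS y (not_lt.1 hcon))
    have h3 : ‖y‖ ≤ ‖x - y‖ + ‖x‖ := by
      have := norm_sub_le x (x - y)
      rw [sub_sub_cancel] at this
      linarith only [this]
    exact ⟨h1, h2.le, by linarith only [hS, h1, h2, h3]⟩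
  have hsKfar : ∀ x y : Eu d, S / 2 ≤ ‖x - y‖ → sK n 0 (x - y) ≤ ((S / 2) ^ (n + 1))⁻¹ := by
    intro x y hxy
    have hpos : 0 < ‖x - y‖ := by linarith
    refine (sK_le n 0 _ (norm_pos_iff.1 hpos)).trans ?_
    (clear * - hS0 hxy; gcongr)
  let G : Eu d × Eu d → ℝ := fun p => (h p.1 - h p.2) * (ψ p.1 * η p.2) * sK n 0 (p.1 - p.2)
  let G1 : Eu d × Eu d → ℝ := fun p => (ψ p.1 * h p.1) * (η p.2 * sK n 0 (p.1 - p.2))
  let G2 : Eu d × Eu d → ℝ := fun p => ψ p.1 * (h p.2 * η p.2 * (sK n 0 (p.1 - p.2) - sK n 0 p.2))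
  let G3 : Eu d × Eu d → ℝ := fun p => ψ p.1 * (h p.2 * η p.2 * sK n 0 p.2)
  have hGm : Measurable G := by fun_prop
  have hG1m : Measurable G1 := by fun_prop
  have hG2m : Measurable G2 := by fun_prop
  have hG3m : Measurable G3 := by fun_prop
  obtain ⟨Bh, hBh⟩ : ∃ B, ∀ x ∈ closedBall (0 : Eu d) (max R Rη), ‖h x‖ ≤ B :=
    (isCompact_closedBall (0 : Eu d) (max R Rη)).exists_bound_of_continuousOn hcont.continuousOn
  have hBh0 : 0 ≤ Bh := by
    refine (norm_nonneg _).trans (hBh 0 ?_)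
    rw [mem_closedBall, dist_self]
    exact le_max_of_le_left hR0.le
  have hzero : ∀ x y : Eu d, max R Rη < ‖x‖ ∨ max R Rη < ‖y‖ → ψ x * η y = 0 := by
    intro x y hxy
    rcases hxy with hx | hy
    · rw [hψR x ((le_max_left _ _).trans_lt hx), zero_mul]
    · rw [hRη y ((le_max_right _ _).trans_lt hy), mul_zero]
  have hin : ∀ x y : Eu d, ψ x ≠ 0 → η y ≠ 0 → |h x| ≤ Bh ∧ |h y| ≤ Bh := by
    intro x y hx hy
    constructor
    · apply hBh
      rw [mem_closedBall, dist_zero_right]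
      exact le_max_of_le_left (hsep x y hx hy).1
    · apply hBh
      rw [mem_closedBall, dist_zero_right]
      by_contra hcon
      exact hy (hRη y ((le_max_right _ _).trans_lt (not_le.1 hcon)))
  have hG1i : Integrable G1 (ν.prod ν) := by
    refine hf_integrable_of_bdd hν hG1m.aestronglyMeasurable (Bψ * Bh * (1 * ((S / 2) ^ (n + 1))⁻¹))
      (max R Rη) ?_ ?_
    · intro x y
      by_cases hx : ψ x = 0
      · simp only [G1, hx, zero_mul, abs_zero]
        (clear * - hS0 hBψ0 hBh0; positivity)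
      by_cases hy : η y = 0
      · simp only [G1, hy, zero_mul, mul_zero, abs_zero]
        (clear * - hS0 hBψ0 hBh0; positivity)
      simp only [G1, abs_mul, abs_of_nonneg (sK_nonneg n 0 (x - y))]
      have h1 := hsep x y hx hy
      have h2 := hin x y hx hy
      have hsn := sK_nonneg n 0 (x - y)
      gcongr
      · exact hBψ x
      · exact h2.1
      · exact hη1 y
      · exact hsKfar x y h1.2.2
    · intro x y hxy
      have h1 := hzero x y hxy
      have : G1 (x, y) = (ψ x * η y) * (h x * sK n 0 (x - y)) := by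
        simp only [G1]; ring
      rw [this, h1, zero_mul]
  have hG3i : Integrable G3 (ν.prod ν) := by
    refine hf_integrable_of_bdd hν hG3m.aestronglyMeasurable (Bψ * (Bh * 1 * (S ^ (n + 1))⁻¹))
      (max R Rη) ?_ ?_
    · intro x y
      by_cases hx : ψ x = 0
      · simp only [G3, hx, zero_mul, abs_zero]
        (clear * - hS0 hBψ0 hBh0; positivity)
      by_cases hy : η y = 0
      · simp only [G3, hy, zero_mul, mul_zero, abs_zero]
        (clear * - hS0 hBψ0 hBh0; positivity)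
      simp only [G3, abs_mul, abs_of_nonneg (sK_nonneg n 0 y)]
      have h1 := hsep x y hx hy
      have h2 := hin x y hx hy
      have hsn := sK_nonneg n 0 y
      gcongr
      · exact hBψ x
      · exact h2.2
      · exact hη1 y
      · have hpos : 0 < ‖y‖ := by linarith only [h1.2.1, hR, hS, h1]
        refine (sK_le n 0 _ (norm_pos_iff.1 hpos)).trans ?_
        gcongr
        exact h1.2.1
    · intro x y hxy
      have h1 := hzero x y hxy
      have : G3 (x, y) = (ψ x * η y) * (h y * sK n 0 y) := by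
        simp only [G3]; ring
      rw [this, h1, zero_mul]
  have hGi : Integrable G (ν.prod ν) := by
    refine hf_integrable_of_bdd hν hGm.aestronglyMeasurable
      ((Bh + Bh) * (Bψ * 1) * ((S / 2) ^ (n + 1))⁻¹) (max R Rη) ?_ ?_
    · intro x y
      by_cases hx : ψ x = 0
      · simp only [G, hx, zero_mul, mul_zero, abs_zero]
        (clear * - hS0 hBψ0 hBh0; positivity)
      by_cases hy : η y = 0
      · simp only [G, hy, zero_mul, mul_zero, abs_zero]
        (clear * - hS0 hBψ0 hBh0; positivity)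
      simp only [G, abs_mul, abs_of_nonneg (sK_nonneg n 0 (x - y))]
      have h1 := hsep x y hx hy
      have h2 := hin x y hx hy
      gcongr
      · exact sK_nonneg n 0 _
      · refine (abs_sub _ _).trans ?_
        exact add_le_add h2.1 h2.2
      · exact hBψ x
      · exact hη1 y
      · exact hsKfar x y h1.2.2
    · intro x y hxy
      simp only [G, hzero x y hxy, mul_zero, zero_mul]
  have hGeq : ∀ p, G2 p = G1 p - G3 p - G p := by
    intro p
    simp only [G, G1, G2, G3]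
    ring
  have hG2i : Integrable G2 (ν.prod ν) := by
    have : G2 = fun p => G1 p - G3 p - G p := funext hGeq
    rw [this]
    exact (hG1i.sub hG3i).sub hGi
  have hform_eq : hform n 0 ν h ψ η = ∫ p, G p ∂(ν.prod ν) := by
    unfold hform
    have e1 : (fun p : Eu d × Eu d => (h p.1 - h p.2) * (ψ p.1 * η p.2 - ψ p.2 * η p.1) *
        sK n 0 (p.1 - p.2)) = fun p => G p + G p.swap := by
      funext p
      simp only [G, Prod.fst_swap, Prod.snd_swap]
      have : sK n 0 (p.2 - p.1) = sK n 0 (p.1 - p.2) := by rw [← sK_neg, neg_sub]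
      rw [this]
      ring
    have e2 : ∫ p, (G p + G p.swap) ∂(ν.prod ν) = ∫ p, G p ∂(ν.prod ν) +
        ∫ p, G p.swap ∂(ν.prod ν) := integral_add hGi hGi.swap
    rw [e1, e2, integral_prod_swap]
    ring
  have e3 : ∫ p, G3 p ∂(ν.prod ν) = 0 := by
    have : ∫ p, G3 p ∂(ν.prod ν) = (∫ x, ψ x ∂ν) * ∫ y, h y * η y * sK n 0 y ∂ν :=
      integral_prod_mul ψ (fun y => h y * η y * sK n 0 y)
    rw [this, hψ0, zero_mul]
  have e4 : ∫ p, G p ∂(ν.prod ν) = ∫ p, G1 p ∂(ν.prod ν) - ∫ p, G2 p ∂(ν.prod ν) := by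
    have h1 : G = fun p => G1 p - G2 p - G3 p := by
      funext p
      rw [hGeq p]; ring
    rw [h1]
    have h2 := integral_sub (hG1i.sub hG2i) hG3i
    simp only [Pi.sub_apply] at h2
    rw [h2, e3, sub_zero]
    exact integral_sub hG1i hG2i
  have hψi : Integrable ψ ν := hψ.continuous.integrable_of_hasCompactSupport hψ.2
  have hψhi : Integrable (fun x => ψ x * h x) ν :=
    (hψ.continuous.mul hcont).integrable_of_hasCompactSupport hψ.2.mul_right
  have b1 : |∫ p, G1 p ∂(ν.prod ν)| ≤ (∫ x, |ψ x * h x| ∂ν) * (C1 * ((S / 2) ^ 1)⁻¹) := by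
    refine hf_abs_integral_prod_le _ (by positivity) hψhi hG1m.aestronglyMeasurable ?_
    intro x
    by_cases hx : ψ x = 0
    · simp only [G1, hx, zero_mul, enorm_zero, lintegral_zero]
      exact zero_le
    have hpt : ∀ y, ‖G1 (x, y)‖ₑ ≤ ENNReal.ofReal |ψ x * h x| *
        ({y | S / 2 ≤ dist y x}.indicator
          (fun y => ENNReal.ofReal ((‖x - y‖ ^ (n + 1))⁻¹)) y) := by
      intro y
      by_cases hy : η y = 0
      · simp only [G1, hy, zero_mul, mul_zero, enorm_zero]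
        exact zero_le
      have h1 := hsep x y hx hy
      have hmem : y ∈ {y | S / 2 ≤ dist y x} := by
        rw [mem_ofPred_eq, dist_comm, dist_eq_norm]
        exact h1.2.2
      rw [indicator_of_mem hmem, ← ENNReal.ofReal_mul (abs_nonneg _), Real.enorm_eq_ofReal_abs]
      apply ENNReal.ofReal_le_ofReal
      simp only [G1]
      rw [abs_mul, abs_mul (η y), abs_of_nonneg (sK_nonneg n 0 (x - y))]
      have hpos : 0 < ‖x - y‖ := by linarith only [h1.2.2, hR, hS, h1]
      have h5 := sK_le n 0 _ (norm_pos_iff.1 hpos)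
      have h6 : |η y| * sK n 0 (x - y) ≤ 1 * (‖x - y‖ ^ (n + 1))⁻¹ := by
        gcongr
        · exact sK_nonneg n 0 _
        · exact hη1 y
      rw [one_mul] at h6
      (clear * - h6; gcongr)
    calc ∫⁻ y, ‖G1 (x, y)‖ₑ ∂ν ≤ ∫⁻ y, ENNReal.ofReal |ψ x * h x| *
        ({y | S / 2 ≤ dist y x}.indicator
          (fun y => ENNReal.ofReal ((‖x - y‖ ^ (n + 1))⁻¹)) y) ∂ν := lintegral_mono hpt
      _ = ENNReal.ofReal |ψ x * h x| *
          ∫⁻ y in {y | S / 2 ≤ dist y x}, ENNReal.ofReal ((‖x - y‖ ^ (n + 1))⁻¹) ∂ν := by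
          rw [lintegral_const_mul' _ _ ENNReal.ofReal_ne_top, lintegral_indicator]
          exact measurableSet_le measurable_const (measurable_id.dist measurable_const)
      _ ≤ ENNReal.ofReal |ψ x * h x| * ENNReal.ofReal (C1 * ((S / 2) ^ 1)⁻¹) := by
          gcongr
          exact hfar d ν hν.upper x (S / 2) (by positivity)
      _ = ENNReal.ofReal (|ψ x * h x| * (C1 * ((S / 2) ^ 1)⁻¹)) := by
          rw [← ENNReal.ofReal_mul (abs_nonneg _)]
  have b2 : |∫ p, G2 p ∂(ν.prod ν)| ≤ (∫ x, |ψ x| ∂ν) * (C2 * R * (K3 * √A * (√S)⁻¹)) := by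
    refine hf_abs_integral_prod_le _ (by (clear * - hC2 hK3 hR hS0; positivity)) hψi hG2m.aestronglyMeasurable ?_
    intro x
    by_cases hx : ψ x = 0
    · simp only [G2, hx, zero_mul, enorm_zero, lintegral_zero]
      exact zero_le
    have hxR : ‖x‖ ≤ R := by
      by_contra hcon
      exact hx (hψR x (not_le.1 hcon))
    obtain ⟨hti, htb⟩ := (htail d A ν h hν hh).2 S (by linarith only [hR, hS])
    have hpt : ∀ y, ‖G2 (x, y)‖ₑ ≤ ENNReal.ofReal (|ψ x| * (C2 * R)) *
        ({y | S ≤ ‖y‖}.indicator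
          (fun y => ENNReal.ofReal (|h y| * (‖y‖ ^ (n + 2))⁻¹)) y) := by
      intro y
      by_cases hy : η y = 0
      · simp only [G2, hy, zero_mul, mul_zero, enorm_zero]
        exact zero_le
      have h1 := hsep x y hx hy
      have hmem : y ∈ {y : Eu d | S ≤ ‖y‖} := h1.2.1
      rw [indicator_of_mem hmem, ← ENNReal.ofReal_mul (by (clear * - hC2 hR hx; positivity)), Real.enorm_eq_ofReal_abs]
      apply ENNReal.ofReal_le_ofReal
      simp only [G2]
      have hy0 : 0 < ‖y‖ := by linarith only [h1.2.1, hR, hS, h1]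
      have h7 : |sK n 0 (x - y) - sK n 0 y| ≤ C2 * R * (‖y‖ ^ (n + 2))⁻¹ := by
        have h8 := hsub d 0 y (y - x) (by
          rw [sub_sub_cancel]
          linarith only [h1.2.1, hS, hxR, h1]) (norm_pos_iff.1 hy0)
        rw [sub_sub_cancel, abs_sub_comm] at h8
        have h9 : sK n 0 (y - x) = sK n 0 (x - y) := by rw [← sK_neg, neg_sub]
        rw [h9] at h8
        refine h8.trans ?_
        (clear * - hC2 hxR hy0; gcongr)
      rw [abs_mul, abs_mul, abs_mul]
      calc |ψ x| * (|h y| * |η y| * |sK n 0 (x - y) - sK n 0 y|)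
          ≤ |ψ x| * (|h y| * 1 * (C2 * R * (‖y‖ ^ (n + 2))⁻¹)) := by
            gcongr
            exact hη1 y
        _ = |ψ x| * (C2 * R) * (|h y| * (‖y‖ ^ (n + 2))⁻¹) := by ring
    calc ∫⁻ y, ‖G2 (x, y)‖ₑ ∂ν ≤ ∫⁻ y, ENNReal.ofReal (|ψ x| * (C2 * R)) *
        ({y | S ≤ ‖y‖}.indicator
          (fun y => ENNReal.ofReal (|h y| * (‖y‖ ^ (n + 2))⁻¹)) y) ∂ν := lintegral_mono hpt
      _ = ENNReal.ofReal (|ψ x| * (C2 * R)) *
          ∫⁻ y in {y | S ≤ ‖y‖}, ENNReal.ofReal (|h y| * (‖y‖ ^ (n + 2))⁻¹) ∂ν := by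
          rw [lintegral_const_mul' _ _ ENNReal.ofReal_ne_top, lintegral_indicator]
          exact measurableSet_le measurable_const measurable_norm
      _ = ENNReal.ofReal (|ψ x| * (C2 * R)) *
          ENNReal.ofReal (∫ y in {y | S ≤ ‖y‖}, |h y| * (‖y‖ ^ (n + 2))⁻¹ ∂ν) := by
          rw [ofReal_integral_eq_lintegral_ofReal hti
            (Eventually.of_forall fun y => by (clear * -; positivity))]
      _ ≤ ENNReal.ofReal (|ψ x| * (C2 * R)) * ENNReal.ofReal (K3 * √A * (√S)⁻¹) := by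
          (clear * - htb; gcongr)
      _ = ENNReal.ofReal (|ψ x| * (C2 * R * (K3 * √A * (√S)⁻¹))) := by
          rw [← ENNReal.ofReal_mul (by (clear * - hC2 hR hx; positivity))]
          congr 1
          ring
  rw [hform_eq, e4]
  have hI1 : 0 ≤ ∫ x, |ψ x * h x| ∂ν := integral_nonneg fun x => abs_nonneg _
  have hI2 : 0 ≤ ∫ x, |ψ x| ∂ν := integral_nonneg fun x => abs_nonneg _
  calc |∫ p, G1 p ∂(ν.prod ν) - ∫ p, G2 p ∂(ν.prod ν)|
      ≤ |∫ p, G1 p ∂(ν.prod ν)| + |∫ p, G2 p ∂(ν.prod ν)| := abs_sub _ _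
    _ ≤ (∫ x, |ψ x * h x| ∂ν) * (C1 * ((S / 2) ^ 1)⁻¹) +
        (∫ x, |ψ x| ∂ν) * (C2 * R * (K3 * √A * (√S)⁻¹)) := add_le_add b1 b2
    _ = (2 * C1) * ((∫ x, |ψ x * h x| ∂ν) / S) +
        (C2 * K3) * (R * (∫ x, |ψ x| ∂ν) * √A / √S) := by
        rw [pow_one]
        (clear * - hS0; field_simp)
    _ ≤ (2 * C1 + C2 * K3) * ((∫ x, |ψ x * h x| ∂ν) / S) +
        (2 * C1 + C2 * K3) * (R * (∫ x, |ψ x| ∂ν) * √A / √S) := by
        gcongr
        · have : 0 ≤ C2 * K3 := by positivity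
          linarith only [this]
        · linarith only [hC1]
    _ = _ := by ring

/-- uniform tail bound for the scalar form of a mean-zero test function -/
theorem Ht.tail (hn : 1 ≤ n) (c C : ℝ) (hC : 0 < C) : ∃ K : ℝ, 0 < K ∧
    ∀ (d : ℕ) (A : ℝ) (ν : Measure (Eu d)) (h : Eu d → ℝ), AR n c C ⊤ ν → Ht n A ν h →
    ∀ (ψ : Eu d → ℝ) (R S : ℝ), LipC ψ → 1 ≤ R → 2 * R ≤ S → (∀ x, R < ‖x‖ → ψ x = 0) →
      ∫ x, ψ x ∂ν = 0 →
      |hform n 0 ν h ψ (cut 0 S)| ≤
        K * ((∫ x, |ψ x * h x| ∂ν) / S + R * (∫ x, |ψ x| ∂ν) * Real.sqrt A / Real.sqrt S) := by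
  obtain ⟨K, hK, hfar⟩ := hform_far hn c C hC
  refine ⟨K, hK, ?_⟩
  intro d A ν h hν hh ψ R S hψ hR hS hψR hψ0
  have hS0 : 0 < S := by linarith only [hR, hS]
  set X := K * ((∫ x, |ψ x * h x| ∂ν) / S + R * (∫ x, |ψ x| ∂ν) * Real.sqrt A / Real.sqrt S)
    with hX
  have hcut01 : ∀ (T : ℝ) (x : Eu d), 0 ≤ cut 0 T x ∧ cut 0 T x ≤ 1 := by
    intro T x
    unfold cut
    exact ⟨le_max_left _ _, max_le zero_le_one (min_le_left _ _)⟩
  have hcut1 : ∀ (T : ℝ) (x : Eu d), 0 < T → ‖x‖ ≤ T → cut 0 T x = 1 := by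
    intro T x hT hx
    unfold cut
    have : dist x 0 / T ≤ 1 := (div_le_one hT).2 (by rwa [dist_zero_right])
    rw [min_eq_left (by linarith only [this]), max_eq_right zero_le_one]
  have key : ∀ S' : ℝ, S ≤ S' → |hform n 0 ν h ψ (cut 0 S)| ≤
      |hform n 0 ν h ψ (cut 0 S')| + X := by
    intro S' hS'
    have hS'0 : 0 < S' := by linarith only [hR, hS, hS']
    have hl := lipC_cut (0 : Eu d) S hS0
    have hl' := lipC_cut (0 : Eu d) S' hS'0
    have h1 := hform_sub_right hn hν hh.lip hψ hl' hl 0 le_rfl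
    have h2 := hfar d A ν h hν hh ψ (fun x => cut 0 S' x - cut 0 S x) R S hψ (hl'.sub hl) hR hS
      hψR (by
        intro x hx
        rw [hcut1 S x hS0 hx, hcut1 S' x hS'0 (hx.trans hS'), sub_self])
      (by
        intro x
        have h3 := hcut01 S x
        have h4 := hcut01 S' x
        rw [abs_le]
        constructor <;> linarith only [h3, h4]) hψ0
    rw [h1] at h2
    have h3 : hform n 0 ν h ψ (cut 0 S) = hform n 0 ν h ψ (cut 0 S') -
        (hform n 0 ν h ψ (cut 0 S') - hform n 0 ν h ψ (cut 0 S)) := by ring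
    rw [h3]
    exact (abs_sub _ _).trans (add_le_add le_rfl h2)
  have hlim : Tendsto (fun S' : ℝ => |hform n 0 ν h ψ (cut 0 S')| + X) atTop (𝓝 (|0| + X)) :=
    ((hh.weak ψ hψ hψ0).abs).add_const X
  rw [abs_zero, zero_add] at hlim
  exact ge_of_tendsto hlim (by
    filter_upwards [eventually_ge_atTop S] with S' hS'
    exact key S' hS')

end Vale.Agent.P120
end
end

section

section

/-! The limit equation: preparatory lemmas.  Owner: helper892 -/

open MeasureTheory Metric Set Filter Topology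
open scoped ENNReal NNReal

namespace Vale.Agent.P120

variable {d n : ℕ} {c C : ℝ}

/-- lift of a function on the plane to the space -/
noncomputable def lift (ι : Eu n →ₗᵢ[ℝ] Eu d) (T : ℝ) (φ : Eu n → ℝ) (x : Eu d) : ℝ :=
  φ (adj ι x) * cut 0 T x

theorem lift_ι (ι : Eu n →ₗᵢ[ℝ] Eu d) {T : ℝ} (hT : 0 < T) {φ : Eu n → ℝ}
    (hφ : ∀ v, T < ‖v‖ → φ v = 0) (v : Eu n) : lift ι T φ (ι v) = φ v := by
  unfold lift
  rw [adj_apply_self]
  by_cases h : ‖v‖ ≤ T
  · rw [icut_one hT (by rw [ι.norm_map]; exact h), mul_one]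
  · push Not at h
    rw [hφ v h, zero_mul]

theorem lift_zero (ι : Eu n →ₗᵢ[ℝ] Eu d) {T : ℝ} (hT : 0 < T) (φ : Eu n → ℝ) {x : Eu d}
    (hx : 2 * T < ‖x‖) : lift ι T φ x = 0 := by
  unfold lift
  rw [icut_zero hT hx.le, mul_zero]

theorem lipC_lift (ι : Eu n →ₗᵢ[ℝ] Eu d) {T : ℝ} (hT : 0 < T) {φ : Eu n → ℝ} (hφ : LipC φ) :
    LipC (lift ι T φ) := by
  obtain ⟨L, hL0, hL⟩ := hφ.exists_lip
  obtain ⟨B, hB0, hB⟩ := hφ.exists_bound
  obtain ⟨L', hL0', hL'⟩ := (lipC_cut (0 : Eu d) T hT).exists_lip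
  refine lipC_of_bound (L := L + B * L') (R := 2 * T + 1) (a := 0) ?_ ?_
  · intro x y
    unfold lift
    have e : φ (adj ι x) * cut 0 T x - φ (adj ι y) * cut 0 T y =
        (φ (adj ι x) - φ (adj ι y)) * cut 0 T x + φ (adj ι y) * (cut 0 T x - cut 0 T y) := by
      ring
    rw [e, add_mul]
    refine (abs_add_le _ _).trans (add_le_add ?_ ?_)
    · rw [abs_mul]
      have h1 : |φ (adj ι x) - φ (adj ι y)| ≤ L * dist x y := by
        refine (hL _ _).trans ?_
        apply mul_le_mul_of_nonneg_left _ hL0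
        rw [dist_eq_norm, dist_eq_norm, ← map_sub]
        exact norm_adj_le ι _
      have h2 : |cut 0 T x| ≤ 1 := by
        rw [abs_of_nonneg (icut_nonneg _ _ _)]; exact icut_le_one _ _ _
      calc _ ≤ (L * dist x y) * 1 := mul_le_mul h1 h2 (abs_nonneg _) (by positivity)
        _ = L * dist x y := mul_one _
    · rw [abs_mul, mul_assoc]
      exact mul_le_mul (hB _) (hL' x y) (abs_nonneg _) hB0
  · intro x hx
    apply lift_zero ι hT
    rw [dist_zero_right] at hx
    linarith only [hx]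

theorem hform_sub_mul_left (hn : 1 ≤ n) {D : ℝ≥0∞} {ν : Measure (Eu d)} (hν : AR n c C D ν)
    {h ψ φ θ : Eu d → ℝ} (hh : ∃ L : ℝ≥0, LipschitzWith L h) (hψ : LipC ψ) (hφ : LipC φ)
    (hθ : LipC θ) (e : ℝ) (he : 0 ≤ e) (m : ℝ) :
    hform n e ν h (fun x => ψ x - m * φ x) θ =
      hform n e ν h ψ θ - m * hform n e ν h φ θ := by
  have i1 := integrable_hform hn hν hh hψ hθ e he
  have i2 := (integrable_hform hn hν hh hφ hθ e he).const_mul m
  have key : (∫ p, (h p.1 - h p.2) * ((ψ p.1 - m * φ p.1) * θ p.2 -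
      (ψ p.2 - m * φ p.2) * θ p.1) * sK n e (p.1 - p.2) ∂(ν.prod ν)) =
      (∫ p, (h p.1 - h p.2) * (ψ p.1 * θ p.2 - ψ p.2 * θ p.1) * sK n e (p.1 - p.2) ∂(ν.prod ν)) -
      m * ∫ p, (h p.1 - h p.2) * (φ p.1 * θ p.2 - φ p.2 * θ p.1) * sK n e (p.1 - p.2)
        ∂(ν.prod ν) := by
    rw [← integral_const_mul, ← integral_sub i1 i2]
    apply integral_congr_ae
    exact ae_of_all _ fun p => by ring
  unfold hform
  simp only
  rw [key]
  ring

/-- the regularised scalar form as an integral against `h` -/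
theorem hform_eq_integral {ν : Measure (Eu d)} [IsLocallyFiniteMeasure ν]
    {h ψ θ : Eu d → ℝ} (hh : Continuous h) (hψ : Continuous ψ) (hθ : Continuous θ) (R : ℝ)
    (hR : ∀ x, R < ‖x‖ → ψ x = 0 ∧ θ x = 0) (e : ℝ) (he : 0 < e) :
    hform n e ν h ψ θ =
      ∫ x, h x * ∫ y, (ψ x * θ y - ψ y * θ x) * sK n e (x - y) ∂ν ∂ν := by
  set F : Eu d × Eu d → ℝ := fun p => h p.1 * ((ψ p.1 * θ p.2 - ψ p.2 * θ p.1) *
    sK n e (p.1 - p.2)) with hF
  have hk : Continuous (sK (d := d) n e) := continuous_sK n e he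
  have hFc : Continuous F := by
    rw [hF]
    have hk' : Continuous fun p : Eu d × Eu d => sK n e (p.1 - p.2) :=
      hk.comp (continuous_fst.sub continuous_snd)
    have h1 : Continuous fun p : Eu d × Eu d => h p.1 := hh.comp continuous_fst
    have h2 : Continuous fun p : Eu d × Eu d => ψ p.1 := hψ.comp continuous_fst
    have h3 : Continuous fun p : Eu d × Eu d => ψ p.2 := hψ.comp continuous_snd
    have h4 : Continuous fun p : Eu d × Eu d => θ p.1 := hθ.comp continuous_fst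
    have h5 : Continuous fun p : Eu d × Eu d => θ p.2 := hθ.comp continuous_snd
    exact h1.mul (((h2.mul h5).sub (h3.mul h4)).mul hk')
  have hFs : HasCompactSupport F := by
    refine HasCompactSupport.intro ((isCompact_closedBall (0 : Eu d) R).prod
      (isCompact_closedBall (0 : Eu d) R)) ?_
    rintro ⟨x, y⟩ hxy
    have : R < ‖x‖ ∨ R < ‖y‖ := by
      by_contra hcon
      push Not at hcon
      apply hxy
      constructor
      · simpa only [mem_closedBall, dist_zero_right] using hcon.1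
      · simpa only [mem_closedBall, dist_zero_right] using hcon.2
    simp only [hF]
    rcases this with h0 | h0
    · rw [(hR x h0).1, (hR x h0).2]; ring
    · rw [(hR y h0).1, (hR y h0).2]; ring
  have hFi : Integrable F (ν.prod ν) := hFc.integrable_of_hasCompactSupport hFs
  have h1 : ∫ p, (h p.1 - h p.2) * (ψ p.1 * θ p.2 - ψ p.2 * θ p.1) * sK n e (p.1 - p.2)
      ∂(ν.prod ν) = (∫ p, F p ∂(ν.prod ν)) + ∫ p, F p.swap ∂(ν.prod ν) := by
    have hsw : Integrable (fun p : Eu d × Eu d => F p.swap) (ν.prod ν) := hFi.swap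
    rw [← integral_add hFi hsw]
    congr 1
    funext p
    simp only [hF, Prod.fst_swap, Prod.snd_swap]
    rw [← neg_sub p.1 p.2, sK_neg]
    ring
  unfold hform
  rw [h1, integral_prod_swap, integral_prod F hFi]
  have h2 : ∀ x, ∫ y, F (x, y) ∂ν =
      h x * ∫ y, (ψ x * θ y - ψ y * θ x) * sK n e (x - y) ∂ν := by
    intro x
    rw [← integral_const_mul]
  simp_rw [h2]
  ring

end Vale.Agent.P120
end
end

section

section

/-! The limit equation: limits of the regularised forms.  Owner: helper892 -/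

open MeasureTheory Metric Set Filter Topology
open scoped ENNReal NNReal

namespace Vale.Agent.P120

variable {d n : ℕ} {c C : ℝ}

/-- the kernel of the antisymmetrised potential -/
noncomputable def aker (n : ℕ) (e : ℝ) (ψ θ : Eu d → ℝ) (x y : Eu d) : ℝ :=
  (ψ x * θ y - ψ y * θ x) * sK n e (x - y)

theorem continuous_aker {ψ θ : Eu d → ℝ} (hψ : Continuous ψ) (hθ : Continuous θ) (e : ℝ)
    (he : 0 < e) : Continuous (Function.uncurry (aker n e ψ θ)) := by
  have hk : Continuous (sK (d := d) n e) := continuous_sK n e he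
  have hk' : Continuous fun p : Eu d × Eu d => sK n e (p.1 - p.2) :=
    hk.comp (continuous_fst.sub continuous_snd)
  have h2 : Continuous fun p : Eu d × Eu d => ψ p.1 := hψ.comp continuous_fst
  have h3 : Continuous fun p : Eu d × Eu d => ψ p.2 := hψ.comp continuous_snd
  have h4 : Continuous fun p : Eu d × Eu d => θ p.1 := hθ.comp continuous_fst
  have h5 : Continuous fun p : Eu d × Eu d => θ p.2 := hθ.comp continuous_snd
  exact ((h2.mul h5).sub (h3.mul h4)).mul hk'

theorem aker_zero {ψ θ : Eu d → ℝ} {R : ℝ} (hR : ∀ x, R < ‖x‖ → ψ x = 0 ∧ θ x = 0) (e : ℝ)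
    (x y : Eu d) (h : R < ‖x‖ ∨ R < ‖y‖) : aker n e ψ θ x y = 0 := by
  unfold aker
  rcases h with h0 | h0
  · rw [(hR x h0).1, (hR x h0).2]; ring
  · rw [(hR y h0).1, (hR y h0).2]; ring

theorem continuous_apot {ν' : Measure (Eu d)} [IsLocallyFiniteMeasure ν'] {ψ θ : Eu d → ℝ}
    (hψ : Continuous ψ) (hθ : Continuous θ) {R : ℝ}
    (hR : ∀ x, R < ‖x‖ → ψ x = 0 ∧ θ x = 0) (e : ℝ) (he : 0 < e) :
    Continuous (fun x => ∫ y, aker n e ψ θ x y ∂ν') := by
  have h1 := continuous_parametric_integral_of_continuous (μ := ν')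
    (continuous_aker (n := n) hψ hθ e he) (isCompact_closedBall (0 : Eu d) R)
  refine h1.congr fun x => ?_
  apply setIntegral_eq_integral_of_forall_compl_eq_zero
  intro y hy
  apply aker_zero hR
  right
  simpa only [mem_closedBall, dist_zero_right, not_le] using hy

/-- limit of the regularised forms -/
theorem ImpSeq.tendsto_hform {A : ℝ} {𝒰 : Ultrafilter ℕ} {ν : ℕ → Measure (Eu d)}
    {ν' : Measure (Eu d)} {ι : Eu n →ₗᵢ[ℝ] Eu d} {g : ℝ} {h : ℕ → Eu d → ℝ}
    {σp σm : Measure (Eu d)} (H : ImpSeq n c C A 𝒰 ν ν' ι g h σp σm) {ψ θ : Eu d → ℝ}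
    (hψ : Continuous ψ) (hθ : Continuous θ) (R : ℝ)
    (hR : ∀ x, R < ‖x‖ → ψ x = 0 ∧ θ x = 0) (e : ℝ) (he : 0 < e) :
    Tendsto (fun k => hform n e (ν k) (h k) ψ θ) (𝒰 : Filter ℕ)
      (𝓝 ((∫ x, (∫ y, aker n e ψ θ x y ∂ν') ∂σp) - ∫ x, (∫ y, aker n e ψ θ x y ∂ν') ∂σm)) := by
  have hlf' := H.ar'.isLocallyFiniteMeasure
  set G : Eu d → ℝ := fun x => ∫ y, aker n e ψ θ x y ∂ν' with hG
  have hGc : Continuous G := continuous_apot hψ hθ hR e he
  have hGR : ∀ x, R < ‖x‖ → G x = 0 := by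
    intro x hx
    simp only [hG]
    rw [integral_eq_zero_of_ae]
    exact ae_of_all _ fun y => aker_zero hR e x y (Or.inl hx)
  have hGs : HasCompactSupport G := hasCompactSupport_of_ball hGR
  have h1 := H.tendsto_pair G hGc hGs
  -- uniform closeness of the potentials
  have hfin : ∀ R : ℝ, ∃ B : ℝ, ∀ k, ν k (closedBall 0 R) ≤ ENNReal.ofReal B := by
    intro R'
    refine ⟨C * (max R' 1) ^ n, fun k => ?_⟩
    exact (measure_mono (closedBall_subset_closedBall (le_max_left _ _))).trans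
      ((H.ar k).upper 0 _ (by (clear * -; positivity)))
  set R₁ : ℝ := max R 1 with hR₁
  have hR₁1 : 1 ≤ R₁ := le_max_right _ _
  set B : ℝ := (A + C) / 2 * (R₁ ^ (n + 1) * Real.sqrt R₁) with hB
  have hA := (H.ht 0).A_nonneg
  have hC := (H.ar 0).C_pos
  have hB0 : 0 ≤ B := by (clear * - hA hC; positivity)
  have hdiff : Tendsto (fun k => hform n e (ν k) (h k) ψ θ - ∫ x, G x * h k x ∂(ν k))
      (𝒰 : Filter ℕ) (𝓝 0) := by
    rw [Metric.tendsto_nhds]
    intro ε hε
    have h2 := tendstoUniformly_potential hfin H.vl (aker n e ψ θ)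
      (continuous_aker hψ hθ e he) R (aker_zero hR e) (ε / (2 * (B + 1))) (by (clear * - hA hC hε; positivity))
    filter_upwards [h2] with k hk
    have hlfk := (H.ar k).isLocallyFiniteMeasure
    have hkc : Continuous (h k) := (H.ht k).continuous
    set Gk : Eu d → ℝ := fun x => ∫ y, aker n e ψ θ x y ∂(ν k) with hGk
    have hGkc : Continuous Gk := continuous_apot hψ hθ hR e he
    have hGkR : ∀ x, R < ‖x‖ → Gk x = 0 := by
      intro x hx
      simp only [hGk]
      rw [integral_eq_zero_of_ae]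
      exact ae_of_all _ fun y => aker_zero hR e x y (Or.inl hx)
    have hGks : HasCompactSupport Gk := hasCompactSupport_of_ball hGkR
    have e1 : hform n e (ν k) (h k) ψ θ = ∫ x, h k x * Gk x ∂(ν k) :=
      hform_eq_integral hkc hψ hθ R hR e he
    have i1 : Integrable (fun x => h k x * Gk x) (ν k) :=
      (hkc.mul hGkc).integrable_of_hasCompactSupport hGks.mul_left
    have i2 : Integrable (fun x => G x * h k x) (ν k) :=
      (hGc.mul hkc).integrable_of_hasCompactSupport hGs.mul_right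
    rw [e1, ← integral_sub i1 i2, dist_zero_right]
    have e2 : ∫ x, (h k x * Gk x - G x * h k x) ∂(ν k) =
        ∫ x in closedBall (0 : Eu d) R₁, (h k x * Gk x - G x * h k x) ∂(ν k) := by
      symm
      apply setIntegral_eq_integral_of_forall_compl_eq_zero
      intro x hx
      have hx' : R < ‖x‖ := by
        have : R₁ < ‖x‖ := by simpa only [mem_closedBall, dist_zero_right, not_le] using hx
        exact (le_max_left _ _).trans_lt this
      rw [hGR x hx', hGkR x hx']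
      ring
    rw [e2]
    have i3 : IntegrableOn (fun x => |h k x|) (closedBall (0 : Eu d) R₁) (ν k) :=
      hkc.abs.continuousOn.integrableOn_compact (isCompact_closedBall _ _)
    calc ‖∫ x in closedBall (0 : Eu d) R₁, (h k x * Gk x - G x * h k x) ∂(ν k)‖
        ≤ ∫ x in closedBall (0 : Eu d) R₁, (ε / (2 * (B + 1))) * |h k x| ∂(ν k) := by
          refine norm_integral_le_of_norm_le (i3.const_mul _) (ae_of_all _ fun x => ?_)
          rw [Real.norm_eq_abs]
          have : h k x * Gk x - G x * h k x = (Gk x - G x) * h k x := by ring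
          rw [this, abs_mul]
          exact mul_le_mul_of_nonneg_right (hk x) (abs_nonneg _)
      _ = (ε / (2 * (B + 1))) * ∫ x in closedBall (0 : Eu d) R₁, |h k x| ∂(ν k) := by
          rw [integral_const_mul]
      _ ≤ (ε / (2 * (B + 1))) * B := by
          apply mul_le_mul_of_nonneg_left _ (by (clear * - hA hC hε; positivity))
          exact (H.ht k).l1_growth (H.ar k) hR₁1
      _ < ε := by
          rw [div_mul_eq_mul_div, div_lt_iff₀ (by (clear * - hA hC; positivity))]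
          nlinarith only [hB0, hε]
  have h3 := hdiff.add h1
  rw [zero_add] at h3
  refine h3.congr fun k => ?_
  ring

end Vale.Agent.P120
end
end

section

section

/-! The limit equation: transfer to `R^n`.  Owner: helper892 -/

open MeasureTheory Metric Set Filter Topology
open scoped ENNReal NNReal

namespace Vale.Agent.P120

variable {d n : ℕ} {c C A : ℝ} {𝒰 : Ultrafilter ℕ} {ν : ℕ → Measure (Eu d)}
  {ν' : Measure (Eu d)} {ι : Eu n →ₗᵢ[ℝ] Eu d} {g : ℝ} {h : ℕ → Eu d → ℝ}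
  {σp σm : Measure (Eu d)}

theorem ImpSeq.ae_range (H : ImpSeq n c C A 𝒰 ν ν' ι g h σp σm) :
    ∀ᵐ x ∂σp, ι (adj ι x) = x := by
  have h1 := H.null_compl
  have h2 : ∀ᵐ x ∂σp, x ∈ Set.range ι := by
    rw [ae_iff]
    exact h1
  filter_upwards [h2] with x hx
  obtain ⟨v, rfl⟩ := hx
  rw [adj_apply_self]

/-- growth constant of the pushed forward measures -/
noncomputable def grB (n : ℕ) (A C : ℝ) : ℝ := (A + C) / 2 * (2 ^ (n + 1) * Real.sqrt 2)

theorem ImpSeq.map_growth (H : ImpSeq n c C A 𝒰 ν ν' ι g h σp σm) (R : ℝ) (hR : 1 ≤ R) :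
    (σp.map (adj ι)) (closedBall 0 R) ≤
      ENNReal.ofReal (grB n A C * (R ^ (n + 1) * Real.sqrt R)) := by
  rw [Measure.map_apply (adj ι).continuous.measurable measurableSet_closedBall]
  have h1 : σp ((adj ι) ⁻¹' closedBall 0 R) ≤ σp (closedBall 0 R) := by
    apply measure_mono_ae
    filter_upwards [H.ae_range] with x hx hx'
    have h2 : ‖adj ι x‖ ≤ R := by
      have : adj ι x ∈ closedBall (0 : Eu n) R := hx'
      simpa only [ge_iff_le, mem_closedBall, dist_zero_right] using this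
    have h3 : ‖x‖ = ‖adj ι x‖ := by
      conv_lhs => rw [← hx]
      exact ι.norm_map _
    show x ∈ closedBall (0 : Eu d) R
    rw [mem_closedBall, dist_zero_right, h3]
    exact h2
  refine h1.trans ((H.growth hR).trans (ENNReal.ofReal_le_ofReal (le_of_eq ?_)))
  unfold grB
  rw [mul_pow, Real.sqrt_mul (by norm_num)]
  ring

theorem ImpSeq.map_locallyFinite (H : ImpSeq n c C A 𝒰 ν ν' ι g h σp σm) :
    IsLocallyFiniteMeasure (σp.map (adj ι)) := by
  refine ⟨fun x => ⟨ball x 1, ball_mem_nhds x one_pos, ?_⟩⟩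
  have h1 : ball x 1 ⊆ closedBall (0 : Eu n) (‖x‖ + 1) := by
    intro y hy
    rw [mem_ball] at hy
    rw [mem_closedBall, dist_zero_right]
    calc ‖y‖ = dist y 0 := (dist_zero_right y).symm
      _ ≤ dist y x + dist x 0 := dist_triangle _ _ _
      _ ≤ ‖x‖ + 1 := by rw [dist_zero_right]; linarith
  refine (measure_mono h1).trans_lt ?_
  exact (H.map_growth _ (by linarith [norm_nonneg x])).trans_lt ENNReal.ofReal_lt_top

theorem ImpSeq.grB_nonneg (H : ImpSeq n c C A 𝒰 ν ν' ι g h σp σm) : 0 ≤ grB n A C := by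
  have hA := (H.ht 0).A_nonneg
  have hC := (H.ar 0).C_pos
  unfold grB
  positivity

/-- integrals against `σp` are integrals over `R^n` -/
theorem ImpSeq.integral_map (H : ImpSeq n c C A 𝒰 ν ν' ι g h σp σm) (G : Eu d → ℝ)
    (hG : Continuous G) :
    ∫ x, G x ∂σp = ∫ u, G (ι u) ∂(σp.map (adj ι)) := by
  have h1 : ∫ u, G (ι u) ∂(σp.map (adj ι)) = ∫ x, G (ι (adj ι x)) ∂σp :=
    MeasureTheory.integral_map (f := fun u => G (ι u)) (adj ι).continuous.aemeasurable
      (hG.comp ι.continuous).aestronglyMeasurable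
  rw [h1]
  apply integral_congr_ae
  filter_upwards [H.ae_range] with x hx
  rw [hx]

theorem cut_ι (ι : Eu n →ₗᵢ[ℝ] Eu d) (S : ℝ) (v : Eu n) : cut 0 S (ι v) = cut 0 S v := by
  unfold cut
  rw [dist_zero_right, dist_zero_right, ι.norm_map]

theorem sK_ι (ι : Eu n →ₗᵢ[ℝ] Eu d) (e : ℝ) (u v : Eu n) :
    sK n e (ι u - ι v) = sK n e (u - v) := by
  unfold sK
  rw [← map_sub, ι.norm_map]

/-- the planar potential -/
noncomputable def ppot (n : ℕ) (e S : ℝ) (φ : Eu n → ℝ) (u : Eu n) : ℝ :=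
  ∫ v, (φ u * cut 0 S v - φ v * cut 0 S u) * sK n e (u - v)

theorem ImpSeq.apot_ι (H : ImpSeq n c C A 𝒰 ν ν' ι g h σp σm) {φ : Eu n → ℝ}
    (hφ : Continuous φ) {T S : ℝ} (hT : 0 < T) (hS : 0 < S) (hφT : ∀ v, T < ‖v‖ → φ v = 0)
    (e : ℝ) (he : 0 < e) (u : Eu n) :
    ∫ y, aker n e (lift ι T φ) (cut 0 S) (ι u) y ∂ν' = g * ppot n e S φ u := by
  have hlc : Continuous (lift ι T φ) := by
    unfold lift
    exact (hφ.comp (adj ι).continuous).mul (icut_cont _ _)
  have hc : Continuous (fun y => aker n e (lift ι T φ) (cut 0 S) (ι u) y) := by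
    have h0 : (fun y => aker n e (lift ι T φ) (cut 0 S) (ι u) y) =
        (Function.uncurry (aker n e (lift ι T φ) (cut 0 S))) ∘ (fun y => (ι u, y)) := rfl
    rw [h0]
    exact (continuous_aker hlc (icut_cont (0 : Eu d) S) e he).comp
      (continuous_const.prodMk continuous_id)
  have hR : ∀ x : Eu d, 2 * T + 2 * S < ‖x‖ → lift ι T φ x = 0 ∧ cut 0 S x = 0 := by
    intro x hx
    exact ⟨lift_zero ι hT φ (by linarith only [hS, hx]), icut_zero hS (by linarith)⟩
  have hcs : HasCompactSupport (fun y => aker n e (lift ι T φ) (cut 0 S) (ι u) y) :=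
    hasCompactSupport_of_ball fun y hy => aker_zero hR e _ _ (Or.inr hy)
  have h1 := H.planar _ hc hcs
  have h2 : ∀ v : Eu n, aker n e (lift ι T φ) (cut 0 S) (ι u) (ι v) =
      (φ u * cut 0 S v - φ v * cut 0 S u) * sK n e (u - v) := by
    intro v
    unfold aker
    rw [lift_ι ι hT hφT, lift_ι ι hT hφT, cut_ι, cut_ι, sK_ι]
  simp only [h2] at h1
  exact h1

theorem ImpSeq.integral_apot (H : ImpSeq n c C A 𝒰 ν ν' ι g h σp σm) {φ : Eu n → ℝ}
    (hφ : Continuous φ) {T S : ℝ} (hT : 0 < T) (hS : 0 < S) (hφT : ∀ v, T < ‖v‖ → φ v = 0)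
    (e : ℝ) (he : 0 < e) :
    ∫ x, (∫ y, aker n e (lift ι T φ) (cut 0 S) x y ∂ν') ∂σp =
      g * ∫ u, ppot n e S φ u ∂(σp.map (adj ι)) := by
  have hlf' := H.ar'.isLocallyFiniteMeasure
  have hlc : Continuous (lift ι T φ) := by
    unfold lift
    exact (hφ.comp (adj ι).continuous).mul (icut_cont _ _)
  have hR : ∀ x : Eu d, 2 * T + 2 * S < ‖x‖ → lift ι T φ x = 0 ∧ cut 0 S x = 0 := by
    intro x hx
    exact ⟨lift_zero ι hT φ (by linarith only [hS, hx]), icut_zero hS (by linarith)⟩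
  rw [H.integral_map _ (continuous_apot hlc (icut_cont _ _) hR e he), ← integral_const_mul]
  apply integral_congr_ae
  exact ae_of_all _ fun u => H.apot_ι hφ hT hS hφT e he u

theorem continuous_ppot {φ : Eu n → ℝ} (hφ : Continuous φ) {T S : ℝ} (hS : 0 < S)
    (hφT : ∀ v, T < ‖v‖ → φ v = 0) (e : ℝ) (he : 0 < e) : Continuous (ppot n e S φ) := by
  have hR : ∀ x : Eu n, max T (2 * S) < ‖x‖ → φ x = 0 ∧ cut 0 S x = 0 := by
    intro x hx
    exact ⟨hφT x ((le_max_left _ _).trans_lt hx), icut_zero hS ((le_max_right _ _).trans hx.le)⟩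
  exact continuous_apot (ν' := (volume : Measure (Eu n))) hφ (icut_cont _ _) hR e he

theorem ppot_zero {φ : Eu n → ℝ} {T S : ℝ} (hS : 0 < S)
    (hφT : ∀ v, T < ‖v‖ → φ v = 0) (e : ℝ) (u : Eu n) (hu : max T (2 * S) < ‖u‖) :
    ppot n e S φ u = 0 := by
  unfold ppot
  rw [hφT u ((le_max_left _ _).trans_lt hu), icut_zero hS ((le_max_right _ _).trans hu.le)]
  simp

/-- comparison of the integral of the planar potential with that of `fracL` -/
theorem integral_ppot_sub (n : ℕ) (hn : 1 ≤ n) (φ : Eu n → ℝ) (hφ : ContDiff ℝ (⊤ : ℕ∞) φ)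
    (hφ' : HasCompactSupport φ) (hφ0 : ∫ v, φ v = 0) (T : ℝ) (hT : 1 ≤ T)
    (hφT : ∀ v, T < ‖v‖ → φ v = 0) (B : ℝ) (hB : 0 ≤ B) :
    ∃ K : ℝ, 0 < K ∧ ∀ (ρ : Measure (Eu n)),
      (∀ R : ℝ, 1 ≤ R → ρ (closedBall 0 R) ≤
        ENNReal.ofReal (B * (R ^ (n + 1) * Real.sqrt R))) →
      Integrable (fracL n φ) ρ ∧
      ∀ S e : ℝ, 2 * T ≤ S → 0 < e → e ≤ 1 →
        |(∫ u, ppot n e S φ u ∂ρ) - ∫ u, fracL n φ u ∂ρ| ≤ K * (1 / Real.sqrt S + e) := by
  obtain ⟨M, hM0, hM, hD⟩ := second_diff_bound_imp φ (by exact_mod_cast contDiff_infty.1 hφ 2) hφ'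
  obtain ⟨K₀, hK₀, hcmp⟩ := potential_compare n hn φ hφ.continuous T hT hφT M hM hD hφ0
  obtain ⟨K₁, hK₁, htail⟩ := growth_tail n B hB
  obtain ⟨K₂, hK₂, hwt⟩ := growth_weight n B hB
  obtain ⟨-, hfr2, hfrc⟩ := fracL_bound n hn φ hφ hφ'
  obtain ⟨B', hB'⟩ := hfr2 hφ0
  refine ⟨K₀ * K₂ + K₀ * K₁, by (clear * - hK₀ hK₁ hK₂; positivity), fun ρ hρ => ?_⟩
  have hw := hwt n ρ hρ
  have hB'0 : 0 ≤ B' := by
    have := hB' 0
    simp only [norm_zero, add_zero, one_pow, inv_one, mul_one] at this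
    exact (abs_nonneg _).trans this
  have hint : Integrable (fracL n φ) ρ := by
    have h1 : ∫⁻ x, ENNReal.ofReal (B' * ((1 + ‖x‖) ^ (n + 2))⁻¹) ∂ρ ≤
        ENNReal.ofReal (B' * K₂) := by
      calc ∫⁻ x, ENNReal.ofReal (B' * ((1 + ‖x‖) ^ (n + 2))⁻¹) ∂ρ
          = ∫⁻ x, ENNReal.ofReal B' * ENNReal.ofReal (((1 + ‖x‖) ^ (n + 2))⁻¹) ∂ρ := by
            congr 1; funext x; rw [ENNReal.ofReal_mul hB'0]
        _ = ENNReal.ofReal B' * ∫⁻ x, ENNReal.ofReal (((1 + ‖x‖) ^ (n + 2))⁻¹) ∂ρ := by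
            rw [lintegral_const_mul' _ _ ENNReal.ofReal_ne_top]
        _ ≤ ENNReal.ofReal B' * ENNReal.ofReal K₂ := by (clear * - hw; gcongr)
        _ = ENNReal.ofReal (B' * K₂) := by rw [ENNReal.ofReal_mul hB'0]
    exact (abs_integral_le_of_lintegral hfrc.aestronglyMeasurable hB' (by (clear * - hK₂ hB'0; positivity)) h1).1
  refine ⟨hint, fun S e hS he he1 => ?_⟩
  have hS0 : 0 < S := by linarith only [hT, hS]
  have hS1 : 1 ≤ S := by linarith only [hT, hS]
  have hpc : Continuous (ppot n e S φ) := continuous_ppot hφ.continuous hS0 hφT e he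
  have hpi : Integrable (ppot n e S φ) ρ := by
    apply integrable_of_ball hpc (ppot_zero hS0 hφT e)
    have h3 : max T (2 * S) = 2 * S := max_eq_right (by linarith only [hT, hS])
    rw [h3]
    exact (hρ (2 * S) (by linarith only [hT, hS])).trans_lt ENNReal.ofReal_lt_top
  rw [← integral_sub hpi hint]
  have hss : Real.sqrt S ≤ S := by
    rw [Real.sqrt_le_left hS0.le]
    nlinarith only [hT, hS]
  have hsp : 0 < Real.sqrt S := Real.sqrt_pos.2 hS0
  have hmeas : MeasurableSet {x : Eu n | S ≤ ‖x‖} := measurableSet_le measurable_const measurable_norm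
  have key : ∫⁻ u, ENNReal.ofReal (K₀ * (1 / S + e) * ((1 + ‖u‖) ^ (n + 2))⁻¹ +
      K₀ * {x : Eu n | S ≤ ‖x‖}.indicator (fun x => (‖x‖ ^ (n + 2))⁻¹) u) ∂ρ ≤
      ENNReal.ofReal ((K₀ * K₂ + K₀ * K₁) * (1 / Real.sqrt S + e)) := by
    have hind : ∀ u : Eu n, 0 ≤ {x : Eu n | S ≤ ‖x‖}.indicator (fun x => (‖x‖ ^ (n + 2))⁻¹) u :=
      fun u => indicator_nonneg (fun x _ => by (clear * -; positivity)) u
    calc ∫⁻ u, ENNReal.ofReal (K₀ * (1 / S + e) * ((1 + ‖u‖) ^ (n + 2))⁻¹ +
          K₀ * {x : Eu n | S ≤ ‖x‖}.indicator (fun x => (‖x‖ ^ (n + 2))⁻¹) u) ∂ρ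
        = ∫⁻ u, (ENNReal.ofReal (K₀ * (1 / S + e)) * ENNReal.ofReal (((1 + ‖u‖) ^ (n + 2))⁻¹) +
          ENNReal.ofReal K₀ * {x : Eu n | S ≤ ‖x‖}.indicator
            (fun x => ENNReal.ofReal ((‖x‖ ^ (n + 2))⁻¹)) u) ∂ρ := by
          congr 1
          funext u
          rw [ENNReal.ofReal_add (by (clear * - hK₀ he hS0; positivity)) (mul_nonneg hK₀.le (hind u)),
            ENNReal.ofReal_mul (by (clear * - hK₀ he hS0; positivity)), ENNReal.ofReal_mul hK₀.le]
          congr 1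
          by_cases hu : u ∈ {x : Eu n | S ≤ ‖x‖}
          · rw [indicator_of_mem hu, indicator_of_mem hu, ENNReal.ofReal_mul hK₀.le]
          · rw [indicator_of_notMem hu, indicator_of_notMem hu, mul_zero, ENNReal.ofReal_zero,
              mul_zero]
      _ = ENNReal.ofReal (K₀ * (1 / S + e)) *
            ∫⁻ u, ENNReal.ofReal (((1 + ‖u‖) ^ (n + 2))⁻¹) ∂ρ +
          ENNReal.ofReal K₀ * ∫⁻ u in {x : Eu n | S ≤ ‖x‖},
            ENNReal.ofReal ((‖u‖ ^ (n + 2))⁻¹) ∂ρ := by
          rw [lintegral_add_left (by fun_prop), lintegral_const_mul' _ _ ENNReal.ofReal_ne_top,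
            lintegral_const_mul' _ _ ENNReal.ofReal_ne_top, lintegral_indicator hmeas]
      _ ≤ ENNReal.ofReal (K₀ * (1 / S + e)) * ENNReal.ofReal K₂ +
          ENNReal.ofReal K₀ * ENNReal.ofReal (K₁ * (Real.sqrt S)⁻¹) := by
          gcongr
          exact htail n ρ hρ S hS1
      _ = ENNReal.ofReal (K₀ * (1 / S + e) * K₂ + K₀ * (K₁ * (Real.sqrt S)⁻¹)) := by
          rw [← ENNReal.ofReal_mul (by (clear * - hK₀ he hS0; positivity)), ← ENNReal.ofReal_mul hK₀.le,
            ← ENNReal.ofReal_add (by (clear * - hK₀ hK₂ he hS0; positivity)) (by positivity)]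
      _ ≤ ENNReal.ofReal ((K₀ * K₂ + K₀ * K₁) * (1 / Real.sqrt S + e)) := by
          apply ENNReal.ofReal_le_ofReal
          have h4 : 1 / S ≤ 1 / Real.sqrt S := one_div_le_one_div_of_le hsp hss
          have h5 : (Real.sqrt S)⁻¹ = 1 / Real.sqrt S := (one_div _).symm
          rw [h5]
          have h6 : 0 ≤ K₀ * K₂ := by positivity
          have h7 : 0 ≤ K₀ * K₁ := by positivity
          nlinarith only [mul_le_mul_of_nonneg_left h4 h6, mul_nonneg h7 he.le, he, h4, h6, h7]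
  have hres := abs_integral_le_of_lintegral (μ := ρ)
    (F := fun u => ppot n e S φ u - fracL n φ u)
    (hpc.sub hfrc).aestronglyMeasurable (fun u => hcmp S e u hS he he1)
    (by (clear * - hK₀ hK₁ hK₂ he hS0; positivity)) key
  exact hres.2.1

end Vale.Agent.P120
end
end

section

section

/-! Liouville theorem for signed measures, part 2: mollification of measures. -/

open MeasureTheory Metric Set Filter Topology ContinuousLinearMap
open scoped ENNReal NNReal ContDiff Convolution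

namespace Vale.Agent.P120.Liou

variable {n : ℕ}

/-- mollified measure -/
noncomputable def mm (φ : ContDiffBump (0 : Eu n)) (ρ : Measure (Eu n)) (x : Eu n) : ℝ :=
  ∫ y, φ.normed volume (x - y) ∂ρ

theorem mm_contDiff (φ : ContDiffBump (0 : Eu n)) (ρ : Measure (Eu n))
    [IsLocallyFiniteMeasure ρ] : ContDiff ℝ ∞ (mm φ ρ) := by
  have h := (φ.hasCompactSupport_normed (μ := volume)).contDiff_convolution_right (lsmul ℝ ℝ)
    (f := fun _ : Eu n => (1 : ℝ)) (μ := ρ) (n := ⊤) (locallyIntegrable_const 1)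
    φ.contDiff_normed
  have e : mm φ ρ = ((fun _ : Eu n => (1 : ℝ)) ⋆[lsmul ℝ ℝ, ρ] (φ.normed volume)) := by
    funext x
    simp only [mm, convolution, lsmul_apply, smul_eq_mul, one_mul]
  rw [e]
  exact h

theorem mm_nonneg (φ : ContDiffBump (0 : Eu n)) (ρ : Measure (Eu n)) (x : Eu n) :
    0 ≤ mm φ ρ x := integral_nonneg fun _ => φ.nonneg_normed _

theorem hcs_sub (φ : ContDiffBump (0 : Eu n)) (x : Eu n) :
    HasCompactSupport (fun y => φ.normed volume (x - y)) :=
  (φ.hasCompactSupport_normed (μ := volume)).comp_homeomorph (Homeomorph.subLeft x)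

theorem cont_sub (φ : ContDiffBump (0 : Eu n)) (x : Eu n) :
    Continuous (fun y => φ.normed volume (x - y)) :=
  φ.continuous_normed.comp (continuous_const.sub continuous_id)

theorem int_sub (φ : ContDiffBump (0 : Eu n)) (ρ : Measure (Eu n))
    [IsLocallyFiniteMeasure ρ] (x : Eu n) :
    Integrable (fun y => φ.normed volume (x - y)) ρ :=
  (cont_sub φ x).integrable_of_hasCompactSupport (hcs_sub φ x)

theorem ofReal_mm (φ : ContDiffBump (0 : Eu n)) (ρ : Measure (Eu n))
    [IsLocallyFiniteMeasure ρ] (x : Eu n) :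
    ENNReal.ofReal (mm φ ρ x) = ∫⁻ y, ENNReal.ofReal (φ.normed volume (x - y)) ∂ρ :=
  ofReal_integral_eq_lintegral_ofReal (int_sub φ ρ x)
    (Eventually.of_forall fun _ => φ.nonneg_normed _)

theorem normed_zero' {φ : ContDiffBump (0 : Eu n)} (hφ : φ.rOut ≤ 1) {x y : Eu n}
    (h : 1 < ‖x - y‖) : φ.normed volume (x - y) = 0 := by
  apply normed_zero hφ
  rw [mem_ball_zero_iff]
  linarith only [h]

theorem lint_normed (φ : ContDiffBump (0 : Eu n)) (y : Eu n) :
    ∫⁻ x, ENNReal.ofReal (φ.normed volume (x - y)) = 1 := by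
  rw [lintegral_sub_right_eq_self (fun x => ENNReal.ofReal (φ.normed volume x)) y,
    ← ofReal_integral_eq_lintegral_ofReal φ.integrable_normed
      (Eventually.of_forall fun y => φ.nonneg_normed y), φ.integral_normed]
  simp

theorem measurable_normed_sub (φ : ContDiffBump (0 : Eu n)) :
    Measurable (fun p : Eu n × Eu n => φ.normed volume (p.1 - p.2)) :=
  φ.continuous_normed.measurable.comp (measurable_fst.sub measurable_snd)

theorem mm_l1 {φ : ContDiffBump (0 : Eu n)} (hφ : φ.rOut ≤ 1) (ρ : Measure (Eu n))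
    [IsLocallyFiniteMeasure ρ] (R : ℝ) :
    ∫⁻ x in closedBall (0 : Eu n) R, ENNReal.ofReal (mm φ ρ x) ≤ ρ (closedBall 0 (R + 1)) := by
  simp_rw [ofReal_mm]
  rw [lintegral_lintegral_swap (measurable_normed_sub φ).ennreal_ofReal.aemeasurable]
  rw [← lintegral_indicator_one measurableSet_closedBall]
  apply lintegral_mono
  intro y
  by_cases hy : y ∈ closedBall (0 : Eu n) (R + 1)
  · rw [indicator_of_mem hy]
    calc _ ≤ ∫⁻ x, ENNReal.ofReal (φ.normed volume (x - y)) := setLIntegral_le_lintegral _ _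
      _ = _ := lint_normed φ y
  · rw [indicator_of_notMem hy]
    rw [mem_closedBall_zero_iff, not_le] at hy
    rw [le_zero_iff]
    simp only
    rw [setLIntegral_congr_fun (g := fun _ => 0) measurableSet_closedBall]
    · simp only [lintegral_const, MeasurableSet.univ, Measure.restrict_apply, univ_inter, zero_mul]
    · intro x hx
      rw [mem_closedBall_zero_iff] at hx
      simp only
      rw [normed_zero' hφ, ENNReal.ofReal_zero]
      have := norm_sub_norm_le y x
      rw [norm_sub_rev] at this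
      linarith only [hy, hx, this]

theorem mm_sup {φ : ContDiffBump (0 : Eu n)} (hφ : φ.rOut ≤ 1) {M : ℝ}
    (hM : ∀ x, φ.normed volume x ≤ M) (ρ : Measure (Eu n)) [IsLocallyFiniteMeasure ρ] {R : ℝ}
    {x : Eu n} (hx : ‖x‖ ≤ R) :
    ENNReal.ofReal (mm φ ρ x) ≤ ENNReal.ofReal M * ρ (closedBall 0 (R + 1)) := by
  rw [ofReal_mm, ← lintegral_indicator_const measurableSet_closedBall]
  apply lintegral_mono
  intro y
  by_cases hy : y ∈ closedBall (0 : Eu n) (R + 1)
  · rw [indicator_of_mem hy]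
    exact ENNReal.ofReal_le_ofReal (hM _)
  · simp only
    rw [indicator_of_notMem hy]
    rw [mem_closedBall_zero_iff, not_le] at hy
    rw [normed_zero' hφ, ENNReal.ofReal_zero]
    have := norm_sub_norm_le y x
    rw [norm_sub_rev] at this
    linarith

theorem integrable_tail_of {ρ : Measure (Eu n)} {B : ℝ} (hB : 0 ≤ B)
    (h : ∀ R : ℝ, 1 ≤ R → ρ (closedBall 0 R) ≤ ENNReal.ofReal (B * gr n R)) :
    Integrable (fun x : Eu n => ((1 + ‖x‖) ^ (n + 2))⁻¹) ρ := by
  refine ⟨by simpa only [inv_one, one_smul] using (measurable_tw (n := n) 1).aestronglyMeasurable, ?_⟩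
  rw [hasFiniteIntegral_iff_ofReal (Eventually.of_forall fun x => by positivity)]
  have := tail_meas ρ hB h le_rfl
  simp only [inv_one, one_smul] at this
  exact this.trans_lt ENNReal.ofReal_lt_top

theorem tail_shift {x y : Eu n} (h : ‖x - y‖ ≤ 1) :
    ((1 + ‖x‖) ^ (n + 2))⁻¹ ≤ 2 ^ (n + 2) * ((1 + ‖y‖) ^ (n + 2))⁻¹ := by
  rw [← div_eq_mul_inv, le_div_iff₀ (by positivity), ← div_eq_inv_mul,
    div_le_iff₀ (by positivity), ← mul_pow]
  apply pow_le_pow_left₀ (by positivity)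
  have := norm_sub_norm_le y x
  rw [norm_sub_rev] at this
  have := norm_nonneg x
  linarith

theorem mm_weak_aux (hn : 1 ≤ n) {φ : ContDiffBump (0 : Eu n)} (hφ : φ.rOut ≤ 1)
    {ρ : Measure (Eu n)} [IsLocallyFiniteMeasure ρ]
    (htail : Integrable (fun x : Eu n => ((1 + ‖x‖) ^ (n + 2))⁻¹) ρ) {ψ : Eu n → ℝ}
    (hψ : ContDiff ℝ ∞ ψ) (hc : HasCompactSupport ψ) (h0 : ∫ x, ψ x = 0) :
    Integrable (fun x => mm φ ρ x * Lam ψ x) ∧
    ∫ x, mm φ ρ x * Lam ψ x = ∫ u, φ.normed volume u * ∫ y, Lam ψ (u + y) ∂ρ := by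
  obtain ⟨B, hB, hdec⟩ := Lam_decay hn hψ hc h0
  have hLm := measurable_Lam hn hψ hc
  have i1 : Integrable (fun p : Eu n × Eu n => φ.normed volume (p.1 - p.2) *
      ((1 + ‖p.2‖) ^ (n + 2))⁻¹) ((volume : Measure (Eu n)).prod ρ) := by
    have hwm : Measurable (fun x : Eu n => ((1 + ‖x‖) ^ (n + 2))⁻¹) := by
      simpa using measurable_tw (n := n) 1
    have hsm : AEStronglyMeasurable (fun p : Eu n × Eu n => φ.normed volume (p.1 - p.2) *
        ((1 + ‖p.2‖) ^ (n + 2))⁻¹) ((volume : Measure (Eu n)).prod ρ) :=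
      ((measurable_normed_sub φ).mul (hwm.comp measurable_snd)).aestronglyMeasurable
    rw [integrable_prod_iff' hsm]
    refine ⟨Eventually.of_forall fun y => ?_, ?_⟩
    · simp only
      exact (φ.integrable_normed.comp_sub_right y).mul_const _
    · refine htail.congr (Eventually.of_forall fun y => ?_)
      simp only
      have e : ∀ x, ‖φ.normed volume (x - y) * ((1 + ‖y‖) ^ (n + 2))⁻¹‖ =
          φ.normed volume (x - y) * ((1 + ‖y‖) ^ (n + 2))⁻¹ := by
        intro x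
        rw [Real.norm_eq_abs, abs_of_nonneg]
        have := φ.nonneg_normed (μ := volume) (x - y)
        (clear * - this; positivity)
      simp_rw [e]
      rw [integral_mul_const, integral_sub_right_eq_self (φ.normed volume) y, φ.integral_normed,
        one_mul]
  have hpair : Integrable (fun p : Eu n × Eu n => φ.normed volume (p.1 - p.2) * Lam ψ p.1)
      ((volume : Measure (Eu n)).prod ρ) := by
    refine Integrable.mono' (i1.const_mul (2 ^ (n + 2) * B)) ((measurable_normed_sub φ).mul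
      (hLm.comp measurable_fst)).aestronglyMeasurable (Eventually.of_forall fun p => ?_)
    obtain ⟨x, y⟩ := p
    simp only
    have h1 := φ.nonneg_normed (μ := volume) (x - y)
    rw [Real.norm_eq_abs, abs_mul, abs_of_nonneg h1]
    by_cases hxy : 1 < ‖x - y‖
    · rw [normed_zero' hφ hxy]; simp
    · push Not at hxy
      calc φ.normed volume (x - y) * |Lam ψ x| ≤
            φ.normed volume (x - y) * (B * (2 ^ (n + 2) * ((1 + ‖y‖) ^ (n + 2))⁻¹)) := by
            gcongr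
            refine (hdec x).trans ?_
            gcongr
            exact tail_shift hxy
        _ = _ := by ring
  have hpair2 : Integrable (fun p : Eu n × Eu n => φ.normed volume p.2 * Lam ψ (p.2 + p.1))
      (ρ.prod (volume : Measure (Eu n))) := by
    have i2 : Integrable (fun p : Eu n × Eu n => ((1 + ‖p.1‖) ^ (n + 2))⁻¹ *
        φ.normed volume p.2) (ρ.prod (volume : Measure (Eu n))) :=
      htail.mul_prod φ.integrable_normed
    refine Integrable.mono' (i2.const_mul (2 ^ (n + 2) * B))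
      ((φ.continuous_normed.measurable.comp measurable_snd).mul
      (hLm.comp (measurable_snd.add measurable_fst))).aestronglyMeasurable
      (Eventually.of_forall fun p => ?_)
    obtain ⟨y, u⟩ := p
    simp only
    have h1 := φ.nonneg_normed (μ := volume) u
    rw [Real.norm_eq_abs, abs_mul, abs_of_nonneg h1]
    by_cases hu : u ∈ ball (0 : Eu n) 1
    · rw [mem_ball_zero_iff] at hu
      calc φ.normed volume u * |Lam ψ (u + y)| ≤
            φ.normed volume u * (B * (2 ^ (n + 2) * ((1 + ‖y‖) ^ (n + 2))⁻¹)) := by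
            gcongr
            refine (hdec _).trans ?_
            gcongr
            apply tail_shift
            simpa only [add_sub_cancel_right] using hu.le
        _ = _ := by ring
    · rw [normed_zero hφ hu]; simp
  have e1 : ∀ x, mm φ ρ x * Lam ψ x = ∫ y, φ.normed volume (x - y) * Lam ψ x ∂ρ := by
    intro x; rw [integral_mul_const]; rfl
  refine ⟨?_, ?_⟩
  · simp_rw [e1]
    exact hpair.integral_prod_left
  · simp_rw [e1]
    rw [integral_integral_swap hpair]
    have e2 : ∀ y, ∫ x, φ.normed volume (x - y) * Lam ψ x =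
        ∫ u, φ.normed volume u * Lam ψ (u + y) := by
      intro y
      rw [← integral_add_right_eq_self (fun x => φ.normed volume (x - y) * Lam ψ x) y]
      simp
    simp_rw [e2]
    rw [integral_integral_swap hpair2]
    simp_rw [integral_const_mul]

theorem mm_weak (hn : 1 ≤ n) {φ : ContDiffBump (0 : Eu n)} (hφ : φ.rOut ≤ 1)
    {ρp ρm : Measure (Eu n)} [IsLocallyFiniteMeasure ρp] [IsLocallyFiniteMeasure ρm]
    (hp : Integrable (fun x : Eu n => ((1 + ‖x‖) ^ (n + 2))⁻¹) ρp)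
    (hm : Integrable (fun x : Eu n => ((1 + ‖x‖) ^ (n + 2))⁻¹) ρm)
    (weak : ∀ φ : Eu n → ℝ, ContDiff ℝ ∞ φ → HasCompactSupport φ → ∫ x, φ x = 0 →
      ∫ x, Lam φ x ∂ρp = ∫ x, Lam φ x ∂ρm) :
    WeakSol (fun x => mm φ ρp x - mm φ ρm x) := by
  intro ψ hψ hc h0
  obtain ⟨i1, e1⟩ := mm_weak_aux hn hφ hp hψ hc h0
  obtain ⟨i2, e2⟩ := mm_weak_aux hn hφ hm hψ hc h0
  simp_rw [sub_mul]
  rw [integral_sub i1 i2, e1, e2]
  have e3 : ∀ u, ∫ y, Lam ψ (u + y) ∂ρp = ∫ y, Lam ψ (u + y) ∂ρm := by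
    intro u
    have e5 : ∀ x, Lam ψ (u + x) = Lam (fun x => ψ (x - (-u))) x := by
      intro x
      rw [Lam_translate, sub_neg_eq_add, add_comm]
    simp_rw [e5]
    apply weak
    · exact hψ.comp (contDiff_id.sub contDiff_const)
    · exact hc.comp_homeomorph (Homeomorph.subRight (-u))
    · rw [integral_sub_right_eq_self ψ (-u)]; exact h0
  simp_rw [e3]
  simp

theorem mm_affine (hn : 1 ≤ n) {φ : ContDiffBump (0 : Eu n)} (hφ : φ.rOut ≤ 1)
    {ρp ρm : Measure (Eu n)} [IsLocallyFiniteMeasure ρp] [IsLocallyFiniteMeasure ρm]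
    {B : ℝ} (hB : 0 ≤ B)
    (hgp : ∀ R : ℝ, 1 ≤ R → ρp (closedBall 0 R) ≤ ENNReal.ofReal (B * gr n R))
    (hgm : ∀ R : ℝ, 1 ≤ R → ρm (closedBall 0 R) ≤ ENNReal.ofReal (B * gr n R))
    (weak : ∀ φ : Eu n → ℝ, ContDiff ℝ ∞ φ → HasCompactSupport φ → ∫ x, φ x = 0 →
      ∫ x, Lam φ x ∂ρp = ∫ x, Lam φ x ∂ρm) :
    ∃ (a : Eu n) (b : ℝ), ∀ x, mm φ ρp x - mm φ ρm x = b + inner ℝ a x := by
  have hg2 : 0 ≤ gr n 2 := gr_nonneg (by norm_num)
  have hmono : ∀ R : ℝ, 1 ≤ R → gr n (R + 1) ≤ gr n 2 * gr n R := by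
    intro R hR
    rw [← gr_mul (by norm_num)]
    exact gr_mono (by linarith only [hR]) (by linarith only [hR])
  have hsol : LSol (fun x => mm φ ρp x - mm φ ρm x) := by
    refine ⟨(mm_contDiff φ ρp).sub (mm_contDiff φ ρm), ⟨2 * B * gr n 2, by positivity, ?_⟩,
      mm_weak hn hφ (integrable_tail_of hB hgp) (integrable_tail_of hB hgm) weak⟩
    intro R hR
    have hmeas : Measurable (fun x => ENNReal.ofReal (mm φ ρm x)) :=
      (mm_contDiff φ ρm).continuous.measurable.ennreal_ofReal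
    calc ∫⁻ x in closedBall (0 : Eu n) R, ENNReal.ofReal |mm φ ρp x - mm φ ρm x|
        ≤ ∫⁻ x in closedBall (0 : Eu n) R, (ENNReal.ofReal (mm φ ρp x) +
            ENNReal.ofReal (mm φ ρm x)) := by
          apply lintegral_mono
          intro x
          simp only
          rw [← ENNReal.ofReal_add (mm_nonneg _ _ _) (mm_nonneg _ _ _)]
          apply ENNReal.ofReal_le_ofReal
          rw [abs_le]
          constructor <;> linarith only [mm_nonneg φ ρp x, mm_nonneg φ ρm x]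
      _ = (∫⁻ x in closedBall (0 : Eu n) R, ENNReal.ofReal (mm φ ρp x)) +
          ∫⁻ x in closedBall (0 : Eu n) R, ENNReal.ofReal (mm φ ρm x) := by
          rw [lintegral_add_right _ hmeas]
      _ ≤ ENNReal.ofReal (B * gr n (R + 1)) + ENNReal.ofReal (B * gr n (R + 1)) :=
          add_le_add ((mm_l1 hφ ρp R).trans (hgp _ (by linarith)))
            ((mm_l1 hφ ρm R).trans (hgm _ (by linarith only [hR])))
      _ = ENNReal.ofReal (2 * (B * gr n (R + 1))) := by rw [← two_mul, two_mul_ofReal]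
      _ ≤ _ := by
          apply ENNReal.ofReal_le_ofReal
          calc 2 * (B * gr n (R + 1)) ≤ 2 * (B * (gr n 2 * gr n R)) := by
                have := hmono R hR
                gcongr
            _ = _ := by ring
  obtain ⟨M, hM⟩ := exists_bound (φ.continuous_normed (μ := volume)) φ.hasCompactSupport_normed
  have hM' : ∀ x, φ.normed volume x ≤ M := fun x => (le_abs_self _).trans (hM x)
  have hM0 : 0 ≤ M := (abs_nonneg _).trans (hM 0)
  set w := (volume (ball (0 : Eu n) 1)).toReal with hw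
  have hw0 : 0 ≤ w := ENNReal.toReal_nonneg
  apply hsol.affine hn (A := (M * B * gr n 2) ^ 2 * w) (by (clear * -; positivity))
  intro R hR
  have hR0 : 0 < R := by linarith only [hR]
  have hgR : 0 ≤ gr n R := gr_nonneg hR0.le
  have hb : ∀ (ρ : Measure (Eu n)) (_ : IsLocallyFiniteMeasure ρ),
      (∀ R : ℝ, 1 ≤ R → ρ (closedBall 0 R) ≤ ENNReal.ofReal (B * gr n R)) →
      ∀ x : Eu n, ‖x‖ ≤ R → mm φ ρ x ≤ M * B * gr n 2 * gr n R := by
    intro ρ hρ hg x hx
    have h1 := (mm_sup hφ hM' ρ hx).trans (mul_le_mul_right (hg _ (by linarith only [hR])) _)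
    rw [← ENNReal.ofReal_mul hM0] at h1
    have hgR1 : 0 ≤ gr n (R + 1) := gr_nonneg (by linarith only [hR])
    have h2 := (ENNReal.ofReal_le_ofReal_iff (by (clear * - hB hM0 hgR1; positivity))).mp h1
    have h3 := hmono R hR
    calc _ ≤ _ := h2
      _ ≤ M * (B * (gr n 2 * gr n R)) := by (clear * - hB hM0 h3; gcongr)
      _ = _ := by ring
  calc ∫⁻ x in ball (0 : Eu n) R, ENNReal.ofReal ((mm φ ρp x - mm φ ρm x) ^ 2)
      ≤ ∫⁻ x in ball (0 : Eu n) R, ENNReal.ofReal ((M * B * gr n 2 * gr n R) ^ 2) := by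
        apply setLIntegral_mono' measurableSet_ball
        intro x hx
        rw [mem_ball_zero_iff] at hx
        apply ENNReal.ofReal_le_ofReal
        rw [sq_le_sq, abs_of_nonneg (by (clear * - hB hg2 hM0 hgR; positivity) : 0 ≤ M * B * gr n 2 * gr n R), abs_le]
        have h1 := hb ρp inferInstance hgp x hx.le
        have h2 := hb ρm inferInstance hgm x hx.le
        constructor <;> linarith only [mm_nonneg φ ρp x, mm_nonneg φ ρm x, h2, h1]
    _ = ENNReal.ofReal ((M * B * gr n 2 * gr n R) ^ 2 * (R ^ n * w)) := by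
        rw [setLIntegral_const, hw, ← volReal_ball _ hR0, ENNReal.ofReal_mul (by (clear * -; positivity)),
          ENNReal.ofReal_toReal measure_ball_lt_top.ne]
    _ = _ := by
        congr 1
        rw [mul_pow _ (gr n R), gr_sq hR0.le]
        ring

end Vale.Agent.P120.Liou
end
end

section

section

/-! The improved plane.  Owner: helper892 -/

open MeasureTheory Metric Set Filter Topology
open scoped ENNReal NNReal

namespace Vale.Agent.P120

variable {d n : ℕ} {c C : ℝ}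

/-- coordinates of the height -/
theorem height_eq (W : Submodule ℝ (Eu d)) {b : Eu d} (hb : b ∈ Wᗮ) (t : ℝ) (i : Fin d)
    (x : Eu d) :
    inner ℝ (t⁻¹ • Wᗮ.starProjection (EuclideanSpace.single i (1 : ℝ))) x + (-(t⁻¹ * b i)) =
      t⁻¹ * (Wᗮ.starProjection (x - b)) i := by
  have h1 : inner ℝ (Wᗮ.starProjection (EuclideanSpace.single i (1 : ℝ))) x =
      (Wᗮ.starProjection x) i := by
    rw [Submodule.inner_starProjection_left_eq_right]
    simp [EuclideanSpace.inner_single_left]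
  have h2 : Wᗮ.starProjection b = b := Submodule.starProjection_eq_self_iff.2 hb
  rw [real_inner_smul_left, h1, map_sub, h2]
  simp only [PiLp.sub_apply]
  ring

theorem abs_coord_le (y : Eu d) (i : Fin d) : |y i| ≤ ‖y‖ := by
  have := EuclideanSpace.norm_sq_eq y
  have h1 : ‖y i‖ ^ 2 ≤ ‖y‖ ^ 2 := by
    rw [this]
    exact Finset.single_le_sum (f := fun j => ‖y j‖ ^ 2) (fun j _ => by (clear * -; positivity))
      (Finset.mem_univ i)
  rw [← Real.norm_eq_abs]
  exact abs_le_of_sq_le_sq' h1 (norm_nonneg _) |>.2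

/-- orthogonal decomposition with respect to the plane `range ι` -/
theorem orth_decomp (ι : Eu n →ₗᵢ[ℝ] Eu d) (x : Eu d) :
    (LinearMap.range ι.toLinearMap)ᗮ.starProjection x = x - ι (adj ι x) := by
  have h1 : x - ι (adj ι x) ∈ (LinearMap.range ι.toLinearMap)ᗮ := by
    rw [Submodule.mem_orthogonal]
    rintro _ ⟨v, rfl⟩
    show inner ℝ (ι v) (x - ι (adj ι x)) = 0
    rw [inner_sub_right, ι.inner_map_map, real_inner_comm x (ι v), ← inner_adj,
      real_inner_comm v (adj ι x), sub_self]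
  have h2 : (LinearMap.range ι.toLinearMap)ᗮ.starProjection (ι (adj ι x)) = 0 := by
    rw [Submodule.starProjection_apply_eq_zero_iff]
    apply Submodule.le_orthogonal_orthogonal
    exact ⟨adj ι x, rfl⟩
  have h3 : (LinearMap.range ι.toLinearMap)ᗮ.starProjection (x - ι (adj ι x)) =
      x - ι (adj ι x) := Submodule.starProjection_eq_self_iff.2 h1
  rw [← h3, map_sub, h2, sub_zero]

theorem dP_le_of_mem (V : Submodule ℝ (Eu d)) (b x w : Eu d) (hw : w ∈ V) :
    dP V b x ≤ ‖x - b - w‖ := by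
  unfold dP
  have h1 : Vᗮ.starProjection w = 0 := by
    rw [Submodule.starProjection_apply_eq_zero_iff]
    exact Submodule.le_orthogonal_orthogonal _ hw
  have h2 : Vᗮ.starProjection (x - b) = Vᗮ.starProjection (x - b - w) := by
    rw [map_sub _ (x - b) w, h1, sub_zero]
  rw [h2]
  exact Submodule.norm_starProjection_apply_le _ _

theorem flat_of_affine {𝒰 : Ultrafilter ℕ} (ι : Eu n →ₗᵢ[ℝ] Eu d) (ν : ℕ → Measure (Eu d))
    (hν : ∀ k, AR n c C ⊤ (ν k)) (t : ℕ → ℝ) (ht : ∀ k, 0 < t k) (b : ℕ → Eu d)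
    (hb : ∀ k, b k ∈ (LinearMap.range ι.toLinearMap)ᗮ) (β : Fin d → ℝ) (a : Fin d → Eu n)
    (h : ∀ i : Fin d, Tendsto (fun k => ∫ x in ball (0 : Eu d) 1,
      ((inner ℝ ((t k)⁻¹ • (LinearMap.range ι.toLinearMap)ᗮ.starProjection
        (EuclideanSpace.single i (1 : ℝ))) x + (-((t k)⁻¹ * b k i))) -
        (β i + inner ℝ (a i) (adj ι x))) ^ 2 ∂(ν k)) (𝒰 : Filter ℕ) (𝓝 0)) :
    ∀ᶠ k in (𝒰 : Filter ℕ), FlatL2 n (ν k) 1 (t k / 2) := by
  set W : Submodule ℝ (Eu d) := LinearMap.range ι.toLinearMap with hW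
  -- the affine map
  set β' : Eu d := WithLp.toLp 2 β with hβ'
  set α : Eu n →ₗ[ℝ] Eu d :=
    (WithLp.linearEquiv 2 ℝ (Fin d → ℝ)).symm.toLinearMap ∘ₗ
      LinearMap.pi (fun i => (innerSL ℝ (a i)).toLinearMap) with hα
  have hαi : ∀ v i, (α v) i = inner ℝ (a i) v := fun v i => rfl
  set P : Eu d →L[ℝ] Eu d := Wᗮ.starProjection with hP
  have hPmem : ∀ x, P x ∈ Wᗮ := fun x => Submodule.starProjection_apply_mem _ x
  have hPP : ∀ x, P (P x) = P x := fun x => Submodule.starProjection_eq_self_iff.2 (hPmem x)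
  have hPn : ∀ x, ‖P x‖ ≤ ‖x‖ := fun x => Submodule.norm_starProjection_apply_le _ _
  -- sum of the squares tends to zero
  set F : ℕ → Fin d → Eu d → ℝ := fun k i x =>
    (t k)⁻¹ * (P (x - b k)) i - (β i + inner ℝ (a i) (adj ι x)) with hF
  have hFc : ∀ k i, Continuous (F k i) := by
    intro k i
    have h1 : Continuous fun x : Eu d => P (x - b k) :=
      P.continuous.comp (continuous_id.sub continuous_const)
    have h2 : Continuous fun x : Eu d => (P (x - b k)) i :=
      (EuclideanSpace.proj (𝕜 := ℝ) i).continuous.comp h1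
    exact (continuous_const.mul h2).sub
      (continuous_const.add (continuous_const.inner (adj ι).continuous))
  have hF0 : ∀ i, Tendsto (fun k => ∫ x in ball (0 : Eu d) 1, F k i x ^ 2 ∂(ν k))
      (𝒰 : Filter ℕ) (𝓝 0) := by
    intro i
    refine (h i).congr fun k => ?_
    congr 1
    funext x
    rw [height_eq W (hb k)]
  have hsum : Tendsto (fun k => ∑ i, ∫ x in ball (0 : Eu d) 1, F k i x ^ 2 ∂(ν k))
      (𝒰 : Filter ℕ) (𝓝 0) := by
    have := tendsto_finsetSum (Finset.univ : Finset (Fin d)) (fun i _ => hF0 i)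
    simpa only [Finset.sum_const_zero] using this
  have hev : ∀ᶠ k in (𝒰 : Filter ℕ),
      ∑ i, ∫ x in ball (0 : Eu d) 1, F k i x ^ 2 ∂(ν k) < 1 / 4 :=
    hsum.eventually_lt_const (by norm_num)
  filter_upwards [hev] with k hk
  have htk := ht k
  have hlf := (hν k).isLocallyFiniteMeasure
  -- the new plane
  set T : Eu n →ₗ[ℝ] Eu d := ι.toLinearMap + (t k) • (P.toLinearMap ∘ₗ α) with hT
  have hTv : ∀ v, T v = ι v + t k • P (α v) := fun v => rfl
  have hPι : ∀ v, P (ι v) = 0 := by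
    intro v
    rw [hP, Submodule.starProjection_apply_eq_zero_iff]
    apply Submodule.le_orthogonal_orthogonal
    exact ⟨v, rfl⟩
  have hTinj : Function.Injective T := by
    rw [← LinearMap.ker_eq_bot, LinearMap.ker_eq_bot']
    intro v hv
    rw [hTv] at hv
    have h1 : P (ι v + t k • P (α v)) = 0 := by rw [hv, map_zero]
    rw [map_add, hPι, zero_add, map_smul, hPP] at h1
    rw [h1, add_zero] at hv
    have h2 : ‖ι v‖ = 0 := by rw [hv, norm_zero]
    rw [ι.norm_map] at h2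
    exact norm_eq_zero.1 h2
  refine ⟨LinearMap.range T, b k + t k • P β', ?_, ?_⟩
  · rw [LinearMap.finrank_range_of_inj hTinj, finrank_euclideanSpace_fin]
  · have hpt : ∀ x : Eu d, dP (LinearMap.range T) (b k + t k • P β') x ^ 2 ≤
        t k ^ 2 * ∑ i, F k i x ^ 2 := by
      intro x
      have h1 := dP_le_of_mem (LinearMap.range T) (b k + t k • P β') x (T (adj ι x))
        ⟨adj ι x, rfl⟩
      have hPb : P (b k) = b k := Submodule.starProjection_eq_self_iff.2 (hb k)
      set y : Eu d := (t k)⁻¹ • P (x - b k) - (β' + α (adj ι x)) with hy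
      have h2 : x - (b k + t k • P β') - T (adj ι x) = t k • P y := by
        have h3 : P x = x - ι (adj ι x) := orth_decomp ι x
        rw [hy, hTv, map_sub, map_smul, hPP, map_sub, hPb, map_add, h3, smul_sub, smul_smul,
          mul_inv_cancel₀ htk.ne', one_smul, smul_add]
        abel
      have h3 : ‖y‖ ^ 2 = ∑ i, F k i x ^ 2 := by
        rw [EuclideanSpace.norm_sq_eq]
        apply Finset.sum_congr rfl
        intro i _
        rw [Real.norm_eq_abs, sq_abs]
        rfl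
      have h4 : dP (LinearMap.range T) (b k + t k • P β') x ≤ t k * ‖y‖ := by
        refine h1.trans ?_
        rw [h2, norm_smul, Real.norm_of_nonneg htk.le]
        exact mul_le_mul_of_nonneg_left (hPn y) htk.le
      rw [← h3, ← mul_pow]
      exact pow_le_pow_left₀ (norm_nonneg _) h4 2
    have hi : ∀ i, IntegrableOn (fun x => F k i x ^ 2) (ball (0 : Eu d) 1) (ν k) := fun i =>
      (((hFc k i).pow 2).continuousOn.integrableOn_compact
        (isCompact_closedBall (0 : Eu d) 1)).mono_set ball_subset_closedBall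
    calc ∫ x in ball (0 : Eu d) 1, dP (LinearMap.range T) (b k + t k • P β') x ^ 2 ∂(ν k)
        ≤ ∫ x in ball (0 : Eu d) 1, t k ^ 2 * ∑ i, F k i x ^ 2 ∂(ν k) := by
          refine integral_mono_of_nonneg (ae_of_all _ fun x => sq_nonneg _) ?_
            (ae_of_all _ hpt)
          exact (integrable_finsetSum _ (fun i _ => hi i)).const_mul _
      _ = t k ^ 2 * ∑ i, ∫ x in ball (0 : Eu d) 1, F k i x ^ 2 ∂(ν k) := by
          rw [integral_const_mul, integral_finsetSum _ (fun i _ => hi i)]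
      _ ≤ t k ^ 2 * (1 / 4) := by
          apply mul_le_mul_of_nonneg_left hk.le (by positivity)
      _ = (t k / 2) ^ 2 * 1 ^ (n + 2) := by ring

end Vale.Agent.P120
end
end

section

section

/-! Invariance of the classes `AR`, `RB`, `Good`, `ER`, `Lim` under similarities -/

open MeasureTheory Metric Set Filter Topology
open scoped ENNReal NNReal

namespace Vale.Agent.P120

variable {d n : ℕ} {c C C₁ C₂ : ℝ} {D D' : ℝ≥0∞} {ν : Measure (Eu d)}

/-- the similarity `x ↦ O (r⁻¹ (x - a))` -/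
noncomputable def simT (O : Eu d ≃ₗᵢ[ℝ] Eu d) (a : Eu d) (r : ℝ) (x : Eu d) : Eu d :=
  O (r⁻¹ • (x - a))

/-- the inverse similarity `y ↦ a + r O⁻¹ y` -/
noncomputable def simTi (O : Eu d ≃ₗᵢ[ℝ] Eu d) (a : Eu d) (r : ℝ) (y : Eu d) : Eu d :=
  a + r • O.symm y

/-- the rescaled measure `r^{-n} T_* ν` -/
noncomputable def simM (n : ℕ) (O : Eu d ≃ₗᵢ[ℝ] Eu d) (a : Eu d) (r : ℝ) (ν : Measure (Eu d)) :
    Measure (Eu d) :=
  ENNReal.ofReal ((r ^ n)⁻¹) • ν.map (simT O a r)

section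

variable (O : Eu d ≃ₗᵢ[ℝ] Eu d) (a : Eu d) {r : ℝ}

theorem simT_simTi (hr : 0 < r) (y : Eu d) : simT O a r (simTi O a r y) = y := by
  simp only [simT, simTi, add_sub_cancel_left, smul_smul, ne_eq, hr.ne', not_false_eq_true,
    inv_mul_cancel₀, one_smul, LinearIsometryEquiv.apply_symm_apply]

theorem simTi_simT (hr : 0 < r) (x : Eu d) : simTi O a r (simT O a r x) = x := by
  simp [simT, simTi, smul_smul, hr.ne']

theorem simT_sub (r : ℝ) (x y : Eu d) : simT O a r x - simT O a r y = O (r⁻¹ • (x - y)) := by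
  simp only [simT, ← map_sub, ← smul_sub, sub_sub_sub_cancel_right]

theorem dist_simT (hr : 0 < r) (x y : Eu d) :
    dist (simT O a r x) (simT O a r y) = r⁻¹ * dist x y := by
  rw [dist_eq_norm, simT_sub, LinearIsometryEquiv.norm_map, norm_smul, dist_eq_norm,
    Real.norm_of_nonneg (inv_nonneg.2 hr.le)]

theorem dist_simT_left (hr : 0 < r) (x y : Eu d) :
    dist (simT O a r x) y = r⁻¹ * dist x (simTi O a r y) := by
  rw [← dist_simT O a hr, simT_simTi O a hr]

/-- the similarity as a homeomorphism -/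
noncomputable def simH (hr : 0 < r) : Eu d ≃ₜ Eu d where
  toFun := simT O a r
  invFun := simTi O a r
  left_inv := simTi_simT O a hr
  right_inv := simT_simTi O a hr
  continuous_toFun := by unfold simT; fun_prop
  continuous_invFun := by unfold simTi; fun_prop

theorem simT_embedding (hr : 0 < r) : MeasurableEmbedding (simT O a r) :=
  (simH O a hr).measurableEmbedding

theorem continuous_simT (hr : 0 < r) : Continuous (simT O a r) := (simH O a hr).continuous

theorem integral_simM {E : Type*} [NormedAddCommGroup E] [NormedSpace ℝ E] (n : ℕ) (hr : 0 < r)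
    (ν : Measure (Eu d)) (f : Eu d → E) :
    ∫ x, f x ∂(simM n O a r ν) = (r ^ n)⁻¹ • ∫ x, f (simT O a r x) ∂ν := by
  unfold simM
  rw [integral_smul_measure, (simT_embedding O a hr).integral_map,
    ENNReal.toReal_ofReal (by positivity)]

theorem simT_preimage_closedBall (hr : 0 < r) (x : Eu d) (ρ : ℝ) :
    simT O a r ⁻¹' closedBall x ρ = closedBall (simTi O a r x) (r * ρ) := by
  ext y
  rw [mem_preimage, mem_closedBall, mem_closedBall, dist_simT_left O a hr,
    inv_mul_le_iff₀ hr]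

theorem simT_preimage_ball (hr : 0 < r) (x : Eu d) (ρ : ℝ) :
    simT O a r ⁻¹' ball x ρ = ball (simTi O a r x) (r * ρ) := by
  ext y
  rw [mem_preimage, mem_ball, mem_ball, dist_simT_left O a hr, inv_mul_lt_iff₀ hr]

theorem simM_closedBall (n : ℕ) (hr : 0 < r) (ν : Measure (Eu d)) (x : Eu d) (ρ : ℝ) :
    simM n O a r ν (closedBall x ρ) =
      ENNReal.ofReal ((r ^ n)⁻¹) * ν (closedBall (simTi O a r x) (r * ρ)) := by
  unfold simM
  rw [Measure.smul_apply, (simT_embedding O a hr).map_apply, simT_preimage_closedBall O a hr,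
    smul_eq_mul]

theorem simM_ball (n : ℕ) (hr : 0 < r) (ν : Measure (Eu d)) (x : Eu d) (ρ : ℝ) :
    simM n O a r ν (ball x ρ) =
      ENNReal.ofReal ((r ^ n)⁻¹) * ν (ball (simTi O a r x) (r * ρ)) := by
  unfold simM
  rw [Measure.smul_apply, (simT_embedding O a hr).map_apply, simT_preimage_ball O a hr,
    smul_eq_mul]

theorem mem_support_simM (n : ℕ) (hr : 0 < r) (ν : Measure (Eu d)) (x : Eu d) :
    x ∈ (simM n O a r ν).support ↔ simTi O a r x ∈ ν.support := by
  rw [nhds_basis_ball.mem_measureSupport, nhds_basis_ball.mem_measureSupport]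
  constructor
  · intro h ρ hρ
    have h2 := h (r⁻¹ * ρ) (by positivity)
    rw [simM_ball O a n hr, mul_inv_cancel_left₀ hr.ne'] at h2
    exact pos_of_mul_pos_right h2 bot_le
  · intro h ρ hρ
    rw [simM_ball O a n hr]
    exact ENNReal.mul_pos (by rw [ne_eq, ENNReal.ofReal_eq_zero, not_le]; positivity)
      (h (r * ρ) (by positivity)).ne'

theorem sK_simT (n : ℕ) (e : ℝ) (hr : 0 < r) (z : Eu d) :
    sK n e (O (r⁻¹ • z)) = r ^ (n + 1) * sK n (r * e) z := by
  unfold sK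
  have h1 : ‖O (r⁻¹ • z)‖ ^ 2 + e ^ 2 = (r⁻¹) ^ 2 * (‖z‖ ^ 2 + (r * e) ^ 2) := by
    rw [LinearIsometryEquiv.norm_map, norm_smul, Real.norm_of_nonneg (inv_nonneg.2 hr.le)]
    field_simp
  rw [h1, Real.sqrt_mul (by positivity), Real.sqrt_sq (inv_nonneg.2 hr.le), mul_pow,
    mul_inv, inv_pow, inv_inv]

theorem rK_simT (n : ℕ) (e : ℝ) (hr : 0 < r) (x y : Eu d) :
    rK n e (simT O a r x - simT O a r y) = r ^ n • O (rK n (r * e) (x - y)) := by
  rw [simT_sub, rK, sK_simT O n e hr, rK, map_smul, map_smul, smul_smul, smul_smul]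
  congr 1
  rw [pow_succ]
  field_simp

theorem form_simM (n : ℕ) (e : ℝ) (hr : 0 < r) (ν : Measure (Eu d)) [SFinite ν]
    (ψ θ : Eu d → ℝ) :
    form n e (simM n O a r ν) ψ θ =
      (r ^ n)⁻¹ • O (form n (r * e) ν (fun x => ψ (simT O a r x)) (fun x => θ (simT O a r x))) := by
  have hE := simT_embedding O a hr
  have h1 : (simM n O a r ν).prod (simM n O a r ν) =
      ENNReal.ofReal ((r ^ n)⁻¹) • ENNReal.ofReal ((r ^ n)⁻¹) •
        (ν.prod ν).map (Prod.map (simT O a r) (simT O a r)) := by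
    unfold simM
    rw [Measure.prod_smul_left, Measure.prod_smul_right,
      Measure.map_prod_map _ _ hE.measurable hE.measurable]
  have hE2 : MeasurableEmbedding (Prod.map (simT O a r) (simT O a r)) := hE.prodMap hE
  have h2 : ∀ p : Eu d × Eu d, (ψ (simT O a r p.1) * θ (simT O a r p.2) -
      ψ (simT O a r p.2) * θ (simT O a r p.1)) • rK n e (simT O a r p.1 - simT O a r p.2) =
      r ^ n • O.toLinearIsometry ((ψ (simT O a r p.1) * θ (simT O a r p.2) -
      ψ (simT O a r p.2) * θ (simT O a r p.1)) • rK n (r * e) (p.1 - p.2)) := by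
    intro p
    rw [rK_simT O a n e hr, map_smul, smul_comm]
    rfl
  unfold form
  rw [h1, integral_smul_measure, integral_smul_measure, hE2.integral_map,
    ENNReal.toReal_ofReal (by positivity)]
  simp only [Prod.map_fst, Prod.map_snd, h2]
  rw [integral_smul, LinearIsometry.integral_comp_comm, map_smul, smul_comm]
  simp only [smul_smul]
  congr 1
  field_simp

theorem AR.simM (h : AR n c C D ν) (hr : 0 < r)
    (hD : ∀ ρ : ℝ, 0 < ρ → ENNReal.ofReal ρ ≤ D' → ENNReal.ofReal (r * ρ) ≤ D) :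
    AR n c C D' (simM n O a r ν) := by
  refine ⟨h.c_pos, h.C_pos, ?_, ?_⟩
  · intro x ρ hρ
    rw [simM_closedBall O a n hr]
    refine (mul_le_mul_right (h.upper _ _ (mul_pos hr hρ)) _).trans (le_of_eq ?_)
    rw [← ENNReal.ofReal_mul (by positivity)]
    congr 1
    rw [mul_pow]
    field_simp
  · intro x hx ρ hρ hρD
    rw [simM_ball O a n hr]
    refine le_trans (le_of_eq ?_) (mul_le_mul_right (h.lower _
      ((mem_support_simM O a n hr ν x).1 hx) _ (mul_pos hr hρ) (hD ρ hρ hρD)) _)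
    rw [← ENNReal.ofReal_mul (by positivity)]
    congr 1
    rw [mul_pow]
    field_simp

theorem RB.simM [SFinite ν] (h : RB n C₁ ν) (hr : 0 < r) : RB n C₁ (simM n O a r ν) := by
  refine ⟨h.1, fun e he ψ θ hψ hψ' hθ hθ' => ?_⟩
  have h1 := h.2 (r * e) (mul_pos hr he) (fun x => ψ (simT O a r x)) (fun x => θ (simT O a r x))
    (hψ.comp (continuous_simT O a hr)) (hψ'.comp_homeomorph (simH O a hr))
    (hθ.comp (continuous_simT O a hr)) (hθ'.comp_homeomorph (simH O a hr))
  rw [form_simM O a n e hr, norm_smul, LinearIsometryEquiv.norm_map,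
    Real.norm_of_nonneg (by positivity : (0 : ℝ) ≤ (r ^ n)⁻¹), integral_simM O a n hr,
    integral_simM O a n hr, smul_eq_mul, smul_eq_mul, Real.sqrt_mul (by positivity),
    Real.sqrt_mul (by positivity)]
  have h2 : Real.sqrt ((r ^ n)⁻¹) * Real.sqrt ((r ^ n)⁻¹) = (r ^ n)⁻¹ :=
    Real.mul_self_sqrt (by positivity)
  calc (r ^ n)⁻¹ * ‖form n (r * e) ν (fun x => ψ (simT O a r x)) fun x => θ (simT O a r x)‖
      ≤ (r ^ n)⁻¹ * (C₁ * √(∫ (x : Eu d), ψ (simT O a r x) ^ 2 ∂ν) *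
          √(∫ (x : Eu d), θ (simT O a r x) ^ 2 ∂ν)) :=
        mul_le_mul_of_nonneg_left h1 (by positivity)
    _ = (√((r ^ n)⁻¹) * √((r ^ n)⁻¹)) * (C₁ * √(∫ (x : Eu d), ψ (simT O a r x) ^ 2 ∂ν) *
          √(∫ (x : Eu d), θ (simT O a r x) ^ 2 ∂ν)) := by rw [h2]
    _ = _ := by
        generalize √((r ^ n)⁻¹) = s
        ring

theorem ER.simM [SFinite ν] (h : ER n C₂ ν) (hr : 0 < r) : ER n C₂ (simM n O a r ν) := by
  refine ⟨h.1, fun b R S ψ θ hR hS hψ hψs hψ0 hθ hθ1 hθS => ?_⟩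
  have hLip : ∀ f : Eu d → ℝ, LipC f → LipC (fun x => f (simT O a r x)) := by
    rintro f ⟨⟨L, hL⟩, hf⟩
    refine ⟨⟨L * Real.toNNReal r⁻¹, ?_⟩, hf.comp_homeomorph (simH O a hr)⟩
    refine hL.comp (LipschitzWith.of_dist_le_mul fun x y => ?_)
    rw [dist_simT O a hr, Real.coe_toNNReal _ (by positivity)]
  have h0 : ∫ x, ψ (simT O a r x) ∂ν = 0 := by
    have h3 := hψ0
    rw [integral_simM O a n hr, smul_eq_mul] at h3
    exact (mul_eq_zero.1 h3).resolve_left (by positivity)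
  have h1 := h.2 (simTi O a r b) (r * R) (r * S) (fun x => ψ (simT O a r x))
    (fun x => θ (simT O a r x)) (mul_pos hr hR) (by nlinarith only [hr, hS]) (hLip ψ hψ)
    (fun x hx => hψs _ (by rw [dist_simT_left O a hr, lt_inv_mul_iff₀ hr]; exact hx)) h0
    (hLip θ hθ) (fun x => hθ1 _)
    (fun x hx => hθS _ (by rw [dist_simT_left O a hr, inv_mul_le_iff₀ hr]; exact hx))
  rw [form_simM O a n 0 hr, norm_smul, LinearIsometryEquiv.norm_map, mul_zero,
    Real.norm_of_nonneg (by positivity : (0 : ℝ) ≤ (r ^ n)⁻¹), integral_simM O a n hr, smul_eq_mul]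
  rw [mul_div_mul_left _ _ hr.ne'] at h1
  calc _ ≤ (r ^ n)⁻¹ * (C₂ * (R / S) * ∫ x, |ψ (simT O a r x)| ∂ν) :=
        mul_le_mul_of_nonneg_left h1 (by positivity)
    _ = _ := by ring

/-- goodness of balls is invariant under similarities -/
theorem Good.simM [SFinite ν] {M ρ : ℝ} {θ : Eu d → ℝ} {b : Eu d} (hr : 0 < r) (hρ : 0 < ρ)
    (h : Good n M ν (fun x => θ (simT O a r x)) (simTi O a r b) (r * ρ)) :
    Good n M (simM n O a r ν) θ b ρ := by
  intro ψ hψ hψs hψ0
  have h0 : ∫ x, ψ (simT O a r x) ∂ν = 0 := by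
    have h3 := hψ0
    rw [integral_simM O a n hr, smul_eq_mul] at h3
    exact (mul_eq_zero.1 h3).resolve_left (by positivity)
  have h1 := h (fun x => ψ (simT O a r x)) (fun x y => ?_) (fun x hx => hψs _ ?_) h0
  · rw [form_simM O a n 0 hr, norm_smul, LinearIsometryEquiv.norm_map, mul_zero,
      Real.norm_of_nonneg (by positivity : (0 : ℝ) ≤ (r ^ n)⁻¹)]
    calc _ ≤ (r ^ n)⁻¹ * ((r * ρ) ^ n / M) := mul_le_mul_of_nonneg_left h1 (by positivity)
      _ = _ := by rw [mul_pow]; field_simp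
  · refine (hψ _ _).trans (le_of_eq ?_)
    rw [dist_simT O a hr]
    field_simp
  · rw [dist_simT_left O a hr, le_inv_mul_iff₀ hr]
    calc r * (M * ρ) = M * (r * ρ) := by ring
      _ ≤ _ := hx

/-- the limit class is invariant under similarities -/
theorem Lim.simM (h : Lim n c C C₁ C₂ ν) (hr : 0 < r) : Lim n c C C₁ C₂ (simM n O a r ν) := by
  have := h.ar.isLocallyFiniteMeasure
  exact ⟨h.ar.simM O a hr fun _ _ _ => le_top, h.rb.simM O a hr, h.er.simM O a hr⟩

end

/-- invariance of the class under linear isometries -/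
theorem Lim.map_isometry {C₁ C₂ : ℝ} {ν : Measure (Eu d)} (hν : Lim n c C C₁ C₂ ν)
    (O : Eu d ≃ₗᵢ[ℝ] Eu d) : Lim n c C C₁ C₂ (ν.map O) := by
  have h := hν.simM O 0 one_pos
  have h2 : simT O 0 (1 : ℝ) = O := by
    funext x
    simp [simT]
  rw [Vale.Agent.P120.simM, h2] at h
  simpa only [one_pow, inv_one, ENNReal.ofReal_one, one_smul] using h

end Vale.Agent.P120
end
end

section

section

/-! Lemma 0.1: from the problem's regularity to the working class. Owner: helper492 -/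

open MeasureTheory Metric Set Filter Topology
open scoped ENNReal NNReal

namespace Vale.Agent.P120

variable {d n : ℕ} {μ : Measure (Eu d)}

theorem closedBall_subset_aux {x y : Eu d} {r : ℝ} (hr : 0 < r) (hy : y ∈ closedBall x r) :
    closedBall x r ⊆ ball y (3 * r) := by
  intro z hz
  rw [mem_closedBall] at hz hy
  rw [mem_ball]
  calc dist z y ≤ dist z x + dist x y := dist_triangle _ _ _
    _ ≤ r + r := by rw [dist_comm x y]; gcongr
    _ < 3 * r := by linarith only [hr]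

theorem measure_closedBall_le_of_inter {C₀ : ℝ}
    {x : Eu d} {r : ℝ} (hr : 0 < r)
    (h : ∀ y ∈ μ.support, μ (ball y (3 * r)) ≤ ENNReal.ofReal (C₀ * (3 * r) ^ n)) :
    μ (closedBall x r) ≤ ENNReal.ofReal (C₀ * (3 * r) ^ n) := by
  by_cases hne : (closedBall x r ∩ μ.support).Nonempty
  · obtain ⟨y, hy1, hy2⟩ := hne
    exact (measure_mono (closedBall_subset_aux hr hy1)).trans (h y hy2)
  · have h0 : closedBall x r ⊆ μ.supportᶜ := by
      intro z hz hz'
      exact hne ⟨z, hz, hz'⟩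
    have : μ (closedBall x r) = 0 := measure_mono_null h0 Measure.measure_compl_support
    rw [this]; exact bot_le

end Vale.Agent.P120
end
end

section

section

/-! Lemma 0.1 with uniform constants. Owner: helper492 -/

open MeasureTheory Metric Set Filter Topology
open scoped ENNReal NNReal

namespace Vale.Agent.P120

theorem ar_quant (n d : ℕ) (C₀ : ℝ) (hC₀ : 1 ≤ C₀) :
    ∃ C : ℝ, 0 < C ∧ ∀ (μ : Measure (Eu d)), 0 < ediam μ.support →
      (∀ x ∈ μ.support, ∀ r : ℝ, 0 < r → ENNReal.ofReal r ≤ ediam μ.support →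
        ENNReal.ofReal (C₀⁻¹ * r ^ n) ≤ μ (ball x r) ∧
        μ (ball x r) ≤ ENNReal.ofReal (C₀ * r ^ n)) →
      AR n C₀⁻¹ C (ediam μ.support) μ := by
  have hC₀p : 0 < C₀ := by linarith only [hC₀]
  obtain ⟨t, -, ht, hcov⟩ :=
    (isCompact_closedBall (0 : Eu d) 1).finite_cover_balls (show (0 : ℝ) < 1 / 6 by norm_num)
  set T := ht.toFinset with hT
  refine ⟨C₀ * 3 ^ n + T.card * C₀, by (clear * - hC₀; positivity), ?_⟩
  intro μ hD h
  by_cases htop : ediam μ.support = ⊤
  · refine ⟨inv_pos.2 hC₀p, by (clear * - hC₀; positivity), ?_, fun x hx r hr hrD =>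
      (h x hx r hr hrD).1⟩
    intro x r hr
    have := measure_closedBall_le_of_inter (μ := μ) (n := n) (C₀ := C₀) (x := x) hr (by
      intro y hy
      exact (h y hy (3 * r) (by linarith only [hr]) (by rw [htop]; exact le_top)).2)
    rw [mul_pow, ← mul_assoc] at this
    refine this.trans (ENNReal.ofReal_le_ofReal ?_)
    apply mul_le_mul_of_nonneg_right _ (by positivity)
    have : 0 ≤ (T.card : ℝ) * C₀ := by (clear * - hC₀; positivity)
    linarith only [this]
  · set D' : ℝ := (ediam μ.support).toReal with hD'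
    have hD'p : 0 < D' := ENNReal.toReal_pos hD.ne' htop
    have hDD : ENNReal.ofReal D' = ediam μ.support := ENNReal.ofReal_toReal htop
    have hne : μ.support.Nonempty := by
      by_contra hne
      rw [Set.not_nonempty_iff_eq_empty] at hne
      rw [hne] at hD
      simp at hD
    obtain ⟨y₀, hy₀⟩ := hne
    have hsub : μ.support ⊆ ⋃ y ∈ T, ball (y₀ + D' • y) (D' / 6) := by
      intro x hx
      have hd : dist x y₀ ≤ D' := by
        have h1 : edist x y₀ ≤ ediam μ.support := edist_le_ediam_of_mem hx hy₀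
        rw [← hDD, edist_dist] at h1
        exact (ENNReal.ofReal_le_ofReal_iff hD'p.le).1 h1
      have h2 : D'⁻¹ • (x - y₀) ∈ closedBall (0 : Eu d) 1 := by
        rw [mem_closedBall, dist_zero_right, norm_smul, norm_inv,
          Real.norm_of_nonneg hD'p.le, ← dist_eq_norm, inv_mul_le_iff₀ hD'p, mul_one]
        exact hd
      have h3 := hcov h2
      simp only [mem_iUnion, exists_prop] at h3
      obtain ⟨y, hy, h4⟩ := h3
      simp only [mem_iUnion, exists_prop]
      refine ⟨y, by rw [hT]; exact ht.mem_toFinset.2 hy, ?_⟩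
      rw [mem_ball] at h4 ⊢
      have h5 : x - (y₀ + D' • y) = D' • (D'⁻¹ • (x - y₀) - y) := by
        rw [smul_sub, smul_smul, mul_inv_cancel₀ hD'p.ne', one_smul]
        abel
      rw [dist_eq_norm, h5, norm_smul, Real.norm_of_nonneg hD'p.le, ← dist_eq_norm]
      nlinarith only [hD'p, h4]
    have hball : ∀ y, μ (ball (y₀ + D' • y) (D' / 6)) ≤ ENNReal.ofReal (C₀ * (D' / 3) ^ n) := by
      intro y
      by_cases hne : (ball (y₀ + D' • y) (D' / 6) ∩ μ.support).Nonempty
      · obtain ⟨z, hz1, hz2⟩ := hne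
        refine (measure_mono ?_).trans (h z hz2 (D' / 3) (by positivity) ?_).2
        · intro w hw
          rw [mem_ball] at hw hz1 ⊢
          have := dist_triangle w (y₀ + D' • y) z
          rw [dist_comm (y₀ + D' • y) z] at this
          linarith only [hz1, hw, this]
        · rw [← hDD]
          exact ENNReal.ofReal_le_ofReal (by linarith)
      · have h0 : ball (y₀ + D' • y) (D' / 6) ⊆ μ.supportᶜ := by
          intro z hz hz'
          exact hne ⟨z, hz, hz'⟩
        have : μ (ball (y₀ + D' • y) (D' / 6)) = 0 :=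
          measure_mono_null h0 Measure.measure_compl_support
        rw [this]; exact bot_le
    have hN : μ univ ≤ ENNReal.ofReal ((T.card : ℝ) * (C₀ * (D' / 3) ^ n)) := by
      calc μ univ ≤ μ (μ.support ∪ μ.supportᶜ) := measure_mono (by rw [union_compl_self])
        _ ≤ μ μ.support + μ μ.supportᶜ := measure_union_le _ _
        _ = μ μ.support := by rw [Measure.measure_compl_support, add_zero]
        _ ≤ μ (⋃ y ∈ T, ball (y₀ + D' • y) (D' / 6)) := measure_mono hsub
        _ ≤ ∑ y ∈ T, μ (ball (y₀ + D' • y) (D' / 6)) := measure_biUnion_finset_le _ _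
        _ ≤ ∑ y ∈ T, ENNReal.ofReal (C₀ * (D' / 3) ^ n) :=
            Finset.sum_le_sum fun y _ => hball y
        _ = ENNReal.ofReal ((T.card : ℝ) * (C₀ * (D' / 3) ^ n)) := by
            rw [Finset.sum_const, nsmul_eq_mul,
              ENNReal.ofReal_mul (p := (T.card : ℝ)) (Nat.cast_nonneg _), ENNReal.ofReal_natCast]
    refine ⟨inv_pos.2 hC₀p, by (clear * - hC₀; positivity), ?_, fun x hx r hr hrD => (h x hx r hr hrD).1⟩
    intro x r hr
    rcases le_or_gt r (D' / 3) with hle | hgt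
    · have := measure_closedBall_le_of_inter (μ := μ) (n := n) (C₀ := C₀) (x := x) hr (by
        intro y hy
        refine (h y hy (3 * r) (by linarith only [hr]) ?_).2
        rw [← hDD]
        exact ENNReal.ofReal_le_ofReal (by linarith only [hle]))
      refine this.trans (ENNReal.ofReal_le_ofReal ?_)
      rw [mul_pow, ← mul_assoc]
      apply mul_le_mul_of_nonneg_right _ (by positivity)
      have : 0 ≤ (T.card : ℝ) * C₀ := by (clear * - hC₀; positivity)
      linarith only [this]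
    · refine (measure_mono (subset_univ _)).trans (hN.trans (ENNReal.ofReal_le_ofReal ?_))
      have h1 : (D' / 3) ^ n ≤ r ^ n := pow_le_pow_left₀ (by positivity) hgt.le n
      calc (T.card : ℝ) * (C₀ * (D' / 3) ^ n) ≤ (T.card : ℝ) * (C₀ * r ^ n) := by (clear * - hC₀ h1; gcongr)
        _ = (T.card * C₀) * r ^ n := by ring
        _ ≤ (C₀ * 3 ^ n + T.card * C₀) * r ^ n := by
            apply mul_le_mul_of_nonneg_right _ (by positivity)
            have : 0 ≤ C₀ * 3 ^ n := by positivity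
            linarith only [this]

end Vale.Agent.P120
end
end
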