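import Vale.Agent.P120.MathlibUsed
import Vale.Agent.P120.Bdl.B1
import Vale.Agent.P120.Bdl.B3
attribute [-instance] ProperSMul.toContinuousSMul IsTopologicalTorsor.toContinuousSMul IdemSemiring.toCanonicallyOrderedAdd IdemSemiring.toMulLeftMono IdemSemiring.toMulRightMono AddQuantale.instAddLeftMono AddQuantale.instAddRightMono Quantale.instMulLeftMono Quantale.instMulRightMono FiniteDimensional.rclike_to_real IsScalarTower.complexToReal FiniteDimensional.complexToReal

set_option linter.all false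

section

section

/-! Part 2a: truncations are bounded at good balls (Lemma 2). Owner module: TOUCH -/

open MeasureTheory Metric Set Filter Topology
open scoped ENNReal NNReal

namespace Vale.Agent.P120

namespace TruncAux

/-- near-field bound for the form -/
theorem form_near (n : ℕ) (hn : 1 ≤ n) (C : ℝ) (hC : 0 < C) : ∃ C' : ℝ, 0 < C' ∧
    ∀ (d : ℕ) (μ : Measure (Eu d)),
      (∀ (x : Eu d) (r : ℝ), 0 < r → μ (closedBall x r) ≤ ENNReal.ofReal (C * r ^ n)) →
    ∀ (ψ θ : Eu d → ℝ) (a : Eu d) (R L : ℝ), 0 < R → 0 ≤ L →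
      (∀ x, R < dist x a → ψ x = 0 ∧ θ x = 0) →
      (∀ x y, |ψ x * θ y - ψ y * θ x| ≤ L * dist x y) →
      ‖form n 0 μ ψ θ‖ ≤ C' * L * R ^ (n + 1) := by
  obtain ⟨C₁, hC₁, H⟩ := lintegral_near n hn C hC
  refine ⟨2 * C₁ * C, by positivity, fun d μ hμ ψ θ a R L hR hL hsupp hlip => ?_⟩
  set F : Eu d × Eu d → Eu d := fun p => (ψ p.1 * θ p.2 - ψ p.2 * θ p.1) • rK n 0 (p.1 - p.2)
    with hF
  have h1 : ‖form n 0 μ ψ θ‖ ≤ ‖∫ p, F p ∂(μ.prod μ)‖ := by
    unfold form
    rw [norm_smul]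
    have : ‖(1 / 2 : ℝ)‖ ≤ 1 := by norm_num
    calc ‖(1 / 2 : ℝ)‖ * _ ≤ 1 * _ := mul_le_mul_of_nonneg_right this (norm_nonneg _)
      _ = _ := one_mul _
  refine h1.trans ((norm_integral_le_lintegral_norm F).trans ?_)
  apply ENNReal.toReal_le_of_le_ofReal (by (clear * - hC hC₁ hR hL; (clear * - hC₁ hC hL hR; positivity)))
  refine (MeasureTheory.lintegral_prod_le _).trans ?_
  have hpt : ∀ x y, ENNReal.ofReal ‖F (x, y)‖ ≤
      (closedBall x (2 * R)).indicator
        (fun y => ENNReal.ofReal L * ENNReal.ofReal ((‖x - y‖ ^ (n - 1))⁻¹)) y := by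
    intro x y
    by_cases hx : R < dist x a
    · have : F (x, y) = 0 := by
        simp only [hF, (hsupp x hx).1, (hsupp x hx).2]; simp
      rw [this]; simp only [norm_zero, ENNReal.ofReal_zero, zero_le]
    by_cases hy : R < dist y a
    · have : F (x, y) = 0 := by
        simp only [hF, (hsupp y hy).1, (hsupp y hy).2]; simp only [mul_zero, zero_mul, sub_self, zero_smul]
      rw [this]; simp only [norm_zero, ENNReal.ofReal_zero, zero_le]
    rw [not_lt] at hx hy
    have hyx : y ∈ closedBall x (2 * R) := by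
      rw [mem_closedBall]
      have := dist_triangle_right y x a
      linarith only [hx, hy, this]
    rw [indicator_of_mem hyx, ← ENNReal.ofReal_mul hL]
    apply ENNReal.ofReal_le_ofReal
    simp only [hF]
    rw [norm_smul, Real.norm_eq_abs]
    rcases eq_or_ne x y with hxy | hxy
    · subst hxy
      have h2 : |ψ x * θ x - ψ x * θ x| = 0 := by simp
      rw [h2, zero_mul]
      (clear * - hL; (clear * - hL; positivity))
    · have hpos : 0 < ‖x - y‖ := norm_pos_iff.2 (sub_ne_zero.2 hxy)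
      calc |ψ x * θ y - ψ y * θ x| * ‖rK n 0 (x - y)‖
          ≤ (L * ‖x - y‖) * (‖x - y‖ ^ n)⁻¹ := by
            apply mul_le_mul _ (norm_rK_le n 0 _) (norm_nonneg _) (by (clear * - hL hpos; positivity))
            rw [← dist_eq_norm]; exact hlip x y
        _ = L * (‖x - y‖ ^ (n - 1))⁻¹ := by
            have : ‖x - y‖ ^ n = ‖x - y‖ ^ (n - 1) * ‖x - y‖ := by
              rw [← pow_succ]; congr 1; omega
            rw [this]
            (clear * - hpos; field_simp)
  have hinner : ∀ x, ∫⁻ y, ENNReal.ofReal ‖F (x, y)‖ ∂μ ≤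
      (closedBall a R).indicator (fun _ => ENNReal.ofReal (L * (C₁ * (2 * R)))) x := by
    intro x
    by_cases hx : x ∈ closedBall a R
    · rw [indicator_of_mem hx]
      calc ∫⁻ y, ENNReal.ofReal ‖F (x, y)‖ ∂μ
          ≤ ∫⁻ y, (closedBall x (2 * R)).indicator
            (fun y => ENNReal.ofReal L * ENNReal.ofReal ((‖x - y‖ ^ (n - 1))⁻¹)) y ∂μ :=
            lintegral_mono (hpt x)
        _ = ∫⁻ y in closedBall x (2 * R),
            ENNReal.ofReal L * ENNReal.ofReal ((‖x - y‖ ^ (n - 1))⁻¹) ∂μ :=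
            lintegral_indicator measurableSet_closedBall _
        _ = ENNReal.ofReal L * ∫⁻ y in closedBall x (2 * R),
            ENNReal.ofReal ((‖x - y‖ ^ (n - 1))⁻¹) ∂μ := by
            rw [lintegral_const_mul' _ _ ENNReal.ofReal_ne_top]
        _ ≤ ENNReal.ofReal L * ENNReal.ofReal (C₁ * (2 * R)) := by
            gcongr
            exact H d μ hμ x (2 * R) (by (clear * - hR; positivity))
        _ = ENNReal.ofReal (L * (C₁ * (2 * R))) := (ENNReal.ofReal_mul hL).symm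
    · rw [indicator_of_notMem hx]
      rw [mem_closedBall, not_le] at hx
      have : ∀ y, ENNReal.ofReal ‖F (x, y)‖ = 0 := by
        intro y
        simp only [hF, (hsupp x hx).1, (hsupp x hx).2]
        simp only [zero_mul, mul_zero, sub_self, zero_smul, norm_zero, ENNReal.ofReal_zero]
      simp only [this, lintegral_const, zero_mul, Std.le_refl]
  refine (lintegral_mono hinner).trans ?_
  rw [lintegral_indicator_const measurableSet_closedBall]
  calc ENNReal.ofReal (L * (C₁ * (2 * R))) * μ (closedBall a R)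
      ≤ ENNReal.ofReal (L * (C₁ * (2 * R))) * ENNReal.ofReal (C * R ^ n) := by
        gcongr
        exact hμ a R hR
    _ = ENNReal.ofReal ((L * (C₁ * (2 * R))) * (C * R ^ n)) :=
        (ENNReal.ofReal_mul (by (clear * - hC₁ hR hL; (clear * - hL hC₁ hR; positivity)))).symm
    _ = ENNReal.ofReal (2 * C₁ * C * L * R ^ (n + 1)) := by congr 1; ring


variable {d n : ℕ} {c C : ℝ} {D : ℝ≥0∞} {μ : Measure (Eu d)}

/-- integrability of the kernel against a bounded compactly supported function away from the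
singularity -/
theorem integrable_eta (h : AR n c C D μ) {η : Eu d → ℝ} (hη : Continuous η)
    (hηc : HasCompactSupport η) (hη1 : ∀ y, |η y| ≤ 1) {z : Eu d} {s : ℝ} (hs : 0 < s)
    (hz : ∀ y, dist y z < s → η y = 0) :
    Integrable (fun y => η y • rK n 0 (z - y)) μ := by
  have := h.isLocallyFiniteMeasure
  have hmeas : Measurable (fun y => η y • rK n 0 (z - y)) :=
    hη.measurable.smul ((measurable_rK n 0).comp (measurable_const.sub measurable_id))
  rw [← integrableOn_iff_integrable_of_support_subset (s := tsupport η)]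
  · apply Measure.integrableOn_of_bounded (M := (s ^ n)⁻¹) hηc.measure_lt_top.ne
      hmeas.aestronglyMeasurable
    refine Eventually.of_forall fun y => ?_
    rw [norm_smul, Real.norm_eq_abs]
    by_cases hy : dist y z < s
    · rw [hz y hy]
      simp only [abs_zero, zero_mul]
      (clear * - hs; positivity)
    · rw [not_lt, dist_comm, dist_eq_norm] at hy
      calc |η y| * ‖rK n 0 (z - y)‖ ≤ 1 * (s ^ n)⁻¹ := by
            apply mul_le_mul (hη1 y) _ (norm_nonneg _) zero_le_one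
            exact (norm_rK_le n 0 _).trans
              (inv_anti₀ (by positivity) (pow_le_pow_left₀ hs.le hy n))
        _ = (s ^ n)⁻¹ := one_mul _
  · intro y hy
    apply subset_tsupport
    intro h0
    apply hy
    simp only [h0, zero_smul]

/-- the kernel integral of a function vanishing near `x` is almost constant near `x` -/
theorem far_compare (n : ℕ) (C : ℝ) (hC : 0 < C) : ∃ C' : ℝ, 0 < C' ∧
    ∀ (d : ℕ) (c : ℝ) (D : ℝ≥0∞) (μ : Measure (Eu d)), AR n c C D μ →
    ∀ (x : Eu d) (s : ℝ) (η : Eu d → ℝ), 0 < s → Continuous η → HasCompactSupport η →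
      (∀ y, |η y| ≤ 1) → (∀ y, dist y x ≤ 2 * s → η y = 0) → ∀ z, dist z x ≤ s →
      ‖(∫ y, η y • rK n 0 (z - y) ∂μ) - ∫ y, η y • rK n 0 (x - y) ∂μ‖ ≤ C' := by
  obtain ⟨C₁, hC₁, H⟩ := lintegral_far n 1 le_rfl C hC
  obtain ⟨Ck, hCk, Hk⟩ := rK_sub_le n
  refine ⟨Ck * C₁, by (clear * - hCk hC₁; positivity), fun d c D μ hAR x s η hs hη hηc hη1 hη0 z hz => ?_⟩
  have hi1 : Integrable (fun y => η y • rK n 0 (z - y)) μ :=
    integrable_eta hAR hη hηc hη1 hs (fun y hy => hη0 y (by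
      have := dist_triangle y z x
      linarith only [hz, hy, this]))
  have hi2 : Integrable (fun y => η y • rK n 0 (x - y)) μ :=
    integrable_eta hAR hη hηc hη1 hs (fun y hy => hη0 y (by linarith only [hs, hy]))
  rw [← integral_sub hi1 hi2]
  refine (norm_integral_le_lintegral_norm _).trans ?_
  apply ENNReal.toReal_le_of_le_ofReal (by positivity)
  have hpt : ∀ y, ENNReal.ofReal ‖η y • rK n 0 (z - y) - η y • rK n 0 (x - y)‖ ≤
      ({y | 2 * s ≤ dist y x} : Set (Eu d)).indicator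
        (fun y => ENNReal.ofReal (Ck * s) * ENNReal.ofReal ((‖x - y‖ ^ (n + 1))⁻¹)) y := by
    intro y
    by_cases hy : dist y x ≤ 2 * s
    · rw [hη0 y hy]
      simp only [zero_smul, sub_self, norm_zero, ENNReal.ofReal_zero, zero_le]
    · rw [not_le] at hy
      rw [indicator_of_mem (show y ∈ {y | 2 * s ≤ dist y x} from hy.le),
        ← ENNReal.ofReal_mul (by (clear * - hCk hs; positivity))]
      apply ENNReal.ofReal_le_ofReal
      rw [← smul_sub, norm_smul, Real.norm_eq_abs]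
      have hxy : 2 * s < ‖x - y‖ := by rw [← dist_eq_norm, dist_comm]; exact hy
      have hzx : (x - y) - (z - y) = x - z := by abel
      have hzx' : ‖(x - y) - (z - y)‖ ≤ s := by
        rw [hzx, ← dist_eq_norm, dist_comm]; exact hz
      have h1 := Hk d 0 (x - y) (z - y) (by linarith only [hxy, hzx']) (by
        intro h0
        rw [h0, norm_zero] at hxy
        linarith only [hs, hxy])
      have h2 : ‖rK n 0 (z - y) - rK n 0 (x - y)‖ ≤ Ck * s * (‖x - y‖ ^ (n + 1))⁻¹ := by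
        rw [norm_sub_rev]
        refine h1.trans ?_
        apply mul_le_mul_of_nonneg_right _ (by (clear * -; positivity))
        exact mul_le_mul_of_nonneg_left hzx' hCk.le
      calc |η y| * ‖rK n 0 (z - y) - rK n 0 (x - y)‖
          ≤ 1 * (Ck * s * (‖x - y‖ ^ (n + 1))⁻¹) :=
            mul_le_mul (hη1 y) h2 (norm_nonneg _) zero_le_one
        _ = _ := one_mul _
  have hms : MeasurableSet ({y | 2 * s ≤ dist y x} : Set (Eu d)) :=
    measurableSet_le measurable_const (measurable_id.dist measurable_const)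
  calc ∫⁻ y, ENNReal.ofReal ‖η y • rK n 0 (z - y) - η y • rK n 0 (x - y)‖ ∂μ
      ≤ ∫⁻ y, ({y | 2 * s ≤ dist y x} : Set (Eu d)).indicator
        (fun y => ENNReal.ofReal (Ck * s) * ENNReal.ofReal ((‖x - y‖ ^ (n + 1))⁻¹)) y ∂μ :=
        lintegral_mono hpt
    _ = ∫⁻ y in {y | 2 * s ≤ dist y x},
        ENNReal.ofReal (Ck * s) * ENNReal.ofReal ((‖x - y‖ ^ (n + 1))⁻¹) ∂μ :=
        lintegral_indicator hms _
    _ = ENNReal.ofReal (Ck * s) * ∫⁻ y in {y | 2 * s ≤ dist y x},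
        ENNReal.ofReal ((‖x - y‖ ^ (n + 1))⁻¹) ∂μ := by
        rw [lintegral_const_mul' _ _ ENNReal.ofReal_ne_top]
    _ ≤ ENNReal.ofReal (Ck * s) * ENNReal.ofReal (C₁ * ((2 * s) ^ 1)⁻¹) := by
        gcongr
        exact H d μ hAR.upper x (2 * s) (by (clear * - hs; positivity))
    _ = ENNReal.ofReal ((Ck * s) * (C₁ * ((2 * s) ^ 1)⁻¹)) :=
        (ENNReal.ofReal_mul (by (clear * - hCk hs; positivity))).symm
    _ ≤ ENNReal.ofReal (Ck * C₁) := by
        apply ENNReal.ofReal_le_ofReal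
        have : (Ck * s) * (C₁ * ((2 * s) ^ 1)⁻¹) = Ck * C₁ / 2 := by
          (clear * - hs hC₁ hCk; field_simp)
        rw [this]
        have : 0 < Ck * C₁ := by positivity
        linarith only [this]

theorem tent_nonneg (x : Eu d) (s : ℝ) (y : Eu d) : 0 ≤ tent x s y := le_max_left _ _

theorem tent_le_one (x : Eu d) {s : ℝ} (hs : 0 < s) (y : Eu d) : tent x s y ≤ 1 := by
  unfold tent
  apply max_le zero_le_one
  have : 0 ≤ dist y x / s := by (clear * - hs; positivity)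
  linarith only [this]

theorem tent_eq_zero (x : Eu d) {s : ℝ} (hs : 0 < s) {y : Eu d} (hy : s ≤ dist y x) :
    tent x s y = 0 := by
  unfold tent
  apply max_eq_left
  have : 1 ≤ dist y x / s := by rw [le_div_iff₀ hs]; linarith only [hy]
  linarith only [this]

theorem tent_lip (x : Eu d) {s : ℝ} (hs : 0 < s) (y z : Eu d) :
    |tent x s y - tent x s z| ≤ 1 / s * dist y z := by
  unfold tent
  refine (abs_max_sub_max_le_max _ _ _ _).trans ?_
  simp only [sub_self, abs_zero]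
  apply max_le (by (clear * - hs; positivity))
  have h1 : (1 - dist y x / s) - (1 - dist z x / s) = -((dist y x - dist z x) / s) := by ring
  rw [h1, abs_neg, abs_div, abs_of_pos hs, one_div, ← div_eq_inv_mul]
  exact div_le_div_of_nonneg_right (abs_dist_sub_le _ _ _) hs.le

theorem cut_nonneg (x : Eu d) (s : ℝ) (y : Eu d) : 0 ≤ cut x s y := le_max_left _ _

theorem cut_le_one (x : Eu d) (s : ℝ) (y : Eu d) : cut x s y ≤ 1 :=
  max_le zero_le_one (min_le_left _ _)

theorem cut_eq_one (x : Eu d) {s : ℝ} (hs : 0 < s) {y : Eu d} (hy : dist y x ≤ s) :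
    cut x s y = 1 := by
  unfold cut
  have : dist y x / s ≤ 1 := by rw [div_le_iff₀ hs]; linarith
  rw [min_eq_left (by linarith only [this]), max_eq_right zero_le_one]

theorem cut_eq_zero (x : Eu d) {s : ℝ} (hs : 0 < s) {y : Eu d} (hy : 2 * s ≤ dist y x) :
    cut x s y = 0 := by
  unfold cut
  have : 2 ≤ dist y x / s := by rw [le_div_iff₀ hs]; linarith
  apply max_eq_left
  exact (min_le_right _ _).trans (by linarith only [this])

theorem cut_lip (x : Eu d) {s : ℝ} (hs : 0 < s) (y z : Eu d) :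
    |cut x s y - cut x s z| ≤ 1 / s * dist y z := by
  unfold cut
  refine (abs_max_sub_max_le_max _ _ _ _).trans ?_
  simp only [sub_self, abs_zero]
  apply max_le (by (clear * - hs; positivity))
  refine (abs_min_sub_min_le_max _ _ _ _).trans ?_
  simp only [sub_self, abs_zero]
  apply max_le (by positivity)
  have h1 : (2 - dist y x / s) - (2 - dist z x / s) = -((dist y x - dist z x) / s) := by ring
  rw [h1, abs_neg, abs_div, abs_of_pos hs, one_div, ← div_eq_inv_mul]
  exact div_le_div_of_nonneg_right (abs_dist_sub_le _ _ _) hs.le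

/-- lower bound for the mass of a tent -/
theorem tent_mass_lower (h : AR n c C D μ) {x : Eu d} (hx : x ∈ μ.support) {s : ℝ} (hs : 0 < s)
    (hD : ENNReal.ofReal s ≤ D) : c / 2 ^ (n + 1) * s ^ n ≤ ∫ y, tent x s y ∂μ := by
  have := h.isLocallyFiniteMeasure
  have hint : Integrable (tent x s) μ := by
    have hl := lipC_tent x s hs
    exact hl.continuous.integrable_of_hasCompactSupport hl.2
  have hb : μ (ball x (s / 2)) ≠ ⊤ :=
    ((measure_mono ball_subset_closedBall).trans_lt (h.measure_ball_lt_top x _)).ne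
  have h1 : c * (s / 2) ^ n ≤ μ.real (ball x (s / 2)) :=
    (ENNReal.ofReal_le_iff_le_toReal hb).1 (h.lower x hx (s / 2) (by (clear * - hs; positivity))
      ((ENNReal.ofReal_le_ofReal (by linarith only [hs])).trans hD))
  have h2 : ∫ y in ball x (s / 2), (1 / 2 : ℝ) ∂μ ≤ ∫ y in ball x (s / 2), tent x s y ∂μ := by
    apply setIntegral_mono_on (integrableOn_const hb) hint.integrableOn measurableSet_ball
    intro y hy
    rw [mem_ball] at hy
    unfold tent
    refine le_trans ?_ (le_max_right _ _)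
    have : dist y x / s ≤ 1 / 2 := by
      rw [div_le_iff₀ hs]; linarith only [hy]
    linarith only [this]
  have h3 : ∫ y in ball x (s / 2), tent x s y ∂μ ≤ ∫ y, tent x s y ∂μ :=
    setIntegral_le_integral hint (Eventually.of_forall fun y => tent_nonneg x s y)
  rw [setIntegral_const, smul_eq_mul] at h2
  calc c / 2 ^ (n + 1) * s ^ n = c * (s / 2) ^ n * (1 / 2) := by
        rw [div_pow, pow_succ]; (clear * - hs; field_simp)
    _ ≤ μ.real (ball x (s / 2)) * (1 / 2) := mul_le_mul_of_nonneg_right h1 (by (clear * -; norm_num))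
    _ ≤ ∫ y, tent x s y ∂μ := h2.trans h3

/-- upper bound for the mass of a tent -/
theorem tent_mass_upper (h : AR n c C D μ) (x : Eu d) {s : ℝ} (hs : 0 < s) :
    ∫ y, tent x s y ∂μ ≤ C * s ^ n := by
  have := h.isLocallyFiniteMeasure
  have hC := h.C_pos
  have hint : Integrable (tent x s) μ := by
    have hl := lipC_tent x s hs
    exact hl.continuous.integrable_of_hasCompactSupport hl.2
  have h1 : ∫ y, tent x s y ∂μ = ∫ y in closedBall x s, tent x s y ∂μ := by
    symm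
    apply setIntegral_eq_integral_of_forall_compl_eq_zero
    intro y hy
    rw [mem_closedBall, not_le] at hy
    exact tent_eq_zero x hs hy.le
  have hb := (h.measure_ball_lt_top x s)
  have h2 : ∫ y in closedBall x s, tent x s y ∂μ ≤ ∫ y in closedBall x s, (1 : ℝ) ∂μ := by
    apply setIntegral_mono_on hint.integrableOn (integrableOn_const hb.ne)
      measurableSet_closedBall
    intro y _
    exact tent_le_one x hs y
  rw [h1]
  refine h2.trans ?_
  rw [setIntegral_const, smul_eq_mul, mul_one]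
  exact ENNReal.toReal_le_of_le_ofReal (by positivity) (h.upper x s hs)


/-- Lemma 2 (a): pairing with a tent computes the truncated Riesz transform up to `O(1)` -/
theorem trunc_compare (n : ℕ) (hn : 1 ≤ n) (C : ℝ) (hC : 0 < C) : ∃ C' : ℝ, 0 < C' ∧
    ∀ (d : ℕ) (c : ℝ) (D : ℝ≥0∞) (μ : Measure (Eu d)), AR n c C D μ →
    ∀ (x : Eu d) (s : ℝ) (θ : Eu d → ℝ), 0 < s → LipC θ → (∀ y, 0 ≤ θ y ∧ θ y ≤ 1) →
      (∀ y, dist y x ≤ 4 * s → θ y = 1) →
      ‖form n 0 μ (tent x s) θ - (∫ y, tent x s y ∂μ) •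
        ∫ y in {y | s < dist y x}, θ y • rK n 0 (x - y) ∂μ‖ ≤ C' * s ^ n := by
  obtain ⟨C₁, hC₁, H₁⟩ := form_near n hn C hC
  obtain ⟨C₂, hC₂, H₂⟩ := far_compare n C hC
  refine ⟨C₁ * 2 * 4 ^ (n + 1) + C₂ * C + C * 4 ^ n * C, by (clear * - hC₁ hC₂ hC; positivity),
    fun d c D μ hAR x s θ hs hθ hθ01 hθ1 => ?_⟩
  have hfin := hAR.isLocallyFiniteMeasure
  have h2s : 0 < 2 * s := by (clear * - hs; positivity)
  have hφ : LipC (tent x s) := lipC_tent x s hs
  have hχ : LipC (cut x (2 * s)) := lipC_cut x (2 * s) h2s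
  set φ : Eu d → ℝ := tent x s with hφdef
  set χ : Eu d → ℝ := cut x (2 * s) with hχdef
  set η : Eu d → ℝ := fun y => θ y - χ y with hηdef
  have hη : LipC η := hθ.sub hχ
  have hφint : Integrable φ μ := hφ.continuous.integrable_of_hasCompactSupport hφ.2
  have hη0 : ∀ y, dist y x ≤ 2 * s → η y = 0 := by
    intro y hy
    simp only [hηdef, hχdef]
    rw [hθ1 y (by linarith only [hs, hy]), cut_eq_one x h2s hy, sub_self]
  have hη1 : ∀ y, |η y| ≤ 1 := by
    intro y
    simp only [hηdef, hχdef]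
    have h1 := hθ01 y
    have h2 := cut_nonneg x (2 * s) y
    have h3 := cut_le_one x (2 * s) y
    rw [abs_le]
    constructor <;> linarith only [h1.1, h1.2, h1, h3, h2]
  set G : Eu d → Eu d := fun z => ∫ y, η y • rK n 0 (z - y) ∂μ with hG
  set V : Eu d := G x with hV
  set m : ℝ := ∫ y, φ y ∂μ with hm
  -- step 1: near part
  have h1 : ‖form n 0 μ φ χ‖ ≤ C₁ * 2 * 4 ^ (n + 1) * s ^ n := by
    have h := H₁ d μ hAR.upper φ χ x (4 * s) (2 / s) (by (clear * - hs; positivity)) (by (clear * - hs; positivity)) ?_ ?_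
    · refine h.trans (le_of_eq ?_)
      rw [mul_pow, pow_succ s n]
      field_simp
    · intro y hy
      exact ⟨tent_eq_zero x hs (by linarith only [hs, hy]), cut_eq_zero x h2s (by linarith only [hy])⟩
    · intro y z
      have e1 : φ y * χ z - φ z * χ y = φ y * (χ z - χ y) + χ y * (φ y - φ z) := by ring
      rw [e1]
      have e2 := tent_lip x hs y z
      have e3 := cut_lip x h2s z y
      have e4 : |φ y| ≤ 1 := by
        rw [abs_of_nonneg (tent_nonneg x s y)]; exact tent_le_one x hs y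
      have e5 : |χ y| ≤ 1 := by
        rw [abs_of_nonneg (cut_nonneg x _ y)]; exact cut_le_one x _ y
      have hd : 0 ≤ dist y z := dist_nonneg
      calc |φ y * (χ z - χ y) + χ y * (φ y - φ z)|
          ≤ |φ y * (χ z - χ y)| + |χ y * (φ y - φ z)| := abs_add_le _ _
        _ = |φ y| * |χ z - χ y| + |χ y| * |φ y - φ z| := by rw [abs_mul, abs_mul]
        _ ≤ 1 * (1 / (2 * s) * dist z y) + 1 * (1 / s * dist y z) := by
            apply add_le_add
            · exact mul_le_mul e4 e3 (abs_nonneg _) zero_le_one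
            · exact mul_le_mul e5 e2 (abs_nonneg _) zero_le_one
        _ = 3 / 2 * (dist y z / s) := by rw [dist_comm z y]; field_simp; norm_num
        _ ≤ 2 * (dist y z / s) := by
            have : 0 ≤ dist y z / s := by (clear * - hs; (clear * - hs; positivity))
            linarith only [this]
        _ = 2 / s * dist y z := by ring
  -- step 2: far part
  have hsep : form n 0 μ φ η = ∫ z, φ z • G z ∂μ :=
    form_eq_of_sep hn hAR hφ hη x s (2 * s) hs le_rfl
      (fun y hy => tent_eq_zero x hs hy.le) hη0 0 le_rfl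
  have hφV : Integrable (fun z => φ z • V) μ := hφint.smul_const V
  have hGm : StronglyMeasurable G := by
    apply StronglyMeasurable.integral_prod_right (f := fun z y => η y • rK n 0 (z - y))
    apply Measurable.stronglyMeasurable
    exact (hη.continuous.measurable.comp measurable_snd).smul
      ((measurable_rK n 0).comp (measurable_fst.sub measurable_snd))
  have hGV : ∀ z, dist z x ≤ s → ‖G z - V‖ ≤ C₂ := fun z hz =>
    H₂ d c D μ hAR x s η hs hη.continuous hη.2 hη1 hη0 z hz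
  have hφz : ∀ z, s < dist z x → φ z = 0 := fun z hz => tent_eq_zero x hs hz.le
  have hφ0 : ∀ z, 0 ≤ φ z := fun z => tent_nonneg x s z
  have hφG : Integrable (fun z => φ z • G z) μ := by
    apply Integrable.mono' (g := fun z => φ z * (‖V‖ + C₂)) (hφint.mul_const _)
    · exact (hφ.continuous.measurable.stronglyMeasurable.smul hGm).aestronglyMeasurable
    · refine Eventually.of_forall fun z => ?_
      rw [norm_smul, Real.norm_eq_abs, abs_of_nonneg (hφ0 z)]
      rcases le_or_gt (dist z x) s with hz | hz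
      · apply mul_le_mul_of_nonneg_left _ (hφ0 z)
        have := hGV z hz
        have h2 : G z = V + (G z - V) := by abel
        rw [h2]
        exact (norm_add_le _ _).trans (by linarith only [this])
      · rw [hφz z hz, zero_mul, zero_mul]
  have hmle : m ≤ C * s ^ n := tent_mass_upper hAR x hs
  have hm0 : 0 ≤ m := integral_nonneg hφ0
  have h2 : ‖form n 0 μ φ η - m • V‖ ≤ C₂ * C * s ^ n := by
    rw [hsep, hm, ← integral_smul_const, ← integral_sub hφG hφV]
    calc ‖∫ z, (φ z • G z - φ z • V) ∂μ‖ ≤ ∫ z, φ z * C₂ ∂μ := by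
          apply norm_integral_le_of_norm_le (hφint.mul_const _)
          refine Eventually.of_forall fun z => ?_
          rw [← smul_sub, norm_smul, Real.norm_eq_abs, abs_of_nonneg (hφ0 z)]
          rcases le_or_gt (dist z x) s with hz | hz
          · exact mul_le_mul_of_nonneg_left (hGV z hz) (hφ0 z)
          · rw [hφz z hz, zero_mul, zero_mul]
      _ = m * C₂ := integral_mul_const _ _
      _ ≤ C * s ^ n * C₂ := mul_le_mul_of_nonneg_right hmle hC₂.le
      _ = C₂ * C * s ^ n := by ring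
  -- step 3: compare `V` with the truncation
  have hms : MeasurableSet ({y | s < dist y x} : Set (Eu d)) :=
    measurableSet_lt measurable_const (measurable_id.dist measurable_const)
  have hint : ∀ ζ : Eu d → ℝ, LipC ζ → (∀ y, |ζ y| ≤ 1) →
      IntegrableOn (fun y => ζ y • rK n 0 (x - y)) {y | s < dist y x} μ := by
    intro ζ hζ hζ1
    have hmeas : Measurable (fun y => ζ y • rK n 0 (x - y)) :=
      hζ.continuous.measurable.smul
        ((measurable_rK n 0).comp (measurable_const.sub measurable_id))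
    have hfin2 : μ (({y | s < dist y x} : Set (Eu d)) ∩ tsupport ζ) ≠ ⊤ :=
      ((measure_mono inter_subset_right).trans_lt hζ.2.measure_lt_top).ne
    have h3 : IntegrableOn (fun y => ζ y • rK n 0 (x - y))
        (({y | s < dist y x} : Set (Eu d)) ∩ tsupport ζ) μ := by
      apply Measure.integrableOn_of_bounded (M := (s ^ n)⁻¹) hfin2 hmeas.aestronglyMeasurable
      rw [ae_restrict_iff' (hms.inter (isClosed_tsupport ζ).measurableSet)]
      refine Eventually.of_forall fun y hy => ?_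
      have hy1 : s < dist y x := hy.1
      rw [dist_comm, dist_eq_norm] at hy1
      rw [norm_smul, Real.norm_eq_abs]
      calc |ζ y| * ‖rK n 0 (x - y)‖ ≤ 1 * (s ^ n)⁻¹ := by
            apply mul_le_mul (hζ1 y) _ (norm_nonneg _) zero_le_one
            exact (norm_rK_le n 0 _).trans
              (inv_anti₀ (by positivity) (pow_le_pow_left₀ hs.le hy1.le n))
        _ = (s ^ n)⁻¹ := one_mul _
    apply h3.of_forall_sdiff_eq_zero hms
    intro y hy
    have : y ∉ tsupport ζ := fun hy' => hy.2 ⟨hy.1, hy'⟩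
    rw [image_eq_zero_of_notMem_tsupport this, zero_smul]
  have hθ1' : ∀ y, |θ y| ≤ 1 := fun y => by
    rw [abs_of_nonneg (hθ01 y).1]; exact (hθ01 y).2
  have hχ1' : ∀ y, |χ y| ≤ 1 := fun y => by
    rw [abs_of_nonneg (cut_nonneg x _ y)]; exact cut_le_one x _ y
  have hVeq : V = (∫ y in {y | s < dist y x}, θ y • rK n 0 (x - y) ∂μ) -
      ∫ y in {y | s < dist y x}, χ y • rK n 0 (x - y) ∂μ := by
    rw [← integral_sub (hint θ hθ hθ1') (hint χ hχ hχ1')]
    have e1 : ∀ y, θ y • rK n 0 (x - y) - χ y • rK n 0 (x - y) = η y • rK n 0 (x - y) := by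
      intro y; rw [← sub_smul]
    simp only [e1]
    symm
    apply setIntegral_eq_integral_of_forall_compl_eq_zero
    intro y hy
    have hy' : dist y x ≤ s := not_lt.1 hy
    rw [hη0 y (by linarith only [hs, hy']), zero_smul]
  have h3 : ‖∫ y in {y | s < dist y x}, χ y • rK n 0 (x - y) ∂μ‖ ≤ C * 4 ^ n := by
    have e0 : ∫ y in {y | s < dist y x}, χ y • rK n 0 (x - y) ∂μ =
        ∫ y in closedBall x (4 * s), ({y | s < dist y x} : Set (Eu d)).indicator
          (fun y => χ y • rK n 0 (x - y)) y ∂μ := by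
      rw [← integral_indicator hms]
      symm
      apply setIntegral_eq_integral_of_forall_compl_eq_zero
      intro y hy
      rw [mem_closedBall, not_le] at hy
      have : χ y = 0 := cut_eq_zero x h2s (by linarith only [hy])
      by_cases hy2 : y ∈ ({y | s < dist y x} : Set (Eu d))
      · rw [indicator_of_mem hy2, this, zero_smul]
      · rw [indicator_of_notMem hy2]
    rw [e0]
    have e1 : ‖∫ y in closedBall x (4 * s), ({y | s < dist y x} : Set (Eu d)).indicator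
          (fun y => χ y • rK n 0 (x - y)) y ∂μ‖ ≤ (s ^ n)⁻¹ * μ.real (closedBall x (4 * s)) := by
      apply norm_setIntegral_le_of_norm_le_const (hAR.measure_ball_lt_top x _)
      intro y _
      by_cases hy2 : y ∈ ({y | s < dist y x} : Set (Eu d))
      · rw [indicator_of_mem hy2, norm_smul, Real.norm_eq_abs]
        have hy1 : s < dist y x := hy2
        rw [dist_comm, dist_eq_norm] at hy1
        calc |χ y| * ‖rK n 0 (x - y)‖ ≤ 1 * (s ^ n)⁻¹ := by
              apply mul_le_mul (hχ1' y) _ (norm_nonneg _) zero_le_one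
              exact (norm_rK_le n 0 _).trans
                (inv_anti₀ (by positivity) (pow_le_pow_left₀ hs.le hy1.le n))
          _ = (s ^ n)⁻¹ := one_mul _
      · rw [indicator_of_notMem hy2, norm_zero]; (clear * - hs; positivity)
    refine e1.trans ?_
    have e2 : μ.real (closedBall x (4 * s)) ≤ C * (4 * s) ^ n :=
      ENNReal.toReal_le_of_le_ofReal (by positivity) (hAR.upper x (4 * s) (by (clear * - hs; positivity)))
    calc (s ^ n)⁻¹ * μ.real (closedBall x (4 * s)) ≤ (s ^ n)⁻¹ * (C * (4 * s) ^ n) :=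
          mul_le_mul_of_nonneg_left e2 (by positivity)
      _ = C * 4 ^ n := by rw [mul_pow]; (clear * - hs hC; field_simp)
  have hfin3 : form n 0 μ φ θ = form n 0 μ φ χ + form n 0 μ φ η := by
    have := form_sub_right hn hAR (μ := μ) hθ hχ hφ 0 le_rfl
    rw [← hηdef] at this
    rw [this]; abel
  set Tθ : Eu d := ∫ y in {y | s < dist y x}, θ y • rK n 0 (x - y) ∂μ with hTθ
  set Tχ : Eu d := ∫ y in {y | s < dist y x}, χ y • rK n 0 (x - y) ∂μ with hTχ
  have hfin4 : form n 0 μ φ θ - m • Tθ = form n 0 μ φ χ + (form n 0 μ φ η - m • V) - m • Tχ := by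
    rw [hfin3, hVeq, smul_sub]; abel
  rw [hfin4]
  have h4 : ‖m • Tχ‖ ≤ C * 4 ^ n * C * s ^ n := by
    rw [norm_smul, Real.norm_eq_abs, abs_of_nonneg hm0]
    calc m * ‖Tχ‖ ≤ (C * s ^ n) * (C * 4 ^ n) := mul_le_mul hmle h3 (norm_nonneg _) (by (clear * - hC hs; positivity))
      _ = _ := by ring
  calc ‖form n 0 μ φ χ + (form n 0 μ φ η - m • V) - m • Tχ‖
      ≤ ‖form n 0 μ φ χ‖ + ‖form n 0 μ φ η - m • V‖ + ‖m • Tχ‖ := by
        refine (norm_sub_le _ _).trans ?_
        exact add_le_add (norm_add_le _ _) le_rfl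
    _ ≤ _ := by linarith only [h1, h2, h4]


theorem integrableOn_away (h : AR n c C D μ) {ζ : Eu d → ℝ} (hζ : LipC ζ) (hζ1 : ∀ y, |ζ y| ≤ 1)
    (x : Eu d) {s : ℝ} (hs : 0 < s) :
    IntegrableOn (fun y => ζ y • rK n 0 (x - y)) {y | s < dist y x} μ := by
  have hfin := h.isLocallyFiniteMeasure
  have hms : MeasurableSet ({y | s < dist y x} : Set (Eu d)) :=
    measurableSet_lt measurable_const (measurable_id.dist measurable_const)
  have hmeas : Measurable (fun y => ζ y • rK n 0 (x - y)) :=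
    hζ.continuous.measurable.smul
      ((measurable_rK n 0).comp (measurable_const.sub measurable_id))
  have hfin2 : μ (({y | s < dist y x} : Set (Eu d)) ∩ tsupport ζ) ≠ ⊤ :=
    ((measure_mono inter_subset_right).trans_lt hζ.2.measure_lt_top).ne
  have h3 : IntegrableOn (fun y => ζ y • rK n 0 (x - y))
      (({y | s < dist y x} : Set (Eu d)) ∩ tsupport ζ) μ := by
    apply Measure.integrableOn_of_bounded (M := (s ^ n)⁻¹) hfin2 hmeas.aestronglyMeasurable
    rw [ae_restrict_iff' (hms.inter (isClosed_tsupport ζ).measurableSet)]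
    refine Eventually.of_forall fun y hy => ?_
    have hy1 : s < dist y x := hy.1
    rw [dist_comm, dist_eq_norm] at hy1
    rw [norm_smul, Real.norm_eq_abs]
    calc |ζ y| * ‖rK n 0 (x - y)‖ ≤ 1 * (s ^ n)⁻¹ := by
          apply mul_le_mul (hζ1 y) _ (norm_nonneg _) zero_le_one
          exact (norm_rK_le n 0 _).trans
            (inv_anti₀ (by positivity) (pow_le_pow_left₀ hs.le hy1.le n))
      _ = (s ^ n)⁻¹ := one_mul _
  apply h3.of_forall_sdiff_eq_zero hms
  intro y hy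
  have : y ∉ tsupport ζ := fun hy' => hy.2 ⟨hy.1, hy'⟩
  rw [image_eq_zero_of_notMem_tsupport this, zero_smul]

/-- the truncation as a difference of two tails -/
theorem trunc_eq_sub (h : AR n c C D μ) {θ : Eu d → ℝ} (hθ : LipC θ)
    (hθ01 : ∀ y, 0 ≤ θ y ∧ θ y ≤ 1) (x : Eu d) {s S : ℝ} (hs : 0 < s) (hsS : s ≤ S)
    (hθ1 : ∀ y, dist y x ≤ S → θ y = 1) :
    Trunc n μ s S x = (∫ y in {y | s < dist y x}, θ y • rK n 0 (x - y) ∂μ) -
      ∫ y in {y | S < dist y x}, θ y • rK n 0 (x - y) ∂μ := by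
  have hθ1' : ∀ y, |θ y| ≤ 1 := fun y => by
    rw [abs_of_nonneg (hθ01 y).1]; exact (hθ01 y).2
  have hu : ({y | s < dist y x} : Set (Eu d)) =
      {y | s < dist y x ∧ dist y x ≤ S} ∪ {y | S < dist y x} := by
    ext y
    constructor
    · intro hy
      rcases le_or_gt (dist y x) S with h1 | h1
      · exact Or.inl ⟨hy, h1⟩
      · exact Or.inr h1
    · rintro (hy | hy)
      · exact hy.1
      · exact lt_of_le_of_lt hsS hy
  have hdisj : Disjoint ({y | s < dist y x ∧ dist y x ≤ S} : Set (Eu d)) {y | S < dist y x} := by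
    rw [Set.disjoint_left]
    intro y h1 h2
    exact absurd h1.2 (not_le.2 h2)
  have hms : MeasurableSet ({y | S < dist y x} : Set (Eu d)) :=
    measurableSet_lt measurable_const (measurable_id.dist measurable_const)
  have hms2 : MeasurableSet ({y | s < dist y x ∧ dist y x ≤ S} : Set (Eu d)) :=
    (measurableSet_lt measurable_const (measurable_id.dist measurable_const)).inter
      (measurableSet_le (measurable_id.dist measurable_const) measurable_const)
  have hint := integrableOn_away h hθ hθ1' x hs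
  have hint1 := hint.mono_set (show ({y | s < dist y x ∧ dist y x ≤ S} : Set (Eu d)) ⊆
    {y | s < dist y x} from fun y hy => hy.1)
  have hint2 := integrableOn_away h hθ hθ1' x (hs.trans_le hsS)
  have h1 : ∫ y in {y | s < dist y x}, θ y • rK n 0 (x - y) ∂μ =
      (∫ y in {y | s < dist y x ∧ dist y x ≤ S}, θ y • rK n 0 (x - y) ∂μ) +
      ∫ y in {y | S < dist y x}, θ y • rK n 0 (x - y) ∂μ := by
    rw [hu]
    exact setIntegral_union hdisj hms hint1 hint2
  rw [h1, add_sub_cancel_right]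
  unfold Trunc
  apply setIntegral_congr_fun hms2
  intro y hy
  simp only
  rw [hθ1 y hy.2, one_smul]

/-- the mean zero test function -/
noncomputable def psi (μ : Measure (Eu d)) (x : Eu d) (s S : ℝ) (y : Eu d) : ℝ :=
  (∫ z, tent x s z ∂μ)⁻¹ * tent x s y - (∫ z, tent x S z ∂μ)⁻¹ * tent x S y

theorem lipC_psi (x : Eu d) {s S : ℝ} (hs : 0 < s) (hS : 0 < S) : LipC (psi μ x s S) :=
  ((lipC_tent x s hs).const_mul _).sub ((lipC_tent x S hS).const_mul _)

theorem psi_zero (x : Eu d) {s S : ℝ} (hs : 0 < s) (hsS : s ≤ S) {y : Eu d}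
    (hy : S ≤ dist y x) : psi μ x s S y = 0 := by
  unfold psi
  rw [tent_eq_zero x hs (hsS.trans hy), tent_eq_zero x (hs.trans_le hsS) hy]
  simp

theorem integral_psi (h : AR n c C D μ) {x : Eu d} (hx : x ∈ μ.support) {s S : ℝ} (hs : 0 < s)
    (hsS : s ≤ S) (hD : ENNReal.ofReal S ≤ D) : ∫ y, psi μ x s S y ∂μ = 0 := by
  have hfin := h.isLocallyFiniteMeasure
  have hc := h.c_pos
  have hS := hs.trans_le hsS
  have h1 := tent_mass_lower h hx hs ((ENNReal.ofReal_le_ofReal hsS).trans hD)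
  have h2 := tent_mass_lower h hx hS hD
  have h3 : 0 < ∫ z, tent x s z ∂μ := lt_of_lt_of_le (by (clear * - hc hs; positivity)) h1
  have h4 : 0 < ∫ z, tent x S z ∂μ := lt_of_lt_of_le (by (clear * - hc hS; positivity)) h2
  have hi1 : Integrable (tent x s) μ :=
    (lipC_tent x s hs).continuous.integrable_of_hasCompactSupport (lipC_tent x s hs).2
  have hi2 : Integrable (tent x S) μ :=
    (lipC_tent x S hS).continuous.integrable_of_hasCompactSupport (lipC_tent x S hS).2
  unfold psi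
  rw [integral_sub (hi1.const_mul _) (hi2.const_mul _), integral_const_mul, integral_const_mul,
    inv_mul_cancel₀ h3.ne', inv_mul_cancel₀ h4.ne', sub_self]

theorem integral_abs_psi_le (h : AR n c C D μ) {x : Eu d} (hx : x ∈ μ.support) {s S : ℝ}
    (hs : 0 < s) (hsS : s ≤ S) (hD : ENNReal.ofReal S ≤ D) : ∫ y, |psi μ x s S y| ∂μ ≤ 2 := by
  have hfin := h.isLocallyFiniteMeasure
  have hc := h.c_pos
  have hS := hs.trans_le hsS
  have h1 := tent_mass_lower h hx hs ((ENNReal.ofReal_le_ofReal hsS).trans hD)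
  have h2 := tent_mass_lower h hx hS hD
  have h3 : 0 < ∫ z, tent x s z ∂μ := lt_of_lt_of_le (by (clear * - hc hs; positivity)) h1
  have h4 : 0 < ∫ z, tent x S z ∂μ := lt_of_lt_of_le (by (clear * - hc hS; positivity)) h2
  have hi1 : Integrable (tent x s) μ :=
    (lipC_tent x s hs).continuous.integrable_of_hasCompactSupport (lipC_tent x s hs).2
  have hi2 : Integrable (tent x S) μ :=
    (lipC_tent x S hS).continuous.integrable_of_hasCompactSupport (lipC_tent x S hS).2
  have hψ := lipC_psi (μ := μ) x hs hS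
  have hi3 : Integrable (psi μ x s S) μ :=
    hψ.continuous.integrable_of_hasCompactSupport hψ.2
  calc ∫ y, |psi μ x s S y| ∂μ ≤ ∫ y, ((∫ z, tent x s z ∂μ)⁻¹ * tent x s y +
        (∫ z, tent x S z ∂μ)⁻¹ * tent x S y) ∂μ := by
        apply integral_mono hi3.abs ((hi1.const_mul _).add (hi2.const_mul _))
        intro y
        have e1 : 0 ≤ (∫ z, tent x s z ∂μ)⁻¹ * tent x s y :=
          mul_nonneg (inv_nonneg.2 h3.le) (tent_nonneg x s y)
        have e2 : 0 ≤ (∫ z, tent x S z ∂μ)⁻¹ * tent x S y :=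
          mul_nonneg (inv_nonneg.2 h4.le) (tent_nonneg x S y)
        show |(∫ z, tent x s z ∂μ)⁻¹ * tent x s y - (∫ z, tent x S z ∂μ)⁻¹ * tent x S y| ≤
          (∫ z, tent x s z ∂μ)⁻¹ * tent x s y + (∫ z, tent x S z ∂μ)⁻¹ * tent x S y
        rw [abs_le]
        constructor <;> linarith only [e1, e2]
    _ = 2 := by
        rw [integral_add (hi1.const_mul _) (hi2.const_mul _), integral_const_mul,
          integral_const_mul, inv_mul_cancel₀ h3.ne', inv_mul_cancel₀ h4.ne']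
        norm_num

theorem psi_lip (h : AR n c C D μ) {x : Eu d} (hx : x ∈ μ.support) {s S t : ℝ}
    (ht : 0 < t) (hts : t ≤ s) (hsS : s ≤ S) (hD : ENNReal.ofReal S ≤ D) (y z : Eu d) :
    |psi μ x s S y - psi μ x s S z| ≤ 2 * 2 ^ (n + 1) / (c * t ^ (n + 1)) * dist y z := by
  have hc := h.c_pos
  have hs := ht.trans_le hts
  have hS := hs.trans_le hsS
  have key : ∀ u : ℝ, t ≤ u → ENNReal.ofReal u ≤ D →
      |(∫ z, tent x u z ∂μ)⁻¹ * tent x u y - (∫ z, tent x u z ∂μ)⁻¹ * tent x u z| ≤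
        2 ^ (n + 1) / (c * t ^ (n + 1)) * dist y z := by
    intro u htu huD
    have hu := ht.trans_le htu
    have h1 := tent_mass_lower h hx hu huD
    have h2 : 0 < c / 2 ^ (n + 1) * t ^ n := by (clear * - hc ht; positivity)
    have h3 : c / 2 ^ (n + 1) * t ^ n ≤ ∫ z, tent x u z ∂μ := by
      refine le_trans ?_ h1
      apply mul_le_mul_of_nonneg_left _ (by (clear * - hc; positivity))
      exact pow_le_pow_left₀ ht.le htu n
    have h4 : 0 < ∫ z, tent x u z ∂μ := h2.trans_le h3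
    rw [← mul_sub, abs_mul, abs_of_nonneg (inv_nonneg.2 h4.le)]
    have h5 := tent_lip x hu y z
    have h6 : (1 / u : ℝ) ≤ 1 / t := one_div_le_one_div_of_le ht htu
    calc (∫ z, tent x u z ∂μ)⁻¹ * |tent x u y - tent x u z|
        ≤ (c / 2 ^ (n + 1) * t ^ n)⁻¹ * (1 / t * dist y z) := by
          apply mul_le_mul (inv_anti₀ h2 h3) _ (abs_nonneg _) (by (clear * - hc ht; positivity))
          exact h5.trans (mul_le_mul_of_nonneg_right h6 dist_nonneg)
      _ = 2 ^ (n + 1) / (c * t ^ (n + 1)) * dist y z := by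
          rw [pow_succ t n]
          (clear * - ht hc; field_simp)
  have e1 := key s hts ((ENNReal.ofReal_le_ofReal hsS).trans hD)
  have e2 := key S (hts.trans hsS) hD
  have e3 : psi μ x s S y - psi μ x s S z =
      ((∫ z, tent x s z ∂μ)⁻¹ * tent x s y - (∫ z, tent x s z ∂μ)⁻¹ * tent x s z) -
      ((∫ z, tent x S z ∂μ)⁻¹ * tent x S y - (∫ z, tent x S z ∂μ)⁻¹ * tent x S z) := by
    unfold psi; ring
  rw [e3]
  refine (abs_sub _ _).trans ?_
  have e4 : 2 * 2 ^ (n + 1) / (c * t ^ (n + 1)) * dist y z =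
      2 ^ (n + 1) / (c * t ^ (n + 1)) * dist y z + 2 ^ (n + 1) / (c * t ^ (n + 1)) * dist y z := by
    ring
  rw [e4]
  exact add_le_add e1 e2

/-- the truncation is the form paired with `psi` up to `O(1)` -/
theorem trunc_form (n : ℕ) (hn : 1 ≤ n) (c C : ℝ) (hc : 0 < c) (hC : 0 < C) : ∃ C' : ℝ, 0 < C' ∧
    ∀ (d : ℕ) (D : ℝ≥0∞) (μ : Measure (Eu d)), AR n c C D μ →
    ∀ x ∈ μ.support, ∀ (s S : ℝ) (θ : Eu d → ℝ), 0 < s → s ≤ S → ENNReal.ofReal S ≤ D →
      LipC θ → (∀ y, 0 ≤ θ y ∧ θ y ≤ 1) → (∀ y, dist y x ≤ 4 * S → θ y = 1) →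
      ‖Trunc n μ s S x - form n 0 μ (psi μ x s S) θ‖ ≤ C' := by
  obtain ⟨C₁, hC₁, H⟩ := trunc_compare n hn C hC
  refine ⟨2 * (C₁ * 2 ^ (n + 1) / c), by (clear * - hC₁ hc; positivity),
    fun d D μ hAR x hx s S θ hs hsS hSD hθ hθ01 hθ1 => ?_⟩
  have hS := hs.trans_le hsS
  have key : ∀ u : ℝ, 0 < u → u ≤ S →
      ‖(∫ y in {y | u < dist y x}, θ y • rK n 0 (x - y) ∂μ) -
        (∫ z, tent x u z ∂μ)⁻¹ • form n 0 μ (tent x u) θ‖ ≤ C₁ * 2 ^ (n + 1) / c := by
    intro u hu huS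
    have h1 := tent_mass_lower hAR hx hu ((ENNReal.ofReal_le_ofReal huS).trans hSD)
    have h2 : 0 < c / 2 ^ (n + 1) * u ^ n := by (clear * - hc hu; positivity)
    have h4 : 0 < ∫ z, tent x u z ∂μ := h2.trans_le h1
    have h5 := H d c D μ hAR x u θ hu hθ hθ01 (fun y hy => hθ1 y (hy.trans (by linarith only [huS])))
    set T : Eu d := ∫ y in {y | u < dist y x}, θ y • rK n 0 (x - y) ∂μ with hT
    set m : ℝ := ∫ z, tent x u z ∂μ with hm
    have h6 : T - m⁻¹ • form n 0 μ (tent x u) θ =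
        -(m⁻¹ • (form n 0 μ (tent x u) θ - m • T)) := by
      rw [smul_sub, smul_smul, inv_mul_cancel₀ h4.ne', one_smul]; abel
    rw [h6, norm_neg, norm_smul, Real.norm_eq_abs, abs_of_nonneg (inv_nonneg.2 h4.le)]
    calc m⁻¹ * ‖form n 0 μ (tent x u) θ - m • T‖
        ≤ (c / 2 ^ (n + 1) * u ^ n)⁻¹ * (C₁ * u ^ n) :=
          mul_le_mul (inv_anti₀ h2 h1) h5 (norm_nonneg _) (by (clear * - hc hu; positivity))
      _ = C₁ * 2 ^ (n + 1) / c := by (clear * - hu hC₁ hc; field_simp)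
  have hpsi : form n 0 μ (psi μ x s S) θ =
      (∫ z, tent x s z ∂μ)⁻¹ • form n 0 μ (tent x s) θ -
      (∫ z, tent x S z ∂μ)⁻¹ • form n 0 μ (tent x S) θ := by
    rw [← form_smul_left, ← form_smul_left]
    exact form_sub_left hn hAR ((lipC_tent x s hs).const_mul _) ((lipC_tent x S hS).const_mul _)
      hθ 0 le_rfl
  rw [hpsi, trunc_eq_sub hAR hθ hθ01 x hs hsS (fun y hy => hθ1 y (by linarith only [hs, hsS, hy]))]
  have e1 := key s hs hsS
  have e2 := key S hS le_rfl
  set Ts : Eu d := ∫ y in {y | s < dist y x}, θ y • rK n 0 (x - y) ∂μ with hTs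
  set TS : Eu d := ∫ y in {y | S < dist y x}, θ y • rK n 0 (x - y) ∂μ with hTS
  have e3 : Ts - TS - ((∫ z, tent x s z ∂μ)⁻¹ • form n 0 μ (tent x s) θ -
      (∫ z, tent x S z ∂μ)⁻¹ • form n 0 μ (tent x S) θ) =
      (Ts - (∫ z, tent x s z ∂μ)⁻¹ • form n 0 μ (tent x s) θ) -
      (TS - (∫ z, tent x S z ∂μ)⁻¹ • form n 0 μ (tent x S) θ) := by abel
  rw [e3]
  refine (norm_sub_le _ _).trans ?_
  linarith only [e1, e2]

end TruncAux

open TruncAux

/-- Lemma 2 (b). The bound `Ct` does not depend on `ρ`. -/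
theorem trunc_bound (n d : ℕ) (hn : 1 ≤ n) (c C : ℝ) (hc : 0 < c) (hC : 0 < C) :
    ∃ Ct : ℝ, 0 < Ct ∧ ∀ ρ : ℝ, 0 < ρ → ρ ≤ 1 → ∃ M : ℝ, 1 ≤ M ∧
    ∀ M' : ℝ, M ≤ M' → ∀ (μ : Measure (Eu d)) (D : ℝ≥0∞), AR n c C D μ →
    ∀ (a : Eu d) (r : ℝ) (θ : Eu d → ℝ), 0 < r → ENNReal.ofReal r ≤ D → LipC θ →
      (∀ x, 0 ≤ θ x ∧ θ x ≤ 1) → (∀ x, dist x a ≤ 8 * r → θ x = 1) → Good n M' μ θ a r →
    ∀ x ∈ μ.support, dist x a < r → ∀ s S : ℝ, ρ * r ≤ s → s ≤ S → S ≤ r →
      ‖Trunc n μ s S x‖ ≤ Ct := by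
  obtain ⟨C₁, hC₁, H⟩ := trunc_form n hn c C hc hC
  refine ⟨C₁ + 1, by (clear * - hC₁; positivity), fun ρ hρ hρ1 => ?_⟩
  set Λ : ℝ := 2 * 2 ^ (n + 1) / (c * ρ ^ (n + 1)) with hΛ
  have hΛ0 : 0 < Λ := by (clear * - hc hρ; positivity)
  refine ⟨max 2 Λ, le_trans (by norm_num) (le_max_left _ _), ?_⟩
  intro M' hM μ D hAR a r θ hr hrD hθ hθ01 hθ1 hgood x hx hxa s S hs hsS hSr
  have hM2 : 2 ≤ M' := (le_max_left _ _).trans hM
  have hMΛ : Λ ≤ M' := (le_max_right _ _).trans hM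
  have hM0 : 0 < M' := by linarith only [hM2]
  have hρr : 0 < ρ * r := by (clear * - hρ hr; positivity)
  have hs0 : 0 < s := hρr.trans_le hs
  have hS0 : 0 < S := hs0.trans_le hsS
  have hSD : ENNReal.ofReal S ≤ D := (ENNReal.ofReal_le_ofReal hSr).trans hrD
  have h1 := H d D μ hAR x hx s S θ hs0 hsS hSD hθ hθ01 (fun y hy => hθ1 y (by
    have := dist_triangle y x a
    linarith only [hr, hxa, hSr, hy, this]))
  have hlip := fun y z => psi_lip hAR hx hρr hs hsS hSD y z
  have hΛr : 2 * 2 ^ (n + 1) / (c * (ρ * r) ^ (n + 1)) = Λ / r ^ (n + 1) := by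
    rw [hΛ, mul_pow]; field_simp
  -- normalised test function
  have h2 := hgood (fun y => (M' * r ^ n / Λ) * psi μ x s S y) ?_ ?_ ?_
  · rw [form_smul_left, norm_smul, Real.norm_eq_abs,
      abs_of_nonneg (show 0 ≤ M' * r ^ n / Λ by (clear * - hM2 hr hc hρ; positivity))] at h2
    have h3 : ‖form n 0 μ (psi μ x s S) θ‖ ≤ 1 := by
      have h4 : M' * r ^ n / Λ * ‖form n 0 μ (psi μ x s S) θ‖ ≤ M' * r ^ n / Λ * 1 := by
        refine h2.trans ?_
        rw [mul_one, div_le_div_iff₀ hM0 hΛ0]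
        have : Λ ≤ M' * M' := by nlinarith only [hM2, hMΛ]
        calc r ^ n * Λ ≤ r ^ n * (M' * M') := mul_le_mul_of_nonneg_left this (by (clear * - hr; positivity))
          _ = M' * r ^ n * M' := by ring
      exact le_of_mul_le_mul_left h4 (by (clear * - hM2 hr hc hρ; positivity))
    have h4 : Trunc n μ s S x = (Trunc n μ s S x - form n 0 μ (psi μ x s S) θ) +
        form n 0 μ (psi μ x s S) θ := by abel
    rw [h4]
    exact (norm_add_le _ _).trans (add_le_add h1 h3)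
  · intro y z
    rw [← mul_sub, abs_mul, abs_of_nonneg (show 0 ≤ M' * r ^ n / Λ by (clear * - hc hρ hr hM2; positivity))]
    calc M' * r ^ n / Λ * |psi μ x s S y - psi μ x s S z|
        ≤ M' * r ^ n / Λ * (Λ / r ^ (n + 1) * dist y z) := by
          apply mul_le_mul_of_nonneg_left _ (by (clear * - hM2 hr hc hρ; positivity))
          rw [← hΛr]
          exact hlip y z
      _ = M' / r * dist y z := by
          rw [pow_succ r n]; (clear * - hΛ0 hr hM2; field_simp)
  · intro y hy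
    rw [psi_zero x hs0 hsS, mul_zero]
    have h5 := dist_triangle y x a
    have h6 : 2 * r ≤ M' * r := mul_le_mul_of_nonneg_right hM2 hr.le
    linarith only [hxa, hSr, hy, h5, h6]
  · rw [integral_const_mul, integral_psi hAR hx hs0 hsS hSD, mul_zero]

/-- the same for exactly reflectionless measures, all scales -/
theorem trunc_bound_ER (n d : ℕ) (hn : 1 ≤ n) (c C C₂ : ℝ) (hc : 0 < c) (hC : 0 < C) :
    ∃ Ct : ℝ, 0 < Ct ∧ ∀ (μ : Measure (Eu d)), AR n c C ⊤ μ → ER n C₂ μ →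
    ∀ x ∈ μ.support, ∀ s S : ℝ, 0 < s → s ≤ S → ‖Trunc n μ s S x‖ ≤ Ct := by
  obtain ⟨C₁, hC₁, H⟩ := trunc_form n hn c C hc hC
  refine ⟨C₁ + |C₂|, by (clear * - hC₁; positivity), fun μ hAR hER x hx s S hs hsS => ?_⟩
  have hS := hs.trans_le hsS
  have h4S : 0 < 4 * S := by (clear * - hS; positivity)
  have h1 := H d ⊤ μ hAR x hx s S (cut x (4 * S)) hs hsS le_top (lipC_cut x _ h4S)
    (fun y => ⟨cut_nonneg x _ y, cut_le_one x _ y⟩) (fun y hy => cut_eq_one x h4S hy)
  have h2 := hER.2 x S (4 * S) (psi μ x s S) (cut x (4 * S)) hS (by linarith only [hs, hsS])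
    (lipC_psi x hs hS) (fun y hy => psi_zero x hs hsS hy.le) (integral_psi hAR hx hs hsS le_top)
    (lipC_cut x _ h4S) (fun y => ⟨cut_nonneg x _ y, cut_le_one x _ y⟩)
    (fun y hy => cut_eq_one x h4S hy)
  have h3 := integral_abs_psi_le hAR hx hs hsS le_top
  have h4 : ‖form n 0 μ (psi μ x s S) (cut x (4 * S))‖ ≤ |C₂| := by
    refine h2.trans ?_
    have h5 : S / (4 * S) = 1 / 4 := by (clear * - hS; field_simp)
    rw [h5, abs_of_nonneg hER.1]
    have := hER.1
    have h6 : 0 ≤ ∫ y, |psi μ x s S y| ∂μ := integral_nonneg fun y => abs_nonneg _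
    nlinarith only [h3, this]
  have h5 : Trunc n μ s S x = (Trunc n μ s S x - form n 0 μ (psi μ x s S) (cut x (4 * S))) +
      form n 0 μ (psi μ x s S) (cut x (4 * S)) := by abel
  rw [h5]
  exact (norm_add_le _ _).trans (add_le_add h1 h4)

end Vale.Agent.P120
end
end

section

section

/-! Reduction of planar measures in the class `Lim` to measures on `R^n`. -/

open MeasureTheory Metric Set Filter Topology
open scoped ENNReal NNReal

namespace Vale.Agent.P120

namespace Plane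

variable {d n : ℕ}

/-- embedding of `R^n` onto the affine plane `b + W` -/
noncomputable def jj (ι : Eu n →ₗᵢ[ℝ] Eu d) (b : Eu d) (v : Eu n) : Eu d := b + ι v

/-- orthogonal projection to the affine plane, in coordinates -/
noncomputable def pp (ι : Eu n →ₗᵢ[ℝ] Eu d) (b x : Eu d) : Eu n :=
  ContinuousLinearMap.adjoint ι.toContinuousLinearMap (x - b)

variable (ι : Eu n →ₗᵢ[ℝ] Eu d) (b : Eu d)

theorem adj_apply (v : Eu n) : ContinuousLinearMap.adjoint ι.toContinuousLinearMap (ι v) = v := by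
  apply ext_inner_left ℝ
  intro w
  rw [ContinuousLinearMap.adjoint_inner_right]
  exact ι.inner_map_map w v

theorem pp_jj (v : Eu n) : pp ι b (jj ι b v) = v := by
  unfold pp jj
  rw [add_sub_cancel_left, adj_apply]

theorem dist_jj (v w : Eu n) : dist (jj ι b v) (jj ι b w) = dist v w := by
  unfold jj
  rw [dist_add_left, ι.dist_map]

theorem isometry_jj : Isometry (jj ι b) := Isometry.of_dist_eq (dist_jj ι b)

theorem adj_norm_le (x : Eu d) :
    ‖ContinuousLinearMap.adjoint ι.toContinuousLinearMap x‖ ≤ ‖x‖ := by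
  have h1 := (ContinuousLinearMap.adjoint ι.toContinuousLinearMap).le_opNorm x
  have h2 : ‖ContinuousLinearMap.adjoint ι.toContinuousLinearMap‖ ≤ 1 := by
    rw [LinearIsometryEquiv.norm_map]
    exact ι.norm_toContinuousLinearMap_le
  nlinarith [norm_nonneg x]

theorem dist_pp_le (x y : Eu d) : dist (pp ι b x) (pp ι b y) ≤ dist x y := by
  unfold pp
  rw [dist_eq_norm, ← map_sub, dist_eq_norm]
  have : x - b - (y - b) = x - y := by abel
  rw [this]
  exact adj_norm_le ι _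

/-- distance to the plane -/
noncomputable def tt (x : Eu d) : ℝ := dist x (jj ι b (pp ι b x))

theorem tt_nonneg (x : Eu d) : 0 ≤ tt ι b x := dist_nonneg

theorem tt_jj (v : Eu n) : tt ι b (jj ι b v) = 0 := by
  unfold tt; rw [pp_jj, dist_self]

theorem tt_lip (x y : Eu d) : |tt ι b x - tt ι b y| ≤ 2 * dist x y := by
  unfold tt
  have h1 := dist_jj ι b (pp ι b x) (pp ι b y)
  have h2 := dist_pp_le ι b x y
  have h3 : |dist x (jj ι b (pp ι b x)) - dist y (jj ι b (pp ι b y))| ≤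
      dist x y + dist (jj ι b (pp ι b x)) (jj ι b (pp ι b y)) := dist_dist_dist_le _ _ _ _
  linarith only [h1, h2, h3]

theorem dist_le_tt (x : Eu d) (v : Eu n) : dist x (jj ι b v) ≤ tt ι b x + dist (pp ι b x) v := by
  unfold tt
  have := dist_triangle x (jj ι b (pp ι b x)) (jj ι b v)
  rwa [dist_jj] at this

/-- soft threshold -/
noncomputable def soft (u s : ℝ) : ℝ := max (u - s) 0 + min (u + s) 0

theorem soft_zero (u : ℝ) : soft u 0 = u := by
  unfold soft
  rw [sub_zero, add_zero, max_add_min]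
  ring

theorem soft_eq_zero {u s : ℝ} (h : |u| ≤ s) : soft u s = 0 := by
  unfold soft
  rw [abs_le] at h
  rw [max_eq_right (by linarith), min_eq_right (by linarith only [h])]
  ring

theorem soft_lip (u s u' s' : ℝ) : |soft u s - soft u' s'| ≤ 2 * (|u - u'| + |s - s'|) := by
  unfold soft
  have h1 : |max (u - s) 0 - max (u' - s') 0| ≤ |u - s - (u' - s')| := abs_max_sub_max_le_abs _ _ _
  have h2 : |min (u + s) 0 - min (u' + s') 0| ≤ |u + s - (u' + s')| := by
    have := abs_min_sub_min_le_max (u + s) 0 (u' + s') 0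
    simpa only [ge_iff_le, sub_self, abs_zero, abs_nonneg, sup_of_le_left] using this
  have h3 : |u - s - (u' - s')| ≤ |u - u'| + |s - s'| := by
    have : u - s - (u' - s') = (u - u') - (s - s') := by ring
    rw [this]; exact abs_sub _ _
  have h4 : |u + s - (u' + s')| ≤ |u - u'| + |s - s'| := by
    have : u + s - (u' + s') = (u - u') + (s - s') := by ring
    rw [this]; exact abs_add_le _ _
  have h5 : max (u - s) 0 + min (u + s) 0 - (max (u' - s') 0 + min (u' + s') 0) =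
      (max (u - s) 0 - max (u' - s') 0) + (min (u + s) 0 - min (u' + s') 0) := by ring
  rw [h5]
  have h6 := abs_add_le (max (u - s) 0 - max (u' - s') 0) (min (u + s) 0 - min (u' + s') 0)
  linarith only [h1, h2, h3, h4, h6]

theorem emb : MeasurableEmbedding (jj ι b) :=
  (isometry_jj ι b).isClosedEmbedding.measurableEmbedding

theorem map_comap_jj {ν : Measure (Eu d)} (hs : ∀ x ∈ ν.support, x ∈ range (jj ι b)) :
    (ν.comap (jj ι b)).map (jj ι b) = ν := by
  rw [(emb ι b).map_comap]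
  apply Measure.restrict_eq_self_of_ae_mem
  have h := Measure.measure_compl_support (μ := ν)
  rw [ae_iff]
  refine measure_mono_null (fun x hx => ?_) h
  exact fun hx' => hx (hs x hx')

theorem comap_apply_jj {ν : Measure (Eu d)} (hs : ∀ x ∈ ν.support, x ∈ range (jj ι b))
    (T : Set (Eu d)) : (ν.comap (jj ι b)) (jj ι b ⁻¹' T) = ν T := by
  rw [← (emb ι b).map_apply, map_comap_jj ι b hs]

theorem integral_comap_jj {E : Type*} [NormedAddCommGroup E] [NormedSpace ℝ E]
    {ν : Measure (Eu d)} (hs : ∀ x ∈ ν.support, x ∈ range (jj ι b)) (F : Eu d → E) :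
    ∫ v, F (jj ι b v) ∂(ν.comap (jj ι b)) = ∫ x, F x ∂ν := by
  rw [← (emb ι b).integral_map, map_comap_jj ι b hs]

theorem preimage_ball_jj (v : Eu n) (r : ℝ) : jj ι b ⁻¹' ball (jj ι b v) r = ball v r := by
  ext w; rw [mem_preimage, mem_ball, mem_ball, dist_jj]

theorem preimage_closedBall_jj (v : Eu n) (r : ℝ) :
    jj ι b ⁻¹' closedBall (jj ι b v) r = closedBall v r := by
  ext w; rw [mem_preimage, mem_closedBall, mem_closedBall, dist_jj]

theorem comap_ball {ν : Measure (Eu d)} (hs : ∀ x ∈ ν.support, x ∈ range (jj ι b)) (v : Eu n)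
    (r : ℝ) : (ν.comap (jj ι b)) (ball v r) = ν (ball (jj ι b v) r) := by
  rw [← comap_apply_jj ι b hs, preimage_ball_jj]

theorem comap_closedBall {ν : Measure (Eu d)} (hs : ∀ x ∈ ν.support, x ∈ range (jj ι b))
    (v : Eu n) (r : ℝ) : (ν.comap (jj ι b)) (closedBall v r) = ν (closedBall (jj ι b v) r) := by
  rw [← comap_apply_jj ι b hs, preimage_closedBall_jj]

theorem mem_support_comap {ν : Measure (Eu d)} (hs : ∀ x ∈ ν.support, x ∈ range (jj ι b))
    (v : Eu n) : v ∈ (ν.comap (jj ι b)).support ↔ jj ι b v ∈ ν.support := by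
  rw [nhds_basis_ball.mem_measureSupport, nhds_basis_ball.mem_measureSupport]
  simp_rw [comap_ball ι b hs]

theorem sK_iso (n' : ℕ) (e : ℝ) (z : Eu n) : sK n' e (ι z) = sK n' e z := by
  unfold sK; rw [ι.norm_map]

theorem rK_jj (n' : ℕ) (e : ℝ) (v w : Eu n) :
    rK n' e (jj ι b v - jj ι b w) = ι (rK n' e (v - w)) := by
  have : jj ι b v - jj ι b w = ι (v - w) := by
    unfold jj; rw [map_sub]; abel
  rw [this, rK, rK, sK_iso, map_smul]

theorem form_comap {ν : Measure (Eu d)} (hs : ∀ x ∈ ν.support, x ∈ range (jj ι b))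
    [SFinite (ν.comap (jj ι b))] (n' : ℕ) (e : ℝ) (F G : Eu d → ℝ) :
    form n' e ν F G = ι (form n' e (ν.comap (jj ι b)) (fun v => F (jj ι b v))
      (fun v => G (jj ι b v))) := by
  have hE := emb ι b
  have h1 : ν.prod ν = ((ν.comap (jj ι b)).prod (ν.comap (jj ι b))).map
      (Prod.map (jj ι b) (jj ι b)) := by
    rw [← Measure.map_prod_map _ _ hE.measurable hE.measurable, map_comap_jj ι b hs]
  have hE2 : MeasurableEmbedding (Prod.map (jj ι b) (jj ι b)) := hE.prodMap hE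
  unfold form
  rw [h1, hE2.integral_map, map_smul, ← LinearIsometry.integral_comp_comm]
  congr 1
  apply integral_congr_ae
  refine Eventually.of_forall fun p => ?_
  simp only [Prod.map_fst, Prod.map_snd]
  rw [rK_jj, map_smul]

theorem ar_comap {ν : Measure (Eu d)} (hs : ∀ x ∈ ν.support, x ∈ range (jj ι b)) {c C : ℝ}
    {n' : ℕ} (h : AR n' c C ⊤ ν) : AR n' c C ⊤ (ν.comap (jj ι b)) where
  c_pos := h.c_pos
  C_pos := h.C_pos
  upper := fun x r hr => by rw [comap_closedBall ι b hs]; exact h.upper _ r hr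
  lower := fun x hx r hr hD => by
    rw [comap_ball ι b hs]
    exact h.lower _ ((mem_support_comap ι b hs x).mp hx) r hr hD

theorem rb_comap {ν : Measure (Eu d)} (hs : ∀ x ∈ ν.support, x ∈ range (jj ι b))
    [SFinite (ν.comap (jj ι b))] {n' : ℕ} {C₁ : ℝ} (h : RB n' C₁ ν) : RB n' C₁ (ν.comap (jj ι b)) := by
  refine ⟨h.1, fun e he ψ θ hψ hψc hθ hθc => ?_⟩
  have hpp : Continuous (pp ι b) := by
    have : LipschitzWith 1 (pp ι b) := LipschitzWith.of_dist_le_mul (by simpa only [NNReal.coe_one, one_mul] using dist_pp_le ι b)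
    exact this.continuous
  have htt : Continuous (tt ι b) := by
    have : LipschitzWith 2 (tt ι b) := LipschitzWith.of_dist_le_mul (fun x y => by
      simpa only [Real.dist_eq, NNReal.coe_ofNat] using tt_lip ι b x y)
    exact this.continuous
  -- extension
  have ext : ∀ φ : Eu n → ℝ, Continuous φ → HasCompactSupport φ →
      Continuous (fun x => φ (pp ι b x) * max 0 (1 - tt ι b x)) ∧
      HasCompactSupport (fun x => φ (pp ι b x) * max 0 (1 - tt ι b x)) ∧
      ∀ v, (fun x => φ (pp ι b x) * max 0 (1 - tt ι b x)) (jj ι b v) = φ v := by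
    intro φ hφ hφc
    refine ⟨(hφ.comp hpp).mul (continuous_const.max (continuous_const.sub htt)), ?_, ?_⟩
    · obtain ⟨r, hr⟩ := hφc.isCompact.isBounded.subset_closedBall (0 : Eu n)
      apply HasCompactSupport.intro (isCompact_closedBall (jj ι b 0) (1 + r))
      intro x hx
      by_contra hne
      apply hx
      have h1 : φ (pp ι b x) ≠ 0 := left_ne_zero_of_mul hne
      have h2 : max 0 (1 - tt ι b x) ≠ 0 := right_ne_zero_of_mul hne
      have h3 : dist (pp ι b x) 0 ≤ r := hr (subset_tsupport _ h1)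
      have h4 : tt ι b x ≤ 1 := by
        by_contra hc
        push Not at hc
        exact h2 (max_eq_left (by linarith only [hc]))
      have := dist_le_tt ι b x 0
      rw [mem_closedBall]
      linarith only [h3, h4, this]
    · intro v
      simp only [pp_jj, tt_jj]
      simp only [sub_zero, zero_le_one, sup_of_le_right, mul_one]
  obtain ⟨a1, a2, a3⟩ := ext ψ hψ hψc
  obtain ⟨b1, b2, b3⟩ := ext θ hθ hθc
  have key := h.2 e he _ _ a1 a2 b1 b2
  rw [form_comap ι b hs, ι.norm_map] at key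
  simp only [a3, b3] at key
  rw [← integral_comap_jj ι b hs, ← integral_comap_jj ι b hs] at key
  simp only [a3, b3] at key
  exact key

theorem exists_far (hn : 1 ≤ n) (a v : Eu n) {R : ℝ} (hR : 0 < R) :
    ∃ v' : Eu n, dist v' a = R ∧ dist v v' ≤ |R - dist v a| := by
  have := Liou.nontrivial_Eu hn
  by_cases hva : v = a
  · obtain ⟨u, hu⟩ := exists_norm_eq (Eu n) hR.le
    refine ⟨a + u, by simp [dist_eq_norm, hu], ?_⟩
    rw [hva, dist_self, sub_zero, abs_of_pos hR]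
    simp only [dist_eq_norm, sub_add_cancel_left, norm_neg, hu, Std.le_refl]
  · have hd : 0 < dist v a := dist_pos.mpr hva
    refine ⟨a + (R / dist v a) • (v - a), ?_, ?_⟩
    · rw [dist_eq_norm, add_sub_cancel_left, norm_smul, ← dist_eq_norm, Real.norm_eq_abs,
        abs_of_pos (by (clear * - hR hd; positivity)), div_mul_cancel₀ _ hd.ne']
    · have e : v - (a + (R / dist v a) • (v - a)) = (1 - R / dist v a) • (v - a) := by
        rw [sub_smul, one_smul]; abel
      rw [dist_eq_norm v, e, norm_smul, Real.norm_eq_abs, ← dist_eq_norm v a]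
      apply le_of_eq
      rw [← abs_of_pos hd, ← abs_mul, abs_of_pos hd, sub_mul, one_mul, div_mul_cancel₀ _ hd.ne',
        abs_sub_comm]

theorem er_comap (hn : 1 ≤ n) {ν : Measure (Eu d)} (hs : ∀ x ∈ ν.support, x ∈ range (jj ι b))
    [SFinite (ν.comap (jj ι b))] {n' : ℕ} {C₂ : ℝ} (h : ER n' C₂ ν) : ER n' C₂ (ν.comap (jj ι b)) := by
  refine ⟨h.1, fun a R S ψ θ hR hRS hψ hψR hψ0 hθ hθ01 hθ1 => ?_⟩
  have hS : 0 < S := by linarith only [hR, hRS]
  obtain ⟨⟨L, hL⟩, hψc⟩ := hψ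
  obtain ⟨⟨K, hK⟩, hθc⟩ := hθ
  have hLd : ∀ v w, |ψ v - ψ w| ≤ L * dist v w := fun v w => by
    have := hL.dist_le_mul v w; rwa [Real.dist_eq] at this
  have hKd : ∀ v w, |θ v - θ w| ≤ K * dist v w := fun v w => by
    have := hK.dist_le_mul v w; rwa [Real.dist_eq] at this
  have hL0 : (0 : ℝ) ≤ L := L.2
  have hK0 : (0 : ℝ) ≤ K := K.2
  have hψb : ∀ v, dist v a ≤ R → |ψ v| ≤ L * (R - dist v a) := by
    intro v hv
    have h1 : ∀ δ : ℝ, 0 < δ → |ψ v| ≤ L * (R - dist v a) + L * δ := by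
      intro δ hδ
      obtain ⟨v', h2, h3⟩ := exists_far hn a v (R := R + δ) (by linarith only [hR, hδ])
      have h4 := hLd v v'
      rw [hψR v' (by linarith only [hδ, h2]), sub_zero] at h4
      rw [abs_of_nonneg (by linarith only [hv, hδ])] at h3
      calc _ ≤ _ := h4
        _ ≤ L * (R + δ - dist v a) := by (clear * - h3; gcongr)
        _ = _ := by ring
    by_contra hc
    push Not at hc
    rcases eq_or_lt_of_le hL0 with h0 | hpos
    · have := h1 1 one_pos
      rw [← h0] at this hc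
      linarith only [hc, this]
    · have := h1 ((|ψ v| - L * (R - dist v a)) / (2 * L)) (by
        apply div_pos <;> linarith only [hc, hpos])
      have e : (L : ℝ) * ((|ψ v| - L * (R - dist v a)) / (2 * L)) =
          (|ψ v| - L * (R - dist v a)) / 2 := by (clear * - hc hpos; field_simp)
      rw [e] at this
      linarith only [hc, this]
  set F : Eu d → ℝ := fun x => soft (ψ (pp ι b x)) (L * tt ι b x) with hF
  obtain ⟨T, hT, hTz⟩ := LipC.exists_ball ⟨⟨K, hK⟩, hθc⟩ a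
  set T' : ℝ := max S T with hT'
  have hT'0 : 0 < T' := lt_max_of_lt_left hS
  set G : Eu d → ℝ := fun x => θ (pp ι b x) * cut (jj ι b a) T' x with hG
  have hFj : ∀ v, F (jj ι b v) = ψ v := by
    intro v; simp only [hF, pp_jj, tt_jj, mul_zero, soft_zero]
  have hGj : ∀ v, G (jj ι b v) = θ v := by
    intro v
    simp only [hG, pp_jj]
    rcases le_or_gt (dist v a) T' with h1 | h1
    · rw [TruncAux.cut_eq_one _ hT'0 (by rw [dist_jj]; exact h1), mul_one]
    · rw [hTz v (lt_of_le_of_lt (le_max_right _ _) h1), zero_mul]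
  have hFR : ∀ x, R < dist x (jj ι b a) → F x = 0 := by
    intro x hx
    apply soft_eq_zero
    rcases lt_or_ge R (dist (pp ι b x) a) with h1 | h1
    · rw [hψR _ h1, abs_zero]
      exact mul_nonneg hL0 (tt_nonneg ι b x)
    · refine (hψb _ h1).trans ?_
      have := dist_le_tt ι b x a
      gcongr
      linarith only [hx, this]
  have hFlip : ∀ x y, |F x - F y| ≤ (6 * L) * dist x y := by
    intro x y
    have h1 := soft_lip (ψ (pp ι b x)) (L * tt ι b x) (ψ (pp ι b y)) (L * tt ι b y)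
    have h2 := hLd (pp ι b x) (pp ι b y)
    have h3 := dist_pp_le ι b x y
    have h4 := tt_lip ι b x y
    rw [← mul_sub, abs_mul, abs_of_nonneg hL0] at h1
    have h5 : (L : ℝ) * dist (pp ι b x) (pp ι b y) ≤ L * dist x y := by (clear * - h3; gcongr)
    have h6 : (L : ℝ) * |tt ι b x - tt ι b y| ≤ L * (2 * dist x y) := by (clear * - h4; (clear * - h4; gcongr))
    calc |F x - F y| ≤ _ := h1
      _ ≤ 2 * (L * dist x y + L * (2 * dist x y)) := by linarith only [h2, h5, h6]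
      _ = _ := by ring
  have hFc : LipC F := lipC_of_bound (a := jj ι b a) (R := R + 1) hFlip
    (fun x hx => hFR x (by linarith only [hx]))
  have hGlip : ∀ x y, |G x - G y| ≤ (K + 1 / T') * dist x y := by
    intro x y
    have e1 : G x - G y = (θ (pp ι b x) - θ (pp ι b y)) * cut (jj ι b a) T' x +
        θ (pp ι b y) * (cut (jj ι b a) T' x - cut (jj ι b a) T' y) := by
      simp only [hG]; ring
    have h1 := hKd (pp ι b x) (pp ι b y)
    have h2 := dist_pp_le ι b x y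
    have h3 := TruncAux.cut_lip (jj ι b a) hT'0 x y
    have h4 := TruncAux.cut_nonneg (jj ι b a) T' x
    have h5 := TruncAux.cut_le_one (jj ι b a) T' x
    obtain ⟨h6, h7⟩ := hθ01 (pp ι b y)
    have h8 : (K : ℝ) * dist (pp ι b x) (pp ι b y) ≤ K * dist x y := by (clear * - h2; (clear * - h2; gcongr))
    rw [e1]
    calc _ ≤ |(θ (pp ι b x) - θ (pp ι b y)) * cut (jj ι b a) T' x| +
          |θ (pp ι b y) * (cut (jj ι b a) T' x - cut (jj ι b a) T' y)| := abs_add_le _ _
      _ = |θ (pp ι b x) - θ (pp ι b y)| * cut (jj ι b a) T' x +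
          θ (pp ι b y) * |cut (jj ι b a) T' x - cut (jj ι b a) T' y| := by
          rw [abs_mul, abs_mul, abs_of_nonneg h4, abs_of_nonneg h6]
      _ ≤ (K * dist x y) * 1 + 1 * (1 / T' * dist x y) := by
          apply add_le_add
          · exact mul_le_mul (h1.trans h8) h5 h4 (by (clear * -; (clear * -; positivity)))
          · exact mul_le_mul h7 h3 (abs_nonneg _) zero_le_one
      _ = _ := by ring
  have hGc : LipC G := lipC_of_bound (a := jj ι b a) (R := 2 * T') hGlip (fun x hx => by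
    simp only [hG]; rw [TruncAux.cut_eq_zero _ hT'0 hx, mul_zero])
  have key := h.2 (jj ι b a) R S F G hR hRS hFc hFR (by
    rw [← integral_comap_jj ι b hs]; simp only [hFj]; exact hψ0) hGc (fun x => by
      obtain ⟨h6, h7⟩ := hθ01 (pp ι b x)
      have h4 := TruncAux.cut_nonneg (jj ι b a) T' x
      have h5 := TruncAux.cut_le_one (jj ι b a) T' x
      exact ⟨mul_nonneg h6 h4, mul_le_one₀ h7 h4 h5⟩) (fun x hx => by
      simp only [hG]
      have h8 : dist (pp ι b x) a ≤ S := by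
        have := dist_pp_le ι b x (jj ι b a)
        rw [pp_jj] at this
        linarith only [hx, this]
      rw [hθ1 _ h8, TruncAux.cut_eq_one _ hT'0 (hx.trans (le_max_left _ _)), mul_one])
  rw [form_comap ι b hs, ι.norm_map] at key
  simp only [hFj, hGj] at key
  rw [← integral_comap_jj ι b hs] at key
  simp only [hFj] at key
  exact key

theorem exists_iso (W : Submodule ℝ (Eu d)) (hW : Module.finrank ℝ W = n) :
    ∃ ι : Eu n →ₗᵢ[ℝ] Eu d, LinearMap.range ι.toLinearMap = W := by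
  let e : W ≃ₗᵢ[ℝ] Eu n := ((stdOrthonormalBasis ℝ W).reindex (finCongr hW)).repr
  refine ⟨W.subtypeₗᵢ.comp e.symm.toLinearIsometry, ?_⟩
  ext x
  constructor
  · rintro ⟨v, rfl⟩
    exact (e.symm v).2
  · intro hx
    refine ⟨e ⟨x, hx⟩, ?_⟩
    show ((e.symm (e ⟨x, hx⟩) : W) : Eu d) = x
    rw [e.symm_apply_apply]

theorem dP_eq_zero_iff (W : Submodule ℝ (Eu d)) (b x : Eu d) : dP W b x = 0 ↔ x - b ∈ W := by
  unfold dP
  rw [norm_eq_zero, Submodule.starProjection_apply_eq_zero_iff, Submodule.orthogonal_orthogonal]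

theorem mem_range_jj_iff {W : Submodule ℝ (Eu d)} (hι : LinearMap.range ι.toLinearMap = W)
    (x : Eu d) : x ∈ range (jj ι b) ↔ dP W b x = 0 := by
  rw [dP_eq_zero_iff, ← hι]
  constructor
  · rintro ⟨v, rfl⟩
    refine ⟨v, ?_⟩
    unfold jj
    rw [add_sub_cancel_left]; rfl
  · rintro ⟨v, hv⟩
    refine ⟨v, ?_⟩
    have hv' : ι v = x - b := hv
    unfold jj
    rw [hv']; abel

/-- planar measures in `Lim` have full support in their plane -/
theorem full_support (hn : 1 ≤ n) (hnd : n ≤ d) {c C C₁ C₂ : ℝ}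
    {ν : Measure (Eu d)} (h : Lim n c C C₁ C₂ ν) (h0 : ν.support.Nonempty)
    {W : Submodule ℝ (Eu d)} (hW : Module.finrank ℝ W = n)
    (hs : ∀ x ∈ ν.support, dP W b x = 0) : ν.support = {x | dP W b x = 0} := by
  apply Subset.antisymm (fun x hx => hs x hx)
  intro x hx
  obtain ⟨a, ha⟩ := h0
  obtain ⟨Ct, hCt, hT⟩ := trunc_bound_ER n d hn c C C₂ h.ar.c_pos h.ar.C_pos
  have hclosed : IsClosed ν.support := Measure.isClosed_support
  rw [← hclosed.closure_eq, Metric.mem_closure_iff]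
  intro ε hε
  set r : ℝ := 8 * (dist x a + 1) with hr
  have hr0 : 0 < r := by (clear * -; positivity)
  obtain ⟨ρ, τ, hρ, _, hτ, H⟩ := no_holes n d hn hnd c C Ct h.ar.c_pos h.ar.C_pos
    (ε / (2 * r)) (by (clear * - hε; positivity))
  have h1 := H ν ⊤ h.ar a ha r hr0 le_top
    (fun y hy _ s S hs1 hs2 _ => hT ν h.ar h.er y hy s S (lt_of_lt_of_le (by (clear * - hρ; positivity)) hs1) hs2)
    W b hW (fun y hy _ => by rw [hs y hy]; (clear * - hτ; positivity)) (x - b)
    ((dP_eq_zero_iff W b x).mp hx) (by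
      rw [add_sub_cancel]
      rw [hr]
      linarith only [])
  obtain ⟨y, hy, hyd⟩ := h1
  rw [add_sub_cancel, dist_comm] at hyd
  refine ⟨y, hy, lt_of_le_of_lt hyd ?_⟩
  have : ε / (2 * r) * r = ε / 2 := by (clear * - hε hr0; field_simp)
  rw [this]
  linarith only [hε]

/-- reduction of `liouville_plane` to the statement on `R^n` -/
theorem plane_of (hn : 1 ≤ n) (hnd : n ≤ d) {c C C₁ C₂ : ℝ}
    (H : ∀ ν' : Measure (Eu n), Lim n c C C₁ C₂ ν' → ν'.support = univ →
      ∃ g : ℝ, 0 < g ∧ ν' = ENNReal.ofReal g • (volume : Measure (Eu n)))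
    {ν : Measure (Eu d)} (h : Lim n c C C₁ C₂ ν) (h0 : ν.support.Nonempty)
    (W : Submodule ℝ (Eu d)) (b : Eu d) (hW : Module.finrank ℝ W = n)
    (hs : ∀ x ∈ ν.support, dP W b x = 0) :
    ∃ (ι : Eu n →ₗᵢ[ℝ] Eu d) (g : ℝ), LinearMap.range ι.toLinearMap = W ∧
      c / kap n ≤ g ∧ g ≤ C / kap n ∧ 0 < g ∧ ν.support = {x | dP W b x = 0} ∧
      ∀ f : Eu d → ℝ, Continuous f → HasCompactSupport f →
        ∫ x, f x ∂ν = g * ∫ v, f (b + ι v) := by
  obtain ⟨ι, hι⟩ := exists_iso W hW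
  have hsr : ∀ x ∈ ν.support, x ∈ range (jj ι b) := fun x hx =>
    (mem_range_jj_iff ι b hι x).mpr (hs x hx)
  have har := ar_comap ι b hsr h.ar
  have hlf : IsLocallyFiniteMeasure (ν.comap (jj ι b)) := har.isLocallyFiniteMeasure
  have hfull := full_support b hn hnd h h0 hW hs
  have hlim : Lim n c C C₁ C₂ (ν.comap (jj ι b)) :=
    ⟨har, rb_comap ι b hsr h.rb, er_comap ι b hn hsr h.er⟩
  have hsu : (ν.comap (jj ι b)).support = univ := by
    ext v
    simp only [mem_univ, iff_true]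
    rw [mem_support_comap ι b hsr, hfull]
    exact (mem_range_jj_iff ι b hι _).mp ⟨v, rfl⟩
  obtain ⟨g, hg, hge⟩ := H _ hlim hsu
  have hkap : 0 < kap n := by
    unfold kap
    exact ENNReal.toReal_pos (measure_ball_pos _ _ one_pos).ne' measure_ball_lt_top.ne
  have hvol : volume (ball (0 : Eu n) 1) = ENNReal.ofReal (kap n) := by
    unfold kap
    rw [ENNReal.ofReal_toReal measure_ball_lt_top.ne]
  have hball : (ν.comap (jj ι b)) (ball 0 1) = ENNReal.ofReal (g * kap n) := by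
    rw [hge, Measure.smul_apply, hvol, smul_eq_mul, ← ENNReal.ofReal_mul hg.le]
  refine ⟨ι, g, hι, ?_, ?_, hg, hfull, fun f hf hfc => ?_⟩
  · rw [div_le_iff₀ hkap]
    have h1 := har.lower 0 (by rw [hsu]; trivial) 1 one_pos le_top
    rw [hball, one_pow, mul_one] at h1
    exact (ENNReal.ofReal_le_ofReal_iff (by (clear * - hg hkap; (clear * - hg hkap; positivity)))).mp h1
  · rw [le_div_iff₀ hkap]
    have h1 := har.upper 0 1 one_pos
    have h2 : (ν.comap (jj ι b)) (ball 0 1) ≤ ENNReal.ofReal (C * 1 ^ n) :=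
      (measure_mono ball_subset_closedBall).trans h1
    rw [hball, one_pow, mul_one] at h2
    exact (ENNReal.ofReal_le_ofReal_iff h.ar.C_pos.le).mp h2
  · rw [← integral_comap_jj ι b hsr f, hge, integral_smul_measure, ENNReal.toReal_ofReal hg.le,
      smul_eq_mul]
    rfl

end Plane

end Vale.Agent.P120
end
end

section

section

/-! Divergence of the regularised Riesz kernel on `R^n` and its limit.  Owner: helper829 -/

open MeasureTheory Metric Set Filter Topology
open scoped ENNReal NNReal InnerProductSpace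

namespace Vale.Agent.P120

variable {n : ℕ}

/-- divergence of the regularised Riesz kernel -/
noncomputable def Dk (n : ℕ) (e : ℝ) (z : Eu n) : ℝ :=
  -sK n e z + (n + 1) * e ^ 2 * sK (n + 2) e z

theorem sqrt_pos' (e : ℝ) (he : 0 < e) (z : Eu n) : 0 < Real.sqrt (‖z‖ ^ 2 + e ^ 2) :=
  Real.sqrt_pos.2 (by (clear * - he; positivity))

theorem hasFDerivAt_sK (m : ℕ) (e : ℝ) (he : 0 < e) (z : Eu n) :
    HasFDerivAt (sK (d := n) m e) ((-((m + 1) * sK (m + 2) e z)) • (innerSL ℝ z)) z := by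
  have hs := sqrt_pos' e he z
  have h1 : HasFDerivAt (fun z : Eu n => ‖z‖ ^ 2 + e ^ 2) ((2 : ℕ) • (innerSL ℝ z)) z :=
    (hasStrictFDerivAt_norm_sq z).hasFDerivAt.add_const _
  have h2 := h1.sqrt (by (clear * - he; positivity))
  have h3 : HasDerivAt (fun t : ℝ => (t ^ (m + 1))⁻¹)
      (-(((m + 1 : ℕ) : ℝ) * Real.sqrt (‖z‖ ^ 2 + e ^ 2) ^ m) /
        (Real.sqrt (‖z‖ ^ 2 + e ^ 2) ^ (m + 1)) ^ 2) (Real.sqrt (‖z‖ ^ 2 + e ^ 2)) := by
    have := (hasDerivAt_pow (m + 1) (Real.sqrt (‖z‖ ^ 2 + e ^ 2))).fun_inv (by (clear * - he; positivity))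
    simpa only [Nat.cast_add, Nat.cast_one, add_tsub_cancel_right] using this
  have h4 := h3.comp_hasFDerivAt z h2
  refine h4.congr_fderiv ?_
  ext v
  simp only [smul_apply, innerSL_apply_apply, smul_eq_mul, nsmul_eq_mul]
  unfold sK
  set s := Real.sqrt (‖z‖ ^ 2 + e ^ 2)
  push_cast
  field_simp
  ring

theorem sK_succ_succ (m : ℕ) (e : ℝ) (he : 0 < e) (z : Eu n) :
    (‖z‖ ^ 2 + e ^ 2) * sK (m + 2) e z = sK m e z := by
  have hs := sqrt_pos' e he z
  have h1 : ‖z‖ ^ 2 + e ^ 2 = Real.sqrt (‖z‖ ^ 2 + e ^ 2) ^ 2 := by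
    rw [Real.sq_sqrt (by (clear * - he; positivity))]
  unfold sK
  set s := Real.sqrt (‖z‖ ^ 2 + e ^ 2)
  rw [h1]
  field_simp
  ring

theorem hasFDerivAt_rK_coord (e : ℝ) (he : 0 < e) (z : Eu n) (i : Fin n) :
    HasFDerivAt (fun z : Eu n => (rK n e z) i)
      (sK n e z • (EuclideanSpace.proj i : Eu n →L[ℝ] ℝ) +
        z i • ((-((n + 1) * sK (n + 2) e z)) • (innerSL ℝ z))) z := by
  have h1 := hasFDerivAt_sK (n := n) n e he z
  have h2 : HasFDerivAt (fun z : Eu n => z i) (EuclideanSpace.proj i : Eu n →L[ℝ] ℝ) z :=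
    (EuclideanSpace.proj i : Eu n →L[ℝ] ℝ).hasFDerivAt
  have h3 := h1.mul h2
  exact h3

theorem differentiable_rK_coord (e : ℝ) (he : 0 < e) (i : Fin n) :
    Differentiable ℝ (fun z : Eu n => (rK n e z) i) :=
  fun z => (hasFDerivAt_rK_coord e he z i).differentiableAt

theorem sum_fderiv_rK (e : ℝ) (he : 0 < e) (z : Eu n) :
    ∑ i, fderiv ℝ (fun z : Eu n => (rK n e z) i) z (EuclideanSpace.single i 1) = Dk n e z := by
  have h1 : ∀ i, fderiv ℝ (fun z : Eu n => (rK n e z) i) z (EuclideanSpace.single i 1) =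
      sK n e z - (n + 1) * sK (n + 2) e z * (z i) ^ 2 := by
    intro i
    rw [(hasFDerivAt_rK_coord e he z i).fderiv]
    simp only [add_apply, smul_apply, innerSL_apply_apply, smul_eq_mul]
    have h2 : (EuclideanSpace.proj i : Eu n →L[ℝ] ℝ) (EuclideanSpace.single i (1 : ℝ)) = 1 := by
      simp
    have h3 : ⟪z, EuclideanSpace.single i (1 : ℝ)⟫_ℝ = z i := by
      simp [EuclideanSpace.inner_single_right]
    rw [h2, h3]
    ring
  rw [Finset.sum_congr rfl fun i _ => h1 i, Finset.sum_sub_distrib, ← Finset.mul_sum]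
  have h4 : ∑ i, (z i) ^ 2 = ‖z‖ ^ 2 := by
    rw [EuclideanSpace.norm_sq_eq]
    simp only [Real.norm_eq_abs, sq_abs]
  rw [h4]
  have h5 := sK_succ_succ n e he z
  simp only [Finset.sum_const, Finset.card_univ, Fintype.card_fin, nsmul_eq_mul]
  unfold Dk
  rw [← h5]
  ring

/-! ### bounds -/

theorem upReg_volume (n : ℕ) : ∃ C : ℝ, 0 < C ∧ UpReg n C (volume : Measure (Eu n)) := by
  set κ : ℝ≥0∞ := volume (ball (0 : Eu n) 1) with hκ
  have hκ0 : κ ≠ ⊤ := measure_ball_lt_top.ne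
  refine ⟨κ.toReal, ENNReal.toReal_pos (measure_ball_pos volume 0 one_pos).ne' hκ0, ?_⟩
  intro x r hr
  rw [Measure.addHaar_closedBall _ _ hr.le, finrank_euclideanSpace_fin, mul_comm,
    ENNReal.ofReal_mul ENNReal.toReal_nonneg, ENNReal.ofReal_toReal hκ0]

theorem integrable_dom {d : ℕ} (n : ℕ) (hn : 1 ≤ n) {C : ℝ} (hC : 0 < C) {ν : Measure (Eu d)}
    (h : UpReg n C ν) (B2 B0 : ℝ) (hB2 : 0 ≤ B2) (hB0 : 0 ≤ B0) :
    Integrable (fun z : Eu d => min (B2 * ‖z‖ ^ 2) B0 * (‖z‖ ^ (n + 1))⁻¹) ν := by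
  obtain ⟨C1, hC1, hnear⟩ := lintegral_near n hn C hC
  obtain ⟨C2, hC2, hfar⟩ := lintegral_far n 1 le_rfl C hC
  have hm : Measurable (fun z : Eu d => min (B2 * ‖z‖ ^ 2) B0 * (‖z‖ ^ (n + 1))⁻¹) := by
    (clear * -; fun_prop)
  refine ⟨hm.aestronglyMeasurable, ?_⟩
  rw [hasFiniteIntegral_iff_enorm]
  have hb : ∀ z : Eu d, ‖min (B2 * ‖z‖ ^ 2) B0 * (‖z‖ ^ (n + 1))⁻¹‖ₑ ≤
      (closedBall (0 : Eu d) 1).indicator (fun z => ENNReal.ofReal B2 *
        ENNReal.ofReal ((‖0 - z‖ ^ (n - 1))⁻¹)) z +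
      {z : Eu d | 1 ≤ dist z 0}.indicator (fun z => ENNReal.ofReal B0 *
        ENNReal.ofReal ((‖0 - z‖ ^ (n + 1))⁻¹)) z := by
    intro z
    have hmin0 : 0 ≤ min (B2 * ‖z‖ ^ 2) B0 := le_min (by (clear * - hB2; (clear * - hB2; positivity))) hB0
    rw [Real.enorm_eq_ofReal (mul_nonneg hmin0 (by (clear * -; (clear * -; positivity))))]
    rcases le_or_gt (dist z 0) 1 with hz | hz
    · have h1 : z ∈ closedBall (0 : Eu d) 1 := hz
      rw [indicator_of_mem h1]
      refine le_trans ?_ (le_add_of_nonneg_right zero_le)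
      rw [← ENNReal.ofReal_mul hB2]
      apply ENNReal.ofReal_le_ofReal
      rw [zero_sub, norm_neg]
      have h2 := sq_mul_sK_le n hn z
      rw [sK_zero_eq] at h2
      calc min (B2 * ‖z‖ ^ 2) B0 * (‖z‖ ^ (n + 1))⁻¹ ≤ B2 * ‖z‖ ^ 2 * (‖z‖ ^ (n + 1))⁻¹ := by
            gcongr
            exact min_le_left _ _
        _ = B2 * (‖z‖ ^ 2 * (‖z‖ ^ (n + 1))⁻¹) := by ring
        _ ≤ B2 * (‖z‖ ^ (n - 1))⁻¹ := by (clear * - hB2 h2; (clear * - h2 hB2; gcongr))
    · have h1 : z ∈ {z : Eu d | 1 ≤ dist z 0} := hz.le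
      rw [indicator_of_mem h1]
      refine le_trans ?_ (le_add_of_nonneg_left zero_le)
      rw [← ENNReal.ofReal_mul hB0]
      apply ENNReal.ofReal_le_ofReal
      rw [zero_sub, norm_neg]
      gcongr
      exact min_le_right _ _
  refine (lintegral_mono hb).trans_lt ?_
  have hms : MeasurableSet {y : Eu d | 1 ≤ dist y 0} :=
    measurableSet_le measurable_const (measurable_id.dist measurable_const)
  have hm1 : Measurable (fun z : Eu d => ENNReal.ofReal B0 *
        ENNReal.ofReal ((‖0 - z‖ ^ (n + 1))⁻¹)) := by (clear * -; (clear * -; fun_prop))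
  rw [lintegral_add_right _ (hm1.indicator hms), lintegral_indicator measurableSet_closedBall,
    lintegral_indicator hms, lintegral_const_mul' _ _ ENNReal.ofReal_ne_top,
    lintegral_const_mul' _ _ ENNReal.ofReal_ne_top]
  refine ENNReal.add_lt_top.2 ⟨ENNReal.mul_lt_top ENNReal.ofReal_lt_top ?_,
    ENNReal.mul_lt_top ENNReal.ofReal_lt_top ?_⟩
  · exact (hnear d ν h 0 1 one_pos).trans_lt ENNReal.ofReal_lt_top
  · exact (hfar d ν h 0 1 one_pos).trans_lt ENNReal.ofReal_lt_top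

theorem sK_le_const (m : ℕ) (e : ℝ) (he : 0 < e) (z : Eu n) : sK m e z ≤ (e ^ (m + 1))⁻¹ := by
  unfold sK
  have h1 : e ≤ Real.sqrt (‖z‖ ^ 2 + e ^ 2) := by
    apply Real.le_sqrt_of_sq_le
    nlinarith only []
  gcongr

theorem abs_Dk_le (e : ℝ) (he : 0 < e) (z : Eu n) : |Dk n e z| ≤ (n + 2) * sK n e z := by
  have h1 := sK_succ_succ n e he z
  have h2 := sK_nonneg n e z
  have h3 := sK_nonneg (n + 2) e z
  have h4 : e ^ 2 * sK (n + 2) e z ≤ sK n e z := by
    rw [← h1]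
    gcongr
    nlinarith only [sq_nonneg ‖z‖]
  unfold Dk
  rw [abs_le]
  have h5 : 0 ≤ e ^ 2 * sK (n + 2) e z := by (clear * - he h3; positivity)
  have h6 : (0 : ℝ) ≤ n := Nat.cast_nonneg _
  constructor
  · nlinarith only [h2, h5]
  · nlinarith only [h2, h4]

theorem integrable_sK_dk (e : ℝ) (he : 0 < e) :
    Integrable (sK (d := n) n e) (volume : Measure (Eu n)) := by
  obtain ⟨C, hC, hvol⟩ := upReg_volume n
  -- on the unit ball the kernel is bounded
  have h2 : Integrable ((closedBall (0 : Eu n) 1).indicator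
      (fun _ => (e ^ (n + 1))⁻¹)) (volume : Measure (Eu n)) := by
    rw [integrable_indicator_iff measurableSet_closedBall]
    exact integrableOn_const measure_closedBall_lt_top.ne
  obtain ⟨C2, hC2, hfar⟩ := lintegral_far n 1 le_rfl C hC
  have h3 : Integrable ({z : Eu n | 1 ≤ dist z 0}.indicator
      (fun z => (‖z‖ ^ (n + 1))⁻¹)) (volume : Measure (Eu n)) := by
    have hms : MeasurableSet {y : Eu n | 1 ≤ dist y 0} :=
      measurableSet_le measurable_const (measurable_id.dist measurable_const)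
    have hm1 : Measurable (fun z : Eu n => (‖z‖ ^ (n + 1))⁻¹) := by (clear * -; fun_prop)
    rw [integrable_indicator_iff hms]
    refine ⟨hm1.aestronglyMeasurable, ?_⟩
    rw [hasFiniteIntegral_iff_enorm]
    have h4 := hfar n volume hvol 0 1 one_pos
    refine lt_of_le_of_lt ?_ (h4.trans_lt ENNReal.ofReal_lt_top)
    refine lintegral_mono fun z => ?_
    rw [Real.enorm_eq_ofReal (by (clear * -; (clear * -; positivity))), zero_sub, norm_neg]
  refine (h2.add h3).mono' (continuous_sK n e he).aestronglyMeasurable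
    (Eventually.of_forall fun z => ?_)
  rw [Real.norm_eq_abs, abs_of_nonneg (sK_nonneg _ _ _), Pi.add_apply]
  rcases le_or_gt (dist z 0) 1 with hz | hz
  · have h5 : z ∈ closedBall (0 : Eu n) 1 := hz
    rw [indicator_of_mem h5]
    refine (sK_le_const n e he z).trans (le_add_of_nonneg_right ?_)
    exact indicator_nonneg (fun _ _ => by (clear * -; positivity)) _
  · have h5 : z ∈ {z : Eu n | 1 ≤ dist z 0} := hz.le
    rw [indicator_of_mem h5]
    refine (sK_le n e z ?_).trans (le_add_of_nonneg_left ?_)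
    · rintro rfl; rw [dist_self] at hz; linarith only [hz]
    · exact indicator_nonneg (fun _ _ => by positivity) _

theorem continuous_Dk (e : ℝ) (he : 0 < e) : Continuous (Dk n e) :=
  ((continuous_sK n e he).neg).add (continuous_const.mul (continuous_sK (n + 2) e he))

theorem integrable_Dk (e : ℝ) (he : 0 < e) :
    Integrable (Dk n e) (volume : Measure (Eu n)) :=
  ((integrable_sK_dk e he).const_mul ((n : ℝ) + 2)).mono'
    (continuous_Dk e he).aestronglyMeasurable
    (Eventually.of_forall fun z => by rw [Real.norm_eq_abs]; exact abs_Dk_le e he z)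

/-! ### integration by parts -/

/-- the potential of `∇ζ` -/
noncomputable def gradPot (n : ℕ) (e : ℝ) (ζ : Eu n → ℝ) (y : Eu n) : ℝ :=
  ∑ i, ∫ x, fderiv ℝ ζ x (EuclideanSpace.single i 1) * (rK n e (x - y)) i

theorem gradPot_eq (e : ℝ) (he : 0 < e) (ζ : Eu n → ℝ) (hζ : ContDiff ℝ 1 ζ)
    (hζ' : HasCompactSupport ζ) (y : Eu n) :
    gradPot n e ζ y = - ∫ x, ζ x * Dk n e (x - y) := by
  have hζd : Differentiable ℝ ζ := hζ.differentiable one_ne_zero
  have hζf : Continuous (fderiv ℝ ζ) := hζ.continuous_fderiv one_ne_zero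
  have hK : ∀ i, Continuous (fun x : Eu n => (rK n e (x - y)) i) := fun i =>
    ((differentiable_rK_coord e he i).continuous).comp (continuous_id.sub continuous_const)
  have hKd : ∀ i, Differentiable ℝ (fun x : Eu n => (rK n e (x - y)) i) := fun i =>
    (differentiable_rK_coord e he i).comp (differentiable_id.sub_const y)
  have hfd : ∀ i x, fderiv ℝ (fun x : Eu n => (rK n e (x - y)) i) x =
      fderiv ℝ (fun z : Eu n => (rK n e z) i) (x - y) := by
    intro i x
    exact fderiv_comp_sub (f := fun z : Eu n => (rK n e z) i) y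
  have hfc : ∀ i, Continuous (fun x : Eu n => fderiv ℝ (fun x : Eu n => (rK n e (x - y)) i) x
      (EuclideanSpace.single i 1)) := by
    intro i
    have h1 : (fun x : Eu n => fderiv ℝ (fun x : Eu n => (rK n e (x - y)) i) x
      (EuclideanSpace.single i 1)) = fun x => sK n e (x - y) -
        (n + 1) * sK (n + 2) e (x - y) * ((x - y) i) ^ 2 := by
      funext x
      rw [hfd, (hasFDerivAt_rK_coord e he (x - y) i).fderiv]
      simp only [add_apply, smul_apply, innerSL_apply_apply, smul_eq_mul]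
      have h2 : (EuclideanSpace.proj i : Eu n →L[ℝ] ℝ) (EuclideanSpace.single i (1 : ℝ)) = 1 := by
        simp
      have h3 : ⟪x - y, EuclideanSpace.single i (1 : ℝ)⟫_ℝ = (x - y) i := by
        simp only [EuclideanSpace.inner_single_right, PiLp.sub_apply, Real.ringHom_apply, one_mul]
      rw [h2, h3]
      ring
    rw [h1]
    have h4 : Continuous fun x : Eu n => sK n e (x - y) :=
      (continuous_sK n e he).comp (continuous_id.sub continuous_const)
    have h5 : Continuous fun x : Eu n => sK (n + 2) e (x - y) :=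
      (continuous_sK (n + 2) e he).comp (continuous_id.sub continuous_const)
    have h6 : Continuous fun x : Eu n => (x - y) i :=
      (EuclideanSpace.proj i : Eu n →L[ℝ] ℝ).continuous.comp (continuous_id.sub continuous_const)
    exact h4.sub ((continuous_const.mul h5).mul (h6.pow 2))
  have hparts : ∀ i, ∫ x, fderiv ℝ ζ x (EuclideanSpace.single i 1) * (rK n e (x - y)) i =
      - ∫ x, ζ x * fderiv ℝ (fun x : Eu n => (rK n e (x - y)) i) x
        (EuclideanSpace.single i 1) := by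
    intro i
    have h1 := integral_mul_fderiv_eq_neg_fderiv_mul_of_integrable
      (μ := (volume : Measure (Eu n))) (f := ζ) (g := fun x : Eu n => (rK n e (x - y)) i)
      (v := EuclideanSpace.single i 1) ?_ ?_ ?_ (fun x _ => hζd x) (fun x _ => hKd i x)
    · rw [h1, neg_neg]
    · refine Continuous.integrable_of_hasCompactSupport
        ((hζf.clm_apply continuous_const).mul (hK i)) ?_
      exact (hζ'.fderiv_apply (𝕜 := ℝ) _).mul_right
    · exact Continuous.integrable_of_hasCompactSupport (hζ.continuous.mul (hfc i)) hζ'.mul_right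
    · exact Continuous.integrable_of_hasCompactSupport (hζ.continuous.mul (hK i)) hζ'.mul_right
  unfold gradPot
  rw [Finset.sum_congr rfl fun i _ => hparts i, Finset.sum_neg_distrib]
  congr 1
  rw [← integral_finsetSum]
  · congr 1
    funext x
    rw [← Finset.mul_sum]
    congr 1
    rw [← sum_fderiv_rK e he (x - y)]
    exact Finset.sum_congr rfl fun i _ => by rw [hfd]
  · intro i _
    exact Continuous.integrable_of_hasCompactSupport (hζ.continuous.mul (hfc i)) hζ'.mul_right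

theorem fderiv_bump_scale (χ : ContDiffBump (0 : Eu n)) (R : ℝ) (x v : Eu n) :
    fderiv ℝ (fun x => χ (R⁻¹ • x)) x v = R⁻¹ * fderiv ℝ χ (R⁻¹ • x) v := by
  have h1 : HasFDerivAt (fun x : Eu n => R⁻¹ • x) (R⁻¹ • ContinuousLinearMap.id ℝ (Eu n)) x :=
    (ContinuousLinearMap.id ℝ (Eu n)).hasFDerivAt.const_smul R⁻¹
  have h2 : HasFDerivAt χ (fderiv ℝ χ (R⁻¹ • x)) (R⁻¹ • x) :=
    ((χ.contDiff (n := 1)).differentiable one_ne_zero _).hasFDerivAt
  have h3 := h2.comp x h1
  have h4 : fderiv ℝ (fun x => χ (R⁻¹ • x)) x = _ := h3.fderiv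
  rw [h4]
  simp

theorem integral_Dk (e : ℝ) (he : 0 < e) : ∫ z, Dk n e z = 0 := by
  let χ : ContDiffBump (0 : Eu n) := ⟨1, 2, one_pos, one_lt_two⟩
  obtain ⟨C, hC, hvol⟩ := upReg_volume n
  have hχc : HasCompactSupport (χ : Eu n → ℝ) := χ.hasCompactSupport
  have hχd : ContDiff ℝ 1 (χ : Eu n → ℝ) := χ.contDiff
  obtain ⟨B, hB⟩ := (hχc.fderiv ℝ).exists_bound_of_continuous (hχd.continuous_fderiv one_ne_zero)
  have hB0 : 0 ≤ B := (norm_nonneg _).trans (hB 0)
  have hχ1 : ∀ x : Eu n, ‖x‖ ≤ 1 → χ x = 1 := fun x hx =>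
    χ.one_of_mem_closedBall (by simpa only [mem_closedBall, dist_zero_right] using hx)
  have hχ0 : ∀ x : Eu n, 2 ≤ ‖x‖ → χ x = 0 := fun x hx =>
    χ.zero_of_le_dist (by simpa only [dist_zero_right] using hx)
  -- derivative vanishes inside
  have hd0 : ∀ x : Eu n, ‖x‖ < 1 → fderiv ℝ χ x = 0 := by
    intro x hx
    have h1 : (χ : Eu n → ℝ) =ᶠ[𝓝 x] fun _ => (1 : ℝ) := by
      filter_upwards [isOpen_ball.mem_nhds (show x ∈ ball (0 : Eu n) 1 by simpa only [mem_ball,
                                                                            dist_zero_right] using hx)] with y hy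
      exact hχ1 y (by simpa only [dist_zero_right] using (mem_ball.1 hy).le)
    rw [h1.fderiv_eq]; simp only [fderiv_fun_const, Pi.zero_apply]
  have hd2 : ∀ x : Eu n, 2 < ‖x‖ → fderiv ℝ χ x = 0 := by
    intro x hx
    have h1 : (χ : Eu n → ℝ) =ᶠ[𝓝 x] fun _ => (0 : ℝ) := by
      have ho : IsOpen {y : Eu n | 2 < ‖y‖} := isOpen_lt continuous_const continuous_norm
      filter_upwards [ho.mem_nhds hx] with y hy
      exact hχ0 y (le_of_lt hy)
    rw [h1.fderiv_eq]; simp only [fderiv_fun_const, Pi.zero_apply]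
  let f : ℕ → Eu n → ℝ := fun k x => χ (((k : ℝ) + 1)⁻¹ • x)
  have hnorm : ∀ (k : ℕ) (x : Eu n), ‖((k : ℝ) + 1)⁻¹ • x‖ = ‖x‖ / (k + 1) := by
    intro k x
    rw [norm_smul, norm_inv, Real.norm_of_nonneg (by (clear * -; positivity) : (0 : ℝ) ≤ (k : ℝ) + 1),
      div_eq_inv_mul]
  have hf1 : ∀ k, ContDiff ℝ 1 (f k) := fun k =>
    hχd.comp (contDiff_const_smul _)
  have hfsupp : ∀ k, HasCompactSupport (f k) := by
    intro k
    refine HasCompactSupport.intro (isCompact_closedBall (0 : Eu n) (2 * (k + 1))) fun x hx => ?_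
    rw [mem_closedBall, dist_zero_right, not_le] at hx
    refine hχ0 _ ?_
    rw [hnorm, le_div_iff₀ (by (clear * -; positivity))]
    exact hx.le
  have hT1 : Tendsto (fun k : ℕ => ∫ x, f k x * Dk n e x) atTop (𝓝 (∫ x, Dk n e x)) := by
    refine tendsto_integral_of_dominated_convergence (fun x => |Dk n e x|) (fun k => ?_)
      (integrable_Dk e he).abs (fun k => Eventually.of_forall fun x => ?_)
      (Eventually.of_forall fun x => ?_)
    · exact ((hf1 k).continuous.mul (continuous_Dk e he)).aestronglyMeasurable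
    · rw [Real.norm_eq_abs, abs_mul]
      have h1 : |f k x| ≤ 1 := by
        rw [abs_of_nonneg χ.nonneg]; exact χ.le_one
      exact mul_le_of_le_one_left (abs_nonneg _) h1
    · refine tendsto_const_nhds.congr' ?_
      obtain ⟨N, hN⟩ := exists_nat_ge ‖x‖
      filter_upwards [eventually_ge_atTop N] with k hk
      have h1 : f k x = 1 := by
        refine hχ1 _ ?_
        rw [hnorm, div_le_one (by (clear * -; positivity))]
        have : (N : ℝ) ≤ k := by exact_mod_cast hk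
        linarith only [hN, this]
      rw [h1, one_mul]
  have hbound : ∀ k : ℕ, |∫ x, f k x * Dk n e x| ≤
      (n * (B * C * 2 ^ n)) * (1 / ((k : ℝ) + 1)) := by
    intro k
    set R : ℝ := (k : ℝ) + 1 with hR
    have hR0 : 0 < R := by (clear * -; positivity)
    have h1 := gradPot_eq e he (f k) (hf1 k) (hfsupp k) 0
    simp only [sub_zero] at h1
    have h2 : ∫ x, f k x * Dk n e x = - gradPot n e (f k) 0 := by rw [h1, neg_neg]
    rw [h2, abs_neg]
    unfold gradPot
    refine (Finset.abs_sum_le_sum_abs _ _).trans ?_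
    have h3 : ∀ i ∈ (Finset.univ : Finset (Fin n)),
        |∫ x, fderiv ℝ (f k) x (EuclideanSpace.single i 1) * (rK n e (x - 0)) i| ≤
        B * C * 2 ^ n * (1 / R) := by
      intro i _
      have h4 : ∀ x, ‖fderiv ℝ (f k) x (EuclideanSpace.single i 1) * (rK n e (x - 0)) i‖ ≤
          (closedBall (0 : Eu n) (2 * R)).indicator (fun _ => R⁻¹ * B * (R ^ n)⁻¹) x := by
        intro x
        rw [sub_zero, norm_mul, fderiv_bump_scale χ R x, norm_mul, norm_inv,
          Real.norm_of_nonneg hR0.le]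
        have hxn : ‖R⁻¹ • x‖ = ‖x‖ / R := hnorm k x
        rcases lt_or_ge ‖x‖ R with hx | hx
        · rw [hd0 _ (by rw [hxn, div_lt_one hR0]; exact hx)]
          simp only [zero_apply, norm_zero, mul_zero, zero_mul]
          exact indicator_nonneg (fun _ _ => by (clear * - hB0; positivity)) _
        · rcases lt_or_ge (2 * R) ‖x‖ with hx2 | hx2
          · rw [hd2 _ (by rw [hxn, lt_div_iff₀ hR0]; exact hx2)]
            simp only [zero_apply, norm_zero, mul_zero, zero_mul]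
            exact indicator_nonneg (fun _ _ => by (clear * - hB0; positivity)) _
          · rw [indicator_of_mem (by simpa only [mem_closedBall, dist_zero_right] using hx2)]
            have h5 : ‖fderiv ℝ χ (R⁻¹ • x) (EuclideanSpace.single i 1)‖ ≤ B := by
              refine (ContinuousLinearMap.le_opNorm _ _).trans ?_
              have h6 : ‖(EuclideanSpace.single i (1 : ℝ) : Eu n)‖ = 1 := by simp
              rw [h6, mul_one]
              exact hB _
            have h7 : ‖(rK n e x) i‖ ≤ (R ^ n)⁻¹ := by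
              have h8 := abs_coord_le_norm (rK n e x) i
              rw [← Real.norm_eq_abs] at h8
              refine h8.trans ((norm_rK_le n e x).trans ?_)
              (clear * - hx; gcongr)
            (clear * - hB0 h5 h7; gcongr)
      have h9 := norm_integral_le_of_norm_le (μ := (volume : Measure (Eu n)))
        ((integrable_indicator_iff measurableSet_closedBall).2
          (integrableOn_const (C := R⁻¹ * B * (R ^ n)⁻¹)
            (measure_closedBall_lt_top (x := (0 : Eu n)) (r := 2 * R)).ne))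
        (Eventually.of_forall h4)
      rw [Real.norm_eq_abs] at h9
      refine h9.trans ?_
      rw [integral_indicator measurableSet_closedBall, setIntegral_const, smul_eq_mul]
      have h10 : (volume : Measure (Eu n)).real (closedBall (0 : Eu n) (2 * R)) ≤
          C * (2 * R) ^ n :=
        ENNReal.toReal_le_of_le_ofReal (by (clear * - hC; (clear * - hC; positivity))) (hvol 0 (2 * R) (by (clear * -; positivity)))
      calc (volume : Measure (Eu n)).real (closedBall (0 : Eu n) (2 * R)) * (R⁻¹ * B * (R ^ n)⁻¹)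
          ≤ C * (2 * R) ^ n * (R⁻¹ * B * (R ^ n)⁻¹) := by (clear * - hB0 h10; gcongr)
        _ = B * C * 2 ^ n * (1 / R) := by
            rw [mul_pow]; (clear * - hC hR0; field_simp)
    refine (Finset.sum_le_sum h3).trans ?_
    rw [Finset.sum_const, Finset.card_univ, Fintype.card_fin, nsmul_eq_mul]
    apply le_of_eq
    ring
  have hT2 : Tendsto (fun k : ℕ => ∫ x, f k x * Dk n e x) atTop (𝓝 0) := by
    have h0 : Tendsto (fun k : ℕ => (n * (B * C * 2 ^ n)) * (1 / ((k : ℝ) + 1))) atTop (𝓝 0) := by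
      have := (tendsto_one_div_add_atTop_nhds_zero_nat (𝕜 := ℝ)).const_mul
        ((n : ℝ) * (B * C * 2 ^ n))
      rwa [mul_zero] at this
    exact squeeze_zero_norm (fun k => (Real.norm_eq_abs _).le.trans (hbound k)) h0
  exact tendsto_nhds_unique hT1 hT2

/-! ### second differences and the limit `e → 0` -/

theorem second_diff_bound_dk (ζ : Eu n → ℝ) (hζ : ContDiff ℝ 2 ζ) (hζ' : HasCompactSupport ζ) :
    ∃ B2 B0 : ℝ, 0 ≤ B2 ∧ 0 ≤ B0 ∧ ∀ y z,
      |ζ y - (ζ (y + z) + ζ (y - z)) / 2| ≤ min (B2 * ‖z‖ ^ 2) B0 := by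
  obtain ⟨A, hA⟩ := hζ'.exists_bound_of_continuous hζ.continuous
  have hfd : ContDiff ℝ 1 (fderiv ℝ ζ) := hζ.fderiv_right (by norm_num)
  obtain ⟨L, hL⟩ := hfd.lipschitzWith_of_hasCompactSupport (hζ'.fderiv ℝ) one_ne_zero
  have hd : Differentiable ℝ ζ := hζ.differentiable two_ne_zero
  have hA0 : 0 ≤ A := (norm_nonneg _).trans (hA 0)
  refine ⟨L, 2 * A, L.2, by (clear * - hA0; (clear * - hA0; positivity)), fun y z => le_min ?_ ?_⟩
  · -- first order Taylor on both sides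
    have key : ∀ w : Eu n, |ζ (y + w) - ζ y - fderiv ℝ ζ y w| ≤ L * ‖w‖ ^ 2 := by
      intro w
      have h1 := (convex_closedBall y ‖w‖).norm_image_sub_le_of_norm_fderiv_le'
        (𝕜 := ℝ) (f := ζ) (φ := fderiv ℝ ζ y) (C := L * ‖w‖) (x := y) (y := y + w)
        (fun x _ => hd x) (fun x hx => by
          have h2 := hL.dist_le_mul x y
          rw [dist_eq_norm] at h2
          refine h2.trans ?_
          gcongr
          exact hx) (mem_closedBall_self (norm_nonneg _))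
        (by rw [mem_closedBall, dist_eq_norm, add_sub_cancel_left])
      rw [add_sub_cancel_left, Real.norm_eq_abs] at h1
      calc |ζ (y + w) - ζ y - fderiv ℝ ζ y w| ≤ L * ‖w‖ * ‖w‖ := h1
        _ = L * ‖w‖ ^ 2 := by ring
    have h1 := key z
    have h2 := key (-z)
    rw [norm_neg, map_neg, ← sub_eq_add_neg] at h2
    rw [abs_le] at *
    constructor <;> linarith only [h1, h2]
  · have h1 := hA y
    have h2 := hA (y + z)
    have h3 := hA (y - z)
    rw [Real.norm_eq_abs, abs_le] at h1 h2 h3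
    rw [abs_le]
    constructor <;> linarith only [h1, h2, h3]

theorem Dk_neg (e : ℝ) (z : Eu n) : Dk n e (-z) = Dk n e z := by
  unfold Dk; rw [sK_neg, sK_neg]

theorem gradPot_eq2 (e : ℝ) (he : 0 < e) (ζ : Eu n → ℝ) (hζ : ContDiff ℝ 2 ζ)
    (hζ' : HasCompactSupport ζ) (y : Eu n) :
    gradPot n e ζ y = ∫ z, (ζ y - (ζ (y + z) + ζ (y - z)) / 2) * Dk n e z := by
  rw [gradPot_eq e he ζ (hζ.of_le one_le_two) hζ' y]
  have hDi := integrable_Dk (n := n) e he
  obtain ⟨A, hA⟩ := hζ'.exists_bound_of_continuous hζ.continuous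
  have hi : ∀ g : Eu n → Eu n, Continuous g → Integrable (fun z => ζ (g z) * Dk n e z) := by
    intro g hg
    refine (hDi.norm.const_mul A).mono'
      ((hζ.continuous.comp hg).mul (continuous_Dk e he)).aestronglyMeasurable
      (Eventually.of_forall fun z => ?_)
    rw [norm_mul]
    exact mul_le_mul_of_nonneg_right (hA _) (norm_nonneg _)
  have h1 : ∫ x, ζ x * Dk n e (x - y) = ∫ z, ζ (y + z) * Dk n e z := by
    rw [← integral_sub_right_eq_self (fun z => ζ (y + z) * Dk n e z) y]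
    congr 1
    funext x
    rw [add_sub_cancel]
  have h2 : ∫ z, ζ (y - z) * Dk n e z = ∫ z, ζ (y + z) * Dk n e z := by
    rw [← integral_neg_eq_self (fun z => ζ (y + z) * Dk n e z)]
    congr 1
    funext x
    rw [Dk_neg, sub_eq_add_neg]
  have hi1 := hi (fun z => y + z) (continuous_const.add continuous_id)
  have hi2 := hi (fun z => y - z) (continuous_const.sub continuous_id)
  have h3 : (fun z => (ζ y - (ζ (y + z) + ζ (y - z)) / 2) * Dk n e z) =
      fun z => ζ y * Dk n e z - ((1 / 2) * (ζ (y + z) * Dk n e z) +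
        (1 / 2) * (ζ (y - z) * Dk n e z)) := by
    funext z; ring
  have hi3 : Integrable (fun z => (1 / 2) * (ζ (y + z) * Dk n e z) +
        (1 / 2) * (ζ (y - z) * Dk n e z)) := (hi1.const_mul _).add (hi2.const_mul _)
  rw [h3, integral_sub (hDi.const_mul _) hi3, integral_const_mul, integral_Dk e he,
    integral_add (hi1.const_mul _) (hi2.const_mul _), integral_const_mul, integral_const_mul,
    h2, h1]
  ring

theorem abs_diff_mul_Dk_le (ζ : Eu n → ℝ) {B2 B0 : ℝ}
    (hB : ∀ y z, |ζ y - (ζ (y + z) + ζ (y - z)) / 2| ≤ min (B2 * ‖z‖ ^ 2) B0) (e : ℝ)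
    (he : 0 < e) (y z : Eu n) :
    ‖(ζ y - (ζ (y + z) + ζ (y - z)) / 2) * Dk n e z‖ ≤
      (n + 2) * (min (B2 * ‖z‖ ^ 2) B0 * (‖z‖ ^ (n + 1))⁻¹) := by
  rw [norm_mul, Real.norm_eq_abs, Real.norm_eq_abs]
  have h1 := hB y z
  rcases eq_or_ne z 0 with rfl | hz
  · have h2 : ζ y - (ζ (y + 0) + ζ (y - 0)) / 2 = 0 := by simp
    have h3 : 0 ≤ min (B2 * ‖(0 : Eu n)‖ ^ 2) B0 := (abs_nonneg _).trans h1
    rw [h2, abs_zero, zero_mul]
    (clear * - h3; (clear * - h3; positivity))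
  · have h4 := abs_Dk_le e he z
    have h5 := sK_le n e z hz
    calc |ζ y - (ζ (y + z) + ζ (y - z)) / 2| * |Dk n e z|
        ≤ min (B2 * ‖z‖ ^ 2) B0 * ((n + 2) * (‖z‖ ^ (n + 1))⁻¹) := by
          refine mul_le_mul h1 (h4.trans ?_) (abs_nonneg _) ((abs_nonneg _).trans h1)
          (clear * - h5; gcongr)
      _ = _ := by ring

/-- uniform bound for the regularised potentials -/
theorem gradPot_bound (hn : 1 ≤ n) (ζ : Eu n → ℝ) (hζ : ContDiff ℝ 2 ζ)
    (hζ' : HasCompactSupport ζ) :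
    ∃ B : ℝ, 0 ≤ B ∧ ∀ (e : ℝ) (y : Eu n), 0 < e → |gradPot n e ζ y| ≤ B := by
  obtain ⟨B2, B0, hB2, hB0, hB⟩ := second_diff_bound_dk ζ hζ hζ'
  obtain ⟨C, hC, hvol⟩ := upReg_volume n
  have hi := (integrable_dom n hn hC hvol B2 B0 hB2 hB0).const_mul ((n : ℝ) + 2)
  refine ⟨∫ z : Eu n, (n + 2) * (min (B2 * ‖z‖ ^ 2) B0 * (‖z‖ ^ (n + 1))⁻¹), ?_, ?_⟩
  · refine integral_nonneg fun z => ?_
    have : 0 ≤ min (B2 * ‖z‖ ^ 2) B0 := le_min (by (clear * - hB2; (clear * - hB2; positivity))) hB0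
    (clear * - hn hB2 hB0; (clear * - hn hB2 hB0; positivity))
  · intro e y he
    rw [gradPot_eq2 e he ζ hζ hζ' y, ← Real.norm_eq_abs]
    exact norm_integral_le_of_norm_le hi
      (Eventually.of_forall fun z => abs_diff_mul_Dk_le ζ hB e he y z)

theorem tendsto_sK (m : ℕ) (z : Eu n) (hz : z ≠ 0) :
    Tendsto (fun e : ℝ => sK m e z) (𝓝[>] 0) (𝓝 ((‖z‖ ^ (m + 1))⁻¹)) := by
  have h1 : ContinuousAt (fun e : ℝ => sK m e z) 0 := by
    unfold sK
    refine ContinuousAt.inv₀ ?_ ?_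
    · (clear * -; fun_prop)
    · simp only [zero_pow two_ne_zero, add_zero, ne_eq]
      rw [Real.sqrt_sq (norm_nonneg z)]
      exact pow_ne_zero _ (norm_ne_zero_iff.2 hz)
  have h2 := h1.tendsto
  rw [sK_zero_eq] at h2
  exact h2.mono_left nhdsWithin_le_nhds

theorem tendsto_Dk (z : Eu n) (hz : z ≠ 0) :
    Tendsto (fun e : ℝ => Dk n e z) (𝓝[>] 0) (𝓝 (-(‖z‖ ^ (n + 1))⁻¹)) := by
  have h1 := tendsto_sK n z hz
  have h2 := tendsto_sK (n + 2) z hz
  have h3 : Tendsto (fun e : ℝ => ((n : ℝ) + 1) * e ^ 2) (𝓝[>] 0) (𝓝 (((n : ℝ) + 1) * 0 ^ 2)) := by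
    have : Continuous fun e : ℝ => ((n : ℝ) + 1) * e ^ 2 := by fun_prop
    exact (this.tendsto 0).mono_left nhdsWithin_le_nhds
  have h4 := h1.neg.add (h3.mul h2)
  simpa only [Dk, ne_eq, OfNat.ofNat_ne_zero, not_false_eq_true, zero_pow, mul_zero, zero_mul, add_zero] using     h4

theorem tendsto_gradPot (hn : 1 ≤ n) (ζ : Eu n → ℝ) (hζ : ContDiff ℝ 2 ζ)
    (hζ' : HasCompactSupport ζ) (y : Eu n) :
    Tendsto (fun e : ℝ => gradPot n e ζ y) (𝓝[>] 0) (𝓝 (- fracL n ζ y)) := by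
  obtain ⟨B2, B0, hB2, hB0, hB⟩ := second_diff_bound_dk ζ hζ hζ'
  obtain ⟨C, hC, hvol⟩ := upReg_volume n
  have hi := (integrable_dom n hn hC hvol B2 B0 hB2 hB0).const_mul ((n : ℝ) + 2)
  have h1 : (- fracL n ζ y) =
      ∫ z, (ζ y - (ζ (y + z) + ζ (y - z)) / 2) * (-(‖z‖ ^ (n + 1))⁻¹) := by
    unfold fracL
    rw [← integral_neg]
    congr 1
    funext z
    ring
  rw [h1]
  have h2 : (fun e : ℝ => gradPot n e ζ y) =ᶠ[𝓝[>] 0]
      fun e => ∫ z, (ζ y - (ζ (y + z) + ζ (y - z)) / 2) * Dk n e z := by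
    filter_upwards [self_mem_nhdsWithin] with e he
    exact gradPot_eq2 e he ζ hζ hζ' y
  refine Tendsto.congr' h2.symm ?_
  refine tendsto_integral_filter_of_dominated_convergence
    (fun z : Eu n => (n + 2) * (min (B2 * ‖z‖ ^ 2) B0 * (‖z‖ ^ (n + 1))⁻¹)) ?_ ?_ hi ?_
  · filter_upwards [self_mem_nhdsWithin] with e he
    have hc := hζ.continuous
    have hd := continuous_Dk (n := n) e he
    exact (by (clear * - hc hd; fun_prop) : Continuous fun z => (ζ y - (ζ (y + z) + ζ (y - z)) / 2) *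
      Dk n e z).aestronglyMeasurable
  · filter_upwards [self_mem_nhdsWithin] with e he
    exact Eventually.of_forall fun z => abs_diff_mul_Dk_le ζ hB e he y z
  · have hae : ∀ᵐ z : Eu n, z ≠ 0 := by
      have : Nonempty (Fin n) := ⟨⟨0, by omega⟩⟩
      exact (measure_singleton (μ := (volume : Measure (Eu n))) (0 : Eu n)) |>
        fun h => (compl_mem_ae_iff.2 h)
    filter_upwards [hae] with z hz
    exact (tendsto_Dk z hz).const_mul _

end Vale.Agent.P120
end
end

section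

section

/-! Constant density (Lemma 8) and the planar case.  Owner: helper829 -/

open MeasureTheory Metric Set Filter Topology
open scoped ENNReal NNReal InnerProductSpace

namespace Vale.Agent.P120

variable {n : ℕ} {c C : ℝ} {D : ℝ≥0∞} {ν : Measure (Eu n)}

theorem exists_vol_const (n : ℕ) : ∃ κ : ℝ, 0 < κ ∧ ∀ (x : Eu n) (r : ℝ), 0 < r →
    (volume : Measure (Eu n)) (ball x r) = ENNReal.ofReal (κ * r ^ n) ∧
    (volume : Measure (Eu n)) (closedBall x r) = ENNReal.ofReal (κ * r ^ n) := by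
  have hκ0 : (volume : Measure (Eu n)) (ball (0 : Eu n) 1) ≠ ⊤ :=
    MeasureTheory.measure_ball_lt_top.ne
  refine ⟨((volume : Measure (Eu n)) (ball (0 : Eu n) 1)).toReal,
    ENNReal.toReal_pos (measure_ball_pos volume 0 one_pos).ne' hκ0, fun x r hr => ⟨?_, ?_⟩⟩
  · rw [Measure.addHaar_ball_of_pos _ _ hr, finrank_euclideanSpace_fin, mul_comm,
      ENNReal.ofReal_mul ENNReal.toReal_nonneg, ENNReal.ofReal_toReal hκ0]
  · rw [Measure.addHaar_closedBall _ _ hr.le, finrank_euclideanSpace_fin, mul_comm,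
      ENNReal.ofReal_mul ENNReal.toReal_nonneg, ENNReal.ofReal_toReal hκ0]

theorem AR.le_volume (hn : 1 ≤ n) (h : AR n c C D ν) :
    ∃ K : ℝ, 0 < K ∧ ν ≤ ENNReal.ofReal K • (volume : Measure (Eu n)) := by
  have hC := h.C_pos
  have hlf := h.isLocallyFiniteMeasure
  have hn' : (0 : ℝ) < n := by exact_mod_cast hn
  obtain ⟨κ, hκ, hvol⟩ := exists_vol_const n
  refine ⟨C * (2 * n) ^ n / κ, by (clear * - hC hn hκ; positivity), ?_⟩
  refine le_smul_of_balls hn ν volume _ ENNReal.ofReal_ne_top fun x s hs => ?_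
  refine (h.upper x (n * s) (by (clear * - hn hs; positivity))).trans ?_
  rw [(hvol x (s / 2) (by (clear * - hs; positivity))).1, ← ENNReal.ofReal_mul (by (clear * - hC hn hκ; positivity))]
  apply ENNReal.ofReal_le_ofReal
  apply le_of_eq
  rw [mul_pow, mul_pow, div_pow]
  field_simp

theorem AR.volume_le (hn : 1 ≤ n) (h : AR n c C ⊤ ν) (hs : ν.support = univ) :
    ∃ K : ℝ, 0 < K ∧ (volume : Measure (Eu n)) ≤ ENNReal.ofReal K • ν := by
  have hC := h.C_pos
  have hc := h.c_pos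
  have hlf := h.isLocallyFiniteMeasure
  have hn' : (0 : ℝ) < n := by exact_mod_cast hn
  obtain ⟨κ, hκ, hvol⟩ := exists_vol_const n
  refine ⟨κ * (2 * n) ^ n / c, by (clear * - hκ hn hc; positivity), ?_⟩
  refine le_smul_of_balls hn volume ν _ ENNReal.ofReal_ne_top fun x s hs' => ?_
  have h1 := h.lower x (by rw [hs]; trivial) (s / 2) (by (clear * - hs'; positivity)) le_top
  rw [(hvol x (n * s) (by (clear * - hn hs'; positivity))).2]
  refine le_trans ?_ (mul_le_mul_right h1 _)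
  rw [← ENNReal.ofReal_mul (by (clear * - hκ hn hc; positivity))]
  apply ENNReal.ofReal_le_ofReal
  apply le_of_eq
  rw [mul_pow, mul_pow, div_pow]
  field_simp

/-! ### extension of `RB` to `L²` functions with bounded support -/

theorem integral_abs_le_sqrt {d : ℕ} {μ : Measure (Eu d)} {f : Eu d → ℝ} (hf : MemLp f 2 μ)
    (S : Set (Eu d)) (hS : MeasurableSet S) (hSf : μ S ≠ ⊤) (hs : ∀ x, x ∉ S → f x = 0) :
    ∫ x, |f x| ∂μ ≤ Real.sqrt (μ.real S) * Real.sqrt (∫ x, f x ^ 2 ∂μ) := by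
  have h1 : MemLp (S.indicator (fun _ => (1 : ℝ))) 2 μ := memLp_indicator_const 2 hS 1 (Or.inr hSf)
  have hfa : MemLp (fun x => |f x|) 2 μ := hf.abs
  have h2 := integral_mul_le_Lp_mul_Lq_of_nonneg (μ := μ) (p := 2) (q := 2)
    Real.HolderConjugate.two_two (f := S.indicator (fun _ => (1 : ℝ))) (g := fun x => |f x|)
    (Eventually.of_forall fun x => indicator_nonneg (fun _ _ => zero_le_one) _)
    (Eventually.of_forall fun x => abs_nonneg _) (by simpa only [ENNReal.ofReal_ofNat] using h1) (by simpa only [ENNReal.ofReal_ofNat] using hfa)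
  have h3 : ∀ x, S.indicator (fun _ => (1 : ℝ)) x * |f x| = |f x| := by
    intro x
    by_cases hx : x ∈ S
    · rw [indicator_of_mem hx, one_mul]
    · rw [hs x hx]; simp only [abs_zero, mul_zero]
  simp only [h3] at h2
  refine h2.trans ?_
  rw [← Real.sqrt_eq_rpow, ← Real.sqrt_eq_rpow]
  apply mul_le_mul _ _ (Real.sqrt_nonneg _) (Real.sqrt_nonneg _)
  · apply Real.sqrt_le_sqrt
    have h4 : ∀ x, S.indicator (fun _ => (1 : ℝ)) x ^ (2 : ℝ) = S.indicator (fun _ => (1 : ℝ)) x := by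
      intro x
      by_cases hx : x ∈ S
      · rw [indicator_of_mem hx]; simp
      · rw [indicator_of_notMem hx]; simp
    simp only [h4]
    rw [integral_indicator hS, setIntegral_const, smul_eq_mul, mul_one]
  · apply Real.sqrt_le_sqrt
    apply le_of_eq
    congr 1
    funext x
    rw [Real.rpow_two, sq_abs]

theorem sqrt_integral_sq {d : ℕ} {μ : Measure (Eu d)} {f : Eu d → ℝ} (hf : MemLp f 2 μ) :
    Real.sqrt (∫ x, f x ^ 2 ∂μ) = (eLpNorm f 2 μ).toReal := by
  rw [hf.eLpNorm_eq_integral_rpow_norm two_ne_zero ENNReal.ofNat_ne_top]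
  rw [ENNReal.toReal_ofReal (by (clear * -; positivity)), Real.sqrt_eq_rpow]
  simp only [one_div, Real.norm_eq_abs, ENNReal.toReal_ofNat, Real.rpow_ofNat, sq_abs]

theorem sqrt_integral_sq_sub_le {d : ℕ} {μ : Measure (Eu d)} {f g : Eu d → ℝ} (hf : MemLp f 2 μ)
    (hg : MemLp g 2 μ) : Real.sqrt (∫ x, (f x - g x) ^ 2 ∂μ) ≤
      Real.sqrt (∫ x, f x ^ 2 ∂μ) + Real.sqrt (∫ x, g x ^ 2 ∂μ) := by
  have h1 : MemLp (fun x => f x - g x) 2 μ := hf.sub hg
  rw [sqrt_integral_sq hf, sqrt_integral_sq hg, sqrt_integral_sq h1,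
    ← ENNReal.toReal_add hf.2.ne hg.2.ne]
  refine ENNReal.toReal_mono (ENNReal.add_ne_top.2 ⟨hf.2.ne, hg.2.ne⟩) ?_
  exact eLpNorm_sub_le hf.1 hg.1 one_le_two

theorem LipC.memLp {d : ℕ} {μ : Measure (Eu d)} [IsFiniteMeasureOnCompacts μ] {f : Eu d → ℝ}
    (hf : LipC f) (p : ℝ≥0∞) : MemLp f p μ :=
  hf.continuous.memLp_of_hasCompactSupport hf.2

theorem cut0_nonneg {d : ℕ} (R : ℝ) (x : Eu d) : 0 ≤ cut 0 R x := le_max_left _ _

theorem cut0_le_one {d : ℕ} (R : ℝ) (x : Eu d) : cut 0 R x ≤ 1 :=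
  max_le zero_le_one (min_le_left _ _)

theorem cut0_eq_one {d : ℕ} (R : ℝ) (hR : 0 < R) (x : Eu d) (hx : ‖x‖ ≤ R) : cut 0 R x = 1 := by
  unfold cut
  have h1 : dist x 0 / R ≤ 1 := by rw [dist_zero_right, div_le_one hR]; exact hx
  rw [min_eq_left (by linarith only [h1])]
  exact max_eq_right zero_le_one

theorem cut0_eq_zero {d : ℕ} (R : ℝ) (hR : 0 < R) (x : Eu d) (hx : 2 * R ≤ ‖x‖) :
    cut 0 R x = 0 := by
  unfold cut
  have h1 : 2 ≤ dist x 0 / R := by rw [dist_zero_right, le_div_iff₀ hR]; exact hx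
  exact max_eq_left ((min_le_right _ _).trans (by linarith only [h1]))

/-- Lipschitz approximation in `L²` -/
theorem exists_lipC_approx {d : ℕ} {μ : Measure (Eu d)} [IsFiniteMeasureOnCompacts μ]
    {f : Eu d → ℝ} (hf : MemLp f 2 μ) (R : ℝ) (hR : 0 < R) (hfR : ∀ x, R < ‖x‖ → f x = 0)
    (ε : ℝ) (hε : 0 < ε) :
    ∃ g : Eu d → ℝ, LipC g ∧ (∀ x, 2 * R < ‖x‖ → g x = 0) ∧
      Real.sqrt (∫ x, (f x - g x) ^ 2 ∂μ) ≤ ε := by
  obtain ⟨g0, hg0, hg0', hg0''⟩ := MemLp.exist_eLpNorm_sub_le (by norm_num) (by (clear * -; norm_num)) hf hε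
  obtain ⟨L, hL⟩ := ContDiff.lipschitzWith_of_hasCompactSupport hg0 hg0' (by simp)
  have hg0L : LipC g0 := ⟨⟨L, hL⟩, hg0⟩
  have hgL : LipC (fun x => cut 0 R x * g0 x) := (lipC_cut 0 R hR).mul hg0L
  refine ⟨fun x => cut 0 R x * g0 x, hgL, fun x hx => ?_, ?_⟩
  · change cut 0 R x * g0 x = 0
    rw [cut0_eq_zero R hR x hx.le, zero_mul]
  · have h1 : MemLp (fun x => f x - cut 0 R x * g0 x) 2 μ := hf.sub (hgL.memLp 2)
    rw [sqrt_integral_sq h1]
    refine ENNReal.toReal_le_of_le_ofReal hε.le (le_trans ?_ hg0'')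
    refine eLpNorm_mono fun x => ?_
    rw [Pi.sub_apply]
    rcases le_or_gt ‖x‖ R with hx | hx
    · rw [cut0_eq_one R hR x hx, one_mul]
    · rw [hfR x hx, zero_sub, zero_sub, norm_neg, norm_neg, norm_mul,
        Real.norm_of_nonneg (cut0_nonneg _ _)]
      exact mul_le_of_le_one_left (norm_nonneg _) (cut0_le_one _ _)

theorem integrable_pos_form {d : ℕ} {μ : Measure (Eu d)} (h : AR n c C D μ) (e : ℝ) (he : 0 < e)
    {ψ θ : Eu d → ℝ} (hψ : Integrable ψ μ) (hθ : Integrable θ μ) :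
    Integrable (fun p : Eu d × Eu d => (ψ p.1 * θ p.2) • rK n e (p.1 - p.2)) (μ.prod μ) := by
  have := h.isLocallyFiniteMeasure
  have h1 : Integrable (fun p : Eu d × Eu d => ψ p.1 * θ p.2) (μ.prod μ) := hψ.mul_prod hθ
  refine Integrable.mono' (h1.norm.mul_const ((e ^ n)⁻¹)) ?_ ?_
  · exact h1.aestronglyMeasurable.smul
      (((measurable_rK n e).comp (measurable_fst.sub measurable_snd)).aestronglyMeasurable)
  · filter_upwards with p
    rw [norm_smul]
    gcongr
    exact norm_rK_le_e n e he _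

/-- `RB` for `L²` functions with bounded support -/
theorem RB.ext {d : ℕ} {μ : Measure (Eu d)} {C₁ : ℝ} (h : AR n c C D μ) (hb : RB n C₁ μ)
    (e : ℝ) (he : 0 < e) {ψ θ : Eu d → ℝ} (hψ : MemLp ψ 2 μ) (R : ℝ) (hR : 0 < R)
    (hψR : ∀ x, R < ‖x‖ → ψ x = 0) (hθ : Continuous θ) (hθ' : HasCompactSupport θ) :
    ‖form n e μ ψ θ‖ ≤ C₁ * Real.sqrt (∫ x, ψ x ^ 2 ∂μ) * Real.sqrt (∫ x, θ x ^ 2 ∂μ) := by
  have hlf := h.isLocallyFiniteMeasure
  obtain ⟨hC1, hb⟩ := hb
  have hθi : Integrable θ μ := hθ.integrable_of_hasCompactSupport hθ'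
  have hfin : μ (closedBall (0 : Eu d) (2 * R)) ≠ ⊤ := measure_closedBall_lt_top.ne
  set V := Real.sqrt (μ.real (closedBall (0 : Eu d) (2 * R))) with hV
  set Θ := Real.sqrt (∫ x, θ x ^ 2 ∂μ) with hΘ
  set Ψ := Real.sqrt (∫ x, ψ x ^ 2 ∂μ) with hΨ
  set I := ∫ x, |θ x| ∂μ with hI
  have hI0 : 0 ≤ I := integral_nonneg fun x => abs_nonneg _
  have hΘ0 : 0 ≤ Θ := Real.sqrt_nonneg _
  have hV0 : 0 ≤ V := Real.sqrt_nonneg _
  have hψi : Integrable ψ μ := by
    have h1 : IntegrableOn ψ (closedBall (0 : Eu d) R) μ := by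
      have : Fact (μ (closedBall (0 : Eu d) R) < ⊤) := ⟨measure_closedBall_lt_top⟩
      exact (hψ.restrict _).integrable one_le_two
    rw [← integrable_indicator_iff measurableSet_closedBall] at h1
    refine h1.congr (Eventually.of_forall fun x => ?_)
    by_cases hx : x ∈ closedBall (0 : Eu d) R
    · rw [indicator_of_mem hx]
    · rw [indicator_of_notMem hx, hψR x (by simpa only [mem_closedBall, dist_zero_right,
                                              not_le] using hx)]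
  have key : ∀ ε : ℝ, 0 < ε → ‖form n e μ ψ θ‖ ≤
      C₁ * Ψ * Θ + ε * (C₁ * Θ + (e ^ n)⁻¹ * V * I) := by
    intro ε hε
    obtain ⟨g, hg, hgR, hgε⟩ := exists_lipC_approx hψ R hR hψR ε hε
    have hgi : Integrable g μ := hg.continuous.integrable_of_hasCompactSupport hg.2
    have hg2 : MemLp g 2 μ := hg.memLp 2
    have hd2 : MemLp (fun x => ψ x - g x) 2 μ := hψ.sub hg2
    have hdi : Integrable (fun x => ψ x - g x) μ := hψi.sub hgi
    have e1 : form n e μ ψ θ = form n e μ g θ + form n e μ (fun x => ψ x - g x) θ := by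
      rw [form_eq_of_pos h e he hψi hθi, form_eq_of_pos h e he hgi hθi,
        form_eq_of_pos h e he hdi hθi, ← integral_add]
      · congr 1
        funext p
        rw [← add_smul]; congr 1; ring
      · exact integrable_pos_form h e he hgi hθi
      · exact integrable_pos_form h e he hdi hθi
    have h2 : ‖form n e μ g θ‖ ≤ C₁ * (Ψ + ε) * Θ := by
      refine (hb e he g θ hg.continuous hg.2 hθ hθ').trans ?_
      have h3 : Real.sqrt (∫ x, g x ^ 2 ∂μ) ≤ Ψ + ε := by
        have h4 := sqrt_integral_sq_sub_le hψ hd2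
        simp only [sub_sub_cancel] at h4
        linarith only [hgε, h4]
      (clear * - hC1 h3; (clear * - h3 hC1; gcongr))
    have h5 : ‖form n e μ (fun x => ψ x - g x) θ‖ ≤ (e ^ n)⁻¹ * (V * ε) * I := by
      rw [form_eq_of_pos h e he hdi hθi]
      have h6 : ∀ p : Eu d × Eu d, ‖((ψ p.1 - g p.1) * θ p.2) • rK n e (p.1 - p.2)‖ ≤
          (e ^ n)⁻¹ * (|ψ p.1 - g p.1| * |θ p.2|) := by
        intro p
        rw [norm_smul, norm_mul, Real.norm_eq_abs, Real.norm_eq_abs, mul_comm]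
        gcongr
        exact norm_rK_le_e n e he _
      have h7 := norm_integral_le_of_norm_le (μ := μ.prod μ)
        ((hdi.abs.mul_prod hθi.abs).const_mul ((e ^ n)⁻¹)) (Eventually.of_forall h6)
      refine h7.trans ?_
      rw [integral_const_mul, integral_prod_mul (fun x => |ψ x - g x|) (fun x => |θ x|), ← mul_assoc]
      have h8 := integral_abs_le_sqrt hd2 (closedBall (0 : Eu d) (2 * R)) measurableSet_closedBall
        hfin (fun x hx => by
          have hx' : 2 * R < ‖x‖ := by simpa only [mem_closedBall, dist_zero_right, not_le] using hx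
          rw [hgR x hx', hψR x (by linarith only [hR, hx']), sub_zero])
      have h9 : ∫ x, |ψ x - g x| ∂μ ≤ V * ε := h8.trans (by (clear * - hgε; (clear * - hgε; gcongr)))
      (clear * - he h9; gcongr)
    rw [e1]
    refine (norm_add_le _ _).trans ?_
    calc ‖form n e μ g θ‖ + ‖form n e μ (fun x => ψ x - g x) θ‖
        ≤ C₁ * (Ψ + ε) * Θ + (e ^ n)⁻¹ * (V * ε) * I := add_le_add h2 h5
      _ = _ := by ring
  refine le_of_forall_pos_le_add fun δ hδ => ?_
  set A := C₁ * Θ + (e ^ n)⁻¹ * V * I with hA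
  have hA0 : 0 ≤ A := by (clear * - he hC1; (clear * - hC1 he; positivity))
  refine (key (δ / (A + 1)) (by (clear * - he hC1 hδ; positivity))).trans ?_
  gcongr
  rw [div_mul_eq_mul_div, div_le_iff₀ (by (clear * - he hC1; positivity))]
  nlinarith only [hδ]

/-- mean-zero Lipschitz approximation in `L²` -/
theorem exists_lipC_approx0 {d : ℕ} {μ : Measure (Eu d)} [IsFiniteMeasureOnCompacts μ]
    {f : Eu d → ℝ} (hf : MemLp f 2 μ) (hfi : Integrable f μ) (R : ℝ) (hR : 0 < R)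
    (hfR : ∀ x, R < ‖x‖ → f x = 0) (hf0 : ∫ x, f x ∂μ = 0) (hm : 0 < ∫ x, tent 0 R x ∂μ)
    (ε : ℝ) (hε : 0 < ε) :
    ∃ g : Eu d → ℝ, LipC g ∧ (∀ x, 2 * R < ‖x‖ → g x = 0) ∧ ∫ x, g x ∂μ = 0 ∧
      Real.sqrt (∫ x, (f x - g x) ^ 2 ∂μ) ≤ ε := by
  set V := Real.sqrt (μ.real (closedBall (0 : Eu d) (2 * R))) with hV
  set m0 := ∫ x, tent (0 : Eu d) R x ∂μ with hm0
  have htL : LipC (tent (0 : Eu d) R) := lipC_tent 0 R hR
  set T := Real.sqrt (∫ x, tent (0 : Eu d) R x ^ 2 ∂μ) with hT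
  have hV0 : 0 ≤ V := Real.sqrt_nonneg _
  have hT0 : 0 ≤ T := Real.sqrt_nonneg _
  set A := 1 + V * T / m0 with hA
  have hA0 : 0 < A := by (clear * - hm; (clear * - hm; positivity))
  obtain ⟨g1, hg1, hg1R, hg1ε⟩ := exists_lipC_approx hf R hR hfR (ε / A) (by (clear * - hε hm; (clear * - hε hm; positivity)))
  have hg1i : Integrable g1 μ := hg1.continuous.integrable_of_hasCompactSupport hg1.2
  have hti : Integrable (tent (0 : Eu d) R) μ :=
    htL.continuous.integrable_of_hasCompactSupport htL.2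
  have hd : MemLp (fun x => f x - g1 x) 2 μ := hf.sub (hg1.memLp 2)
  set m1 := ∫ x, g1 x ∂μ with hm1
  have h1 : |m1| ≤ V * (ε / A) := by
    have h2 : m1 = - ∫ x, (f x - g1 x) ∂μ := by
      rw [integral_sub hfi hg1i, hf0]; ring
    rw [h2, abs_neg]
    refine (abs_integral_le_integral_abs).trans ?_
    refine (integral_abs_le_sqrt hd (closedBall (0 : Eu d) (2 * R)) measurableSet_closedBall
      measure_closedBall_lt_top.ne (fun x hx => ?_)).trans ?_
    · have hx' : 2 * R < ‖x‖ := by simpa only [mem_closedBall, dist_zero_right, not_le] using hx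
      rw [hg1R x hx', hfR x (by linarith only [hR, hx']), sub_zero]
    · (clear * - hg1ε; gcongr)
  have hgL : LipC (fun x => g1 x - m1 / m0 * tent 0 R x) := hg1.sub (htL.const_mul _)
  refine ⟨fun x => g1 x - m1 / m0 * tent 0 R x, hgL, fun x hx => ?_, ?_, ?_⟩
  · have h2 : tent (0 : Eu d) R x = 0 := by
      unfold tent
      have : 1 ≤ dist x 0 / R := by
        rw [dist_zero_right, le_div_iff₀ hR]; linarith only [hR, hx]
      exact max_eq_left (by linarith only [this])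
    change g1 x - m1 / m0 * tent 0 R x = 0
    rw [hg1R x hx, h2]; ring
  · rw [integral_sub hg1i (hti.const_mul _), integral_const_mul]
    rw [← hm0, ← hm1]
    field_simp
    ring
  · have h3 : ∀ x, f x - (g1 x - m1 / m0 * tent 0 R x) =
        (f x - g1 x) - (-(m1 / m0)) * tent 0 R x := fun x => by ring
    simp only [h3]
    have h4 : MemLp (fun x => (-(m1 / m0)) * tent (0 : Eu d) R x) 2 μ :=
      (htL.const_mul _).memLp 2
    refine (sqrt_integral_sq_sub_le hd h4).trans ?_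
    have h5 : Real.sqrt (∫ x, (-(m1 / m0) * tent (0 : Eu d) R x) ^ 2 ∂μ) = |m1| / m0 * T := by
      simp only [mul_pow]
      rw [integral_const_mul, Real.sqrt_mul (sq_nonneg _), Real.sqrt_sq_eq_abs, abs_neg, abs_div,
        abs_of_pos hm]
    rw [h5]
    calc Real.sqrt (∫ x, (f x - g1 x) ^ 2 ∂μ) + |m1| / m0 * T
        ≤ ε / A + V * (ε / A) / m0 * T := by (clear * - hm hg1ε h1; gcongr)
      _ = ε / A * A := by rw [hA]; ring
      _ = ε := div_mul_cancel₀ _ hA0.ne'

theorem integrable_decay {d : ℕ} (n : ℕ) {C : ℝ} (hC : 0 < C) {ν : Measure (Eu d)}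
    (h : UpReg n C ν) : Integrable (fun y : Eu d => ((1 + ‖y‖) ^ (n + 1))⁻¹) ν := by
  have hlf := h.isLocallyFiniteMeasure
  obtain ⟨C2, hC2, hfar⟩ := lintegral_far n 1 le_rfl C hC
  have h2 : Integrable ((closedBall (0 : Eu d) 1).indicator (fun _ => (1 : ℝ))) ν := by
    rw [integrable_indicator_iff measurableSet_closedBall]
    exact integrableOn_const measure_closedBall_lt_top.ne
  have hms : MeasurableSet {y : Eu d | 1 ≤ dist y 0} :=
    measurableSet_le measurable_const (measurable_id.dist measurable_const)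
  have h3 : Integrable ({z : Eu d | 1 ≤ dist z 0}.indicator
      (fun z => (‖z‖ ^ (n + 1))⁻¹)) ν := by
    have hm1 : Measurable (fun z : Eu d => (‖z‖ ^ (n + 1))⁻¹) := by (clear * -; fun_prop)
    rw [integrable_indicator_iff hms]
    refine ⟨hm1.aestronglyMeasurable, ?_⟩
    rw [hasFiniteIntegral_iff_enorm]
    have h4 := hfar d ν h 0 1 one_pos
    refine lt_of_le_of_lt ?_ (h4.trans_lt ENNReal.ofReal_lt_top)
    refine lintegral_mono fun z => ?_
    rw [Real.enorm_eq_ofReal (by (clear * -; (clear * -; positivity))), zero_sub, norm_neg]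
  have hm : Measurable (fun y : Eu d => ((1 + ‖y‖) ^ (n + 1))⁻¹) := by (clear * -; fun_prop)
  refine (h2.add h3).mono' hm.aestronglyMeasurable (Eventually.of_forall fun z => ?_)
  rw [Real.norm_of_nonneg (by (clear * -; positivity)), Pi.add_apply]
  rcases le_or_gt (dist z 0) 1 with hz | hz
  · have h5 : z ∈ closedBall (0 : Eu d) 1 := hz
    rw [indicator_of_mem h5]
    refine le_trans ?_ (le_add_of_nonneg_right (indicator_nonneg (fun _ _ => by (clear * -; (clear * -; positivity))) _))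
    apply inv_le_one_of_one_le₀
    exact one_le_pow₀ (by linarith only [norm_nonneg z])
  · have h5 : z ∈ {z : Eu d | 1 ≤ dist z 0} := hz.le
    rw [indicator_of_mem h5]
    refine le_trans ?_ (le_add_of_nonneg_left (indicator_nonneg (fun _ _ => zero_le_one) _))
    have h6 : 0 < ‖z‖ := by rw [dist_zero_right] at hz; linarith only [hz]
    gcongr
    linarith only []

/-- the density of Lebesgue measure with respect to `ν` -/
noncomputable def dens (ν : Measure (Eu n)) (x : Eu n) : ℝ := ((volume : Measure (Eu n)).rnDeriv ν x).toReal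

theorem dens_le (ν : Measure (Eu n)) [IsLocallyFiniteMeasure ν] {K : ℝ}
    (hK : (volume : Measure (Eu n)) ≤ ENNReal.ofReal K • ν) (hK0 : 0 < K) :
    ∀ᵐ x ∂ν, |dens ν x| ≤ K := by
  have h1 : (volume : Measure (Eu n)).rnDeriv ν ≤ᵐ[ν] fun _ => ENNReal.ofReal K := by
    refine ae_le_of_forall_setLIntegral_le_of_sigmaFinite
      (Measure.measurable_rnDeriv _ _) fun s hs _ => ?_
    refine (Measure.setLIntegral_rnDeriv_le s).trans ?_
    rw [setLIntegral_const]
    have := hK s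
    simpa only [ge_iff_le, Measure.smul_apply, smul_eq_mul] using this
  filter_upwards [h1] with x hx
  unfold dens
  rw [abs_of_nonneg ENNReal.toReal_nonneg]
  exact ENNReal.toReal_le_of_le_ofReal hK0.le hx

/-- pairing identity: sum of the components of the forms of `dens · ∂ᵢζ` -/
theorem sum_form_eq (h : AR n c C D ν) (hac : (volume : Measure (Eu n)) ≪ ν)
    (e : ℝ) (he : 0 < e) (ζ : Eu n → ℝ) (hζ : ContDiff ℝ 1 ζ) (hζ' : HasCompactSupport ζ)
    (θ : Eu n → ℝ) (hθ : Continuous θ) (hθ' : HasCompactSupport θ) :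
    ∑ i, (form n e ν (fun x => dens ν x * fderiv ℝ ζ x (EuclideanSpace.single i 1)) θ) i =
      ∫ y, θ y * gradPot n e ζ y ∂ν := by
  have hlf := h.isLocallyFiniteMeasure
  have hθi : Integrable θ ν := hθ.integrable_of_hasCompactSupport hθ'
  have hζf : Continuous (fderiv ℝ ζ) := hζ.continuous_fderiv one_ne_zero
  have hdi : ∀ i, Integrable (fun x => fderiv ℝ ζ x (EuclideanSpace.single i (1 : ℝ)))
      (volume : Measure (Eu n)) := fun i =>
    (hζf.clm_apply continuous_const).integrable_of_hasCompactSupport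
      (hζ'.fderiv_apply (𝕜 := ℝ) _)
  have hψi : ∀ i, Integrable (fun x => dens ν x * fderiv ℝ ζ x (EuclideanSpace.single i (1 : ℝ))) ν :=
    fun i => (integrable_rnDeriv_smul_iff hac).2 (hdi i)
  have hint : ∀ i, Integrable (fun p : Eu n × Eu n =>
      ((dens ν p.1 * fderiv ℝ ζ p.1 (EuclideanSpace.single i (1 : ℝ))) * θ p.2) •
        rK n e (p.1 - p.2)) (ν.prod ν) := fun i => integrable_pos_form h e he (hψi i) hθi
  have hinti : ∀ i, Integrable (fun p : Eu n × Eu n =>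
      ((dens ν p.1 * fderiv ℝ ζ p.1 (EuclideanSpace.single i (1 : ℝ))) * θ p.2) *
        (rK n e (p.1 - p.2)) i) (ν.prod ν) := by
    intro i
    have := (EuclideanSpace.proj i : Eu n →L[ℝ] ℝ).integrable_comp (hint i)
    refine this.congr (Eventually.of_forall fun p => ?_)
    simp
  have hcomp : ∀ i, (form n e ν (fun x => dens ν x * fderiv ℝ ζ x (EuclideanSpace.single i 1)) θ) i
      = ∫ y, θ y * (∫ x, fderiv ℝ ζ x (EuclideanSpace.single i 1) * (rK n e (x - y)) i) ∂ν := by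
    intro i
    rw [form_eq_of_pos h e he (hψi i) hθi]
    have h1 := (EuclideanSpace.proj i : Eu n →L[ℝ] ℝ).integral_comp_comm (hint i)
    have h2 : (∫ p : Eu n × Eu n, ((dens ν p.1 * fderiv ℝ ζ p.1 (EuclideanSpace.single i (1 : ℝ)))
        * θ p.2) • rK n e (p.1 - p.2) ∂(ν.prod ν)) i =
        ∫ p : Eu n × Eu n, ((dens ν p.1 * fderiv ℝ ζ p.1 (EuclideanSpace.single i (1 : ℝ)))
        * θ p.2) * (rK n e (p.1 - p.2)) i ∂(ν.prod ν) := by
      refine Eq.trans ?_ (h1.symm.trans ?_)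
      · rfl
      · refine integral_congr_ae (Eventually.of_forall fun p => ?_)
        simp only [map_smul, PiLp.proj_apply, smul_eq_mul]
    rw [h2, integral_prod_symm _ (hinti i)]
    refine integral_congr_ae (Eventually.of_forall fun y => ?_)
    simp only
    rw [← integral_rnDeriv_smul hac, ← integral_const_mul]
    refine integral_congr_ae (Eventually.of_forall fun x => ?_)
    simp only [dens, smul_eq_mul]
    ring
  rw [Finset.sum_congr rfl fun i _ => hcomp i, ← integral_finsetSum]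
  · refine integral_congr_ae (Eventually.of_forall fun y => ?_)
    simp only [gradPot, Finset.mul_sum]
  · intro i _
    have h3 := (hinti i).integral_prod_right
    refine h3.congr (Eventually.of_forall fun y => ?_)
    simp only
    rw [← integral_rnDeriv_smul hac, ← integral_const_mul]
    refine integral_congr_ae (Eventually.of_forall fun x => ?_)
    simp only [dens, smul_eq_mul]
    ring

theorem norm_coord_sum_le (v : Fin n → Eu n) : |∑ i, (v i) i| ≤ ∑ i, ‖v i‖ :=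
  (Finset.abs_sum_le_sum_abs _ _).trans
    (Finset.sum_le_sum fun i _ => abs_coord_le_norm (v i) i)

/-- the truncated equation -/
theorem frac_cut_le (hn : 1 ≤ n) {C₁ C₂ : ℝ} (h : Lim n c C C₁ C₂ ν) (hs : ν.support = univ)
    (ζ : Eu n → ℝ) (hζ : ContDiff ℝ 2 ζ) (hζ' : HasCompactSupport ζ) :
    ∃ M S₀ : ℝ, 0 < S₀ ∧ ∀ S : ℝ, S₀ ≤ S → |∫ y, cut 0 S y * fracL n ζ y ∂ν| ≤ M / S := by
  have har := h.ar
  have hC := har.C_pos
  have hc := har.c_pos
  have hlf := har.isLocallyFiniteMeasure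
  obtain ⟨K, hK, hvK⟩ := har.volume_le hn hs
  have hac : (volume : Measure (Eu n)) ≪ ν :=
    Measure.absolutelyContinuous_of_le_smul hvK
  have hζ1 : ContDiff ℝ 1 ζ := hζ.of_le one_le_two
  have hζf : Continuous (fderiv ℝ ζ) := hζ.continuous_fderiv two_ne_zero
  -- the support radius
  obtain ⟨R0, hR0⟩ := hζ'.isCompact.isBounded.subset_closedBall (0 : Eu n)
  set R : ℝ := max R0 1 with hR
  have hRpos : 0 < R := lt_max_of_lt_right one_pos
  have hζR : ∀ x, R < ‖x‖ → fderiv ℝ ζ x = 0 := by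
    intro x hx
    have h1 : x ∉ tsupport ζ := by
      intro hx'
      have h2 := hR0 hx'
      rw [mem_closedBall, dist_zero_right] at h2
      have h3 := le_max_left R0 1
      linarith only [hx, h2, h3]
    by_contra h2
    exact h1 (support_fderiv_subset ℝ (Function.mem_support.2 h2))
  set ψ : Fin n → Eu n → ℝ := fun i x => dens ν x * fderiv ℝ ζ x (EuclideanSpace.single i 1)
    with hψ
  have hdc : ∀ i, Continuous fun x => fderiv ℝ ζ x (EuclideanSpace.single i (1 : ℝ)) := fun i =>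
    hζf.clm_apply continuous_const
  have hds : ∀ i, HasCompactSupport fun x => fderiv ℝ ζ x (EuclideanSpace.single i (1 : ℝ)) :=
    fun i => hζ'.fderiv_apply (𝕜 := ℝ) _
  have hψR : ∀ i x, R < ‖x‖ → ψ i x = 0 := by
    intro i x hx
    simp only [hψ, hζR x hx, zero_apply, mul_zero]
  have hdensm : Measurable (dens ν) := (Measure.measurable_rnDeriv _ _).ennreal_toReal
  have hψm : ∀ i, MemLp (ψ i) 2 ν := by
    intro i
    refine MemLp.of_le_mul (c := K) (((hdc i).memLp_of_hasCompactSupport (hds i)) :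
      MemLp (fun x => fderiv ℝ ζ x (EuclideanSpace.single i (1 : ℝ))) 2 ν)
      (hdensm.mul (hdc i).measurable).aestronglyMeasurable ?_
    filter_upwards [dens_le ν hvK hK] with x hx
    simp only [hψ, norm_mul]
    gcongr
    exact hx
  have hψi : ∀ i, Integrable (ψ i) ν := fun i =>
    (integrable_rnDeriv_smul_iff hac).2 ((hdc i).integrable_of_hasCompactSupport (hds i))
  have hψ0 : ∀ i, ∫ x, ψ i x ∂ν = 0 := by
    intro i
    have h1 : ∫ x, ψ i x ∂ν = ∫ x, fderiv ℝ ζ x (EuclideanSpace.single i (1 : ℝ)) :=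
      integral_rnDeriv_smul hac
    rw [h1]
    have h2 := integral_mul_fderiv_eq_neg_fderiv_mul_of_integrable
      (μ := (volume : Measure (Eu n))) (f := fun _ => (1 : ℝ)) (g := ζ)
      (v := EuclideanSpace.single i 1) (by simp only [fderiv_fun_const, Pi.zero_apply, zero_apply,
                                             zero_mul, integrable_fun_zero]) (by
        simpa only [one_mul] using (hdc i).integrable_of_hasCompactSupport (hds i)) (by
        simpa only [one_mul] using hζ.continuous.integrable_of_hasCompactSupport hζ')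
        (fun x _ => differentiableAt_const _)
        (fun x _ => (hζ.differentiable two_ne_zero) x)
    simpa only [one_mul, fderiv_fun_const, Pi.zero_apply, zero_apply, zero_mul, integral_zero, neg_zero] using h2
  have h0s : (0 : Eu n) ∈ ν.support := by rw [hs]; trivial
  have htent : 0 < ∫ x, tent (0 : Eu n) R x ∂ν := by
    have htL : LipC (tent (0 : Eu n) R) := lipC_tent 0 R hRpos
    have hti := htL.continuous.integrable_of_hasCompactSupport htL.2 (μ := ν)
    have h1 : ∀ x, (ball (0 : Eu n) (R / 2)).indicator (fun _ => (1 / 2 : ℝ)) x ≤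
        tent (0 : Eu n) R x := by
      intro x
      by_cases hx : x ∈ ball (0 : Eu n) (R / 2)
      · rw [indicator_of_mem hx]
        rw [mem_ball] at hx
        unfold tent
        refine le_max_of_le_right ?_
        have : dist x 0 / R ≤ 1 / 2 := by
          rw [div_le_iff₀ hRpos]; linarith only [hx]
        linarith only [this]
      · rw [indicator_of_notMem hx]; exact le_max_left _ _
    have h2 : 0 < ν.real (ball (0 : Eu n) (R / 2)) := by
      refine ENNReal.toReal_pos ?_ measure_ball_lt_top.ne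
      have h3 := har.lower 0 h0s (R / 2) (by (clear * -; positivity)) le_top
      exact (lt_of_lt_of_le (ENNReal.ofReal_pos.2 (by (clear * - hc; positivity))) h3).ne'
    have h4 := integral_mono ((integrable_indicator_iff measurableSet_ball).2
      (integrableOn_const (C := (1 / 2 : ℝ)) (measure_ball_lt_top (μ := ν) (x := (0 : Eu n))
        (r := R / 2)).ne)) hti h1
    rw [integral_indicator measurableSet_ball, setIntegral_const, smul_eq_mul] at h4
    have h5 : 0 < ν.real (ball (0 : Eu n) (R / 2)) * (1 / 2) := by (clear * - h2; (clear * - h2; positivity))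
    linarith only [h2, h4]
  set V := Real.sqrt (ν.real (closedBall (0 : Eu n) (2 * R))) with hV
  have hC2 := h.er.1
  refine ⟨∑ i, C₂ * (2 * R) * ∫ x, |ψ i x| ∂ν, 4 * R, by (clear * -; positivity), fun S hS => ?_⟩
  have hSpos : 0 < S := by linarith only [hRpos, hS]
  have hθL : LipC (cut (0 : Eu n) S) := lipC_cut 0 S hSpos
  set Θ := Real.sqrt (∫ x, cut (0 : Eu n) S x ^ 2 ∂ν) with hΘ
  have hθc := hθL.continuous
  -- the limit of the left side
  obtain ⟨B, hB0, hB⟩ := gradPot_bound hn ζ hζ hζ'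
  have hlim : Tendsto (fun e : ℝ => ∫ y, cut 0 S y * gradPot n e ζ y ∂ν) (𝓝[>] 0)
      (𝓝 (∫ y, cut 0 S y * (- fracL n ζ y) ∂ν)) := by
    refine tendsto_integral_filter_of_dominated_convergence
      (fun y => |cut 0 S y| * B) ?_ ?_ ?_ ?_
    · filter_upwards [self_mem_nhdsWithin] with e he
      have h1 : (fun y => gradPot n e ζ y) = fun y => - ∫ x, ζ x * Dk n e (x - y) := by
        funext y; exact gradPot_eq e he ζ hζ1 hζ' y
      have h2 : StronglyMeasurable fun y : Eu n => ∫ x, ζ x * Dk n e (x - y) := by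
        have h3 : Continuous (fun p : Eu n × Eu n => ζ p.2 * Dk n e (p.2 - p.1)) :=
          (hζ.continuous.comp continuous_snd).mul
            ((continuous_Dk e he).comp (continuous_snd.sub continuous_fst))
        exact h3.stronglyMeasurable.integral_prod_right
      have h4 : StronglyMeasurable fun y => gradPot n e ζ y := by
        rw [h1]; exact h2.neg
      exact (hθc.stronglyMeasurable.mul h4).aestronglyMeasurable
    · filter_upwards [self_mem_nhdsWithin] with e he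
      refine Eventually.of_forall fun y => ?_
      rw [norm_mul, Real.norm_eq_abs, Real.norm_eq_abs]
      gcongr
      exact hB e y he
    · exact (hθc.integrable_of_hasCompactSupport hθL.2).abs.mul_const _
    · exact Eventually.of_forall fun y => (tendsto_gradPot hn ζ hζ hζ' y).const_mul _
  -- bound for every small parameter
  have key : ∀ ε : ℝ, 0 < ε → |∫ y, cut 0 S y * fracL n ζ y ∂ν| ≤
      ∑ i, (C₁ * ε * Θ + C₂ * (2 * R / S) * ((∫ x, |ψ i x| ∂ν) + V * ε)) := by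
    intro ε hε
    have hex : ∀ i, ∃ g : Eu n → ℝ, LipC g ∧ (∀ x, 2 * R < ‖x‖ → g x = 0) ∧ ∫ x, g x ∂ν = 0 ∧
      Real.sqrt (∫ x, (ψ i x - g x) ^ 2 ∂ν) ≤ ε := fun i =>
      exists_lipC_approx0 (hψm i) (hψi i) R hRpos (hψR i) (hψ0 i) htent ε hε
    choose g hgL hgR hg0 hgε using hex
    have hgi : ∀ i, Integrable (g i) ν := fun i =>
      (hgL i).continuous.integrable_of_hasCompactSupport (hgL i).2
    have hθi : Integrable (cut (0 : Eu n) S) ν := hθc.integrable_of_hasCompactSupport hθL.2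
    have hdm : ∀ i, MemLp (fun x => ψ i x - g i x) 2 ν := fun i => (hψm i).sub ((hgL i).memLp 2)
    have hdfi : ∀ i, Integrable (fun x => ψ i x - g i x) ν := fun i => (hψi i).sub (hgi i)
    have hdR : ∀ i x, 2 * R < ‖x‖ → ψ i x - g i x = 0 := fun i x hx => by
      rw [hψR i x (by linarith only [hRpos, hx]), hgR i x hx, sub_zero]
    have hbd : ∀ e : ℝ, 0 < e → |∫ y, cut 0 S y * gradPot n e ζ y ∂ν| ≤
        ∑ i, (C₁ * ε * Θ + ‖form n e ν (g i) (cut 0 S)‖) := by
      intro e he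
      rw [← sum_form_eq har hac e he ζ hζ1 hζ' (cut 0 S) hθc hθL.2]
      refine (norm_coord_sum_le _).trans (Finset.sum_le_sum fun i _ => ?_)
      have e1 : form n e ν (ψ i) (cut 0 S) = form n e ν (fun x => ψ i x - g i x) (cut 0 S) +
          form n e ν (g i) (cut 0 S) := by
        rw [form_eq_of_pos har e he (hψi i) hθi, form_eq_of_pos har e he (hgi i) hθi,
          form_eq_of_pos har e he (hdfi i) hθi, ← integral_add]
        · congr 1
          funext p
          rw [← add_smul]; congr 1; ring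
        · exact integrable_pos_form har e he (hdfi i) hθi
        · exact integrable_pos_form har e he (hgi i) hθi
      change ‖form n e ν (ψ i) (cut 0 S)‖ ≤ _
      rw [e1]
      refine (norm_add_le _ _).trans ?_
      gcongr
      refine (RB.ext har h.rb e he (hdm i) (2 * R) (by (clear * -; (clear * -; positivity))) (hdR i) hθc hθL.2).trans ?_
      have := h.rb.1
      gcongr
      exact hgε i
    have hlim2 : Tendsto (fun e : ℝ => ∑ i, (C₁ * ε * Θ + ‖form n e ν (g i) (cut 0 S)‖))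
        (𝓝[>] 0) (𝓝 (∑ i, (C₁ * ε * Θ + ‖form n 0 ν (g i) (cut 0 S)‖))) :=
      tendsto_finsetSum _ fun i _ =>
        (form_tendsto hn har (hgL i) hθL).norm.const_add _
    have h1 : |∫ y, cut 0 S y * (- fracL n ζ y) ∂ν| ≤
        ∑ i, (C₁ * ε * Θ + ‖form n 0 ν (g i) (cut 0 S)‖) := by
      refine le_of_tendsto_of_tendsto hlim.abs hlim2 ?_
      filter_upwards [self_mem_nhdsWithin] with e he
      exact hbd e he
    have h2 : |∫ y, cut 0 S y * (- fracL n ζ y) ∂ν| = |∫ y, cut 0 S y * fracL n ζ y ∂ν| := by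
      rw [← abs_neg, ← integral_neg]
      congr 2
      funext y; ring
    rw [h2] at h1
    refine h1.trans (Finset.sum_le_sum fun i _ => ?_)
    gcongr
    have h3 := h.er.2 0 (2 * R) S (g i) (cut 0 S) (by (clear * -; (clear * -; positivity))) (by linarith only [hS]) (hgL i)
      (fun x hx => hgR i x (by simpa only [dist_zero_right] using hx)) (hg0 i) hθL
      (fun x => ⟨cut0_nonneg S x, cut0_le_one S x⟩)
      (fun x hx => cut0_eq_one S hSpos x (by simpa only [dist_zero_right] using hx))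
    refine h3.trans ?_
    have h4 : ∫ x, |g i x| ∂ν ≤ (∫ x, |ψ i x| ∂ν) + V * ε := by
      have h5 : ∫ x, |g i x| ∂ν ≤ ∫ x, (|ψ i x| + |ψ i x - g i x|) ∂ν := by
        refine integral_mono (hgi i).abs ((hψi i).abs.add (hdfi i).abs) fun x => ?_
        have := abs_sub_abs_le_abs_sub (g i x) (ψ i x)
        rw [abs_sub_comm] at this
        simp only
        linarith only [this]
      rw [integral_add (hψi i).abs (hdfi i).abs] at h5
      refine h5.trans ?_
      gcongr
      refine (integral_abs_le_sqrt (hdm i) (closedBall (0 : Eu n) (2 * R))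
        measurableSet_closedBall measure_closedBall_lt_top.ne (fun x hx => ?_)).trans ?_
      · exact hdR i x (by simpa only [mem_closedBall, dist_zero_right, not_le] using hx)
      · gcongr
        exact hgε i
    (clear * - hC2 hSpos h4; gcongr)
  -- let ε → 0
  have hlim3 : Tendsto (fun ε : ℝ => ∑ i, (C₁ * ε * Θ + C₂ * (2 * R / S) *
      ((∫ x, |ψ i x| ∂ν) + V * ε))) (𝓝[>] 0)
      (𝓝 (∑ i, (C₁ * 0 * Θ + C₂ * (2 * R / S) * ((∫ x, |ψ i x| ∂ν) + V * 0)))) := by
    refine Tendsto.mono_left ?_ nhdsWithin_le_nhds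
    refine Continuous.tendsto' ?_ 0 _ rfl
    fun_prop
  have h6 : |∫ y, cut 0 S y * fracL n ζ y ∂ν| ≤
      ∑ i, (C₁ * 0 * Θ + C₂ * (2 * R / S) * ((∫ x, |ψ i x| ∂ν) + V * 0)) := by
    refine ge_of_tendsto hlim3 ?_
    filter_upwards [self_mem_nhdsWithin] with ε hε
    exact key ε hε
  refine h6.trans (le_of_eq ?_)
  rw [Finset.sum_div]
  refine Finset.sum_congr rfl fun i _ => ?_
  ring

/-- the full equation: `∫ (-Δ)^{1/2} ζ dν = 0` -/
theorem frac_eq (hn : 1 ≤ n) {C₁ C₂ : ℝ} (h : Lim n c C C₁ C₂ ν) (hs : ν.support = univ)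
    (ζ : Eu n → ℝ) (hζ : ContDiff ℝ (⊤ : ℕ∞) ζ) (hζ' : HasCompactSupport ζ) :
    ∫ y, fracL n ζ y ∂ν = 0 := by
  obtain ⟨M, S₀, hS₀, hM⟩ := frac_cut_le hn h hs ζ (contDiff_infty.1 hζ 2) hζ'
  obtain ⟨⟨B, hB⟩, -, hcont⟩ := fracL_bound n hn ζ hζ hζ'
  have hdec := (integrable_decay (d := n) n h.ar.C_pos h.ar.upper).const_mul B
  have hlim : Tendsto (fun k : ℕ => ∫ y, cut 0 ((k : ℝ) + 1) y * fracL n ζ y ∂ν) atTop
      (𝓝 (∫ y, fracL n ζ y ∂ν)) := by
    refine tendsto_integral_of_dominated_convergence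
      (fun y => B * ((1 + ‖y‖) ^ (n + 1))⁻¹) (fun k => ?_) hdec
      (fun k => Eventually.of_forall fun y => ?_) (Eventually.of_forall fun y => ?_)
    · exact ((lipC_cut (0 : Eu n) ((k : ℝ) + 1) (by (clear * -; (clear * -; positivity)))).continuous.mul
        hcont).aestronglyMeasurable
    · rw [norm_mul, Real.norm_of_nonneg (cut0_nonneg _ _), Real.norm_eq_abs]
      exact (mul_le_of_le_one_left (abs_nonneg _) (cut0_le_one _ _)).trans (hB y)
    · refine tendsto_const_nhds.congr' ?_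
      obtain ⟨N, hN⟩ := exists_nat_ge ‖y‖
      filter_upwards [eventually_ge_atTop N] with k hk
      have hk' : (N : ℝ) ≤ k := by exact_mod_cast hk
      rw [cut0_eq_one _ (by (clear * -; positivity)) y (by linarith only [hN, hk']), one_mul]
  have hlim0 : Tendsto (fun k : ℕ => ∫ y, cut 0 ((k : ℝ) + 1) y * fracL n ζ y ∂ν) atTop
      (𝓝 0) := by
    have h0 : Tendsto (fun k : ℕ => M * (1 / ((k : ℝ) + 1))) atTop (𝓝 0) := by
      have := (tendsto_one_div_add_atTop_nhds_zero_nat (𝕜 := ℝ)).const_mul M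
      rwa [mul_zero] at this
    refine squeeze_zero_norm' ?_ h0
    obtain ⟨N, hN⟩ := exists_nat_ge S₀
    filter_upwards [eventually_ge_atTop N] with k hk
    have hk' : (N : ℝ) ≤ k := by exact_mod_cast hk
    rw [Real.norm_eq_abs]
    refine (hM _ (by linarith only [hN, hk'])).trans (le_of_eq ?_)
    ring
  exact tendsto_nhds_unique hlim hlim0

/-- Lemma 8: a measure on `R^n` with full support in the class `Lim` is a constant multiple of
Lebesgue measure. -/
theorem liouville1 (n : ℕ) (hn : 1 ≤ n) (c C C₁ C₂ : ℝ) (ν : Measure (Eu n))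
    (h : Lim n c C C₁ C₂ ν) (hs : ν.support = univ) :
    ∃ g : ℝ, 0 < g ∧ ν = ENNReal.ofReal g • (volume : Measure (Eu n)) := by
  have har := h.ar
  have hlf := har.isLocallyFiniteMeasure
  obtain ⟨K, hK, hνK⟩ := har.le_volume hn
  have hac : ν ≪ (volume : Measure (Eu n)) := Measure.absolutelyContinuous_of_le_smul hνK
  set G : Eu n → ℝ := fun x => (ν.rnDeriv volume x).toReal with hG
  have hGm : Measurable G := (Measure.measurable_rnDeriv _ _).ennreal_toReal
  have hGK' : ν.rnDeriv volume ≤ᵐ[volume] fun _ => ENNReal.ofReal K := by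
    refine ae_le_of_forall_setLIntegral_le_of_sigmaFinite
      (Measure.measurable_rnDeriv _ _) fun s hs' _ => ?_
    refine (Measure.setLIntegral_rnDeriv_le s).trans ?_
    rw [setLIntegral_const]
    have := hνK s
    simpa only [ge_iff_le, Measure.smul_apply, smul_eq_mul] using this
  have hGK : ∀ᵐ x, |G x| ≤ K := by
    filter_upwards [hGK'] with x hx
    rw [abs_of_nonneg ENNReal.toReal_nonneg]
    exact ENNReal.toReal_le_of_le_ofReal hK.le hx
  obtain ⟨κ, hκ, hvol⟩ := exists_vol_const n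
  have hloc : ∀ R : ℝ, MemLp G 2 (volume.restrict (ball 0 R)) := by
    intro R
    have : Fact ((volume : Measure (Eu n)) (ball 0 R) < ⊤) := ⟨measure_ball_lt_top⟩
    exact MemLp.of_bound hGm.aestronglyMeasurable K (ae_restrict_of_ae (by
      filter_upwards [hGK] with x hx
      rwa [Real.norm_eq_abs]))
  have hgrowth : ∀ R : ℝ, 1 ≤ R → ∫ x in ball (0 : Eu n) R, G x ^ 2 ≤ K ^ 2 * κ * R ^ (n + 3) := by
    intro R hR
    have hR0 : 0 < R := by linarith only [hR]
    have h1 : ∫ x in ball (0 : Eu n) R, G x ^ 2 ≤ ∫ _x in ball (0 : Eu n) R, K ^ 2 := by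
      refine integral_mono_of_nonneg (Eventually.of_forall fun x => sq_nonneg _)
        (integrableOn_const measure_ball_lt_top.ne) (ae_restrict_of_ae ?_)
      filter_upwards [hGK] with x hx
      rw [← sq_abs]
      exact pow_le_pow_left₀ (abs_nonneg _) hx 2
    rw [setIntegral_const, smul_eq_mul] at h1
    have h2 : (volume : Measure (Eu n)).real (ball 0 R) = κ * R ^ n := by
      rw [Measure.real, (hvol 0 R hR0).1, ENNReal.toReal_ofReal (by (clear * - hκ hR; (clear * - hκ hR; positivity)))]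
    rw [h2] at h1
    have h3 : R ^ n ≤ R ^ (n + 3) := pow_le_pow_right₀ hR (by omega)
    calc ∫ x in ball (0 : Eu n) R, G x ^ 2 ≤ κ * R ^ n * K ^ 2 := h1
      _ ≤ κ * R ^ (n + 3) * K ^ 2 := by (clear * - h3 hκ hK; gcongr)
      _ = _ := by ring
  have hweak : ∀ φ : Eu n → ℝ, ContDiff ℝ (⊤ : ℕ∞) φ → HasCompactSupport φ → ∫ x, φ x = 0 →
      ∫ x, G x * fracL n φ x = 0 := by
    intro φ hφ hφ' _
    have h1 := frac_eq hn h hs φ hφ hφ'
    rw [← integral_rnDeriv_smul hac] at h1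
    exact h1
  obtain ⟨b, a, hba⟩ := liouville n hn G hloc (K ^ 2 * κ) hgrowth hweak
  have hcl : ∀ x : Eu n, |b + ⟪a, x⟫_ℝ| ≤ K := by
    have h1 : ∀ᵐ x : Eu n, x ∈ {x : Eu n | |b + ⟪a, x⟫_ℝ| ≤ K} := by
      filter_upwards [hba, hGK] with x hx hx'
      rw [hx] at hx'
      exact hx'
    have h2 : IsClosed {x : Eu n | |b + ⟪a, x⟫_ℝ| ≤ K} :=
      isClosed_le (by (clear * -; fun_prop)) continuous_const
    have h3 : Dense {x : Eu n | |b + ⟪a, x⟫_ℝ| ≤ K} := MeasureTheory.Measure.dense_of_ae h1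
    have h4 := h3.closure_eq
    rw [h2.closure_eq] at h4
    intro x
    have : x ∈ {x : Eu n | |b + ⟪a, x⟫_ℝ| ≤ K} := by rw [h4]; trivial
    exact this
  have ha : a = 0 := by
    by_contra ha
    have hna : 0 < ‖a‖ := norm_pos_iff.2 ha
    have h1 := hcl (((K + |b| + 1) / ‖a‖ ^ 2) • a)
    rw [real_inner_smul_right, real_inner_self_eq_norm_sq, div_mul_cancel₀ _ (by (clear * - ha; positivity))] at h1
    have h2 := (abs_le.1 h1).2
    have h3 := neg_abs_le b
    linarith only [h2, h3]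
  subst ha
  have hν : ν = ENNReal.ofReal b • (volume : Measure (Eu n)) := by
    rw [← Measure.withDensity_rnDeriv_eq ν volume hac, ← withDensity_const]
    apply withDensity_congr_ae
    filter_upwards [hba, hGK'] with x hx hx'
    rw [inner_zero_left, add_zero] at hx
    have h1 : ν.rnDeriv volume x ≠ ⊤ := (hx'.trans_lt ENNReal.ofReal_lt_top).ne
    rw [← hx, hG]
    simp only
    rw [ENNReal.ofReal_toReal h1]
  refine ⟨b, ?_, hν⟩
  by_contra hb
  rw [ENNReal.ofReal_of_nonpos (not_lt.1 hb), zero_smul] at hν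
  rw [hν, Measure.support_zero] at hs
  exact (empty_ne_univ (α := Eu n)) hs

end Vale.Agent.P120
end
end

section

section

/-! Constant density (Lemma 8) on planes; aggregator for the Liouville theorems. -/

open MeasureTheory Metric Set Filter Topology
open scoped ENNReal NNReal

namespace Vale.Agent.P120

/-- a measure in the class `Lim` on `R^d` supported in an affine `n`-plane is a multiple of
Lebesgue measure on that plane -/
theorem liouville_plane (n d : ℕ) (hn : 1 ≤ n) (hnd : n ≤ d) (c C C₁ C₂ : ℝ)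
    (ν : Measure (Eu d)) (h : Lim n c C C₁ C₂ ν) (h0 : ν.support.Nonempty)
    (W : Submodule ℝ (Eu d)) (b : Eu d) (hW : Module.finrank ℝ W = n)
    (hs : ∀ x ∈ ν.support, dP W b x = 0) :
    ∃ (ι : Eu n →ₗᵢ[ℝ] Eu d) (g : ℝ), LinearMap.range ι.toLinearMap = W ∧
      c / kap n ≤ g ∧ g ≤ C / kap n ∧ 0 < g ∧ ν.support = {x | dP W b x = 0} ∧
      ∀ f : Eu d → ℝ, Continuous f → HasCompactSupport f →
        ∫ x, f x ∂ν = g * ∫ v, f (b + ι v) :=
  Plane.plane_of hn hnd (fun ν' h' hs' => liouville1 n hn c C C₁ C₂ ν' h' hs') h h0 W b hW hs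

end Vale.Agent.P120
end
end

section

section

/-! Packing and covering by lattices of planes.  Owner module: TOUCH -/

open MeasureTheory Metric Set Filter Topology
open scoped ENNReal NNReal InnerProductSpace

namespace Vale.Agent.P120

variable {d n : ℕ} {c C : ℝ} {D : ℝ≥0∞} {μ : Measure (Eu d)}

/-- orthonormal basis of a subspace, as vectors of the whole space -/
theorem exists_onb (m : ℕ) (W : Submodule ℝ (Eu d)) (hW : Module.finrank ℝ W = m) :
    ∃ u : Fin m → Eu d, Orthonormal ℝ u ∧ (∀ i, u i ∈ W) ∧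
      ∀ x ∈ W, x = ∑ i, ⟪u i, x⟫_ℝ • u i := by
  subst hW
  let B := stdOrthonormalBasis ℝ W
  refine ⟨fun i => (B i : Eu d), ?_, fun i => (B i).2, ?_⟩
  · have := B.orthonormal
    exact this.comp_linearIsometry W.subtypeₗᵢ
  · intro x hx
    have h := B.sum_repr' ⟨x, hx⟩
    have h2 := congrArg (W.subtype) h
    rw [map_sum] at h2
    simp only [map_smul, Submodule.subtype_apply] at h2
    exact h2.symm.trans rfl

theorem norm_lattice_le {m : ℕ} (u : Fin m → Eu d) (hu : Orthonormal ℝ u) (t : Fin m → ℝ) (A : ℝ)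
    (ht : ∀ i, |t i| ≤ A) : ‖∑ i, t i • u i‖ ≤ m * A := by
  refine (norm_sum_le _ _).trans ?_
  have h1 : ∀ i ∈ (Finset.univ : Finset (Fin m)), ‖t i • u i‖ ≤ A := by
    intro i _
    rw [norm_smul, hu.1 i, mul_one, Real.norm_eq_abs]
    exact ht i
  refine (Finset.sum_le_sum h1).trans ?_
  rw [Finset.sum_const, Finset.card_univ, Fintype.card_fin, nsmul_eq_mul]

/-- thin neighbourhoods of planes of dimension less than `n` have small mass -/
theorem measure_thin (n : ℕ) (hn : 1 ≤ n) (C : ℝ) (hC : 0 < C) : ∃ C' : ℝ, 0 < C' ∧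
    ∀ (d : ℕ) (μ : Measure (Eu d)),
      (∀ (x : Eu d) (r : ℝ), 0 < r → μ (closedBall x r) ≤ ENNReal.ofReal (C * r ^ n)) →
      ∀ (W : Submodule ℝ (Eu d)) (b : Eu d), Module.finrank ℝ W < n →
      ∀ (x : Eu d) (r t : ℝ), 0 < r → 0 < t → t ≤ 1 →
        μ (closedBall x r ∩ {y | dP W b y ≤ t * r}) ≤ ENNReal.ofReal (C' * t * r ^ n) := by
  have hn' : (1 : ℝ) ≤ n := by exact_mod_cast hn
  refine ⟨6 ^ (n - 1) * C * n ^ n, by (clear * - hC hn; positivity), ?_⟩
  intro d μ hμ W b hW x r t hr ht ht1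
  obtain ⟨m, hm⟩ : ∃ m, m = Module.finrank ℝ W := ⟨_, rfl⟩
  obtain ⟨u, hu, huW, hu2⟩ := exists_onb m W hm.symm
  rw [← hm] at hW
  set N : ℕ := ⌈1 / t⌉₊ with hN
  have hN1 : 1 / t ≤ N := Nat.le_ceil _
  have hN2 : (N : ℝ) < 1 / t + 1 := Nat.ceil_lt_add_one (by (clear * - ht; positivity))
  have ht2 : 1 ≤ 1 / t := by rw [le_div_iff₀ ht]; linarith only [ht1]
  set p : Eu d := b + W.starProjection (x - b) with hp
  have hpW : p - b ∈ W := by
    rw [hp, add_sub_cancel_left]; exact Submodule.starProjection_apply_mem _ _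
  have hPp : W.starProjection (p - b) = W.starProjection (x - b) := by
    rw [hp, add_sub_cancel_left]
    exact Submodule.starProjection_eq_self_iff.2 (Submodule.starProjection_apply_mem _ _)
  let q : (Fin m → ℤ) → Eu d := fun k => p + ∑ i, (t * r * (k i : ℝ)) • u i
  let F : Finset (Fin m → ℤ) := Fintype.piFinset fun _ => Finset.Icc (-(N : ℤ)) N
  have hcover : closedBall x r ∩ {y | dP W b y ≤ t * r} ⊆
      ⋃ k ∈ F, closedBall (q k) (n * t * r) := by
    rintro y ⟨hy1, hy2⟩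
    rw [mem_closedBall, dist_eq_norm] at hy1
    change dP W b y ≤ t * r at hy2
    set v := W.starProjection (y - x) with hv
    have hvW : v ∈ W := Submodule.starProjection_apply_mem _ _
    have hvr : ‖v‖ ≤ r := (Submodule.norm_starProjection_apply_le _ _).trans hy1
    have hvs := hu2 v hvW
    let k : Fin m → ℤ := fun i => ⌊⟪u i, v⟫_ℝ / (t * r)⌋
    have htr : 0 < t * r := by positivity
    have hk1 : ∀ i, |⟪u i, v⟫_ℝ| ≤ r := fun i => by
      refine (abs_real_inner_le_norm _ _).trans ?_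
      rw [hu.1 i, one_mul]; exact hvr
    have hkF : k ∈ F := by
      rw [Fintype.mem_piFinset]
      intro i
      rw [Finset.mem_Icc]
      have h1 := abs_le.1 (hk1 i)
      have h2 : r ≤ N * (t * r) := by
        rw [div_le_iff₀ ht] at hN1
        nlinarith only [hr, hN1]
      constructor
      · rw [Int.le_floor]
        push_cast
        rw [le_div_iff₀ htr]
        linarith only [h1, h2]
      · have h3 : ⟪u i, v⟫_ℝ / (t * r) ≤ N := by
          rw [div_le_iff₀ htr]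
          linarith only [h1, h2]
        have h4 := (Int.floor_le (⟪u i, v⟫_ℝ / (t * r))).trans h3
        exact_mod_cast h4
    refine mem_iUnion₂.2 ⟨k, hkF, ?_⟩
    rw [mem_closedBall, dist_eq_norm]
    have h5 : y - q k = Wᗮ.starProjection (y - b) +
        ∑ i, (⟪u i, v⟫_ℝ - t * r * (k i : ℝ)) • u i := by
      have h6 : ∑ i, (⟪u i, v⟫_ℝ - t * r * (k i : ℝ)) • u i =
          v - ∑ i, (t * r * (k i : ℝ)) • u i := by
        simp only [sub_smul, Finset.sum_sub_distrib]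
        rw [← hvs]
      have h7 : Wᗮ.starProjection (y - b) = y - p - v := by
        rw [Submodule.starProjection_orthogonal_val, hv]
        have h8 : W.starProjection (y - x) = W.starProjection (y - b) - W.starProjection (x - b) := by
          rw [← map_sub]; congr 1; abel
        rw [h8, hp]; abel
      rw [h6, h7]; simp only [q]; abel
    rw [h5]
    refine (norm_add_le _ _).trans ?_
    have h9 : ‖∑ i, (⟪u i, v⟫_ℝ - t * r * (k i : ℝ)) • u i‖ ≤ m * (t * r) := by
      refine norm_lattice_le u hu _ _ fun i => ?_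
      have h10 := Int.floor_le (⟪u i, v⟫_ℝ / (t * r))
      have h11 := (Int.lt_floor_add_one (⟪u i, v⟫_ℝ / (t * r))).le
      rw [le_div_iff₀ htr] at h10
      rw [div_le_iff₀ htr] at h11
      rw [abs_le]
      constructor
      · simp only [k]; nlinarith only [htr, h10]
      · simp only [k]; nlinarith only [h11]
    have h12 : ‖Wᗮ.starProjection (y - b)‖ ≤ t * r := hy2
    have h13 : (m : ℝ) + 1 ≤ n := by exact_mod_cast hW
    nlinarith only [htr, h9, h12, h13]
  refine (measure_mono hcover).trans ((measure_biUnion_finset_le _ _).trans ?_)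
  have h14 : ∀ k ∈ F, μ (closedBall (q k) (n * t * r)) ≤ ENNReal.ofReal (C * (n * t * r) ^ n) :=
    fun k _ => hμ _ _ (by (clear * - hn ht hr; positivity))
  refine (Finset.sum_le_sum h14).trans ?_
  rw [Finset.sum_const, nsmul_eq_mul]
  have hcard : F.card = (2 * N + 1) ^ m := by
    simp only [F]
    rw [Fintype.card_piFinset]
    simp only [Finset.prod_const, Finset.card_univ, Fintype.card_fin, Int.card_Icc]
    congr 1
    omega
  rw [hcard, ← ENNReal.ofReal_natCast, ← ENNReal.ofReal_mul (by (clear * - ht; positivity))]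
  apply ENNReal.ofReal_le_ofReal
  push_cast
  have h15 : (2 * (N : ℝ) + 1) ^ m ≤ (6 / t) ^ (n - 1) := by
    have h16 : 2 * (N : ℝ) + 1 ≤ 6 / t := by
      have : 6 / t = 6 * (1 / t) := by ring
      rw [this]; linarith only [hN2, ht2]
    have h17 : (1 : ℝ) ≤ 2 * N + 1 := by
      have : (0 : ℝ) ≤ N := Nat.cast_nonneg _
      linarith only []
    calc (2 * (N : ℝ) + 1) ^ m ≤ (2 * (N : ℝ) + 1) ^ (n - 1) := pow_le_pow_right₀ h17 (by omega)
      _ ≤ (6 / t) ^ (n - 1) := pow_le_pow_left₀ (by (clear * - ht; positivity)) h16 _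
  calc (2 * (N : ℝ) + 1) ^ m * (C * (n * t * r) ^ n) ≤
      (6 / t) ^ (n - 1) * (C * (n * t * r) ^ n) := by (clear * - hn hC hr ht h15; gcongr)
    _ = 6 ^ (n - 1) * C * n ^ n * t * r ^ n := by
      obtain ⟨k, rfl⟩ : ∃ k, n = k + 1 := ⟨n - 1, by (clear * - hn; omega)⟩
      rw [Nat.add_sub_cancel, div_pow, mul_pow, mul_pow, pow_succ t k]
      field_simp

end Vale.Agent.P120
end
end

section

section

/-! Improvement of flatness, part I2: the energy, the Caccioppoli inequality and the regularised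
scalar form.  Owner: helper20 -/

open MeasureTheory Metric Set Filter Topology
open scoped ENNReal NNReal

namespace Vale.Agent.P120

variable {d n : ℕ} {c C : ℝ}

namespace Cacc

theorem lintegral_pair_le {ν : Measure (Eu d)} [SFinite ν] {f : Eu d × Eu d → ℝ≥0∞}
    (hf : Measurable f) (R : ℝ) (M : ℝ≥0∞)
    (h : ∀ x ∈ closedBall (0 : Eu d) R, ∫⁻ y in closedBall (0 : Eu d) R, f (x, y) ∂ν ≤ M) :
    ∫⁻ p in closedBall (0 : Eu d) R ×ˢ closedBall (0 : Eu d) R, f p ∂(ν.prod ν)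
      ≤ M * ν (closedBall 0 R) := by
  rw [← Measure.prod_restrict, lintegral_prod _ hf.aemeasurable]
  calc ∫⁻ x in closedBall (0 : Eu d) R, ∫⁻ y in closedBall (0 : Eu d) R, f (x, y) ∂ν ∂ν
      ≤ ∫⁻ _ in closedBall (0 : Eu d) R, M ∂ν := by
        apply setLIntegral_mono' measurableSet_closedBall
        exact h
    _ = M * ν (closedBall 0 R) := by rw [setLIntegral_const]

theorem measurable_pow_inv (m : ℕ) :
    Measurable (fun p : Eu d × Eu d => (‖p.1 - p.2‖ ^ m)⁻¹) := by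
  (clear * -; fun_prop)

/-- double integral of `|x-y|^{1-n}` over a ball -/
theorem lintegral_pair_near (hn : 1 ≤ n) (C : ℝ) (hC : 0 < C) : ∃ K : ℝ, 0 < K ∧
    ∀ (d : ℕ) (c : ℝ) (D : ℝ≥0∞) (ν : Measure (Eu d)), AR n c C D ν → ∀ R : ℝ, 0 < R →
    ∫⁻ p in closedBall (0 : Eu d) R ×ˢ closedBall (0 : Eu d) R,
      ENNReal.ofReal ((‖p.1 - p.2‖ ^ (n - 1))⁻¹) ∂(ν.prod ν) ≤ ENNReal.ofReal (K * R ^ (n + 1)) := by
  obtain ⟨K, hK, hK'⟩ := lintegral_near n hn C hC
  refine ⟨K * 2 * C, by (clear * - hK hC; positivity), ?_⟩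
  intro d c D ν hν R hR
  have := hν.isLocallyFiniteMeasure
  refine (lintegral_pair_le (measurable_pow_inv _).ennreal_ofReal R
    (ENNReal.ofReal (K * (2 * R))) ?_).trans ?_
  · intro x hx
    refine le_trans (lintegral_mono_set ?_) (hK' d ν hν.upper x (2 * R) (by (clear * - hR; positivity)))
    intro y hy
    rw [mem_closedBall] at hx hy ⊢
    calc dist y x ≤ dist y 0 + dist 0 x := dist_triangle _ _ _
      _ ≤ 2 * R := by rw [dist_comm 0 x]; linarith only [hx, hy]
  · calc ENNReal.ofReal (K * (2 * R)) * ν (closedBall 0 R)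
        ≤ ENNReal.ofReal (K * (2 * R)) * ENNReal.ofReal (C * R ^ n) := by
          gcongr; exact hν.upper 0 R hR
      _ = ENNReal.ofReal (K * 2 * C * R ^ (n + 1)) := by
          rw [← ENNReal.ofReal_mul (by positivity)]
          congr 1
          ring

theorem sq_mul_sK (hn : 1 ≤ n) (z : Eu d) : ‖z‖ ^ 2 * sK n 0 z = (‖z‖ ^ (n - 1))⁻¹ ∨ z = 0 := by
  by_cases hz : z = 0
  · right; exact hz
  · left
    have hz' : 0 < ‖z‖ := norm_pos_iff.mpr hz
    rw [sK_zero_eq]
    obtain ⟨m, rfl⟩ : ∃ m, n = m + 1 := ⟨n - 1, by omega⟩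
    simp only [Nat.add_sub_cancel]
    rw [show m + 1 + 1 = m + 2 from rfl, pow_add]
    field_simp

theorem icacc_sq_mul_sK_le (hn : 1 ≤ n) (z : Eu d) : ‖z‖ ^ 2 * sK n 0 z ≤ (‖z‖ ^ (n - 1))⁻¹ := by
  rcases sq_mul_sK hn z with h | h
  · exact h.le
  · subst h
    simp only [norm_zero, ne_eq, OfNat.ofNat_ne_zero, not_false_eq_true, zero_pow, zero_mul,
      inv_nonneg, Std.le_refl, pow_nonneg]

/-- integrability criterion -/
theorem integrable_of_near (hn : 1 ≤ n) {D : ℝ≥0∞} {ν : Measure (Eu d)} (hν : AR n c C D ν)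
    {F : Eu d × Eu d → ℝ} (hF : Measurable F) (R M : ℝ)
    (hb : ∀ p, |F p| ≤ M * (‖p.1 - p.2‖ ^ (n - 1))⁻¹)
    (hs : ∀ p, F p ≠ 0 → p ∈ closedBall (0 : Eu d) R ×ˢ closedBall (0 : Eu d) R) :
    Integrable F (ν.prod ν) := by
  obtain ⟨K, hK, hK'⟩ := lintegral_pair_near hn C hν.C_pos
  refine ⟨hF.aestronglyMeasurable, ?_⟩
  rw [hasFiniteIntegral_iff_enorm]
  have hR : closedBall (0 : Eu d) R ⊆ closedBall (0 : Eu d) (max R 1) :=
    closedBall_subset_closedBall (le_max_left _ _)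
  have hR1 : 0 < max R 1 := lt_max_of_lt_right one_pos
  calc ∫⁻ p, ‖F p‖ₑ ∂(ν.prod ν)
      = ∫⁻ p in closedBall (0 : Eu d) (max R 1) ×ˢ closedBall (0 : Eu d) (max R 1),
          ‖F p‖ₑ ∂(ν.prod ν) := by
        symm
        apply setLIntegral_eq_of_support_subset
        intro p hp
        have hp' : F p ≠ 0 := by
          intro h0; apply hp; simp [h0]
        exact prod_mono hR hR (hs p hp')
    _ ≤ ∫⁻ p in closedBall (0 : Eu d) (max R 1) ×ˢ closedBall (0 : Eu d) (max R 1),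
          ENNReal.ofReal M * ENNReal.ofReal ((‖p.1 - p.2‖ ^ (n - 1))⁻¹) ∂(ν.prod ν) := by
        apply lintegral_mono
        intro p
        simp only
        rw [← ENNReal.ofReal_mul' (by (clear * -; (clear * -; positivity))), Real.enorm_eq_ofReal_abs]
        exact ENNReal.ofReal_le_ofReal (hb p)
    _ = ENNReal.ofReal M * ∫⁻ p in closedBall (0 : Eu d) (max R 1) ×ˢ
          closedBall (0 : Eu d) (max R 1),
          ENNReal.ofReal ((‖p.1 - p.2‖ ^ (n - 1))⁻¹) ∂(ν.prod ν) := by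
        rw [lintegral_const_mul' _ _ ENNReal.ofReal_ne_top]
    _ < ⊤ := by
        apply ENNReal.mul_lt_top ENNReal.ofReal_lt_top
        exact (hK' d c D ν hν _ hR1).trans_lt ENNReal.ofReal_lt_top

end Cacc

theorem Ht.integrableOn_energy (hn : 1 ≤ n) {D : ℝ≥0∞} {ν : Measure (Eu d)} (hν : AR n c C D ν)
    {h : Eu d → ℝ} (hh : ∃ L : ℝ≥0, LipschitzWith L h) (R : ℝ) :
    IntegrableOn (fun p : Eu d × Eu d => (h p.1 - h p.2) ^ 2 * sK n 0 (p.1 - p.2))
      (closedBall (0 : Eu d) R ×ˢ closedBall (0 : Eu d) R) (ν.prod ν) := by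
  obtain ⟨L, hL⟩ := hh
  have hm : MeasurableSet (closedBall (0 : Eu d) R ×ˢ closedBall (0 : Eu d) R) :=
    measurableSet_closedBall.prod measurableSet_closedBall
  rw [← integrable_indicator_iff hm]
  have hmeas : Measurable (fun p : Eu d × Eu d => (h p.1 - h p.2) ^ 2 * sK n 0 (p.1 - p.2)) := by
    have h1 : Measurable h := hL.continuous.measurable
    have h2 : Measurable (fun p : Eu d × Eu d => sK n 0 (p.1 - p.2)) :=
      (measurable_sK n 0).comp (measurable_fst.sub measurable_snd)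
    exact (((h1.comp measurable_fst).sub (h1.comp measurable_snd)).pow_const 2).mul h2
  apply Cacc.integrable_of_near hn hν (hmeas.indicator hm) R ((L : ℝ) ^ 2)
  · intro p
    by_cases hp : p ∈ closedBall (0 : Eu d) R ×ˢ closedBall (0 : Eu d) R
    · rw [indicator_of_mem hp, abs_of_nonneg (mul_nonneg (sq_nonneg _) (sK_nonneg _ _ _))]
      have h1 : |h p.1 - h p.2| ≤ L * ‖p.1 - p.2‖ := by
        have := hL.dist_le_mul p.1 p.2
        rwa [Real.dist_eq, dist_eq_norm] at this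
      calc (h p.1 - h p.2) ^ 2 * sK n 0 (p.1 - p.2)
          ≤ (L * ‖p.1 - p.2‖) ^ 2 * sK n 0 (p.1 - p.2) := by
            apply mul_le_mul_of_nonneg_right _ (sK_nonneg _ _ _)
            rw [← sq_abs]
            (clear * - h1; gcongr)
        _ = (L : ℝ) ^ 2 * (‖p.1 - p.2‖ ^ 2 * sK n 0 (p.1 - p.2)) := by ring
        _ ≤ (L : ℝ) ^ 2 * (‖p.1 - p.2‖ ^ (n - 1))⁻¹ := by
            gcongr
            exact Cacc.icacc_sq_mul_sK_le hn _
    · rw [indicator_of_notMem hp, abs_zero]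
      (clear * -; (clear * -; positivity))
  · intro p hp
    by_contra hcon
    exact hp (indicator_of_notMem hcon _)

namespace Cacc

theorem le_sqrt_mul_sqrt {X E F : ℝ} (hE : 0 ≤ E) (hF : 0 ≤ F)
    (h : ∀ t : ℝ, 0 < t → X ≤ (t * E + t⁻¹ * F) / 2) : X ≤ Real.sqrt E * Real.sqrt F := by
  rcases hE.eq_or_lt with hE0 | hE0
  · rw [← hE0, Real.sqrt_zero, zero_mul]
    by_contra hcon
    push Not at hcon
    have h1 := h ((F + 1) / X) (by (clear * - hF hcon; positivity))
    rw [← hE0, mul_zero, zero_add, inv_div] at h1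
    have h2 : X / (F + 1) * F ≤ X := by
      rw [div_mul_eq_mul_div, div_le_iff₀ (by (clear * - hF; positivity))]
      nlinarith only [hcon]
    linarith only [hcon, h1, h2]
  · rcases hF.eq_or_lt with hF0 | hF0
    · rw [← hF0, Real.sqrt_zero, mul_zero]
      by_contra hcon
      push Not at hcon
      have h1 := h (X / E) (by (clear * - hcon hE0; positivity))
      rw [← hF0, mul_zero, add_zero, div_mul_cancel₀ _ hE0.ne'] at h1
      linarith only [hcon, h1]
    · have hsE : 0 < Real.sqrt E := Real.sqrt_pos.mpr hE0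
      have hsF : 0 < Real.sqrt F := Real.sqrt_pos.mpr hF0
      have h1 := h (Real.sqrt F / Real.sqrt E) (by (clear * - hF0 hE0; positivity))
      have h2 : Real.sqrt F / Real.sqrt E * E = Real.sqrt E * Real.sqrt F := by
        nth_rewrite 2 [← Real.mul_self_sqrt hE0.le]
        (clear * - hE0 hF0; field_simp)
      have h3 : (Real.sqrt F / Real.sqrt E)⁻¹ * F = Real.sqrt E * Real.sqrt F := by
        nth_rewrite 2 [← Real.mul_self_sqrt hF0.le]
        rw [inv_div]
        field_simp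
      rw [h2, h3] at h1
      linarith only [h1]

/-- Cauchy-Schwarz bound for the scalar form with a kernel dominated by `sK n 0` -/
theorem cs_bound (hn : 1 ≤ n) {D : ℝ≥0∞} {ν : Measure (Eu d)} (hν : AR n c C D ν)
    {h ψ θ : Eu d → ℝ} (hh : ∃ L : ℝ≥0, LipschitzWith L h)
    (κ : Eu d → ℝ) (hκm : Measurable κ) (hκ : ∀ z, z ≠ 0 → 0 ≤ κ z ∧ κ z ≤ sK n 0 z)
    {L R M : ℝ} (hL : 0 ≤ L) (hM : 0 ≤ M)
    (hs : ∀ x, R < ‖x‖ → ψ x = 0 ∧ θ x = 0)
    (ha : ∀ x y, |ψ x * θ y - ψ y * θ x| ≤ L * dist x y)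
    (hI : ∫⁻ p in closedBall (0 : Eu d) R ×ˢ closedBall (0 : Eu d) R,
      ENNReal.ofReal (‖p.1 - p.2‖ ^ 2 * κ (p.1 - p.2)) ∂(ν.prod ν) ≤ ENNReal.ofReal M) :
    |∫ p, (h p.1 - h p.2) * (ψ p.1 * θ p.2 - ψ p.2 * θ p.1) * κ (p.1 - p.2) ∂(ν.prod ν)|
      ≤ L * Real.sqrt (energy n ν h R) * Real.sqrt M := by
  have hm : MeasurableSet (closedBall (0 : Eu d) R ×ˢ closedBall (0 : Eu d) R) :=
    measurableSet_closedBall.prod measurableSet_closedBall
  have hκ0 : ∀ z : Eu d, 0 ≤ ‖z‖ ^ 2 * κ z := by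
    intro z
    by_cases hz : z = 0
    · subst hz; simp
    · exact mul_nonneg (sq_nonneg _) (hκ z hz).1
  have hGm : Measurable (fun p : Eu d × Eu d => ‖p.1 - p.2‖ ^ 2 * κ (p.1 - p.2)) := by
    have h2 : Measurable (fun p : Eu d × Eu d => κ (p.1 - p.2)) :=
      hκm.comp (measurable_fst.sub measurable_snd)
    have h3 : Measurable (fun p : Eu d × Eu d => ‖p.1 - p.2‖ ^ 2) := by (clear * -; fun_prop)
    exact h3.mul h2
  have hGi : IntegrableOn (fun p : Eu d × Eu d => ‖p.1 - p.2‖ ^ 2 * κ (p.1 - p.2))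
      (closedBall (0 : Eu d) R ×ˢ closedBall (0 : Eu d) R) (ν.prod ν) := by
    refine ⟨hGm.aestronglyMeasurable, ?_⟩
    rw [hasFiniteIntegral_iff_ofReal (Eventually.of_forall fun p => hκ0 _)]
    exact hI.trans_lt ENNReal.ofReal_lt_top
  have hGle : ∫ p in closedBall (0 : Eu d) R ×ˢ closedBall (0 : Eu d) R,
      ‖p.1 - p.2‖ ^ 2 * κ (p.1 - p.2) ∂(ν.prod ν) ≤ M := by
    rw [integral_eq_lintegral_of_nonneg_ae (Eventually.of_forall fun p => hκ0 _)
      hGm.aestronglyMeasurable]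
    exact ENNReal.toReal_le_of_le_ofReal hM hI
  have hEi := Ht.integrableOn_energy hn hν hh R
  have hE0 : 0 ≤ energy n ν h R := by
    apply setIntegral_nonneg hm
    intro p _
    exact mul_nonneg (sq_nonneg _) (sK_nonneg _ _ _)
  have hfin : ∀ t : ℝ, 0 < t →
      |∫ p, (h p.1 - h p.2) * (ψ p.1 * θ p.2 - ψ p.2 * θ p.1) * κ (p.1 - p.2) ∂(ν.prod ν)|
        ≤ (t * energy n ν h R + t⁻¹ * (L ^ 2 * M)) / 2 := by
    intro t ht
    set F : Eu d × Eu d → ℝ := fun p =>
      (h p.1 - h p.2) * (ψ p.1 * θ p.2 - ψ p.2 * θ p.1) * κ (p.1 - p.2) with hF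
    have h1 : ∫ p, F p ∂(ν.prod ν) = ∫ p in closedBall (0 : Eu d) R ×ˢ closedBall (0 : Eu d) R,
        F p ∂(ν.prod ν) := by
      symm
      apply setIntegral_eq_integral_of_forall_compl_eq_zero
      intro p hp
      rw [mem_prod, not_and_or, mem_closedBall, mem_closedBall, dist_zero_right,
        dist_zero_right, not_le, not_le] at hp
      rcases hp with hp | hp
      · simp only [hF, (hs _ hp).1, (hs _ hp).2]; ring
      · simp only [hF, (hs _ hp).1, (hs _ hp).2]; ring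
    rw [h1, ← Real.norm_eq_abs]
    refine (norm_integral_le_integral_norm _).trans ?_
    have h2 : ∫ p in closedBall (0 : Eu d) R ×ˢ closedBall (0 : Eu d) R, ‖F p‖ ∂(ν.prod ν)
        ≤ ∫ p in closedBall (0 : Eu d) R ×ˢ closedBall (0 : Eu d) R,
          (t / 2 * ((h p.1 - h p.2) ^ 2 * sK n 0 (p.1 - p.2))
            + t⁻¹ / 2 * L ^ 2 * (‖p.1 - p.2‖ ^ 2 * κ (p.1 - p.2))) ∂(ν.prod ν) := by
      apply integral_mono_of_nonneg (Eventually.of_forall fun p => norm_nonneg _)
        ((hEi.const_mul _).add (hGi.const_mul _))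
      apply Eventually.of_forall
      intro p
      simp only [hF, Real.norm_eq_abs, Pi.add_apply]
      by_cases hz : p.1 - p.2 = 0
      · have h0 : p.1 = p.2 := sub_eq_zero.mp hz
        rw [h0]; simp
      · obtain ⟨hk0, hk1⟩ := hκ _ hz
        rw [abs_mul, abs_mul, abs_of_nonneg hk0]
        have ha' : |ψ p.1 * θ p.2 - ψ p.2 * θ p.1| ≤ L * ‖p.1 - p.2‖ := by
          have := ha p.1 p.2
          rwa [dist_eq_norm] at this
        set u := |h p.1 - h p.2| with hu
        set v := |ψ p.1 * θ p.2 - ψ p.2 * θ p.1| with hv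
        have hu2 : (h p.1 - h p.2) ^ 2 = u ^ 2 := by rw [hu, sq_abs]
        rw [hu2]
        have hu0 : 0 ≤ u := abs_nonneg _
        have hv0 : 0 ≤ v := abs_nonneg _
        have hamgm : u * v ≤ t / 2 * u ^ 2 + t⁻¹ / 2 * v ^ 2 := by
          have h3 : 0 ≤ t⁻¹ / 2 * (t * u - v) ^ 2 := by (clear * - ht; (clear * - ht; positivity))
          have h4 : t⁻¹ / 2 * (t * u - v) ^ 2 = t / 2 * u ^ 2 + t⁻¹ / 2 * v ^ 2 - u * v := by
            field_simp
            ring
          linarith only [h3, h4]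
        have hv2 : v ^ 2 ≤ L ^ 2 * ‖p.1 - p.2‖ ^ 2 := by
          rw [← mul_pow]
          (clear * - ha'; (clear * - ha'; gcongr))
        calc u * v * κ (p.1 - p.2)
            ≤ (t / 2 * u ^ 2 + t⁻¹ / 2 * v ^ 2) * κ (p.1 - p.2) := by (clear * - hk0 hamgm; gcongr)
          _ = t / 2 * (u ^ 2 * κ (p.1 - p.2)) + t⁻¹ / 2 * (v ^ 2 * κ (p.1 - p.2)) := by ring
          _ ≤ t / 2 * (u ^ 2 * sK n 0 (p.1 - p.2))
              + t⁻¹ / 2 * (L ^ 2 * ‖p.1 - p.2‖ ^ 2 * κ (p.1 - p.2)) := by (clear * - ht hk0 hk1 hv2; (clear * - hk1 ht hv2 hk0; gcongr))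
          _ = t / 2 * (u ^ 2 * sK n 0 (p.1 - p.2))
              + t⁻¹ / 2 * L ^ 2 * (‖p.1 - p.2‖ ^ 2 * κ (p.1 - p.2)) := by ring
    refine h2.trans ?_
    rw [integral_add (hEi.const_mul _) (hGi.const_mul _), integral_const_mul, integral_const_mul]
    have h5 : t⁻¹ / 2 * L ^ 2 * ∫ p in closedBall (0 : Eu d) R ×ˢ closedBall (0 : Eu d) R,
        ‖p.1 - p.2‖ ^ 2 * κ (p.1 - p.2) ∂(ν.prod ν) ≤ t⁻¹ / 2 * L ^ 2 * M := by
      (clear * - hGle ht; gcongr)
    have h6 : energy n ν h R = ∫ p in closedBall (0 : Eu d) R ×ˢ closedBall (0 : Eu d) R,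
        (h p.1 - h p.2) ^ 2 * sK n 0 (p.1 - p.2) ∂(ν.prod ν) := rfl
    rw [← h6]
    linarith only [h5]
  have hres := le_sqrt_mul_sqrt hE0 (by (clear * - hM; positivity)) hfin
  refine hres.trans (le_of_eq ?_)
  rw [Real.sqrt_mul (by (clear * -; positivity)), Real.sqrt_sq hL]
  ring

end Cacc

/-- the regularised scalar form is close to the singular one, uniformly in terms of the energy -/
theorem hform_reg (hn : 1 ≤ n) (c C : ℝ) (hC : 0 < C) (R : ℝ) (hR : 1 ≤ R) : ∃ K : ℝ, 0 < K ∧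
    ∀ (d : ℕ) (ν : Measure (Eu d)) (h ψ θ : Eu d → ℝ) (L e : ℝ), AR n c C ⊤ ν →
    (∃ L : ℝ≥0, LipschitzWith L h) → LipC ψ → LipC θ → 0 ≤ L → 0 < e →
    (∀ x, R < ‖x‖ → ψ x = 0 ∧ θ x = 0) →
    (∀ x y, |ψ x * θ y - ψ y * θ x| ≤ L * dist x y) →
    |hform n 0 ν h ψ θ - hform n e ν h ψ θ| ≤
      K * L * Real.sqrt (energy n ν h R) * Real.sqrt e ∧
    |hform n 0 ν h ψ θ| ≤ K * L * Real.sqrt (energy n ν h R) := by
  obtain ⟨K₁, hK₁, hK₁'⟩ := Cacc.lintegral_pair_near hn C hC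
  obtain ⟨K₂, hK₂, hK₂'⟩ := lintegral_near_reg n hn C hC
  obtain ⟨K₃, hK₃, hK₃'⟩ := rK_reg_le n
  have hR0 : 0 < R := by linarith only [hR]
  refine ⟨Real.sqrt (K₁ * R ^ (n + 1)) + Real.sqrt (K₃ * K₂ * (C * R ^ n)), by (clear * - hK₁ hR hK₃ hK₂ hC; positivity), ?_⟩
  intro d ν h ψ θ L e hν hh hψ hθ hL he hs ha
  have := hν.isLocallyFiniteMeasure
  have hm : MeasurableSet (closedBall (0 : Eu d) R ×ˢ closedBall (0 : Eu d) R) :=
    measurableSet_closedBall.prod measurableSet_closedBall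
  constructor
  · have h1 : hform n 0 ν h ψ θ - hform n e ν h ψ θ = (1 / 2 : ℝ) *
        ∫ p, (h p.1 - h p.2) * (ψ p.1 * θ p.2 - ψ p.2 * θ p.1) *
          (fun z => sK n 0 z - sK n e z) (p.1 - p.2) ∂(ν.prod ν) := by
      rw [hform, hform, ← mul_sub, ← integral_sub (integrable_hform hn hν hh hψ hθ 0 le_rfl)
        (integrable_hform hn hν hh hψ hθ e he.le)]
      congr 1
      apply integral_congr_ae
      apply Eventually.of_forall
      intro p
      simp only
      ring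
    have h2 := Cacc.cs_bound (M := K₃ * (K₂ * e) * (C * R ^ n)) hn hν (ψ := ψ) (θ := θ) hh
      (fun z => sK n 0 z - sK n e z) ((measurable_sK n 0).sub (measurable_sK n e)) (by
        intro z hz
        have h3 := (hK₃' d e z hz).2.2
        have h4 := sK_nonneg n e z
        constructor
        · linarith only [h3]
        · linarith only [h4]) hL (by (clear * - hK₃ hK₂ he hC hR; positivity)) hs ha (by
        have h3 : Measurable (fun p : Eu d × Eu d =>
            ENNReal.ofReal (‖p.1 - p.2‖ ^ 2 * (fun z => sK n 0 z - sK n e z) (p.1 - p.2))) := by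
          have h2 : Measurable (fun p : Eu d × Eu d =>
              (fun z => sK n 0 z - sK n e z) (p.1 - p.2)) :=
            ((measurable_sK n 0).sub (measurable_sK n e)).comp (measurable_fst.sub measurable_snd)
          have h3 : Measurable (fun p : Eu d × Eu d => ‖p.1 - p.2‖ ^ 2) := by (clear * -; fun_prop)
          exact (h3.mul h2).ennreal_ofReal
        refine (Cacc.lintegral_pair_le h3 R (ENNReal.ofReal (K₃ * (K₂ * e))) ?_).trans ?_
        · intro x _
          calc ∫⁻ y in closedBall (0 : Eu d) R,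
                ENNReal.ofReal (‖x - y‖ ^ 2 * (sK n 0 (x - y) - sK n e (x - y))) ∂ν
              ≤ ∫⁻ y, ENNReal.ofReal (‖x - y‖ ^ 2 * (sK n 0 (x - y) - sK n e (x - y))) ∂ν :=
                setLIntegral_le_lintegral _ _
            _ ≤ ∫⁻ y, ENNReal.ofReal K₃ * ENNReal.ofReal ((‖x - y‖ ^ (n - 1))⁻¹ *
                  min 1 (e ^ 2 / ‖x - y‖ ^ 2)) ∂ν := by
                apply lintegral_mono
                intro y
                simp only
                rw [← ENNReal.ofReal_mul hK₃.le]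
                apply ENNReal.ofReal_le_ofReal
                by_cases hz : x - y = 0
                · rw [hz]
                  simp only [norm_zero]
                  rw [zero_pow (by norm_num : (2 : ℕ) ≠ 0), zero_mul]
                  (clear * - hK₃ he; (clear * - hK₃ he; positivity))
                · have h5 := (hK₃' d e (x - y) hz).2.1
                  have hz' : 0 < ‖x - y‖ := norm_pos_iff.mpr hz
                  calc ‖x - y‖ ^ 2 * (sK n 0 (x - y) - sK n e (x - y))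
                      ≤ ‖x - y‖ ^ 2 * (K₃ * (‖x - y‖ ^ (n + 1))⁻¹ *
                          min 1 (e ^ 2 / ‖x - y‖ ^ 2)) := by
                        gcongr
                        exact (le_abs_self _).trans h5
                    _ = K₃ * ((‖x - y‖ ^ (n - 1))⁻¹ * min 1 (e ^ 2 / ‖x - y‖ ^ 2)) := by
                        obtain ⟨m, rfl⟩ : ∃ m, n = m + 1 := ⟨n - 1, by (clear * - hn; omega)⟩
                        simp only [Nat.add_sub_cancel]
                        rw [show m + 1 + 1 = m + 2 from rfl, pow_add]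
                        have : ‖x - y‖ ≠ 0 := hz'.ne'
                        generalize min 1 (e ^ 2 / ‖x - y‖ ^ 2) = w
                        (clear * - this hz hK₃; field_simp)
            _ = ENNReal.ofReal K₃ * ∫⁻ y, ENNReal.ofReal ((‖x - y‖ ^ (n - 1))⁻¹ *
                  min 1 (e ^ 2 / ‖x - y‖ ^ 2)) ∂ν := by
                rw [lintegral_const_mul' _ _ ENNReal.ofReal_ne_top]
            _ ≤ ENNReal.ofReal K₃ * ENNReal.ofReal (K₂ * e) := by
                gcongr
                exact hK₂' d ν hν.upper x e he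
            _ = ENNReal.ofReal (K₃ * (K₂ * e)) := by
                rw [← ENNReal.ofReal_mul hK₃.le]
        · calc ENNReal.ofReal (K₃ * (K₂ * e)) * ν (closedBall 0 R)
              ≤ ENNReal.ofReal (K₃ * (K₂ * e)) * ENNReal.ofReal (C * R ^ n) := by
                gcongr; exact hν.upper 0 R hR0
            _ = ENNReal.ofReal (K₃ * (K₂ * e) * (C * R ^ n)) := by
                rw [← ENNReal.ofReal_mul (by (clear * - hK₃ hK₂ he; positivity))])
    rw [h1, abs_mul, abs_of_pos (by (clear * -; norm_num) : (0 : ℝ) < 1 / 2)]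
    have h4 : Real.sqrt (K₃ * (K₂ * e) * (C * R ^ n))
        = Real.sqrt (K₃ * K₂ * (C * R ^ n)) * Real.sqrt e := by
      rw [← Real.sqrt_mul (by positivity)]
      congr 1
      ring
    rw [h4] at h2
    have h5 : 0 ≤ L * Real.sqrt (energy n ν h R) *
        (Real.sqrt (K₃ * K₂ * (C * R ^ n)) * Real.sqrt e) := by (clear * - hC hR hK₂ hK₃ hL he; positivity)
    calc (1 / 2 : ℝ) * |∫ p, (h p.1 - h p.2) * (ψ p.1 * θ p.2 - ψ p.2 * θ p.1) *
          (fun z => sK n 0 z - sK n e z) (p.1 - p.2) ∂(ν.prod ν)|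
        ≤ 1 / 2 * (L * Real.sqrt (energy n ν h R) *
          (Real.sqrt (K₃ * K₂ * (C * R ^ n)) * Real.sqrt e)) := by gcongr
      _ ≤ L * Real.sqrt (energy n ν h R) *
          (Real.sqrt (K₃ * K₂ * (C * R ^ n)) * Real.sqrt e) := by linarith only [h5]
      _ ≤ L * Real.sqrt (energy n ν h R) *
          ((Real.sqrt (K₁ * R ^ (n + 1)) + Real.sqrt (K₃ * K₂ * (C * R ^ n))) *
            Real.sqrt e) := by
          gcongr
          have := Real.sqrt_nonneg (K₁ * R ^ (n + 1))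
          linarith only [this]
      _ = (Real.sqrt (K₁ * R ^ (n + 1)) + Real.sqrt (K₃ * K₂ * (C * R ^ n))) * L *
          Real.sqrt (energy n ν h R) * Real.sqrt e := by ring
  · have h2 := Cacc.cs_bound (M := K₁ * R ^ (n + 1)) hn hν (ψ := ψ) (θ := θ) hh
      (sK n 0) (measurable_sK n 0) (fun z _ => ⟨sK_nonneg _ _ _, le_rfl⟩)
      hL (by positivity) hs ha (by
        refine le_trans (lintegral_mono ?_) (hK₁' d c ⊤ ν hν R hR0)
        intro p
        exact ENNReal.ofReal_le_ofReal (Cacc.icacc_sq_mul_sK_le hn _))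
    rw [hform, abs_mul, abs_of_pos (by (clear * -; norm_num) : (0 : ℝ) < 1 / 2)]
    have h5 : 0 ≤ L * Real.sqrt (energy n ν h R) * Real.sqrt (K₁ * R ^ (n + 1)) := by (clear * - hR hK₁ hL; positivity)
    calc (1 / 2 : ℝ) * |∫ p, (h p.1 - h p.2) * (ψ p.1 * θ p.2 - ψ p.2 * θ p.1) *
          sK n 0 (p.1 - p.2) ∂(ν.prod ν)|
        ≤ 1 / 2 * (L * Real.sqrt (energy n ν h R) * Real.sqrt (K₁ * R ^ (n + 1))) := by (clear * - h2; gcongr)
      _ ≤ L * Real.sqrt (energy n ν h R) * Real.sqrt (K₁ * R ^ (n + 1)) := by linarith only [h5]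
      _ ≤ L * Real.sqrt (energy n ν h R) *
          (Real.sqrt (K₁ * R ^ (n + 1)) + Real.sqrt (K₃ * K₂ * (C * R ^ n))) := by
          gcongr
          have := Real.sqrt_nonneg (K₃ * K₂ * (C * R ^ n))
          linarith only [this]
      _ = (Real.sqrt (K₁ * R ^ (n + 1)) + Real.sqrt (K₃ * K₂ * (C * R ^ n))) * L *
          Real.sqrt (energy n ν h R) := by ring

namespace Cacc

theorem cut_nonneg' (a : Eu d) (S : ℝ) (y : Eu d) : 0 ≤ cut a S y := le_max_left _ _

theorem cut_le_one' (a : Eu d) (S : ℝ) (y : Eu d) : cut a S y ≤ 1 :=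
  max_le zero_le_one (min_le_left _ _)

theorem cut_eq_one' {a : Eu d} {S : ℝ} (hS : 0 < S) {y : Eu d} (h : dist y a ≤ S) :
    cut a S y = 1 := by
  have h1 : dist y a / S ≤ 1 := (div_le_one hS).mpr h
  rw [cut, min_eq_left (by linarith only [h1]), max_eq_right zero_le_one]

theorem cut_eq_zero' {a : Eu d} {S : ℝ} (hS : 0 < S) {y : Eu d} (h : 2 * S ≤ dist y a) :
    cut a S y = 0 := by
  have h1 : 2 ≤ dist y a / S := (le_div_iff₀ hS).mpr h
  rw [cut, max_eq_left]
  exact (min_le_right _ _).trans (by linarith only [h1])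

theorem cut_lip' {a : Eu d} {S : ℝ} (hS : 0 < S) (x y : Eu d) :
    |cut a S x - cut a S y| ≤ dist x y / S := by
  have h0 : |(2 - dist x a / S) - (2 - dist y a / S)| ≤ dist x y / S := by
    have h2 : (2 - dist x a / S) - (2 - dist y a / S) = (dist y a - dist x a) / S := by ring
    rw [h2, abs_div, abs_of_pos hS]
    gcongr
    rw [abs_sub_comm]
    exact abs_dist_sub_le x y a
  have h1 : |min 1 (2 - dist x a / S) - min 1 (2 - dist y a / S)| ≤
      |(2 - dist x a / S) - (2 - dist y a / S)| := by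
    have := abs_min_sub_min_le_max 1 (2 - dist x a / S) 1 (2 - dist y a / S)
    simpa only [sub_sub_sub_cancel_left, ge_iff_le, sub_self, abs_zero, abs_nonneg,
      sup_of_le_right] using this
  have h3 : |cut a S x - cut a S y| ≤
      |min 1 (2 - dist x a / S) - min 1 (2 - dist y a / S)| := by
    have := abs_max_sub_max_le_max 0 (min 1 (2 - dist x a / S)) 0 (min 1 (2 - dist y a / S))
    simpa only [cut, ge_iff_le, sub_self, abs_zero, abs_nonneg, sup_of_le_right] using this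
  exact h3.trans (h1.trans h0)

theorem continuous_cut' (a : Eu d) (S : ℝ) : Continuous (cut a S) := by
  unfold cut; (clear * -; fun_prop)

/-- one-sided weight bound -/
theorem J_le {D : ℝ≥0∞} {ν : Measure (Eu d)} (hν : AR n c C D ν) {K : ℝ} (hK : 0 < K)
    (hK' : ∀ (x : Eu d) (r : ℝ), 0 < r →
      ∫⁻ y in closedBall x r, ENNReal.ofReal ((‖x - y‖ ^ (n - 1))⁻¹) ∂ν ≤ ENNReal.ofReal (K * r))
    {g : Eu d → ℝ} (hg : Continuous g) {w : Eu d × Eu d → ℝ} (hw : Measurable w)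
    (hw0 : ∀ p, 0 ≤ w p) {T M : ℝ} (hT : 0 < T) (hM : 0 ≤ M)
    (hwM : ∀ p, w p ≤ M * (‖p.1 - p.2‖ ^ (n - 1))⁻¹)
    (hws : ∀ p, w p ≠ 0 → p ∈ closedBall (0 : Eu d) T ×ˢ closedBall (0 : Eu d) T) :
    ∫ p, g p.1 ^ 2 * w p ∂(ν.prod ν)
      ≤ M * (K * (2 * T)) * ∫ x in closedBall (0 : Eu d) T, g x ^ 2 ∂ν := by
  have := hν.isLocallyFiniteMeasure
  have hm : MeasurableSet (closedBall (0 : Eu d) T ×ˢ closedBall (0 : Eu d) T) :=
    measurableSet_closedBall.prod measurableSet_closedBall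
  have hFm : Measurable (fun p : Eu d × Eu d => g p.1 ^ 2 * w p) :=
    ((hg.measurable.comp measurable_fst).pow_const 2).mul hw
  have hG : IntegrableOn (fun x => g x ^ 2) (closedBall (0 : Eu d) T) ν :=
    (hg.pow 2).continuousOn.integrableOn_compact (isCompact_closedBall _ _)
  have hG0 : 0 ≤ ∫ x in closedBall (0 : Eu d) T, g x ^ 2 ∂ν :=
    integral_nonneg fun x => sq_nonneg _
  rw [integral_eq_lintegral_of_nonneg_ae
    (Eventually.of_forall fun p => mul_nonneg (sq_nonneg _) (hw0 p)) hFm.aestronglyMeasurable]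
  apply ENNReal.toReal_le_of_le_ofReal (by (clear * - hK hT hM; positivity))
  calc ∫⁻ p, ENNReal.ofReal (g p.1 ^ 2 * w p) ∂(ν.prod ν)
      = ∫⁻ p in closedBall (0 : Eu d) T ×ˢ closedBall (0 : Eu d) T,
          ENNReal.ofReal (g p.1 ^ 2 * w p) ∂(ν.prod ν) := by
        symm
        apply setLIntegral_eq_of_support_subset
        intro p hp
        apply hws
        intro h0; apply hp; simp [h0]
    _ = ∫⁻ x in closedBall (0 : Eu d) T, ∫⁻ y in closedBall (0 : Eu d) T,
          ENNReal.ofReal (g x ^ 2 * w (x, y)) ∂ν ∂ν := by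
        rw [← Measure.prod_restrict, lintegral_prod _ hFm.ennreal_ofReal.aemeasurable]
    _ ≤ ∫⁻ x in closedBall (0 : Eu d) T,
          ENNReal.ofReal (g x ^ 2) * ENNReal.ofReal (M * (K * (2 * T))) ∂ν := by
        apply setLIntegral_mono' measurableSet_closedBall
        intro x hx
        calc ∫⁻ y in closedBall (0 : Eu d) T, ENNReal.ofReal (g x ^ 2 * w (x, y)) ∂ν
            ≤ ∫⁻ y in closedBall (0 : Eu d) T, ENNReal.ofReal (g x ^ 2 * M) *
                ENNReal.ofReal ((‖x - y‖ ^ (n - 1))⁻¹) ∂ν := by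
              apply lintegral_mono
              intro y
              simp only
              rw [← ENNReal.ofReal_mul (by (clear * - hM; (clear * - hM; positivity)))]
              apply ENNReal.ofReal_le_ofReal
              rw [mul_assoc]
              gcongr
              exact hwM (x, y)
          _ = ENNReal.ofReal (g x ^ 2 * M) * ∫⁻ y in closedBall (0 : Eu d) T,
                ENNReal.ofReal ((‖x - y‖ ^ (n - 1))⁻¹) ∂ν := by
              rw [lintegral_const_mul' _ _ ENNReal.ofReal_ne_top]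
          _ ≤ ENNReal.ofReal (g x ^ 2 * M) * ENNReal.ofReal (K * (2 * T)) := by
              gcongr
              refine (lintegral_mono_set ?_).trans (hK' x (2 * T) (by (clear * - hT; positivity)))
              intro y hy
              rw [mem_closedBall] at hx hy ⊢
              calc dist y x ≤ dist y 0 + dist 0 x := dist_triangle _ _ _
                _ ≤ 2 * T := by rw [dist_comm 0 x]; linarith only [hx, hy]
          _ = ENNReal.ofReal (g x ^ 2) * ENNReal.ofReal (M * (K * (2 * T))) := by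
              rw [← ENNReal.ofReal_mul (by (clear * - hM; (clear * - hM; positivity))), ← ENNReal.ofReal_mul (by (clear * -; positivity))]
              congr 1
              ring
    _ = ENNReal.ofReal (M * (K * (2 * T)) * ∫ x in closedBall (0 : Eu d) T, g x ^ 2 ∂ν) := by
        rw [lintegral_mul_const' _ _ ENNReal.ofReal_ne_top,
          ← ofReal_integral_eq_lintegral_ofReal hG (Eventually.of_forall fun x => sq_nonneg _),
          ← ENNReal.ofReal_mul hG0]
        congr 1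
        ring

/-- the local part of the Caccioppoli inequality -/
theorem core (hn : 1 ≤ n) {D : ℝ≥0∞} {ν : Measure (Eu d)} (hν : AR n c C D ν)
    {K : ℝ} (hK : 0 < K)
    (hK' : ∀ (x : Eu d) (r : ℝ), 0 < r →
      ∫⁻ y in closedBall x r, ENNReal.ofReal ((‖x - y‖ ^ (n - 1))⁻¹) ∂ν ≤ ENNReal.ofReal (K * r))
    {g : Eu d → ℝ} (hg : ∃ L : ℝ≥0, LipschitzWith L g) {R T M : ℝ} (hT : 0 < T) (hM : 0 ≤ M)
    {χ θ : Eu d → ℝ} (hχc : Continuous χ) (hχ0 : ∀ x, 0 ≤ χ x) (hχ1 : ∀ x, χ x ≤ 1)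
    (hχM : ∀ x y, |χ x - χ y| ≤ M * ‖x - y‖)
    (hθc : Continuous θ) (hθ0 : ∀ x, 0 ≤ θ x) (hθ1 : ∀ x, θ x ≤ 1)
    (hχR : ∀ x ∈ closedBall (0 : Eu d) R, χ x = 1) (hθR : ∀ x ∈ closedBall (0 : Eu d) R, θ x = 1)
    (hθT : ∀ x, x ∉ closedBall (0 : Eu d) T → θ x = 0) :
    energy n ν g R ≤ (∫ p, (g p.1 - g p.2) * (g p.1 * χ p.1 ^ 2 - g p.2 * χ p.2 ^ 2) *
        (θ p.1 * θ p.2) * sK n 0 (p.1 - p.2) ∂(ν.prod ν))
      + M ^ 2 * (K * (2 * T)) * ∫ x in closedBall (0 : Eu d) T, g x ^ 2 ∂ν := by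
  have := hν.isLocallyFiniteMeasure
  obtain ⟨L, hL⟩ := hg
  have hgc : Continuous g := hL.continuous
  have hgL : ∀ x y, |g x - g y| ≤ L * ‖x - y‖ := by
    intro x y
    have := hL.dist_le_mul x y
    rwa [Real.dist_eq, dist_eq_norm] at this
  -- bound of `g` on the big ball
  obtain ⟨B, hB⟩ : ∃ B : ℝ, ∀ x ∈ closedBall (0 : Eu d) T, |g x| ≤ B := by
    obtain ⟨B, hB⟩ := (isCompact_closedBall (0 : Eu d) T).exists_bound_of_continuousOn
      hgc.continuousOn
    exact ⟨B, fun x hx => by simpa only [Real.norm_eq_abs] using hB x hx⟩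
  have hB0 : 0 ≤ B := (abs_nonneg _).trans (hB 0 (mem_closedBall_self hT.le))
  have hm : MeasurableSet (closedBall (0 : Eu d) R ×ˢ closedBall (0 : Eu d) R) :=
    measurableSet_closedBall.prod measurableSet_closedBall
  have hkm : Measurable (fun p : Eu d × Eu d => sK n 0 (p.1 - p.2)) :=
    (measurable_sK n 0).comp (measurable_fst.sub measurable_snd)
  have hg1 : Measurable (fun p : Eu d × Eu d => g p.1) := hgc.measurable.comp measurable_fst
  have hg2 : Measurable (fun p : Eu d × Eu d => g p.2) := hgc.measurable.comp measurable_snd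
  have hc1 : Measurable (fun p : Eu d × Eu d => χ p.1) := hχc.measurable.comp measurable_fst
  have hc2 : Measurable (fun p : Eu d × Eu d => χ p.2) := hχc.measurable.comp measurable_snd
  have ht1 : Measurable (fun p : Eu d × Eu d => θ p.1) := hθc.measurable.comp measurable_fst
  have ht2 : Measurable (fun p : Eu d × Eu d => θ p.2) := hθc.measurable.comp measurable_snd
  -- weights
  set w : Eu d × Eu d → ℝ := fun p =>
    (χ p.1 - χ p.2) ^ 2 * (θ p.1 * θ p.2) * sK n 0 (p.1 - p.2) with hw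
  have hwm : Measurable w := (((hc1.sub hc2).pow_const 2).mul (ht1.mul ht2)).mul hkm
  have hθθ0 : ∀ p : Eu d × Eu d, 0 ≤ θ p.1 * θ p.2 := fun p => mul_nonneg (hθ0 _) (hθ0 _)
  have hθθ1 : ∀ p : Eu d × Eu d, θ p.1 * θ p.2 ≤ 1 := fun p =>
    mul_le_one₀ (hθ1 _) (hθ0 _) (hθ1 _)
  have hw0 : ∀ p, 0 ≤ w p := fun p =>
    mul_nonneg (mul_nonneg (sq_nonneg _) (hθθ0 p)) (sK_nonneg _ _ _)
  have hθs : ∀ p : Eu d × Eu d, θ p.1 * θ p.2 ≠ 0 →
      p ∈ closedBall (0 : Eu d) T ×ˢ closedBall (0 : Eu d) T := by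
    intro p hp
    constructor
    · by_contra hcon
      exact hp (by rw [hθT _ hcon, zero_mul])
    · by_contra hcon
      exact hp (by rw [hθT _ hcon, mul_zero])
  have hgen : ∀ (p : Eu d × Eu d) (a b : ℝ), |a| ≤ b * ‖p.1 - p.2‖ → 0 ≤ b →
      a ^ 2 * (θ p.1 * θ p.2) * sK n 0 (p.1 - p.2) ≤ b ^ 2 * (‖p.1 - p.2‖ ^ (n - 1))⁻¹ := by
    intro p a b hab hb
    calc a ^ 2 * (θ p.1 * θ p.2) * sK n 0 (p.1 - p.2)
        ≤ (b * ‖p.1 - p.2‖) ^ 2 * 1 * sK n 0 (p.1 - p.2) := by
          apply mul_le_mul_of_nonneg_right _ (sK_nonneg _ _ _)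
          apply mul_le_mul _ (hθθ1 p) (hθθ0 p) (by (clear * -; positivity))
          rw [← sq_abs]
          (clear * - hab; gcongr)
      _ = b ^ 2 * (‖p.1 - p.2‖ ^ 2 * sK n 0 (p.1 - p.2)) := by ring
      _ ≤ b ^ 2 * (‖p.1 - p.2‖ ^ (n - 1))⁻¹ := by
          gcongr
          exact icacc_sq_mul_sK_le hn _
  have hwM : ∀ p, w p ≤ M ^ 2 * (‖p.1 - p.2‖ ^ (n - 1))⁻¹ := fun p =>
    hgen p _ M (hχM _ _) hM
  have hws : ∀ p, w p ≠ 0 → p ∈ closedBall (0 : Eu d) T ×ˢ closedBall (0 : Eu d) T := by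
    intro p hp
    apply hθs
    intro h0
    exact hp (by simp only [hw, h0, mul_zero, zero_mul])
  -- the three functions
  set P : Eu d × Eu d → ℝ := fun p =>
    (g p.1 * χ p.1 - g p.2 * χ p.2) ^ 2 * (θ p.1 * θ p.2) * sK n 0 (p.1 - p.2) with hP
  set Q : Eu d × Eu d → ℝ := fun p => g p.1 * g p.2 * w p with hQ
  have hPm : Measurable P :=
    ((((hg1.mul hc1).sub (hg2.mul hc2)).pow_const 2).mul (ht1.mul ht2)).mul hkm
  have hQm : Measurable Q := (hg1.mul hg2).mul hwm
  have hP0 : ∀ p, 0 ≤ P p := fun p =>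
    mul_nonneg (mul_nonneg (sq_nonneg _) (hθθ0 p)) (sK_nonneg _ _ _)
  have hPi : Integrable P (ν.prod ν) := by
    apply integrable_of_near hn hν hPm T ((L + B * M) ^ 2)
    · intro p
      rw [abs_of_nonneg (hP0 p)]
      by_cases hp : θ p.1 * θ p.2 = 0
      · simp only [hP, hp, mul_zero, zero_mul]
        (clear * -; (clear * -; positivity))
      · obtain ⟨hp1, hp2⟩ := hθs p hp
        apply hgen p _ (L + B * M) _ (by (clear * - hM hB0; (clear * - hB0 hM; positivity)))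
        have h1 : g p.1 * χ p.1 - g p.2 * χ p.2
            = (g p.1 - g p.2) * χ p.1 + g p.2 * (χ p.1 - χ p.2) := by ring
        rw [h1]
        refine (abs_add_le _ _).trans ?_
        rw [abs_mul, abs_mul, abs_of_nonneg (hχ0 _)]
        calc |g p.1 - g p.2| * χ p.1 + |g p.2| * |χ p.1 - χ p.2|
            ≤ (L * ‖p.1 - p.2‖) * 1 + B * (M * ‖p.1 - p.2‖) := by
              apply add_le_add
              · exact mul_le_mul (hgL _ _) (hχ1 _) (hχ0 _) (by (clear * -; positivity))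
              · exact mul_le_mul (hB _ hp2) (hχM _ _) (abs_nonneg _) hB0
          _ = (L + B * M) * ‖p.1 - p.2‖ := by ring
    · intro p hp
      apply hθs
      intro h0
      exact hp (by simp only [hP, h0, mul_zero, zero_mul])
  have hJm : Measurable (fun p : Eu d × Eu d => g p.1 ^ 2 * w p) := (hg1.pow_const 2).mul hwm
  have hJi : Integrable (fun p : Eu d × Eu d => g p.1 ^ 2 * w p) (ν.prod ν) := by
    apply integrable_of_near hn hν hJm T (B ^ 2 * M ^ 2)
    · intro p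
      rw [abs_of_nonneg (mul_nonneg (sq_nonneg _) (hw0 p))]
      by_cases hp : w p = 0
      · rw [hp, mul_zero]; (clear * -; positivity)
      · obtain ⟨hp1, hp2⟩ := hws p hp
        calc g p.1 ^ 2 * w p ≤ B ^ 2 * (M ^ 2 * (‖p.1 - p.2‖ ^ (n - 1))⁻¹) := by
              apply mul_le_mul _ (hwM p) (hw0 p) (by (clear * -; positivity))
              rw [← sq_abs]
              exact pow_le_pow_left₀ (abs_nonneg _) (hB _ hp1) 2
          _ = _ := by ring
    · intro p hp
      apply hws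
      intro h0
      exact hp (by simp only [h0, mul_zero])
  have hwswap : ∀ p : Eu d × Eu d, w p.swap = w p := by
    intro p
    simp only [hw, Prod.fst_swap, Prod.snd_swap]
    rw [← neg_sub p.1 p.2, sK_neg]
    ring
  have hJswap : ∫ p, g p.2 ^ 2 * w p ∂(ν.prod ν) = ∫ p, g p.1 ^ 2 * w p ∂(ν.prod ν) := by
    rw [← integral_prod_swap]
    apply integral_congr_ae
    apply Eventually.of_forall
    intro p
    simp only [Prod.snd_swap, hwswap]
  have hJi' : Integrable (fun p : Eu d × Eu d => g p.2 ^ 2 * w p) (ν.prod ν) := by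
    have := hJi.swap
    refine this.congr (Eventually.of_forall fun p => ?_)
    simp only [Function.comp, Prod.fst_swap, hwswap]
  have hQi : Integrable Q (ν.prod ν) := by
    refine Integrable.mono' (hJi.add hJi') hQm.aestronglyMeasurable (Eventually.of_forall fun p => ?_)
    simp only [hQ, Pi.add_apply, Real.norm_eq_abs]
    rw [abs_mul, abs_of_nonneg (hw0 p), ← add_mul]
    apply mul_le_mul_of_nonneg_right _ (hw0 p)
    rw [abs_mul]
    nlinarith only [sq_abs (g p.1), sq_abs (g p.2)]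
  have hQle : ∫ p, Q p ∂(ν.prod ν) ≤ ∫ p, g p.1 ^ 2 * w p ∂(ν.prod ν) := by
    have h1 : ∫ p, Q p ∂(ν.prod ν) ≤
        ∫ p, (1 / 2 * (g p.1 ^ 2 * w p) + 1 / 2 * (g p.2 ^ 2 * w p)) ∂(ν.prod ν) := by
      apply integral_mono hQi ((hJi.const_mul _).add (hJi'.const_mul _))
      intro p
      simp only [hQ, Pi.add_apply]
      nlinarith only [mul_nonneg (sq_nonneg (g p.1 - g p.2)) (hw0 p), hw0]
    rw [integral_add (hJi.const_mul _) (hJi'.const_mul _), integral_const_mul,
      integral_const_mul, hJswap] at h1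
    linarith only [h1]
  have hJle := J_le hν hK hK' hgc hwm hw0 hT (sq_nonneg M) hwM hws
  -- identity
  have hid : ∫ p, (g p.1 - g p.2) * (g p.1 * χ p.1 ^ 2 - g p.2 * χ p.2 ^ 2) *
        (θ p.1 * θ p.2) * sK n 0 (p.1 - p.2) ∂(ν.prod ν)
      = ∫ p, P p ∂(ν.prod ν) - ∫ p, Q p ∂(ν.prod ν) := by
    rw [← integral_sub hPi hQi]
    apply integral_congr_ae
    apply Eventually.of_forall
    intro p
    simp only [hP, hQ, hw]
    ring
  -- energy
  have hE : energy n ν g R ≤ ∫ p, P p ∂(ν.prod ν) := by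
    have h1 : energy n ν g R = ∫ p in closedBall (0 : Eu d) R ×ˢ closedBall (0 : Eu d) R,
        P p ∂(ν.prod ν) := by
      apply setIntegral_congr_fun hm
      intro p hp
      simp only [hP, hχR _ hp.1, hχR _ hp.2, hθR _ hp.1, hθR _ hp.2, mul_one]
    rw [h1]
    exact setIntegral_le_integral hPi (Eventually.of_forall hP0)
  rw [hid]
  linarith only [hQle, hJle, hE]

end Cacc

namespace Cacc

theorem hasCompactSupport_of_zero {ψ : Eu d → ℝ} {T : ℝ} (h : ∀ x, T < ‖x‖ → ψ x = 0) :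
    HasCompactSupport ψ := by
  apply HasCompactSupport.of_support_subset_isCompact (isCompact_closedBall (0 : Eu d) T)
  intro x hx
  rw [mem_closedBall, dist_zero_right]
  by_contra hcon
  push Not at hcon
  exact hx (h x hcon)

/-- `(h - m) χ^2` is a test function -/
theorem icacc_lipC_psi {h χ : Eu d → ℝ} (hh : ∃ L : ℝ≥0, LipschitzWith L h) (m : ℝ) {M T : ℝ}
    (hM : 0 ≤ M) (hχ0 : ∀ x, 0 ≤ χ x) (hχ1 : ∀ x, χ x ≤ 1)
    (hχM : ∀ x y, |χ x - χ y| ≤ M * ‖x - y‖) (hT : 0 ≤ T) (hχT : ∀ x, T < ‖x‖ → χ x = 0) :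
    LipC (fun x => (h x - m) * χ x ^ 2) := by
  obtain ⟨L, hL⟩ := hh
  have hgL : ∀ x y, |h x - h y| ≤ L * ‖x - y‖ := by
    intro x y
    have := hL.dist_le_mul x y
    rwa [Real.dist_eq, dist_eq_norm] at this
  obtain ⟨B, hB⟩ : ∃ B : ℝ, ∀ x ∈ closedBall (0 : Eu d) T, |h x - m| ≤ B := by
    obtain ⟨B, hB⟩ := (isCompact_closedBall (0 : Eu d) T).exists_bound_of_continuousOn
      (f := fun x => h x - m) ((hL.continuous.sub continuous_const).continuousOn)
    exact ⟨B, fun x hx => by simpa only [Real.norm_eq_abs] using hB x hx⟩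
  have hB0 : 0 ≤ B := (abs_nonneg _).trans (hB 0 (mem_closedBall_self hT))
  -- one-sided estimate
  have hone : ∀ x y : Eu d, ‖x‖ ≤ T →
      |(h x - m) * χ x ^ 2 - (h y - m) * χ y ^ 2| ≤ (B * (2 * M) + L) * ‖x - y‖ := by
    intro x y hx
    have h1 : (h x - m) * χ x ^ 2 - (h y - m) * χ y ^ 2
        = (h x - m) * ((χ x - χ y) * (χ x + χ y)) + (h x - h y) * χ y ^ 2 := by ring
    rw [h1]
    refine (abs_add_le _ _).trans ?_
    rw [abs_mul, abs_mul, abs_mul, abs_of_nonneg (add_nonneg (hχ0 x) (hχ0 y)),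
      abs_of_nonneg (sq_nonneg (χ y))]
    have h2 : |h x - m| ≤ B := hB x (by rwa [mem_closedBall, dist_zero_right])
    have h3 : |χ x - χ y| * (χ x + χ y) ≤ (M * ‖x - y‖) * 2 :=
      mul_le_mul (hχM x y) (by linarith only [hχ1 x, hχ1 y]) (add_nonneg (hχ0 x) (hχ0 y))
        (by (clear * - hM; (clear * - hM; positivity)))
    have h4 : χ y ^ 2 ≤ 1 := pow_le_one₀ (hχ0 y) (hχ1 y)
    calc |h x - m| * (|χ x - χ y| * (χ x + χ y)) + |h x - h y| * χ y ^ 2
        ≤ B * ((M * ‖x - y‖) * 2) + (L * ‖x - y‖) * 1 := by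
          apply add_le_add
          · exact mul_le_mul h2 h3
              (mul_nonneg (abs_nonneg _) (add_nonneg (hχ0 x) (hχ0 y))) hB0
          · exact mul_le_mul (hgL x y) h4 (sq_nonneg _) (by (clear * -; (clear * -; positivity)))
      _ = (B * (2 * M) + L) * ‖x - y‖ := by ring
  refine ⟨⟨Real.toNNReal (B * (2 * M) + L), LipschitzWith.of_dist_le_mul ?_⟩, ?_⟩
  · intro x y
    rw [Real.coe_toNNReal _ (by (clear * - hM hB0; (clear * - hB0 hM; positivity))), Real.dist_eq, dist_eq_norm]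
    by_cases hx : ‖x‖ ≤ T
    · exact hone x y hx
    · by_cases hy : ‖y‖ ≤ T
      · rw [abs_sub_comm, norm_sub_rev]
        exact hone y x hy
      · rw [hχT x (not_le.mp hx), hχT y (not_le.mp hy)]
        simp only [ne_eq, OfNat.ofNat_ne_zero, not_false_eq_true, zero_pow, mul_zero, sub_self, abs_zero]
        (clear * - hM hB0; (clear * - hB0 hM; positivity))
  · apply hasCompactSupport_of_zero (T := T)
    intro x hx
    rw [hχT x hx]
    ring

/-- the weighted mean of the height -/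
theorem mean_bound {ν : Measure (Eu d)} (hν : AR n c C ⊤ ν) (h0 : (0 : Eu d) ∈ ν.support)
    {h : Eu d → ℝ} (hhc : Continuous h) {A R : ℝ} (hR0 : 0 < R)
    (hgr : ∫ x in closedBall (0 : Eu d) (2 * R), h x ^ 2 ∂ν ≤ A * (2 * R) ^ (n + 3)) :
    ∃ m : ℝ, ∫ x, (h x - m) * cut 0 R x ^ 2 ∂ν = 0 ∧
      m ^ 2 ≤ A * ((2 * R) ^ (n + 3) / (c * R ^ n)) := by
  have := hν.isLocallyFiniteMeasure
  have hc := hν.c_pos
  set χ : Eu d → ℝ := cut 0 R with hχdef
  have hχ0 : ∀ x, 0 ≤ χ x := cut_nonneg' 0 R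
  have hχ1 : ∀ x, χ x ≤ 1 := cut_le_one' 0 R
  have hχc : Continuous χ := continuous_cut' 0 R
  have hχR : ∀ x ∈ closedBall (0 : Eu d) R, χ x = 1 := fun x hx =>
    cut_eq_one' hR0 (mem_closedBall.mp hx)
  have hχ2R : ∀ x : Eu d, 2 * R < ‖x‖ → χ x = 0 := fun x hx =>
    cut_eq_zero' hR0 (by rw [dist_zero_right]; exact hx.le)
  have hχ2cs : HasCompactSupport (fun x => χ x ^ 2) :=
    hasCompactSupport_of_zero (T := 2 * R) fun x hx => by rw [hχ2R x hx]; ring
  have hχ2i : Integrable (fun x => χ x ^ 2) ν :=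
    (hχc.pow 2).integrable_of_hasCompactSupport hχ2cs
  have hhχi : Integrable (fun x => h x * χ x ^ 2) ν :=
    (hhc.mul (hχc.pow 2)).integrable_of_hasCompactSupport
      (hasCompactSupport_of_zero (T := 2 * R) fun x hx => by simp [hχ2R x hx])
  have hh2χi : Integrable (fun x => h x ^ 2 * χ x ^ 2) ν :=
    ((hhc.pow 2).mul (hχc.pow 2)).integrable_of_hasCompactSupport
      (hasCompactSupport_of_zero (T := 2 * R) fun x hx => by simp only [Pi.mul_apply, Pi.pow_apply, hχ2R x hx, ne_eq, OfNat.ofNat_ne_zero, not_false_eq_true, zero_pow, mul_zero])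
  set X : ℝ := ∫ x, χ x ^ 2 ∂ν with hX
  have hXc : c * R ^ n ≤ X := by
    have h1 : ∫ x in closedBall (0 : Eu d) R, χ x ^ 2 ∂ν ≤ X :=
      setIntegral_le_integral hχ2i (Eventually.of_forall fun x => sq_nonneg _)
    have h2 : ∫ x in closedBall (0 : Eu d) R, χ x ^ 2 ∂ν = ν.real (closedBall 0 R) := by
      rw [setIntegral_congr_fun (g := fun _ => (1 : ℝ)) measurableSet_closedBall
        (fun x hx => by simp only [hχR x hx, one_pow])]
      simp only [integral_const, MeasurableSet.univ, measureReal_restrict_apply, univ_inter,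
        smul_eq_mul, mul_one]
    have h3 : c * R ^ n ≤ ν.real (closedBall (0 : Eu d) R) := by
      rw [measureReal_def, ← ENNReal.ofReal_le_iff_le_toReal (hν.measure_ball_lt_top 0 R).ne]
      exact (hν.lower 0 h0 R hR0 le_top).trans (measure_mono ball_subset_closedBall)
    linarith only [h1, h2, h3]
  have hcR : 0 < c * R ^ n := by (clear * - hc hR0; positivity)
  have hX0 : 0 < X := lt_of_lt_of_le hcR hXc
  set m : ℝ := (∫ x, h x * χ x ^ 2 ∂ν) / X with hmdef
  have hmX : ∫ x, h x * χ x ^ 2 ∂ν = m * X := by rw [hmdef, div_mul_cancel₀ _ hX0.ne']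
  refine ⟨m, ?_, ?_⟩
  · have h1 : ∫ x, (h x - m) * χ x ^ 2 ∂ν = ∫ x, h x * χ x ^ 2 ∂ν - m * X := by
      rw [hX, ← integral_const_mul, ← integral_sub hhχi (hχ2i.const_mul _)]
      apply integral_congr_ae
      apply Eventually.of_forall
      intro x
      simp only
      ring
    rw [h1, hmX, sub_self]
  · have h1 : 0 ≤ ∫ x, (h x - m) ^ 2 * χ x ^ 2 ∂ν :=
      integral_nonneg fun x => mul_nonneg (sq_nonneg _) (sq_nonneg _)
    have h2 : ∫ x, (h x - m) ^ 2 * χ x ^ 2 ∂ν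
        = ∫ x, h x ^ 2 * χ x ^ 2 ∂ν - 2 * m * ∫ x, h x * χ x ^ 2 ∂ν + m ^ 2 * X := by
      have e1 : (fun x => (h x - m) ^ 2 * χ x ^ 2)
          = fun x => (h x ^ 2 * χ x ^ 2 - 2 * m * (h x * χ x ^ 2)) + m ^ 2 * χ x ^ 2 := by
        funext x; ring
      have i1 : Integrable (fun x => h x ^ 2 * χ x ^ 2 - 2 * m * (h x * χ x ^ 2)) ν :=
        hh2χi.sub (hhχi.const_mul _)
      rw [e1, integral_add i1 (hχ2i.const_mul _), integral_sub hh2χi (hhχi.const_mul _),
        integral_const_mul, integral_const_mul]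
    rw [h2, hmX] at h1
    have h3 : ∫ x, h x ^ 2 * χ x ^ 2 ∂ν ≤ A * (2 * R) ^ (n + 3) := by
      have h4 : ∫ x, h x ^ 2 * χ x ^ 2 ∂ν
          = ∫ x in closedBall (0 : Eu d) (2 * R), h x ^ 2 * χ x ^ 2 ∂ν := by
        symm
        apply setIntegral_eq_integral_of_forall_compl_eq_zero
        intro x hx
        rw [mem_closedBall, dist_zero_right, not_le] at hx
        rw [hχ2R x hx]; ring
      rw [h4]
      refine le_trans ?_ hgr
      apply setIntegral_mono_on
      · exact ((hhc.pow 2).mul (hχc.pow 2)).continuousOn.integrableOn_compact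
          (isCompact_closedBall _ _)
      · exact (hhc.pow 2).continuousOn.integrableOn_compact (isCompact_closedBall _ _)
      · exact measurableSet_closedBall
      · intro x _
        have : χ x ^ 2 ≤ 1 := pow_le_one₀ (hχ0 x) (hχ1 x)
        nlinarith only [this]
    have h5 : m ^ 2 * (c * R ^ n) ≤ A * (2 * R) ^ (n + 3) := by
      have h6 : m ^ 2 * (c * R ^ n) ≤ m ^ 2 * X := by (clear * - hXc; gcongr)
      nlinarith only [h1, h3, h6]
    rw [mul_div_assoc', le_div_iff₀ hcR]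
    exact h5

theorem G_bound {D : ℝ≥0∞} {ν : Measure (Eu d)} (hν : AR n c C D ν)
    {h : Eu d → ℝ} (hhc : Continuous h) (m : ℝ) {T : ℝ} (hT0 : 0 < T) :
    ∫ x in closedBall (0 : Eu d) T, (h x - m) ^ 2 ∂ν ≤
      2 * (∫ x in closedBall (0 : Eu d) T, h x ^ 2 ∂ν) + 2 * m ^ 2 * (C * T ^ n) := by
  have := hν.isLocallyFiniteMeasure
  have hcompT := isCompact_closedBall (0 : Eu d) T
  have hh2i : IntegrableOn (fun x => h x ^ 2) (closedBall (0 : Eu d) T) ν :=
    (hhc.pow 2).continuousOn.integrableOn_compact hcompT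
  have hg2i : IntegrableOn (fun x => (h x - m) ^ 2) (closedBall (0 : Eu d) T) ν :=
    ((hhc.sub continuous_const).pow 2).continuousOn.integrableOn_compact hcompT
  have hνT : ν.real (closedBall (0 : Eu d) T) ≤ C * T ^ n := by
    rw [measureReal_def]
    have := hν.C_pos
    exact ENNReal.toReal_le_of_le_ofReal (by (clear * - this hT0; positivity)) (hν.upper 0 T hT0)
  have h1 : ∫ x in closedBall (0 : Eu d) T, (h x - m) ^ 2 ∂ν ≤
      ∫ x in closedBall (0 : Eu d) T, (2 * h x ^ 2 + 2 * m ^ 2) ∂ν := by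
    apply integral_mono hg2i ((hh2i.const_mul 2).add (integrableOn_const
      (hν.measure_ball_lt_top 0 T).ne))
    intro x
    simp only [Pi.add_apply]
    nlinarith only [sq_nonneg (h x + m)]
  have h2 : ∫ x in closedBall (0 : Eu d) T, (2 * h x ^ 2 + 2 * m ^ 2) ∂ν
      = 2 * (∫ x in closedBall (0 : Eu d) T, h x ^ 2 ∂ν)
        + 2 * m ^ 2 * ν.real (closedBall (0 : Eu d) T) := by
    rw [integral_add (hh2i.const_mul 2) (integrableOn_const (hν.measure_ball_lt_top 0 T).ne),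
      integral_const_mul, setIntegral_const, smul_eq_mul, mul_comm (ν.real _)]
  have h3 : 2 * m ^ 2 * ν.real (closedBall (0 : Eu d) T) ≤ 2 * m ^ 2 * (C * T ^ n) := by
    (clear * - hνT; gcongr)
  linarith only [h1, h2, h3]

theorem psi_bound {D : ℝ≥0∞} {ν : Measure (Eu d)} (hν : AR n c C D ν)
    {h g ψ : Eu d → ℝ} (hhc : Continuous h) (hgc : Continuous g) {T : ℝ}
    (hψ0 : ∀ x, x ∉ closedBall (0 : Eu d) T → ψ x = 0) (hψ : ∀ x, |ψ x| ≤ |g x|) :
    ∫ x, |ψ x * h x| ∂ν ≤ 1 / 2 * (∫ x in closedBall (0 : Eu d) T, g x ^ 2 ∂ν)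
      + 1 / 2 * (∫ x in closedBall (0 : Eu d) T, h x ^ 2 ∂ν) := by
  have := hν.isLocallyFiniteMeasure
  have hcompT := isCompact_closedBall (0 : Eu d) T
  have hh2i : IntegrableOn (fun x => h x ^ 2) (closedBall (0 : Eu d) T) ν :=
    (hhc.pow 2).continuousOn.integrableOn_compact hcompT
  have hg2i : IntegrableOn (fun x => g x ^ 2) (closedBall (0 : Eu d) T) ν :=
    (hgc.pow 2).continuousOn.integrableOn_compact hcompT
  have h1 : ∫ x, |ψ x * h x| ∂ν = ∫ x in closedBall (0 : Eu d) T, |ψ x * h x| ∂ν := by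
    symm
    apply setIntegral_eq_integral_of_forall_compl_eq_zero
    intro x hx
    rw [hψ0 x hx]; simp only [zero_mul, abs_zero]
  have h2 : ∫ x in closedBall (0 : Eu d) T, |ψ x * h x| ∂ν ≤
      ∫ x in closedBall (0 : Eu d) T, (1 / 2 * g x ^ 2 + 1 / 2 * h x ^ 2) ∂ν := by
    apply integral_mono_of_nonneg (Eventually.of_forall fun x => abs_nonneg _)
      ((hg2i.const_mul _).add (hh2i.const_mul _))
    apply Eventually.of_forall
    intro x
    simp only [Pi.add_apply]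
    rw [abs_mul]
    have h3 := hψ x
    have h4 : |ψ x| * |h x| ≤ |g x| * |h x| := mul_le_mul_of_nonneg_right h3 (abs_nonneg _)
    have h5 : |g x| * |h x| ≤ 1 / 2 * g x ^ 2 + 1 / 2 * h x ^ 2 := by
      rw [← sq_abs (g x), ← sq_abs (h x)]
      nlinarith only [sq_nonneg (|g x| - |h x|)]
    (clear * - h4 h5; linarith)
  rw [integral_add (hg2i.const_mul _) (hh2i.const_mul _), integral_const_mul,
    integral_const_mul] at h2
  rw [h1]
  exact h2

end Cacc

/-- Caccioppoli inequality -/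
theorem Ht.energy_le (hn : 1 ≤ n) (c C : ℝ) (hc : 0 < c) (hC : 0 < C) (R : ℝ) (hR : 1 ≤ R) :
    ∃ K : ℝ, 0 < K ∧
    ∀ (d : ℕ) (A : ℝ) (ν : Measure (Eu d)) (h : Eu d → ℝ), AR n c C ⊤ ν →
      (0 : Eu d) ∈ ν.support → Ht n A ν h → energy n ν h R ≤ K * A := by
  obtain ⟨K₀, hK₀, hK₀'⟩ := Ht.tail hn c C hC
  obtain ⟨K₁, hK₁, hK₁'⟩ := lintegral_near n hn C hC
  have hR0 : 0 < R := by linarith only [hR]
  obtain ⟨T, hTdef⟩ : ∃ T, T = 16 * R := ⟨_, rfl⟩
  have hT0 : 0 < T := by rw [hTdef]; (clear * - hR; positivity)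
  obtain ⟨V, hV⟩ : ∃ V, V = C * T ^ n := ⟨_, rfl⟩
  have hV0 : 0 < V := by rw [hV]; positivity
  obtain ⟨Y, hY⟩ : ∃ Y, Y = (2 * R) ^ (n + 3) / (c * R ^ n) := ⟨_, rfl⟩
  have hY0 : 0 < Y := by rw [hY]; (clear * - hR hc; positivity)
  obtain ⟨Z, hZ⟩ : ∃ Z, Z = T ^ (n + 3) := ⟨_, rfl⟩
  have hZ0 : 0 < Z := by rw [hZ]; (clear * - hT0; positivity)
  obtain ⟨KG, hKG⟩ : ∃ KG, KG = 2 * Z + 2 * Y * V := ⟨_, rfl⟩
  have hKG0 : 0 < KG := by rw [hKG]; (clear * - hV0 hY0 hZ0; positivity)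
  have hKGT : Z ≤ KG := by
    have h1 : 0 ≤ 2 * Y * V := by (clear * - hY0 hV0; positivity)
    linarith only [hZ0, hKG, h1]
  refine ⟨2 * K₀ * (KG + 2 * R * (KG + V)) + 1 ^ 2 * (K₁ * (2 * T)) * KG, by (clear * - hR hK₀ hK₁ hT0 hV0 hKG0; positivity), ?_⟩
  intro d A ν h hν h0 hh
  have hA := hh.A_nonneg
  obtain ⟨L, hL⟩ := hh.lip
  have hhc : Continuous h := hL.continuous
  obtain ⟨m, hm0, hm2⟩ := Cacc.mean_bound hν h0 hhc hR0 (hh.growth (2 * R) (by linarith only [hR]))
  rw [← hY] at hm2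
  have hG := Cacc.G_bound hν hhc m hT0
  rw [← hV] at hG
  have haA : ∫ x in closedBall (0 : Eu d) T, h x ^ 2 ∂ν ≤ A * Z := by
    rw [hZ]; exact hh.growth T (by linarith only [hR, hTdef])
  obtain ⟨a, ha⟩ : ∃ a, a = ∫ x in closedBall (0 : Eu d) T, h x ^ 2 ∂ν := ⟨_, rfl⟩
  obtain ⟨G, hGdef⟩ : ∃ G, G = ∫ x in closedBall (0 : Eu d) T, (h x - m) ^ 2 ∂ν := ⟨_, rfl⟩
  rw [← ha] at haA
  rw [← ha, ← hGdef] at hG
  have hGA : G ≤ A * KG := by
    have h1 : 2 * m ^ 2 * V ≤ 2 * (A * Y) * V := by (clear * - hV0 hm2; gcongr)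
    calc G ≤ 2 * a + 2 * m ^ 2 * V := hG
      _ ≤ 2 * (A * Z) + 2 * (A * Y) * V := by linarith only [haA, h1]
      _ = A * KG := by rw [hKG]; ring
  have haKG : a ≤ A * KG := haA.trans (by (clear * - hKGT hA; gcongr))
  -- cutoffs
  have h8R : 0 < 8 * R := by (clear * - hR; positivity)
  have hχM : ∀ x y : Eu d, |cut 0 R x - cut 0 R y| ≤ 1 * ‖x - y‖ := by
    intro x y
    refine (Cacc.cut_lip' hR0 x y).trans ?_
    rw [one_mul, dist_eq_norm]
    exact div_le_self (norm_nonneg _) hR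
  have hχR : ∀ x ∈ closedBall (0 : Eu d) R, cut 0 R x = 1 := fun x hx =>
    Cacc.cut_eq_one' hR0 (mem_closedBall.mp hx)
  have hχ2R : ∀ x : Eu d, 2 * R < ‖x‖ → cut 0 R x = 0 := fun x hx =>
    Cacc.cut_eq_zero' hR0 (by rw [dist_zero_right]; exact hx.le)
  have hθ8R : ∀ x : Eu d, ‖x‖ ≤ 8 * R → cut 0 (8 * R) x = 1 := fun x hx =>
    Cacc.cut_eq_one' h8R (by rwa [dist_zero_right])
  have hθT : ∀ x : Eu d, x ∉ closedBall (0 : Eu d) T → cut 0 (8 * R) x = 0 := by
    intro x hx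
    rw [mem_closedBall, not_le] at hx
    apply Cacc.cut_eq_zero' h8R
    linarith only [hTdef, hx]
  -- the test function
  obtain ⟨ψ, hψdef⟩ : ∃ ψ : Eu d → ℝ, ψ = fun x => (h x - m) * cut 0 R x ^ 2 := ⟨_, rfl⟩
  have hψL : LipC ψ := by
    rw [hψdef]
    exact Cacc.icacc_lipC_psi hh.lip m zero_le_one (Cacc.cut_nonneg' 0 R) (Cacc.cut_le_one' 0 R) hχM
      (by positivity) hχ2R
  have hψ2R : ∀ x : Eu d, 2 * R < ‖x‖ → ψ x = 0 := by
    intro x hx
    simp only [hψdef, hχ2R x hx]; ring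
  have hψ0 : ∫ x, ψ x ∂ν = 0 := by rw [hψdef]; exact hm0
  have htail := hK₀' d A ν h hν hh ψ (2 * R) (8 * R) hψL (by linarith only [hR]) (by linarith only [hR]) hψ2R hψ0
  have hψle : ∀ x, |ψ x| ≤ |h x - m| := by
    intro x
    simp only [hψdef]
    rw [abs_mul, abs_of_nonneg (sq_nonneg (cut 0 R x))]
    have : cut 0 R x ^ 2 ≤ 1 := pow_le_one₀ (Cacc.cut_nonneg' 0 R x) (Cacc.cut_le_one' 0 R x)
    exact mul_le_of_le_one_right (abs_nonneg _) this
  have hψT : ∀ x : Eu d, x ∉ closedBall (0 : Eu d) T → ψ x = 0 := by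
    intro x hx
    rw [mem_closedBall, dist_zero_right, not_le] at hx
    exact hψ2R x (by linarith only [hR, hTdef, hx])
  have hψhA : ∫ x, |ψ x * h x| ∂ν ≤ A * KG := by
    have := Cacc.psi_bound (g := fun x => h x - m) hν hhc (hhc.sub continuous_const) hψT hψle
    rw [← ha, ← hGdef] at this
    linarith only [hGA, haKG, this]
  have hψA : (∫ x, |ψ x| ∂ν) * Real.sqrt A ≤ A * (KG + V) := by
    have h1 := Cacc.psi_bound (h := fun _ => Real.sqrt A) (g := fun x => h x - m) hν continuous_const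
      (hhc.sub continuous_const) hψT hψle
    rw [← hGdef] at h1
    have h2 : ∫ x, |ψ x * Real.sqrt A| ∂ν = (∫ x, |ψ x| ∂ν) * Real.sqrt A := by
      rw [← integral_mul_const]
      apply integral_congr_ae
      apply Eventually.of_forall
      intro x
      simp only
      rw [abs_mul, abs_of_nonneg (Real.sqrt_nonneg A)]
    have h3 : ∫ x in closedBall (0 : Eu d) T, Real.sqrt A ^ 2 ∂ν ≤ V * A := by
      rw [setIntegral_const, smul_eq_mul, Real.sq_sqrt hA]
      gcongr
      rw [measureReal_def, hV]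
      exact ENNReal.toReal_le_of_le_ofReal (by (clear * - hC hT0; positivity)) (hν.upper 0 T hT0)
    rw [h2] at h1
    have h6 : 0 ≤ A * KG := by (clear * - hKG0 hA; positivity)
    have h7 : 0 ≤ A * V := by (clear * - hV0 hA; (clear * - hA hV0; positivity))
    nlinarith only [hGA, h1, h3, h6, h7]
  have hform_le : |hform n 0 ν h ψ (cut 0 (8 * R))| ≤
      K₀ * (A * KG + 2 * R * (A * (KG + V))) := by
    refine htail.trans ?_
    have hψh0 : 0 ≤ ∫ x, |ψ x * h x| ∂ν := integral_nonneg fun x => abs_nonneg _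
    have hψ00 : 0 ≤ ∫ x, |ψ x| ∂ν := integral_nonneg fun x => abs_nonneg _
    have h81 : 1 ≤ 8 * R := by linarith only [hR]
    have h1 : (∫ x, |ψ x * h x| ∂ν) / (8 * R) ≤ A * KG :=
      (div_le_self hψh0 h81).trans hψhA
    have h2 : 2 * R * (∫ x, |ψ x| ∂ν) * Real.sqrt A / Real.sqrt (8 * R) ≤
        2 * R * (A * (KG + V)) := by
      refine (div_le_self (by (clear * - hR; (clear * - hR; positivity))) ?_).trans ?_
      · rw [Real.le_sqrt' one_pos]; linarith only [hR]
      · rw [mul_assoc (2 * R)]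
        (clear * - hR hψA; gcongr)
    exact mul_le_mul_of_nonneg_left (add_le_add h1 h2) hK₀.le
  have hid : 2 * hform n 0 ν h ψ (cut 0 (8 * R)) = ∫ p, (h p.1 - m - (h p.2 - m)) *
      ((h p.1 - m) * cut 0 R p.1 ^ 2 - (h p.2 - m) * cut 0 R p.2 ^ 2) *
        (cut 0 (8 * R) p.1 * cut 0 (8 * R) p.2) * sK n 0 (p.1 - p.2) ∂(ν.prod ν) := by
    rw [hform_eq_of_one n 0 ν h ψ (cut 0 (8 * R)) (fun x hx => by
      apply hθ8R
      by_contra hcon
      push Not at hcon
      exact hx (hψ2R x (by linarith only [hR, hcon])))]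
    rw [← mul_assoc, mul_one_div_cancel two_ne_zero, one_mul, hψdef]
    simp only [sub_sub_sub_cancel_right]
  have hgL : ∃ L : ℝ≥0, LipschitzWith L (fun x => h x - m) :=
    ⟨L, LipschitzWith.of_dist_le_mul fun x y => by
      rw [Real.dist_eq]
      simp only [sub_sub_sub_cancel_right]
      rw [← Real.dist_eq]
      exact hL.dist_le_mul x y⟩
  have hcore := Cacc.core (g := fun x => h x - m) (R := R) hn hν hK₁ (hK₁' d ν hν.upper) hgL
    hT0 zero_le_one (Cacc.continuous_cut' 0 R) (Cacc.cut_nonneg' 0 R) (Cacc.cut_le_one' 0 R) hχM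
    (Cacc.continuous_cut' 0 (8 * R)) (Cacc.cut_nonneg' 0 (8 * R)) (Cacc.cut_le_one' 0 (8 * R)) hχR
    (fun x hx => hθ8R x (by rw [mem_closedBall, dist_zero_right] at hx; linarith only [hR, hx])) hθT
  have hEeq : energy n ν (fun x => h x - m) R = energy n ν h R := by
    simp only [energy, sub_sub_sub_cancel_right]
  rw [hEeq, ← hid, ← hGdef] at hcore
  refine hcore.trans ?_
  have h1 : 2 * hform n 0 ν h ψ (cut 0 (8 * R)) ≤
      2 * (K₀ * (A * KG + 2 * R * (A * (KG + V)))) := by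
    have := (le_abs_self _).trans hform_le
    linarith only [this]
  have h2 : 1 ^ 2 * (K₁ * (2 * T)) * G ≤ 1 ^ 2 * (K₁ * (2 * T)) * (A * KG) := by (clear * - hK₁ hT0 hGA; gcongr)
  calc 2 * hform n 0 ν h ψ (cut 0 (8 * R)) + 1 ^ 2 * (K₁ * (2 * T)) * G
      ≤ 2 * (K₀ * (A * KG + 2 * R * (A * (KG + V)))) +
          1 ^ 2 * (K₁ * (2 * T)) * (A * KG) := add_le_add h1 h2
    _ = (2 * K₀ * (KG + 2 * R * (KG + V)) + 1 ^ 2 * (K₁ * (2 * T)) * KG) * A := by ring

end Vale.Agent.P120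
end
end

section

section

/-! Tail bound along the sequence (task T1).  Owner: helper758 -/

open MeasureTheory Metric Set Filter Topology
open scoped ENNReal NNReal

namespace Vale.Agent.P120

variable {d n : ℕ} {c C : ℝ}

namespace Tail

/-- integral of a bounded function supported in a ball -/
theorem integral_abs_mul_le {ν : Measure (Eu d)} {D : ℝ≥0∞} (hν : AR n c C D ν)
    {f w : Eu d → ℝ} (hf : Continuous f) (hw : Continuous w) {T M : ℝ} (hM : ∀ x, |f x| ≤ M)
    (hT : ∀ x, T < ‖x‖ → f x = 0) :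
    ∫ x, |f x * w x| ∂ν ≤ M * ∫ x in closedBall (0 : Eu d) T, |w x| ∂ν := by
  have := hν.isLocallyFiniteMeasure
  have h1 : ∫ x, |f x * w x| ∂ν = ∫ x in closedBall (0 : Eu d) T, |f x * w x| ∂ν := by
    symm
    apply setIntegral_eq_integral_of_forall_compl_eq_zero
    intro x hx
    rw [mem_closedBall, dist_zero_right] at hx
    push Not at hx
    rw [hT x hx, zero_mul, abs_zero]
  rw [h1, ← integral_const_mul]
  refine setIntegral_mono_on ?_ ?_ measurableSet_closedBall fun x _ => ?_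
  · exact (hf.mul hw).abs.continuousOn.integrableOn_compact (isCompact_closedBall 0 T)
  · exact (hw.abs.const_mul M).continuousOn.integrableOn_compact (isCompact_closedBall 0 T)
  · rw [abs_mul]
    exact mul_le_mul_of_nonneg_right (hM x) (abs_nonneg _)

/-- the mass of the cutoff -/
theorem cut_mass {ν : Measure (Eu d)} (hν : AR n c C ⊤ ν) (h0 : (0 : Eu d) ∈ ν.support) :
    c ≤ ∫ x, cut (0 : Eu d) 1 x ∂ν := by
  have := hν.isLocallyFiniteMeasure
  have hint : Integrable (cut (0 : Eu d) 1) ν :=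
    (lipC_cut (0 : Eu d) 1 one_pos).continuous.integrable_of_hasCompactSupport
      (lipC_cut (0 : Eu d) 1 one_pos).2
  have h1 : ∫ x in closedBall (0 : Eu d) 1, (1 : ℝ) ∂ν ≤ ∫ x, cut (0 : Eu d) 1 x ∂ν := by
    calc ∫ x in closedBall (0 : Eu d) 1, (1 : ℝ) ∂ν
        = ∫ x in closedBall (0 : Eu d) 1, cut (0 : Eu d) 1 x ∂ν := by
          refine setIntegral_congr_fun measurableSet_closedBall fun x hx => ?_
          rw [mem_closedBall, dist_zero_right] at hx
          exact (icut_one one_pos hx).symm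
      _ ≤ ∫ x, cut (0 : Eu d) 1 x ∂ν :=
          setIntegral_le_integral hint (ae_of_all _ fun x => icut_nonneg _ _ _)
  have h2 : c ≤ ν.real (closedBall (0 : Eu d) 1) := by
    have h3 := hν.lower 0 h0 1 one_pos le_top
    rw [one_pow, mul_one] at h3
    have h4 := h3.trans (measure_mono (ball_subset_closedBall (x := (0 : Eu d)) (ε := 1)))
    rw [measureReal_def]
    have h5 := ENNReal.toReal_mono (hν.measure_ball_lt_top 0 1).ne h4
    rwa [ENNReal.toReal_ofReal hν.c_pos.le] at h5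
  rw [setIntegral_const, smul_eq_mul, mul_one] at h1
  exact h2.trans h1

end Tail

/-- Tail bound for the scalar form along the sequence. -/
theorem ImpSeq.tail_bound (hn : 1 ≤ n) {A : ℝ} {𝒰 : Ultrafilter ℕ} {ν : ℕ → Measure (Eu d)}
    {ν' : Measure (Eu d)} {ι : Eu n →ₗᵢ[ℝ] Eu d} {g : ℝ} {h : ℕ → Eu d → ℝ}
    {σp σm : Measure (Eu d)} (H : ImpSeq n c C A 𝒰 ν ν' ι g h σp σm)
    (ψ : Eu d → ℝ) (hψ : LipC ψ) (T : ℝ) (hT : 2 ≤ T) (hψT : ∀ x, T < ‖x‖ → ψ x = 0)
    (h0 : ∫ x, ψ x ∂ν' = 0) :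
    ∃ K : ℝ, 0 < K ∧ ∀ S : ℝ, 2 * T ≤ S → ∀ ε : ℝ, 0 < ε →
      ∀ᶠ k in (𝒰 : Filter ℕ), |hform n 0 (ν k) (h k) ψ (cut 0 S)| ≤ K / Real.sqrt S + ε := by
  have hc : 0 < c := (H.ar 0).c_pos
  have hC : 0 < C := (H.ar 0).C_pos
  have hA : 0 ≤ A := (H.ht 0).A_nonneg
  have hT0 : 0 < T := by linarith only [hT]
  obtain ⟨K₁, hK₁, htail⟩ := Ht.tail hn c C hC
  obtain ⟨K₂, hK₂, hl1⟩ := Ht.tail_integral hn c C hC
  obtain ⟨B, hB0, hB⟩ := hψ.exists_bound
  set φ : Eu d → ℝ := cut 0 1 with hφdef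
  have hφ : LipC φ := lipC_cut 0 1 one_pos
  have hφ0 : ∀ x, 0 ≤ φ x := icut_nonneg 0 1
  have hφ1 : ∀ x, φ x ≤ 1 := icut_le_one 0 1
  have hφT : ∀ x, T < ‖x‖ → φ x = 0 := fun x hx => icut_zero one_pos (by linarith only [hT, hx])
  set a : ℕ → ℝ := fun k => ∫ x, φ x ∂(ν k) with ha
  have hac : ∀ k, c ≤ a k := fun k => Tail.cut_mass (H.ar k) (H.zero_mem k)
  have ha0 : ∀ k, 0 < a k := fun k => hc.trans_le (hac k)
  set m : ℕ → ℝ := fun k => (∫ x, ψ x ∂(ν k)) / a k with hm
  -- `m k → 0`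
  have hmt : Tendsto m (𝒰 : Filter ℕ) (𝓝 0) := by
    have h1 : Tendsto (fun k => ∫ x, ψ x ∂(ν k)) (𝒰 : Filter ℕ) (𝓝 0) := by
      have := H.vl ψ hψ.continuous hψ.2
      rwa [h0] at this
    have h2 : Tendsto (fun k => |∫ x, ψ x ∂(ν k)| * c⁻¹) (𝒰 : Filter ℕ) (𝓝 0) := by
      have := h1.abs.mul_const c⁻¹
      simpa only [abs_zero, zero_mul] using this
    refine squeeze_zero_norm (fun k => ?_) h2
    rw [Real.norm_eq_abs, hm, abs_div, abs_of_pos (ha0 k), div_eq_mul_inv]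
    exact mul_le_mul_of_nonneg_left (inv_anti₀ hc (hac k)) (abs_nonneg _)
  set X : ℝ := K₂ * Real.sqrt A * (T ^ (n + 1) * Real.sqrt T) with hX
  have hX0 : 0 ≤ X := by (clear * - hT hK₂; positivity)
  refine ⟨K₁ * ((B + 1) * X + T * ((B + 1) * (C * T ^ n)) * Real.sqrt A) + 1, by (clear * - hT hC hK₁ hK₂ hB0; positivity), ?_⟩
  intro S hS ε hε
  have hS1 : 1 ≤ S := by linarith only [hT, hS]
  have hS0 : 0 < S := by linarith only [hT, hS]
  have hsq0 : 0 < Real.sqrt S := Real.sqrt_pos.2 hS0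
  have hsqS : Real.sqrt S ≤ S := by
    rw [Real.sqrt_le_left hS0.le]
    nlinarith only [hT, hS]
  have hθ : LipC (cut (0 : Eu d) S) := lipC_cut 0 S hS0
  -- bound of the correction
  obtain ⟨K₃, hK₃, hreg⟩ := hform_reg hn c C hC (2 * S) (by linarith only [hT, hS])
  obtain ⟨K₄, hK₄, hen⟩ := Ht.energy_le hn c C hc hC (2 * S) (by linarith only [hT, hS])
  obtain ⟨L, hL0, hL⟩ := hf_antisymm_lip hφ hθ
  have hcor : ∀ k, |hform n 0 (ν k) (h k) φ (cut 0 S)| ≤ K₃ * L * Real.sqrt (K₄ * A) := by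
    intro k
    have h1 := (hreg d (ν k) (h k) φ (cut 0 S) L 1 (H.ar k) (H.ht k).lip hφ hθ hL0 one_pos
      (fun x hx => ⟨icut_zero one_pos (by linarith only [hT, hS, hx]), icut_zero hS0 hx.le⟩)
      (fun x y => by rw [dist_eq_norm]; exact hL x y)).2
    refine h1.trans ?_
    have h2 := hen d A (ν k) (h k) (H.ar k) (H.zero_mem k) (H.ht k)
    (clear * - hK₃ hL0 h2; gcongr)
  set Y : ℝ := K₃ * L * Real.sqrt (K₄ * A) with hY
  have hY0 : 0 ≤ Y := by (clear * - hK₃ hL0; positivity)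
  have he1 : ∀ᶠ k in (𝒰 : Filter ℕ), |m k| < 1 := by
    have := hmt.abs
    rw [abs_zero] at this
    exact this.eventually (gt_mem_nhds one_pos)
  have he2 : ∀ᶠ k in (𝒰 : Filter ℕ), |m k| * Y < ε := by
    have := (hmt.abs).mul_const Y
    rw [abs_zero, zero_mul] at this
    exact this.eventually (gt_mem_nhds hε)
  filter_upwards [he1, he2] with k hk1 hk2
  have hlf := (H.ar k).isLocallyFiniteMeasure
  -- the centered function
  set ψk : Eu d → ℝ := fun x => ψ x - m k * φ x with hψk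
  have hψkL : LipC ψk := hψ.sub (hφ.const_mul (m k))
  have hψkT : ∀ x, T < ‖x‖ → ψk x = 0 := fun x hx => by
    rw [hψk]
    simp only
    rw [hψT x hx, hφT x hx, mul_zero, sub_zero]
  have hψkB : ∀ x, |ψk x| ≤ B + 1 := by
    intro x
    rw [hψk]
    simp only
    have h1 : |m k * φ x| ≤ 1 := by
      rw [abs_mul, abs_of_nonneg (hφ0 x)]
      calc |m k| * φ x ≤ 1 * 1 := mul_le_mul hk1.le (hφ1 x) (hφ0 x) zero_le_one
        _ = 1 := mul_one 1
    calc |ψ x - m k * φ x| ≤ |ψ x| + |m k * φ x| := abs_sub _ _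
      _ ≤ B + 1 := add_le_add (hB x) h1
  have hψk0 : ∫ x, ψk x ∂(ν k) = 0 := by
    have i1 : Integrable ψ (ν k) := hψ.continuous.integrable_of_hasCompactSupport hψ.2
    have i2 : Integrable φ (ν k) := hφ.continuous.integrable_of_hasCompactSupport hφ.2
    rw [hψk, integral_sub i1 (i2.const_mul _), integral_const_mul, hm]
    simp only
    rw [div_mul_cancel₀ _ (ha0 k).ne', sub_self]
  -- decomposition
  have hdec : hform n 0 (ν k) (h k) ψ (cut 0 S) =
      hform n 0 (ν k) (h k) ψk (cut 0 S) + m k * hform n 0 (ν k) (h k) φ (cut 0 S) := by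
    have h1 := hform_sub_mul_left hn (H.ar k) (H.ht k).lip hψ hφ hθ 0 le_rfl (m k)
    rw [hψk, h1]
    ring
  have hmain : |hform n 0 (ν k) (h k) ψk (cut 0 S)| ≤
      K₁ * ((B + 1) * X + T * ((B + 1) * (C * T ^ n)) * Real.sqrt A) / Real.sqrt S := by
    have h1 := htail d A (ν k) (h k) (H.ar k) (H.ht k) ψk T S hψkL (by linarith only [hT]) hS hψkT hψk0
    refine h1.trans ?_
    have hcont : Continuous (h k) := (H.ht k).continuous
    have h2 : ∫ x, |ψk x * h k x| ∂(ν k) ≤ (B + 1) * X := by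
      have h3 := Tail.integral_abs_mul_le (H.ar k) hψkL.continuous hcont hψkB hψkT
      have h4 := (hl1 d A (ν k) (h k) (H.ar k) (H.ht k)).1 T (by linarith only [hT])
      exact h3.trans (mul_le_mul_of_nonneg_left h4 (by (clear * - hB0; positivity)))
    have h5 : ∫ x, |ψk x| ∂(ν k) ≤ (B + 1) * (C * T ^ n) := by
      have h3 := Tail.integral_abs_mul_le (H.ar k) hψkL.continuous
        (continuous_const (y := (1 : ℝ))) hψkB hψkT
      simp only [mul_one, abs_one, setIntegral_const, smul_eq_mul] at h3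
      refine h3.trans (mul_le_mul_of_nonneg_left ?_ (by (clear * - hB0; positivity)))
      rw [measureReal_def]
      exact ENNReal.toReal_le_of_le_ofReal (by (clear * - hC hT; positivity)) ((H.ar k).upper 0 T hT0)
    have h6 : (∫ x, |ψk x * h k x| ∂(ν k)) / S ≤ (B + 1) * X / Real.sqrt S := by
      calc (∫ x, |ψk x * h k x| ∂(ν k)) / S ≤ (B + 1) * X / S := by (clear * - hS1 h2; gcongr)
        _ ≤ (B + 1) * X / Real.sqrt S := by (clear * - hT hK₂ hB0 hS1 hsqS; gcongr)
    have h7 : T * (∫ x, |ψk x| ∂(ν k)) * Real.sqrt A / Real.sqrt S ≤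
        T * ((B + 1) * (C * T ^ n)) * Real.sqrt A / Real.sqrt S := by (clear * - hT hS1 h5; gcongr)
    calc K₁ * ((∫ x, |ψk x * h k x| ∂(ν k)) / S +
          T * (∫ x, |ψk x| ∂(ν k)) * Real.sqrt A / Real.sqrt S)
        ≤ K₁ * ((B + 1) * X / Real.sqrt S +
          T * ((B + 1) * (C * T ^ n)) * Real.sqrt A / Real.sqrt S) :=
          mul_le_mul_of_nonneg_left (add_le_add h6 h7) hK₁.le
      _ = _ := by ring
  rw [hdec]
  have h8 : |m k * hform n 0 (ν k) (h k) φ (cut 0 S)| ≤ ε := by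
    rw [abs_mul]
    exact (mul_le_mul_of_nonneg_left (hcor k) (abs_nonneg _)).trans hk2.le
  have h9 : K₁ * ((B + 1) * X + T * ((B + 1) * (C * T ^ n)) * Real.sqrt A) / Real.sqrt S ≤
      (K₁ * ((B + 1) * X + T * ((B + 1) * (C * T ^ n)) * Real.sqrt A) + 1) / Real.sqrt S := by
    gcongr
    linarith only []
  calc |hform n 0 (ν k) (h k) ψk (cut 0 S) + m k * hform n 0 (ν k) (h k) φ (cut 0 S)|
      ≤ |hform n 0 (ν k) (h k) ψk (cut 0 S)| + |m k * hform n 0 (ν k) (h k) φ (cut 0 S)| :=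
        abs_add_le _ _
    _ ≤ _ := add_le_add (hmain.trans h9) h8

end Vale.Agent.P120
end
end

section

section

/-! The limit equation.  Owner: helper892 -/

open MeasureTheory Metric Set Filter Topology
open scoped ENNReal NNReal

namespace Vale.Agent.P120

variable {d n : ℕ} {c C A : ℝ} {𝒰 : Ultrafilter ℕ} {ν : ℕ → Measure (Eu d)}
  {ν' : Measure (Eu d)} {ι : Eu n →ₗᵢ[ℝ] Eu d} {g : ℝ} {h : ℕ → Eu d → ℝ}
  {σp σm : Measure (Eu d)}

theorem ImpSeq.abs_pair_le (hn : 1 ≤ n) (H : ImpSeq n c C A 𝒰 ν ν' ι g h σp σm)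
    (ψ : Eu d → ℝ) (hψ : LipC ψ) (T : ℝ) (hT : 2 ≤ T) (hψT : ∀ x, T < ‖x‖ → ψ x = 0)
    (h0 : ∫ x, ψ x ∂ν' = 0) :
    ∃ K₁ : ℝ, 0 < K₁ ∧ ∀ S : ℝ, 2 * T ≤ S → ∃ K₂ : ℝ, 0 < K₂ ∧ ∀ e : ℝ, 0 < e →
      |(∫ x, (∫ y, aker n e ψ (cut 0 S) x y ∂ν') ∂σp) -
        ∫ x, (∫ y, aker n e ψ (cut 0 S) x y ∂ν') ∂σm| ≤
        K₁ / Real.sqrt S + K₂ * Real.sqrt e := by
  obtain ⟨K₁, hK₁, htail⟩ := H.tail_bound hn ψ hψ T hT hψT h0
  have hc : 0 < c := (H.ar 0).c_pos
  have hC : 0 < C := (H.ar 0).C_pos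
  have hA := (H.ht 0).A_nonneg
  refine ⟨K₁, hK₁, fun S hS => ?_⟩
  have hS0 : 0 < S := by linarith only [hT, hS]
  have hlc : LipC (cut (0 : Eu d) S) := lipC_cut 0 S hS0
  obtain ⟨L, hL0, hL⟩ := hf_antisymm_lip hψ hlc
  have hR1 : (1 : ℝ) ≤ 2 * S := by linarith only [hT, hS]
  obtain ⟨K₃, hK₃, hE⟩ := Ht.energy_le (n := n) hn c C hc hC (2 * S) hR1
  obtain ⟨K₄, hK₄, hreg⟩ := hform_reg (n := n) hn c C hC (2 * S) hR1
  refine ⟨K₄ * L * Real.sqrt (K₃ * A) + 1, by (clear * - hL0 hK₄; (clear * - hK₄ hL0; positivity)), fun e he => ?_⟩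
  have hR : ∀ x : Eu d, 2 * S < ‖x‖ → ψ x = 0 ∧ cut 0 S x = 0 := by
    intro x hx
    exact ⟨hψT x (by linarith only [hT, hS, hx]), icut_zero hS0 hx.le⟩
  have hlim := H.tendsto_hform hψ.1.choose_spec.continuous (icut_cont (0 : Eu d) S) (2 * S) hR e he
  have hse := Real.sqrt_nonneg e
  refine le_of_forall_pos_le_add fun ε hε => ?_
  refine le_of_tendsto hlim.abs ?_
  filter_upwards [htail S hS ε hε] with k hk
  have h1 := (hreg d (ν k) (h k) ψ (cut 0 S) L e (H.ar k) (H.ht k).lip hψ hlc hL0 he hR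
    (fun x y => by rw [dist_eq_norm]; exact hL x y)).1
  have h2 := hE d A (ν k) (h k) (H.ar k) (H.zero_mem k) (H.ht k)
  have h3 : Real.sqrt (energy n (ν k) (h k) (2 * S)) ≤ Real.sqrt (K₃ * A) :=
    Real.sqrt_le_sqrt h2
  have h4 : |hform n e (ν k) (h k) ψ (cut 0 S)| ≤
      |hform n 0 (ν k) (h k) ψ (cut 0 S)| +
        |hform n 0 (ν k) (h k) ψ (cut 0 S) - hform n e (ν k) (h k) ψ (cut 0 S)| := by
    have := abs_sub_abs_le_abs_sub (hform n e (ν k) (h k) ψ (cut 0 S))
      (hform n 0 (ν k) (h k) ψ (cut 0 S))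
    rw [abs_sub_comm] at this
    linarith only [this]
  have h5 : K₄ * L * Real.sqrt (energy n (ν k) (h k) (2 * S)) * Real.sqrt e ≤
      K₄ * L * Real.sqrt (K₃ * A) * Real.sqrt e := by (clear * - hL0 hK₄ he h3; (clear * - h3 hK₄ hL0 he; gcongr))
  nlinarith only [hse, hk, h1, h4, h5]

/-- the limit equation -/
theorem ImpSeq.limit_eq (hn : 1 ≤ n) (H : ImpSeq n c C A 𝒰 ν ν' ι g h σp σm)
    (φ : Eu n → ℝ) (hφ : ContDiff ℝ (⊤ : ℕ∞) φ) (hφ' : HasCompactSupport φ)
    (hφ0 : ∫ v, φ v = 0) :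
    ∫ v, fracL n φ v ∂(σp.map (adj ι)) = ∫ v, fracL n φ v ∂(σm.map (adj ι)) := by
  -- support radius
  obtain ⟨R₀, hR₀⟩ := hφ'.isCompact.isBounded.subset_closedBall (0 : Eu n)
  set T : ℝ := max R₀ 2 with hT
  have hT2 : 2 ≤ T := le_max_right _ _
  have hφT : ∀ v, T < ‖v‖ → φ v = 0 := by
    intro v hv
    by_contra hcon
    have h1 : v ∈ tsupport φ := subset_tsupport _ hcon
    have h2 := hR₀ h1
    rw [mem_closedBall, dist_zero_right] at h2
    exact absurd (h2.trans (le_max_left _ _)) (not_le.2 hv)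
  have hφL : LipC φ := by
    have h1 : ContDiff ℝ 1 φ := by exact_mod_cast contDiff_infty.1 hφ 1
    obtain ⟨L, hL⟩ := h1.lipschitzWith_of_hasCompactSupport hφ' (by norm_num)
    exact ⟨⟨L, hL⟩, hφ'⟩
  have hT0 : 0 < T := by linarith only [hT2]
  set φs : Eu d → ℝ := lift ι T φ with hφs
  have hφsL : LipC φs := lipC_lift ι hT0 hφL
  have hφsT : ∀ x, 2 * T < ‖x‖ → φs x = 0 := fun x hx => lift_zero ι hT0 φ hx
  have hφs0 : ∫ x, φs x ∂ν' = 0 := by
    rw [H.planar φs hφsL.1.choose_spec.continuous hφsL.2]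
    have : ∀ v, φs (ι v) = φ v := fun v => lift_ι ι hT0 hφT v
    simp only [this, hφ0, mul_zero]
  obtain ⟨K₁, hK₁, hpair⟩ := H.abs_pair_le hn φs hφsL (2 * T) (by linarith only [hT2]) hφsT hφs0
  obtain ⟨K, hK, hcmp⟩ := integral_ppot_sub n hn φ hφ hφ' hφ0 T (by linarith only [hT2]) hφT (grB n A C)
    H.grB_nonneg
  obtain ⟨hip, hcp⟩ := hcmp (σp.map (adj ι)) H.map_growth
  obtain ⟨him, hcm⟩ := hcmp (σm.map (adj ι)) H.neg.map_growth
  set Ip : ℝ := ∫ v, fracL n φ v ∂(σp.map (adj ι)) with hIp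
  set Im : ℝ := ∫ v, fracL n φ v ∂(σm.map (adj ι)) with hIm
  have hg := H.g_pos
  -- the main estimate
  have key : ∀ S : ℝ, 4 * T ≤ S → |Ip - Im| ≤ (K₁ / g + 2 * K) / Real.sqrt S := by
    intro S hS
    obtain ⟨K₂, hK₂, hp⟩ := hpair S (by linarith only [hS])
    have hS0 : 0 < S := by linarith only [hT2, hS]
    have hsp : 0 < Real.sqrt S := Real.sqrt_pos.2 hS0
    have h1 : ∀ e : ℝ, 0 < e → e ≤ 1 → |Ip - Im| ≤
        (K₁ / Real.sqrt S + K₂ * Real.sqrt e) / g + 2 * (K * (1 / Real.sqrt S + e)) := by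
      intro e he he1
      have h2 := hp e he
      rw [hφs, H.integral_apot hφL.1.choose_spec.continuous hT0 hS0 hφT e he,
        H.neg.integral_apot hφL.1.choose_spec.continuous hT0 hS0 hφT e he, ← mul_sub, abs_mul,
        abs_of_pos hg] at h2
      have h3 := hcp S e (by linarith only [hT2, hS]) he he1
      have h4 := hcm S e (by linarith only [hT2, hS]) he he1
      set Pp : ℝ := ∫ u, ppot n e S φ u ∂(σp.map (adj ι)) with hPp
      set Pm : ℝ := ∫ u, ppot n e S φ u ∂(σm.map (adj ι)) with hPm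
      have h5 : |Pp - Pm| ≤ (K₁ / Real.sqrt S + K₂ * Real.sqrt e) / g := by
        rw [le_div_iff₀ hg]
        linarith only [h2]
      have h6 : |Ip - Im| ≤ |Pp - Pm| + |Pp - Ip| + |Pm - Im| := by
        have : Ip - Im = (Pp - Pm) - (Pp - Ip) + (Pm - Im) := by ring
        rw [this]
        refine (abs_add_le _ _).trans ?_
        have := abs_sub (Pp - Pm) (Pp - Ip)
        linarith only [this]
      linarith only [h3, h4, h5, h6]
    -- let `e → 0`
    have hlim : Tendsto (fun e : ℝ => (K₁ / Real.sqrt S + K₂ * Real.sqrt e) / g +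
        2 * (K * (1 / Real.sqrt S + e))) (𝓝[>] 0)
        (𝓝 ((K₁ / Real.sqrt S + K₂ * Real.sqrt 0) / g + 2 * (K * (1 / Real.sqrt S + 0)))) := by
      apply Tendsto.mono_left _ nhdsWithin_le_nhds
      apply Continuous.tendsto
      (clear * -; fun_prop)
    have h2 : |Ip - Im| ≤ (K₁ / Real.sqrt S + K₂ * Real.sqrt 0) / g +
        2 * (K * (1 / Real.sqrt S + 0)) := by
      refine ge_of_tendsto hlim ?_
      have : Ioo (0 : ℝ) 1 ∈ 𝓝[>] (0 : ℝ) := Ioo_mem_nhdsGT one_pos
      filter_upwards [this] with e he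
      exact h1 e he.1 he.2.le
    refine h2.trans (le_of_eq ?_)
    rw [Real.sqrt_zero]
    field_simp
    ring
  -- let `S → ∞`
  have hlim : Tendsto (fun S : ℝ => (K₁ / g + 2 * K) / Real.sqrt S) atTop (𝓝 0) :=
    Tendsto.div_atTop tendsto_const_nhds Real.tendsto_sqrt_atTop
  have hle : |Ip - Im| ≤ 0 := by
    refine ge_of_tendsto hlim ?_
    filter_upwards [eventually_ge_atTop (4 * T)] with S hS
    exact key S hS
  have := abs_nonneg (Ip - Im)
  have h0 : Ip - Im = 0 := abs_eq_zero.1 (le_antisymm hle this)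
  linarith only [h0]

end Vale.Agent.P120
end
end

section

section

/-! Liouville theorem for signed measures (two-measure form). -/

open MeasureTheory Metric Set Filter Topology ContinuousLinearMap
open scoped ENNReal NNReal ContDiff Convolution

namespace Vale.Agent.P120

namespace Liou

variable {n : ℕ}

/-- affine functions are reproduced by mollification -/
theorem affine_mvp (φ : ContDiffBump (0 : Eu n)) (a : Eu n) (b : ℝ) (v : Eu n) :
    ∫ x, (b + inner ℝ a x) * φ.normed volume (v - x) = b + inner ℝ a v := by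
  have hci : Continuous (fun u : Eu n => inner ℝ a u * φ.normed volume u) :=
    (continuous_const.inner continuous_id).mul φ.continuous_normed
  have hii : Integrable (fun u : Eu n => inner ℝ a u * φ.normed volume u) :=
    hci.integrable_of_hasCompactSupport (φ.hasCompactSupport_normed (μ := volume)).mul_left
  have h1 : ∫ u : Eu n, inner ℝ a u * φ.normed volume u = 0 := by
    have h := integral_neg_eq_self (fun u : Eu n => inner ℝ a u * φ.normed volume u) volume
    simp only [inner_neg_right, φ.normed_neg, neg_mul] at h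
    rw [integral_neg] at h
    linarith only [h]
  have h2 := integral_sub_left_eq_self
    (fun u : Eu n => (b + inner ℝ a (v - u)) * φ.normed volume u) volume v
  simp only [sub_sub_cancel] at h2
  rw [h2]
  have e : ∀ u : Eu n, (b + inner ℝ a (v - u)) * φ.normed volume u =
      (b + inner ℝ a v) * φ.normed volume u - inner ℝ a u * φ.normed volume u := by
    intro u
    rw [inner_sub_right]
    ring
  simp_rw [e]
  rw [integral_sub (φ.integrable_normed.const_mul _) hii, h1, integral_const_mul,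
    φ.integral_normed]
  ring

theorem mm_pair {φ : ContDiffBump (0 : Eu n)} (hφ : φ.rOut ≤ 1) (ρ : Measure (Eu n))
    [IsLocallyFiniteMeasure ρ] {f : Eu n → ℝ} (hf : Continuous f) (hc : HasCompactSupport f) :
    ∫ x, mm φ ρ x * f x = ∫ y, (∫ x, φ.normed volume (x - y) * f x) ∂ρ := by
  obtain ⟨r, hr, hs⟩ := exists_radius hc
  have e1 : ∀ x, mm φ ρ x * f x = ∫ y, φ.normed volume (x - y) * f x ∂ρ := by
    intro x; rw [integral_mul_const]; rfl
  simp_rw [e1]
  apply integral_integral_swap_of_hasCompactSupport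
  · exact (φ.continuous_normed.comp (continuous_fst.sub continuous_snd)).mul
      (hf.comp continuous_fst)
  · apply HasCompactSupport.intro
      ((isCompact_closedBall (0 : Eu n) r).prod (isCompact_closedBall (0 : Eu n) (r + 1)))
    rintro ⟨x, y⟩ hxy
    simp only [Function.uncurry_apply_pair]
    rw [mem_prod, not_and_or] at hxy
    rcases hxy with h | h
    · simp only [mem_closedBall_zero_iff, not_le] at h
      rw [hs x h, mul_zero]
    · simp only [mem_closedBall_zero_iff, not_le] at h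
      by_cases hx : r < ‖x‖
      · rw [hs x hx, mul_zero]
      · rw [normed_zero' hφ, zero_mul]
        have := norm_sub_norm_le y x
        rw [norm_sub_rev] at this
        linarith

theorem mm_comm {φ χ : ContDiffBump (0 : Eu n)} (hφ : φ.rOut ≤ 1) (hχ : χ.rOut ≤ 1)
    (ρ : Measure (Eu n)) [IsLocallyFiniteMeasure ρ] (v : Eu n) :
    ∫ x, mm φ ρ x * χ.normed volume (v - x) = ∫ x, mm χ ρ x * φ.normed volume (v - x) := by
  rw [mm_pair hφ ρ (cont_sub χ v) (hcs_sub χ v), mm_pair hχ ρ (cont_sub φ v) (hcs_sub φ v)]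
  congr 1
  funext y
  rw [← integral_sub_left_eq_self
    (fun x => φ.normed volume (x - y) * χ.normed volume (v - x)) volume (v + y)]
  congr 1
  funext x
  have e1 : v + y - x - y = v - x := by abel
  have e2 : v - (v + y - x) = x - y := by abel
  rw [e1, e2, mul_comm]

theorem int_mm (φ : ContDiffBump (0 : Eu n)) (ρ : Measure (Eu n))
    [IsLocallyFiniteMeasure ρ] {f : Eu n → ℝ} (hf : Continuous f) (hc : HasCompactSupport f) :
    Integrable (fun x => mm φ ρ x * f x) :=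
  ((mm_contDiff φ ρ).continuous.mul hf).integrable_of_hasCompactSupport hc.mul_left

theorem affine_eq {φ χ : ContDiffBump (0 : Eu n)} (hφ : φ.rOut ≤ 1) (hχ : χ.rOut ≤ 1)
    {ρp ρm : Measure (Eu n)} [IsLocallyFiniteMeasure ρp] [IsLocallyFiniteMeasure ρm]
    (h1 : ∃ (a : Eu n) (b : ℝ), ∀ x, mm φ ρp x - mm φ ρm x = b + inner ℝ a x)
    (h2 : ∃ (a : Eu n) (b : ℝ), ∀ x, mm χ ρp x - mm χ ρm x = b + inner ℝ a x) (v : Eu n) :
    mm φ ρp v - mm φ ρm v = mm χ ρp v - mm χ ρm v := by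
  obtain ⟨a, b, hab⟩ := h1
  obtain ⟨a', b', hab'⟩ := h2
  have e1 := affine_mvp χ a b v
  have e2 := affine_mvp φ a' b' v
  simp_rw [← hab] at e1
  simp_rw [← hab'] at e2
  rw [← e1, ← e2]
  simp_rw [sub_mul]
  rw [integral_sub (int_mm φ ρp (cont_sub χ v) (hcs_sub χ v))
    (int_mm φ ρm (cont_sub χ v) (hcs_sub χ v)),
    integral_sub (int_mm χ ρp (cont_sub φ v) (hcs_sub φ v))
    (int_mm χ ρm (cont_sub φ v) (hcs_sub φ v)), mm_comm hφ hχ ρp v, mm_comm hφ hχ ρm v]

theorem moll_flip (φ : ContDiffBump (0 : Eu n)) (f : Eu n → ℝ) (y : Eu n) :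
    ∫ x, φ.normed volume (x - y) * f x = moll φ f y := by
  unfold moll
  rw [← integral_sub_left_eq_self (fun x => φ.normed volume (x - y) * f x) volume y]
  congr 1
  funext x
  have e1 : y - x - y = -x := by abel
  rw [e1, φ.normed_neg]

theorem mb_le (k : ℕ) : (mb n k).rOut ≤ 1 := by
  show 1 / ((k : ℝ) + 1) ≤ 1
  rw [div_le_one (by positivity)]
  have : (0 : ℝ) ≤ k := Nat.cast_nonneg k
  linarith

theorem tendsto_moll {f : Eu n → ℝ} (hf : Continuous f) (y : Eu n) :
    Tendsto (fun k => moll (mb n k) f y) atTop (𝓝 (f y)) := by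
  have h : Tendsto (fun k : ℕ => (mb n k).rOut) atTop (𝓝 0) := by
    show Tendsto (fun k : ℕ => 1 / ((k : ℝ) + 1)) atTop (𝓝 0)
    exact tendsto_one_div_add_atTop_nhds_zero_nat
  exact ContDiffBump.convolution_tendsto_right_of_continuous (μ := (volume : Measure (Eu n)))
    h hf y

theorem tendsto_int_moll {f : Eu n → ℝ} (hf : Continuous f) (hc : HasCompactSupport f)
    (ρ : Measure (Eu n)) [IsLocallyFiniteMeasure ρ] :
    Tendsto (fun k => ∫ y, moll (mb n k) f y ∂ρ) atTop (𝓝 (∫ y, f y ∂ρ)) := by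
  obtain ⟨E, hE⟩ := exists_bound hf hc
  obtain ⟨r, hr, hs⟩ := exists_radius hc
  have hE0 : 0 ≤ E := (abs_nonneg _).trans (hE 0)
  apply tendsto_integral_of_dominated_convergence
    ((closedBall (0 : Eu n) (r + 1)).indicator (fun _ => E))
  · intro k
    exact (moll_contDiff (mb n k) hf.locallyIntegrable).continuous.aestronglyMeasurable
  · rw [integrable_indicator_iff measurableSet_closedBall]
    exact integrableOn_const (isCompact_closedBall _ _).measure_lt_top.ne
  · intro k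
    refine Eventually.of_forall fun y => ?_
    by_cases hy : y ∈ closedBall (0 : Eu n) (r + 1)
    · rw [indicator_of_mem hy]
      have h1 : ‖moll (mb n k) f y‖ ≤ ∫ t, (mb n k).normed volume t * E := by
        unfold moll
        apply norm_integral_le_of_norm_le ((mb n k).integrable_normed.mul_const E)
        refine Eventually.of_forall fun t => ?_
        rw [Real.norm_eq_abs, abs_mul, abs_of_nonneg ((mb n k).nonneg_normed t)]
        exact mul_le_mul_of_nonneg_left (hE _) ((mb n k).nonneg_normed t)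
      rwa [integral_mul_const, (mb n k).integral_normed, one_mul] at h1
    · rw [indicator_of_notMem hy]
      rw [mem_closedBall_zero_iff, not_le] at hy
      have h1 : ∀ t, (mb n k).normed volume t * f (y - t) = 0 := by
        intro t
        by_cases ht : t ∈ ball (0 : Eu n) 1
        · rw [mem_ball_zero_iff] at ht
          rw [hs (y - t), mul_zero]
          have := norm_sub_norm_le y t
          linarith only [hy, ht, this]
        · rw [normed_zero (mb_le k) ht, zero_mul]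
      unfold moll
      simp_rw [h1]
      simp
  · exact Eventually.of_forall fun y => tendsto_moll hf y

end Liou

open Liou in
theorem liouville_two_measures (n : ℕ) (hn : 1 ≤ n) (ρp ρm : Measure (Eu n))
    (hp : IsLocallyFiniteMeasure ρp) (hm : IsLocallyFiniteMeasure ρm) (B : ℝ)
    (hgp : ∀ R : ℝ, 1 ≤ R →
      ρp (closedBall 0 R) ≤ ENNReal.ofReal (B * (R ^ (n + 1) * Real.sqrt R)))
    (hgm : ∀ R : ℝ, 1 ≤ R →
      ρm (closedBall 0 R) ≤ ENNReal.ofReal (B * (R ^ (n + 1) * Real.sqrt R)))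
    (weak : ∀ φ : Eu n → ℝ, ContDiff ℝ (⊤ : ℕ∞) φ → HasCompactSupport φ → ∫ x, φ x = 0 →
      ∫ x, fracL n φ x ∂ρp = ∫ x, fracL n φ x ∂ρm) :
    ∃ (b : ℝ) (a : Eu n), ∀ f : Eu n → ℝ, Continuous f → HasCompactSupport f →
      ∫ x, f x ∂ρp - ∫ x, f x ∂ρm = ∫ x, (b + inner ℝ a x) * f x := by
  have hB : B ≤ max B 0 := le_max_left _ _
  have hgp' : ∀ R : ℝ, 1 ≤ R → ρp (closedBall 0 R) ≤ ENNReal.ofReal (max B 0 * gr n R) := by
    intro R hR
    refine (hgp R hR).trans (ENNReal.ofReal_le_ofReal ?_)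
    exact mul_le_mul_of_nonneg_right hB (gr_nonneg (n := n) (by linarith only [hR]))
  have hgm' : ∀ R : ℝ, 1 ≤ R → ρm (closedBall 0 R) ≤ ENNReal.ofReal (max B 0 * gr n R) := by
    intro R hR
    refine (hgm R hR).trans (ENNReal.ofReal_le_ofReal ?_)
    exact mul_le_mul_of_nonneg_right hB (gr_nonneg (n := n) (by linarith only [hR]))
  have haff : ∀ k : ℕ, ∃ (a : Eu n) (b : ℝ), ∀ x,
      mm (mb n k) ρp x - mm (mb n k) ρm x = b + inner ℝ a x := fun k =>
    mm_affine hn (mb_le k) (le_max_right _ _) hgp' hgm' weak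
  obtain ⟨a, b, hab⟩ := haff 0
  refine ⟨b, a, fun f hf hc => ?_⟩
  have h1 : ∀ k : ℕ, ∫ y, moll (mb n k) f y ∂ρp - ∫ y, moll (mb n k) f y ∂ρm =
      ∫ x, (b + inner ℝ a x) * f x := by
    intro k
    have e : ∀ x, (b + inner ℝ a x) * f x =
        mm (mb n k) ρp x * f x - mm (mb n k) ρm x * f x := by
      intro x
      rw [← hab x, affine_eq (mb_le 0) (mb_le k) (haff 0) (haff k) x]
      ring
    simp_rw [e]
    rw [integral_sub (int_mm _ ρp hf hc) (int_mm _ ρm hf hc), mm_pair (mb_le k) ρp hf hc,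
      mm_pair (mb_le k) ρm hf hc]
    simp_rw [moll_flip]
  have h2 := (tendsto_int_moll hf hc ρp).sub (tendsto_int_moll hf hc ρm)
  simp_rw [h1] at h2
  exact tendsto_nhds_unique h2 tendsto_const_nhds

end Vale.Agent.P120
end
end

section

section

/-! The limit heights are affine.  Owner: helper892 -/

open MeasureTheory Metric Set Filter Topology
open scoped ENNReal NNReal

namespace Vale.Agent.P120

variable {d n : ℕ} {c C A : ℝ} {𝒰 : Ultrafilter ℕ} {ν : ℕ → Measure (Eu d)}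
  {ν' : Measure (Eu d)} {ι : Eu n →ₗᵢ[ℝ] Eu d} {g : ℝ} {h : ℕ → Eu d → ℝ}
  {σp σm : Measure (Eu d)}

theorem ImpSeq.affine (hn : 1 ≤ n) (H : ImpSeq n c C A 𝒰 ν ν' ι g h σp σm) :
    ∃ (b : ℝ) (a : Eu n), ∀ f : Eu d → ℝ, Continuous f → HasCompactSupport f →
      Tendsto (fun k => ∫ x, f x * (h k x - (b + inner ℝ a (adj ι x))) ∂(ν k))
        (𝒰 : Filter ℕ) (𝓝 0) := by
  obtain ⟨b₀, a₀, hab⟩ := liouville_two_measures n hn (σp.map (adj ι)) (σm.map (adj ι))
    H.map_locallyFinite H.neg.map_locallyFinite (grB n A C) H.map_growth H.neg.map_growth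
    (fun φ h1 h2 h3 => H.limit_eq hn φ h1 h2 h3)
  have hg := H.g_pos
  refine ⟨g⁻¹ * b₀, g⁻¹ • a₀, fun f hf hf' => ?_⟩
  have hfι : Continuous (fun v => f (ι v)) := hf.comp ι.continuous
  have hfιs : HasCompactSupport (fun v => f (ι v)) :=
    hf'.comp_isClosedEmbedding ι.isometry.isClosedEmbedding
  -- first term
  have h1 := H.tendsto_pair f hf hf'
  rw [H.integral_map f hf, H.neg.integral_map f hf, hab _ hfι hfιs] at h1
  -- second term
  set L : Eu d → ℝ := fun x => g⁻¹ * b₀ + inner ℝ (g⁻¹ • a₀) (adj ι x) with hL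
  have hLc : Continuous L := by
    rw [hL]
    exact continuous_const.add (continuous_const.inner (adj ι).continuous)
  have h2 := H.vl (fun x => f x * L x) (hf.mul hLc) hf'.mul_right
  rw [H.planar (fun x => f x * L x) (hf.mul hLc) hf'.mul_right] at h2
  have h3 : g * ∫ v : Eu n, f (ι v) * L (ι v) = ∫ v, (b₀ + inner ℝ a₀ v) * f (ι v) := by
    rw [← integral_const_mul]
    apply integral_congr_ae
    refine ae_of_all _ fun v => ?_
    simp only [hL]
    rw [adj_apply_self, real_inner_smul_left]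
    (clear * - hg; field_simp)
  rw [h3] at h2
  have h4 := h1.sub h2
  rw [sub_self] at h4
  refine h4.congr fun k => ?_
  have hlfk := (H.ar k).isLocallyFiniteMeasure
  have hkc : Continuous (h k) := (H.ht k).continuous
  have i1 : Integrable (fun x => f x * h k x) (ν k) :=
    (hf.mul hkc).integrable_of_hasCompactSupport hf'.mul_right
  have i2 : Integrable (fun x => f x * L x) (ν k) :=
    (hf.mul hLc).integrable_of_hasCompactSupport hf'.mul_right
  rw [← integral_sub i1 i2]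
  apply integral_congr_ae
  refine ae_of_all _ fun x => ?_
  simp only [hL]
  ring

end Vale.Agent.P120
end
end

section

section

/-! Strong convergence of the heights to an affine function.  Owner: helper892 -/

open MeasureTheory Metric Set Filter Topology
open scoped ENNReal NNReal

namespace Vale.Agent.P120

theorem energy_lip_le {n : ℕ} (hn : 1 ≤ n) (C : ℝ) (hC : 0 < C) : ∃ K : ℝ, 0 < K ∧
    ∀ (d : ℕ) (c : ℝ) (D : ℝ≥0∞) (ν : Measure (Eu d)), AR n c C D ν →
    ∀ (h : Eu d → ℝ) (L : ℝ≥0), LipschitzWith L h → ∀ R : ℝ, 0 < R →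
      energy n ν h R ≤ (L : ℝ) ^ 2 * (K * R ^ (n + 1)) := by
  obtain ⟨K, hK, hK'⟩ := Cacc.lintegral_pair_near hn C hC
  refine ⟨K, hK, fun d c D ν hν h L hL R hR => ?_⟩
  have hmeas : Measurable (fun p : Eu d × Eu d => (h p.1 - h p.2) ^ 2 * sK n 0 (p.1 - p.2)) := by
    have h1 : Measurable h := hL.continuous.measurable
    have h2 : Measurable (fun p : Eu d × Eu d => sK n 0 (p.1 - p.2)) :=
      (measurable_sK n 0).comp (measurable_fst.sub measurable_snd)
    exact (((h1.comp measurable_fst).sub (h1.comp measurable_snd)).pow_const 2).mul h2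
  have hb : ∀ p : Eu d × Eu d, |(h p.1 - h p.2) ^ 2 * sK n 0 (p.1 - p.2)| ≤
      (L : ℝ) ^ 2 * (‖p.1 - p.2‖ ^ (n - 1))⁻¹ := by
    intro p
    rw [abs_of_nonneg (mul_nonneg (sq_nonneg _) (sK_nonneg _ _ _))]
    have h1 : |h p.1 - h p.2| ≤ L * ‖p.1 - p.2‖ := by
      have := hL.dist_le_mul p.1 p.2
      rwa [Real.dist_eq, dist_eq_norm] at this
    calc (h p.1 - h p.2) ^ 2 * sK n 0 (p.1 - p.2)
        ≤ (L * ‖p.1 - p.2‖) ^ 2 * sK n 0 (p.1 - p.2) := by
          apply mul_le_mul_of_nonneg_right _ (sK_nonneg _ _ _)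
          rw [← sq_abs]
          (clear * - h1; gcongr)
      _ = (L : ℝ) ^ 2 * (‖p.1 - p.2‖ ^ 2 * sK n 0 (p.1 - p.2)) := by ring
      _ ≤ (L : ℝ) ^ 2 * (‖p.1 - p.2‖ ^ (n - 1))⁻¹ := by
          gcongr
          exact Cacc.icacc_sq_mul_sK_le hn _
  have hl : ∫⁻ p in closedBall (0 : Eu d) R ×ˢ closedBall (0 : Eu d) R,
      ENNReal.ofReal ((L : ℝ) ^ 2 * (‖p.1 - p.2‖ ^ (n - 1))⁻¹) ∂(ν.prod ν) ≤
      ENNReal.ofReal ((L : ℝ) ^ 2 * (K * R ^ (n + 1))) := by
    calc ∫⁻ p in closedBall (0 : Eu d) R ×ˢ closedBall (0 : Eu d) R,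
          ENNReal.ofReal ((L : ℝ) ^ 2 * (‖p.1 - p.2‖ ^ (n - 1))⁻¹) ∂(ν.prod ν)
        = ∫⁻ p in closedBall (0 : Eu d) R ×ˢ closedBall (0 : Eu d) R,
          ENNReal.ofReal ((L : ℝ) ^ 2) * ENNReal.ofReal ((‖p.1 - p.2‖ ^ (n - 1))⁻¹)
            ∂(ν.prod ν) := by
          congr 1
          funext p
          rw [ENNReal.ofReal_mul (by (clear * -; positivity))]
      _ = ENNReal.ofReal ((L : ℝ) ^ 2) *
          ∫⁻ p in closedBall (0 : Eu d) R ×ˢ closedBall (0 : Eu d) R,
            ENNReal.ofReal ((‖p.1 - p.2‖ ^ (n - 1))⁻¹) ∂(ν.prod ν) := by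
          rw [lintegral_const_mul' _ _ ENNReal.ofReal_ne_top]
      _ ≤ ENNReal.ofReal ((L : ℝ) ^ 2) * ENNReal.ofReal (K * R ^ (n + 1)) := by
          gcongr
          exact hK' d c D ν hν R hR
      _ = ENNReal.ofReal ((L : ℝ) ^ 2 * (K * R ^ (n + 1))) := by
          rw [← ENNReal.ofReal_mul (by (clear * -; positivity))]
  have := (abs_integral_le_of_lintegral
    (μ := (ν.prod ν).restrict (closedBall (0 : Eu d) R ×ˢ closedBall (0 : Eu d) R))
    hmeas.aestronglyMeasurable hb (by (clear * - hK hR; (clear * - hK hR; positivity))) hl).2.1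
  unfold energy
  exact (le_abs_self _).trans this

theorem energy_sub_le {d n : ℕ} {c C : ℝ} (hn : 1 ≤ n) {D : ℝ≥0∞} {ν : Measure (Eu d)}
    (hν : AR n c C D ν) {h l : Eu d → ℝ} (hh : ∃ L : ℝ≥0, LipschitzWith L h)
    (hl : ∃ L : ℝ≥0, LipschitzWith L l) (R : ℝ) :
    energy n ν (fun x => h x - l x) R ≤ 2 * energy n ν h R + 2 * energy n ν l R := by
  have i1 := (Ht.integrableOn_energy hn hν hh R).const_mul 2
  have i2 := (Ht.integrableOn_energy hn hν hl R).const_mul 2
  unfold energy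
  rw [← integral_const_mul, ← integral_const_mul, ← integral_add i1 i2]
  refine integral_mono_of_nonneg (ae_of_all _ fun p => ?_) (i1.add i2) (ae_of_all _ fun p => ?_)
  · exact mul_nonneg (sq_nonneg _) (sK_nonneg _ _ _)
  · simp only
    have h1 := sK_nonneg n 0 (p.1 - p.2)
    have h2 : (h p.1 - l p.1 - (h p.2 - l p.2)) ^ 2 ≤
        2 * (h p.1 - h p.2) ^ 2 + 2 * (l p.1 - l p.2) ^ 2 := by
      nlinarith only [sq_nonneg ((h p.1 - h p.2) + (l p.1 - l p.2))]
    calc (h p.1 - l p.1 - (h p.2 - l p.2)) ^ 2 * sK n 0 (p.1 - p.2)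
        ≤ (2 * (h p.1 - h p.2) ^ 2 + 2 * (l p.1 - l p.2) ^ 2) * sK n 0 (p.1 - p.2) :=
          mul_le_mul_of_nonneg_right h2 h1
      _ = 2 * ((h p.1 - h p.2) ^ 2 * sK n 0 (p.1 - p.2)) +
          2 * ((l p.1 - l p.2) ^ 2 * sK n 0 (p.1 - p.2)) := by ring

variable {d n : ℕ} {c C A : ℝ} {𝒰 : Ultrafilter ℕ} {ν : ℕ → Measure (Eu d)}
  {ν' : Measure (Eu d)} {ι : Eu n →ₗᵢ[ℝ] Eu d} {g : ℝ} {h : ℕ → Eu d → ℝ}
  {σp σm : Measure (Eu d)}

theorem ImpSeq.strong_affine (hn : 1 ≤ n) (H : ImpSeq n c C A 𝒰 ν ν' ι g h σp σm) :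
    ∃ (b : ℝ) (a : Eu n),
      Tendsto (fun k => ∫ x in ball (0 : Eu d) 1, (h k x - (b + inner ℝ a (adj ι x))) ^ 2 ∂(ν k))
        (𝒰 : Filter ℕ) (𝓝 0) := by
  obtain ⟨b, a, hba⟩ := H.affine hn
  refine ⟨b, a, ?_⟩
  have hc := (H.ar 0).c_pos
  have hC := (H.ar 0).C_pos
  have hA := (H.ht 0).A_nonneg
  set l : Eu d → ℝ := fun x => b + inner ℝ a (adj ι x) with hl
  have hlL : LipschitzWith ‖a‖₊ l := by
    apply LipschitzWith.of_dist_le_mul
    intro x y
    simp only [hl]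
    rw [Real.dist_eq, add_sub_add_left_eq_sub, ← inner_sub_right, ← map_sub, dist_eq_norm]
    refine (abs_real_inner_le_norm _ _).trans ?_
    rw [coe_nnnorm]
    exact mul_le_mul_of_nonneg_left (norm_adj_le ι _) (norm_nonneg _)
  have hlc : Continuous l := hlL.continuous
  have hlb : ∀ x ∈ closedBall (0 : Eu d) 3, l x ^ 2 ≤ (|b| + ‖a‖ * 3) ^ 2 := by
    intro x hx
    rw [mem_closedBall, dist_zero_right] at hx
    rw [← sq_abs]
    apply pow_le_pow_left₀ (abs_nonneg _)
    simp only [hl]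
    refine (abs_add_le _ _).trans (add_le_add le_rfl ?_)
    refine (abs_real_inner_le_norm _ _).trans ?_
    exact mul_le_mul_of_nonneg_left ((norm_adj_le ι x).trans hx) (norm_nonneg _)
  obtain ⟨K₁, hK₁, hE⟩ := Ht.energy_le (n := n) hn c C hc hC 3 (by norm_num)
  obtain ⟨K₂, hK₂, hE'⟩ := energy_lip_le (n := n) hn C hC
  set B₁ : ℝ := 2 * (A * 3 ^ (n + 3)) + 2 * ((|b| + ‖a‖ * 3) ^ 2 * (C * 3 ^ n)) with hB₁
  set B₂ : ℝ := 2 * (K₁ * A) + 2 * ((‖a‖₊ : ℝ) ^ 2 * (K₂ * 3 ^ (n + 1))) with hB₂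
  refine strong_of_energy hn H.ar (fun k x => h k x - l x) ?_ (max B₁ B₂) ?_ ?_ hba
  · intro k
    obtain ⟨L, hL⟩ := (H.ht k).lip
    exact ⟨L + ‖a‖₊, hL.sub hlL⟩
  · intro k
    refine le_trans ?_ (le_max_left _ _)
    have hlfk := (H.ar k).isLocallyFiniteMeasure
    have hkc : Continuous (h k) := (H.ht k).continuous
    have i1 : IntegrableOn (fun x => 2 * h k x ^ 2) (closedBall (0 : Eu d) 3) (ν k) :=
      (continuous_const.mul (hkc.pow 2)).continuousOn.integrableOn_compact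
        (isCompact_closedBall _ _)
    have i2 : IntegrableOn (fun _ : Eu d => 2 * (|b| + ‖a‖ * 3) ^ 2)
        (closedBall (0 : Eu d) 3) (ν k) :=
      continuous_const.continuousOn.integrableOn_compact (isCompact_closedBall _ _)
    calc ∫ x in closedBall (0 : Eu d) 3, (h k x - l x) ^ 2 ∂(ν k)
        ≤ ∫ x in closedBall (0 : Eu d) 3, (2 * h k x ^ 2 + 2 * (|b| + ‖a‖ * 3) ^ 2) ∂(ν k) := by
          refine setIntegral_mono_on ?_ (i1.add i2) measurableSet_closedBall ?_
          · exact ((hkc.sub hlc).pow 2).continuousOn.integrableOn_compact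
              (isCompact_closedBall _ _)
          · intro x hx
            have := hlb x hx
            nlinarith only [sq_nonneg (h k x + l x), this]
      _ = 2 * (∫ x in closedBall (0 : Eu d) 3, h k x ^ 2 ∂(ν k)) +
          2 * ((|b| + ‖a‖ * 3) ^ 2 * (ν k).real (closedBall (0 : Eu d) 3)) := by
          rw [integral_add i1 i2, integral_const_mul, setIntegral_const, smul_eq_mul]
          ring
      _ ≤ B₁ := by
          rw [hB₁]
          have h1 := (H.ht k).growth 3 (by norm_num)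
          have h2 := (H.ar k).real_ball_le (R := 3) (by norm_num)
          (clear * - h1 h2; (clear * - h1 h2; gcongr))
  · intro k
    refine le_trans ?_ (le_max_right _ _)
    refine (energy_sub_le hn (H.ar k) (H.ht k).lip ⟨_, hlL⟩ 3).trans ?_
    rw [hB₂]
    have h1 := hE d A (ν k) (h k) (H.ar k) (H.zero_mem k) (H.ht k)
    have h2 := hE' d c ⊤ (ν k) (H.ar k) l ‖a‖₊ hlL 3 (by norm_num)
    (clear * - h1 h2; (clear * - h1 h2; gcongr))

end Vale.Agent.P120
end
end

section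

section

/-! Geometry of AD-regular measures and planes (section I0 of IMP).  Owner: helper794 -/

open MeasureTheory Metric Set Filter Topology
open scoped ENNReal NNReal InnerProductSpace

namespace Vale.Agent.P120

variable {d n : ℕ} {c C : ℝ}

theorem continuous_dP (W : Submodule ℝ (Eu d)) (b : Eu d) : Continuous (dP W b) := by
  unfold dP
  (clear * -; fun_prop)

theorem integrableOn_dP_sq {D : ℝ≥0∞} {ν : Measure (Eu d)} (hν : AR n c C D ν)
    (W : Submodule ℝ (Eu d)) (b : Eu d) (R : ℝ) :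
    IntegrableOn (fun x => dP W b x ^ 2) (closedBall 0 R) ν := by
  have := hν.isLocallyFiniteMeasure
  exact ((continuous_dP W b).pow 2).continuousOn.integrableOn_compact (isCompact_closedBall _ _)

theorem dP_add_mem (W : Submodule ℝ (Eu d)) (b w x : Eu d) (hw : w ∈ W) :
    dP W (b + w) x = dP W b x := by
  unfold dP
  have h1 : Wᗮ.starProjection w = 0 := by
    rw [Submodule.starProjection_apply_eq_zero_iff, Submodule.orthogonal_orthogonal]
    exact hw
  have h2 : x - (b + w) = (x - b) - w := by abel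
  rw [h2, map_sub, h1, sub_zero]

/-- Chebyshev -/
theorem cheb_dP {D : ℝ≥0∞} {ν : Measure (Eu d)} (hν : AR n c C D ν)
    (W : Submodule ℝ (Eu d)) (b : Eu d) {R τ K₀ : ℝ} (hR : 0 < R) (hτ : 0 < τ) (hK₀ : 0 < K₀)
    (h : ∫ x in ball (0 : Eu d) R, dP W b x ^ 2 ∂ν ≤ τ ^ 2 * R ^ (n + 2)) :
    ν (ball 0 R ∩ {x | K₀ * τ * R ≤ dP W b x}) ≤ ENNReal.ofReal (R ^ n / K₀ ^ 2) := by
  have hint : Integrable (fun x => dP W b x ^ 2) (ν.restrict (ball 0 R)) :=
    (integrableOn_dP_sq hν W b R).mono_set ball_subset_closedBall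
  have h1 := mul_meas_ge_le_integral_of_nonneg (μ := ν.restrict (ball 0 R))
    (f := fun x => dP W b x ^ 2) (Eventually.of_forall fun x => sq_nonneg _) hint
    ((K₀ * τ * R) ^ 2)
  have hset : MeasurableSet {x | (K₀ * τ * R) ^ 2 ≤ dP W b x ^ 2} :=
    measurableSet_le measurable_const ((continuous_dP W b).pow 2).measurable
  have hfin : ν (ball 0 R) < ⊤ :=
    lt_of_le_of_lt (measure_mono ball_subset_closedBall) (hν.measure_ball_lt_top 0 R)
  have h2 : (ν.restrict (ball 0 R)).real {x | (K₀ * τ * R) ^ 2 ≤ dP W b x ^ 2} ≤ R ^ n / K₀ ^ 2 := by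
    have hpos : 0 < (K₀ * τ * R) ^ 2 := by positivity
    have h3 : (K₀ * τ * R) ^ 2 * (ν.restrict (ball 0 R)).real
        {x | (K₀ * τ * R) ^ 2 ≤ dP W b x ^ 2} ≤ (K₀ * τ * R) ^ 2 * (R ^ n / K₀ ^ 2) := by
      refine (h1.trans h).trans (le_of_eq ?_)
      field_simp
      ring
    exact le_of_mul_le_mul_left h3 hpos
  have h4 : ball (0 : Eu d) R ∩ {x | K₀ * τ * R ≤ dP W b x} ⊆
      {x | (K₀ * τ * R) ^ 2 ≤ dP W b x ^ 2} ∩ ball 0 R := by
    rintro x ⟨hx1, hx2⟩
    refine ⟨?_, hx1⟩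
    change (K₀ * τ * R) ^ 2 ≤ dP W b x ^ 2
    exact pow_le_pow_left₀ (by (clear * - hK₀ hτ hR; positivity)) hx2 2
  refine (measure_mono h4).trans ?_
  rw [← Measure.restrict_apply hset]
  rw [measureReal_def] at h2
  refine (ENNReal.le_ofReal_iff_toReal_le ?_ (by positivity)).2 h2
  refine ne_of_lt (lt_of_le_of_lt (measure_mono (subset_univ _)) ?_)
  rw [Measure.restrict_apply_univ]
  exact hfin

/-- plane comparison (Lemma 9) -/
theorem plane_compare (n : ℕ) (hn : 1 ≤ n) (c C : ℝ) (hc : 0 < c) (hC : 0 < C) :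
    ∃ K : ℝ, 0 < K ∧
    ∀ (d : ℕ) (ν : Measure (Eu d)), AR n c C ⊤ ν → (0 : Eu d) ∈ ν.support →
    ∀ (W W' : Submodule ℝ (Eu d)) (b b' : Eu d) (R τ : ℝ), Module.finrank ℝ W = n →
      Module.finrank ℝ W' = n → 0 < R → 0 < τ → τ ≤ 1 →
      ∫ x in ball (0 : Eu d) R, dP W b x ^ 2 ∂ν ≤ τ ^ 2 * R ^ (n + 2) →
      ∫ x in ball (0 : Eu d) R, dP W' b' x ^ 2 ∂ν ≤ τ ^ 2 * R ^ (n + 2) →
      ∀ y, dP W b y ≤ dP W' b' y + K * τ * (R + ‖y‖) := by
  obtain ⟨Ks, hKs, hslab⟩ := measure_thin n hn C hC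
  set K₀ : ℝ := Real.sqrt (4 / c) with hK₀def
  have hK₀ : 0 < K₀ := by (clear * - hc; positivity)
  have hK₀sq : K₀ ^ 2 = 4 / c := Real.sq_sqrt (by positivity)
  set K' : ℝ := 3 * K₀ + 6 * Ks * K₀ / c with hK'
  have hK'pos : 0 < K' := by (clear * - hc hKs; positivity)
  refine ⟨K' + 2 * K₀, by (clear * - hc hKs; positivity), ?_⟩
  intro d ν hν h0 W W' b b' R τ hW hW' hR hτ hτ1 hI hI' y
  -- the good set
  set G : Set (Eu d) := {x | x ∈ ball (0 : Eu d) R ∧ dP W b x < K₀ * τ * R ∧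
    dP W' b' x < K₀ * τ * R} with hG
  have hmass : ENNReal.ofReal (c * R ^ n) ≤ ν (ball 0 R) := hν.lower 0 h0 R hR le_top
  have hG2 : ENNReal.ofReal (c * R ^ n / 2) ≤ ν G := by
    have h1 := cheb_dP hν W b hR hτ hK₀ hI
    have h2 := cheb_dP hν W' b' hR hτ hK₀ hI'
    have h3 : ball (0 : Eu d) R ⊆ G ∪ ((ball 0 R ∩ {x | K₀ * τ * R ≤ dP W b x}) ∪
        (ball 0 R ∩ {x | K₀ * τ * R ≤ dP W' b' x})) := by
      intro x hx
      by_cases h4 : dP W b x < K₀ * τ * R
      · by_cases h5 : dP W' b' x < K₀ * τ * R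
        · exact Or.inl ⟨hx, h4, h5⟩
        · exact Or.inr (Or.inr ⟨hx, not_lt.1 h5⟩)
      · exact Or.inr (Or.inl ⟨hx, not_lt.1 h4⟩)
    have h4 : ν (ball 0 R) ≤ ν G + (ENNReal.ofReal (R ^ n / K₀ ^ 2) +
        ENNReal.ofReal (R ^ n / K₀ ^ 2)) :=
      (measure_mono h3).trans ((measure_union_le _ _).trans (by
        gcongr
        exact (measure_union_le _ _).trans (add_le_add h1 h2)))
    rw [← ENNReal.ofReal_add (by (clear * - hR hc; positivity)) (by (clear * - hR hc; positivity))] at h4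
    have h5 : R ^ n / K₀ ^ 2 + R ^ n / K₀ ^ 2 = c * R ^ n / 2 := by
      rw [hK₀sq]; field_simp; ring
    rw [h5] at h4
    have h6 := hmass.trans h4
    have h7 : ENNReal.ofReal (c * R ^ n) = ENNReal.ofReal (c * R ^ n / 2) +
        ENNReal.ofReal (c * R ^ n / 2) := by
      rw [← ENNReal.ofReal_add (by (clear * - hc hR; positivity)) (by (clear * - hc hR; positivity))]
      congr 1; ring
    rw [h7] at h6
    exact (ENNReal.add_le_add_iff_right ENNReal.ofReal_ne_top).1 h6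
  have hGne : G.Nonempty := by
    by_contra hcon
    rw [not_nonempty_iff_eq_empty] at hcon
    rw [hcon, measure_empty] at hG2
    have : 0 < ENNReal.ofReal (c * R ^ n / 2) := ENNReal.ofReal_pos.2 (by (clear * - hc hR; positivity))
    exact absurd hG2 (not_le.2 this)
  -- angle bound
  have hangle : ∀ w₀ ∈ W', ‖Wᗮ.starProjection w₀‖ ≤ K' * τ * ‖w₀‖ := by
    suffices H : ∀ w₀ ∈ W', ‖w₀‖ = 1 → ‖Wᗮ.starProjection w₀‖ ≤ K' * τ by
      intro w₀ hw₀
      rcases eq_or_ne w₀ 0 with rfl | hne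
      · simp only [map_zero, norm_zero, mul_zero, Std.le_refl]
      have hn0 : 0 < ‖w₀‖ := norm_pos_iff.2 hne
      have h1 := H (‖w₀‖⁻¹ • w₀) (W'.smul_mem _ hw₀) (by
        rw [norm_smul, norm_inv, norm_norm, inv_mul_cancel₀ hn0.ne'])
      rw [map_smul, norm_smul, norm_inv, norm_norm, inv_mul_le_iff₀ hn0] at h1
      linarith only [h1]
    intro w₀ hw₀ hw1
    set σ : ℝ := ‖Wᗮ.starProjection w₀‖ with hσ
    by_contra hcon
    push Not at hcon
    have hσpos : 0 < σ := lt_trans (by (clear * - hc hKs hτ; (clear * - hc hKs hτ; positivity))) hcon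
    have hσ1 : σ ≤ 1 := by
      rw [hσ, ← hw1]
      exact Submodule.norm_starProjection_apply_le _ _
    set q : Eu d := Wᗮ.starProjection w₀ with hq
    set v : Eu d := W'.starProjection q with hv
    have hvW : v ∈ W' := Submodule.starProjection_apply_mem _ _
    have hinner : ∀ w ∈ W', ⟪v, w⟫_ℝ = ⟪q, w⟫_ℝ := by
      intro w hw
      rw [hv, Submodule.inner_starProjection_left_eq_right, Submodule.starProjection_eq_self_iff.2 hw]
    have hqq : ⟪q, w₀⟫_ℝ = σ ^ 2 := by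
      have h1 : ⟪q, w₀⟫_ℝ = ⟪q, q⟫_ℝ := by
        have h2 : ⟪Wᗮ.starProjection w₀, w₀⟫_ℝ =
            ⟪Wᗮ.starProjection (Wᗮ.starProjection w₀), w₀⟫_ℝ := by
          rw [Submodule.starProjection_eq_self_iff.2 (Submodule.starProjection_apply_mem Wᗮ w₀)]
        rw [hq, h2, Submodule.inner_starProjection_left_eq_right]
      rw [h1, real_inner_self_eq_norm_sq]
    have hvσ : σ ^ 2 ≤ ‖v‖ := by
      calc σ ^ 2 = ⟪v, w₀⟫_ℝ := by rw [hinner w₀ hw₀, hqq]
        _ ≤ ‖v‖ * ‖w₀‖ := real_inner_le_norm _ _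
        _ = ‖v‖ := by rw [hw1, mul_one]
    have hvpos : 0 < ‖v‖ := lt_of_lt_of_le (by (clear * - hσpos; positivity)) hvσ
    set e : Eu d := ‖v‖⁻¹ • v with he
    have heW : e ∈ W' := W'.smul_mem _ hvW
    have he1 : ‖e‖ = 1 := by
      rw [he, norm_smul, norm_inv, norm_norm, inv_mul_cancel₀ hvpos.ne']
    set κ : ℝ := ‖v‖⁻¹ * ⟪q, b' - b⟫_ℝ with hκ
    set b'' : Eu d := b' + (-κ) • e with hb''
    -- distance to the smaller plane
    have hthin : ∀ x, dP ((ℝ ∙ e)ᗮ ⊓ W') b'' x ≤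
        dP W' b' x + (dP W b x + dP W' b' x) / σ := by
      intro x
      refine (dP_inf_le W' e heW he1 b'' x).trans ?_
      rw [hb'', dP_add_mem W' b' _ x (W'.smul_mem _ heW)]
      refine add_le_add le_rfl ?_
      have h1 : ⟪e, x - (b' + (-κ) • e)⟫_ℝ = ⟪e, x - b'⟫_ℝ + κ := by
        have : x - (b' + (-κ) • e) = (x - b') + κ • e := by
          rw [neg_smul]; abel
        rw [this, inner_add_right, real_inner_smul_right, real_inner_self_eq_norm_sq, he1]
        ring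
      rw [h1]
      set w' := W'.starProjection (x - b') with hw'
      set p' := W'ᗮ.starProjection (x - b') with hp'
      have h2 : x - b' = w' + p' := by
        rw [hp', Submodule.starProjection_orthogonal_val]; abel
      have h3 : ⟪e, x - b'⟫_ℝ = ‖v‖⁻¹ * ⟪q, w'⟫_ℝ := by
        rw [h2, inner_add_right, he, real_inner_smul_left, real_inner_smul_left]
        have h4 : ⟪v, p'⟫_ℝ = 0 := by
          have : p' ∈ W'ᗮ := Submodule.starProjection_apply_mem _ _
          exact Submodule.inner_right_of_mem_orthogonal hvW this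
        rw [h4, mul_zero, add_zero, hinner w' (Submodule.starProjection_apply_mem _ _)]
      have h4 : ⟪q, x - b⟫_ℝ = ⟪q, b' - b⟫_ℝ + ⟪q, w'⟫_ℝ + ⟪q, p'⟫_ℝ := by
        rw [← inner_add_right, ← inner_add_right]
        congr 1
        have : x - b = (b' - b) + (x - b') := by abel
        rw [this, h2]; abel
      have h5 : ⟪e, x - b'⟫_ℝ + κ = ‖v‖⁻¹ * (⟪q, x - b⟫_ℝ - ⟪q, p'⟫_ℝ) := by
        rw [h3, hκ, h4]; ring
      have h6 : |⟪q, x - b⟫_ℝ| ≤ σ * dP W b x := by
        have h7 : ⟪q, x - b⟫_ℝ = ⟪q, Wᗮ.starProjection (x - b)⟫_ℝ := by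
          rw [← Submodule.inner_starProjection_left_eq_right,
            Submodule.starProjection_eq_self_iff.2 (Submodule.starProjection_apply_mem Wᗮ w₀)]
        rw [h7]
        exact abs_real_inner_le_norm _ _
      have h7 : |⟪q, p'⟫_ℝ| ≤ σ * dP W' b' x := abs_real_inner_le_norm _ _
      rw [h5, abs_mul, abs_inv, abs_norm]
      have h8 : |⟪q, x - b⟫_ℝ - ⟪q, p'⟫_ℝ| ≤ σ * (dP W b x + dP W' b' x) := by
        refine (abs_sub _ _).trans ?_
        linarith only [h6, h7]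
      have h9 : 0 ≤ dP W b x + dP W' b' x := add_nonneg (dP_nonneg _ _ _) (dP_nonneg _ _ _)
      calc ‖v‖⁻¹ * |⟪q, x - b⟫_ℝ - ⟪q, p'⟫_ℝ| ≤ (σ ^ 2)⁻¹ * (σ * (dP W b x + dP W' b' x)) := by
            (clear * - hσpos hvσ h8; gcongr)
        _ = (dP W b x + dP W' b' x) / σ := by (clear * - hσpos; (clear * - hσpos; field_simp))
    -- the good set is in a slab
    have hrank : Module.finrank ℝ ((ℝ ∙ e)ᗮ ⊓ W' : Submodule ℝ (Eu d)) < n := by
      have := finrank_inf_orth W' e heW he1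
      omega
    set t : ℝ := 3 * K₀ * τ / σ with ht
    have htpos : 0 < t := by (clear * - hc hτ hσpos; (clear * - hc hτ hσpos; positivity))
    have ht1 : t ≤ 1 := by
      rw [ht, div_le_one hσpos]
      have : 3 * K₀ * τ ≤ K' * τ := by
        apply mul_le_mul_of_nonneg_right _ hτ.le
        rw [hK']
        have : 0 ≤ 6 * Ks * K₀ / c := by positivity
        linarith only [this]
      linarith only [hcon, this]
    have hsub : G ⊆ closedBall 0 R ∩ {x | dP ((ℝ ∙ e)ᗮ ⊓ W') b'' x ≤ t * R} := by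
      rintro x ⟨hx1, hx2, hx3⟩
      refine ⟨ball_subset_closedBall hx1, ?_⟩
      change dP ((ℝ ∙ e)ᗮ ⊓ W') b'' x ≤ t * R
      refine (hthin x).trans ?_
      have h1 : (dP W b x + dP W' b' x) / σ ≤ (K₀ * τ * R + K₀ * τ * R) / σ := by
        (clear * - hσpos hx2 hx3; gcongr)
      have h2 : K₀ * τ * R ≤ K₀ * τ * R / σ := by
        rw [le_div_iff₀ hσpos]
        have : 0 ≤ K₀ * τ * R := by (clear * - hc hτ hR; positivity)
        nlinarith only [hσ1, this]
      have h3 : t * R = K₀ * τ * R / σ + (K₀ * τ * R + K₀ * τ * R) / σ := by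
        rw [ht]; ring
      rw [h3]
      linarith only [hx3, h1, h2]
    have h1 := hG2.trans ((measure_mono hsub).trans
      (hslab d ν hν.upper _ b'' hrank 0 R t hR htpos ht1))
    have h2 : c * R ^ n / 2 ≤ Ks * t * R ^ n :=
      (ENNReal.ofReal_le_ofReal_iff (by (clear * - hc hKs hR hτ hσpos; positivity))).1 h1
    have hRn : 0 < R ^ n := by (clear * - hR; positivity)
    have h3 : c / 2 ≤ Ks * t := by
      have : c / 2 * R ^ n ≤ Ks * t * R ^ n := by linarith only [h2]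
      exact le_of_mul_le_mul_right this hRn
    have h4 : c / 2 * σ ≤ Ks * (3 * K₀ * τ) := by
      have : Ks * t * σ = Ks * (3 * K₀ * τ) := by rw [ht]; (clear * - hKs hK₀ hτ hσpos; field_simp)
      rw [← this]
      (clear * - hσpos h3; gcongr)
    have h5 : σ ≤ 6 * Ks * K₀ / c * τ := by
      rw [div_mul_eq_mul_div, le_div_iff₀ hc]
      nlinarith only [h4]
    have h6 : 6 * Ks * K₀ / c * τ ≤ K' * τ := by
      apply mul_le_mul_of_nonneg_right _ hτ.le
      rw [hK']; linarith only [hK₀]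
    linarith only [hcon, h5, h6]
  -- conclusion
  obtain ⟨x₁, hx₁, hx₂, hx₃⟩ := hGne
  have hdecomp : y - b = W'ᗮ.starProjection (y - b') + (W'.starProjection (y - x₁)
      - W'ᗮ.starProjection (x₁ - b')) + (x₁ - b) := by
    have e1 : W'.starProjection (y - x₁) = W'.starProjection (y - b')
        - W'.starProjection (x₁ - b') := by
      rw [← map_sub]; congr 1; abel
    rw [Submodule.starProjection_orthogonal_val, Submodule.starProjection_orthogonal_val, e1]
    abel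
  have hx₁' : ‖x₁‖ < R := by simpa using hx₁
  have h1 : ‖W'.starProjection (y - x₁)‖ ≤ ‖y‖ + R := by
    refine (Submodule.norm_starProjection_apply_le _ _).trans ((norm_sub_le _ _).trans ?_)
    linarith only [hx₁']
  have h2 := hangle (W'.starProjection (y - x₁)) (Submodule.starProjection_apply_mem _ _)
  have h3 : ‖Wᗮ.starProjection (W'ᗮ.starProjection (y - b'))‖ ≤ dP W' b' y :=
    Submodule.norm_starProjection_apply_le _ _
  have h4 : ‖Wᗮ.starProjection (W'ᗮ.starProjection (x₁ - b'))‖ ≤ dP W' b' x₁ :=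
    Submodule.norm_starProjection_apply_le _ _
  have h5 : dP W b y ≤ ‖Wᗮ.starProjection (W'ᗮ.starProjection (y - b'))‖ +
      (‖Wᗮ.starProjection (W'.starProjection (y - x₁))‖ +
        ‖Wᗮ.starProjection (W'ᗮ.starProjection (x₁ - b'))‖) + dP W b x₁ := by
    have : dP W b y = ‖Wᗮ.starProjection (y - b)‖ := rfl
    rw [this, hdecomp, map_add, map_add]
    refine (norm_add_le _ _).trans (add_le_add ((norm_add_le _ _).trans
      (add_le_add le_rfl ?_)) le_rfl)
    rw [map_sub]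
    exact norm_sub_le _ _
  have h6 : K' * τ * ‖W'.starProjection (y - x₁)‖ ≤ K' * τ * (R + ‖y‖) := by
    gcongr
    linarith only [h1]
  have h7 : K₀ * τ * R ≤ K₀ * τ * (R + ‖y‖) := by
    gcongr
    linarith only [norm_nonneg y]
  have h8 : (K' + 2 * K₀) * τ * (R + ‖y‖) = K' * τ * (R + ‖y‖) + 2 * (K₀ * τ * (R + ‖y‖)) := by
    ring
  rw [h8]
  linarith only [hx₂, hx₃, h2, h3, h4, h5, h6, h7]

theorem sq_le_two_pow (j : ℕ) : ((j : ℝ) + 2) ^ 2 ≤ 9 * 2 ^ j := by
  induction j with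
  | zero => norm_num
  | succ j ih =>
    rcases Nat.eq_zero_or_pos j with rfl | hj
    · norm_num
    · have h1 : (1 : ℝ) ≤ j := by exact_mod_cast hj
      push_cast
      have h2 : (9 : ℝ) * 2 ^ (j + 1) = 2 * (9 * 2 ^ j) := by ring
      rw [h2]
      nlinarith only [ih, h1]

/-- growth of the normalised height -/
theorem flat_growth (n : ℕ) (hn : 1 ≤ n) (c C : ℝ) (hc : 0 < c) (hC : 0 < C) :
    ∃ K ε : ℝ, 0 < K ∧ 0 < ε ∧
    ∀ (d : ℕ) (ν : Measure (Eu d)), AR n c C ⊤ ν → (0 : Eu d) ∈ ν.support →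
    ∀ t : ℝ, 0 < t → t ≤ ε → (∀ R : ℝ, 1 ≤ R → FlatL2 n ν R t) →
    ∃ (W : Submodule ℝ (Eu d)) (b : Eu d), Module.finrank ℝ W = n ∧ b ∈ Wᗮ ∧
      ∀ R : ℝ, 1 ≤ R → ∫ x in closedBall (0 : Eu d) R, dP W b x ^ 2 ∂ν ≤
        K * t ^ 2 * R ^ (n + 3) := by
  obtain ⟨K, hK, hcmp⟩ := plane_compare n hn c C hc hC
  refine ⟨2 ^ (n + 3) + 36 * C * K ^ 2 * (2 ^ (n + 2)) ^ 2, ((2 : ℝ) ^ (n + 2))⁻¹, by positivity,
    by (clear * -; positivity), ?_⟩
  intro d ν hν h0 t ht htε hflat
  have hfl : ∀ j : ℕ, FlatL2 n ν (2 ^ j) t := fun j => hflat _ (one_le_pow₀ (by norm_num))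
  choose V b hV hI using hfl
  set τ : ℝ := 2 ^ (n + 2) * t with hτ
  have hτpos : 0 < τ := by (clear * - ht; positivity)
  have hp1 : (1 : ℝ) ≤ 2 ^ (n + 2) := one_le_pow₀ (by norm_num)
  have hτ1 : τ ≤ 1 := by
    calc τ ≤ 2 ^ (n + 2) * ((2 : ℝ) ^ (n + 2))⁻¹ := by
          rw [hτ]; (clear * - htε; gcongr)
      _ = 1 := mul_inv_cancel₀ (by positivity)
  have htτ : t ≤ τ := by
    rw [hτ]; nlinarith only [ht, hp1]
  have hstep : ∀ (j : ℕ) (y : Eu d), dP (V j) (b j) y ≤ dP (V (j + 1)) (b (j + 1)) y +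
      K * τ * (2 ^ j + ‖y‖) := by
    intro j
    have hpj : (0 : ℝ) < 2 ^ j := by positivity
    refine hcmp d ν hν h0 (V j) (V (j + 1)) (b j) (b (j + 1)) (2 ^ j) τ (hV j) (hV (j + 1)) hpj
      hτpos hτ1 ?_ ?_
    · refine (hI j).trans ?_
      (clear * - ht htτ; gcongr)
    · have h1 : ∫ x in ball (0 : Eu d) (2 ^ j), dP (V (j + 1)) (b (j + 1)) x ^ 2 ∂ν ≤
          ∫ x in ball (0 : Eu d) (2 ^ (j + 1)), dP (V (j + 1)) (b (j + 1)) x ^ 2 ∂ν := by
        refine setIntegral_mono_set ((integrableOn_dP_sq hν _ _ _).mono_set ball_subset_closedBall)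
          (Eventually.of_forall fun x => sq_nonneg _) (LE.le.eventuallyLE ?_)
        exact ball_subset_ball (by rw [pow_succ]; linarith only [hpj])
      refine h1.trans ((hI (j + 1)).trans ?_)
      have h2 : ((2 : ℝ) ^ (j + 1)) ^ (n + 2) = 2 ^ (n + 2) * (2 ^ j) ^ (n + 2) := by
        rw [pow_succ 2 j, mul_pow]; ring
      rw [h2, hτ, mul_pow]
      have h3 : (2 : ℝ) ^ (n + 2) ≤ (2 ^ (n + 2)) ^ 2 := by nlinarith only [hp1]
      calc t ^ 2 * (2 ^ (n + 2) * (2 ^ j) ^ (n + 2))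
          = 2 ^ (n + 2) * (t ^ 2 * (2 ^ j) ^ (n + 2)) := by ring
        _ ≤ (2 ^ (n + 2)) ^ 2 * (t ^ 2 * (2 ^ j) ^ (n + 2)) := by (clear * - ht h3; gcongr)
        _ = (2 ^ (n + 2)) ^ 2 * t ^ 2 * (2 ^ j) ^ (n + 2) := by ring
  have htel : ∀ (j : ℕ) (y : Eu d), dP (V 0) (b 0) y ≤ dP (V j) (b j) y +
      K * τ * (2 ^ j + j * ‖y‖) := by
    intro j y
    induction j with
    | zero =>
      have : 0 ≤ K * τ * (2 ^ 0 + ((0 : ℕ) : ℝ) * ‖y‖) := by (clear * - hK ht; (clear * - hK ht; positivity))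
      linarith only [this]
    | succ j ih =>
      have h1 := hstep j y
      have h2 : K * τ * (2 ^ (j + 1) + ((j + 1 : ℕ) : ℝ) * ‖y‖) =
          K * τ * (2 ^ j + j * ‖y‖) + K * τ * (2 ^ j + ‖y‖) := by
        rw [pow_succ]; push_cast; ring
      rw [h2]
      linarith only [ih, h1]
  refine ⟨V 0, (V 0)ᗮ.starProjection (b 0), hV 0, Submodule.starProjection_apply_mem _ _, ?_⟩
  have hb : ∀ x, dP (V 0) ((V 0)ᗮ.starProjection (b 0)) x = dP (V 0) (b 0) x := by
    intro x
    have h1 : (V 0)ᗮ.starProjection (b 0) = b 0 + (-(V 0).starProjection (b 0)) := by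
      rw [Submodule.starProjection_orthogonal_val]; abel
    rw [h1]
    exact dP_add_mem _ _ _ _ ((V 0).neg_mem (Submodule.starProjection_apply_mem _ _))
  intro R hR
  simp only [hb]
  have hR0 : 0 < R := by linarith only [hR]
  obtain ⟨m, hm1, hm2⟩ := exists_nat_pow_near hR (one_lt_two (α := ℝ))
  set j := m + 1 with hj
  have hj2 : (2 : ℝ) ^ j ≤ 2 * R := by rw [hj, pow_succ]; linarith only [hm1]
  -- pointwise
  have hpt : ∀ y ∈ closedBall (0 : Eu d) R, dP (V 0) (b 0) y ^ 2 ≤ 2 * dP (V j) (b j) y ^ 2 +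
      2 * (K * τ * (R * (j + 2))) ^ 2 := by
    intro y hy
    have hyR : ‖y‖ ≤ R := by simpa only [mem_closedBall, dist_zero_right] using hy
    have h1 := htel j y
    have h2 : K * τ * (2 ^ j + j * ‖y‖) ≤ K * τ * (R * (j + 2)) := by
      gcongr
      have : (j : ℝ) * ‖y‖ ≤ j * R := by (clear * - hyR; gcongr)
      nlinarith only [hj2, this]
    have h3 : dP (V 0) (b 0) y ≤ dP (V j) (b j) y + K * τ * (R * (j + 2)) := by linarith only [h1,
                                                                                  h2]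
    have h4 : 0 ≤ dP (V 0) (b 0) y := dP_nonneg _ _ _
    nlinarith only [sq_nonneg (dP (V j) (b j) y - K * τ * (R * (j + 2))), h1, h2, h4]
  have hfin : ν (closedBall 0 R) < ⊤ := hν.measure_ball_lt_top 0 R
  have hvol : ν.real (closedBall 0 R) ≤ C * R ^ n := by
    rw [measureReal_def]
    exact ENNReal.toReal_le_of_le_ofReal (by (clear * - hC hR; positivity)) (hν.upper 0 R hR0)
  have hint1 := integrableOn_dP_sq hν (V 0) (b 0) R
  have hint2 := integrableOn_dP_sq hν (V j) (b j) R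
  have h1 : ∫ x in closedBall (0 : Eu d) R, dP (V 0) (b 0) x ^ 2 ∂ν ≤
      ∫ x in closedBall (0 : Eu d) R, (2 * dP (V j) (b j) x ^ 2 +
        2 * (K * τ * (R * (j + 2))) ^ 2) ∂ν := by
    refine setIntegral_mono_on hint1 ?_ measurableSet_closedBall hpt
    exact (hint2.const_mul 2).add (integrableOn_const hfin.ne)
  have h2 : ∫ x in closedBall (0 : Eu d) R, (2 * dP (V j) (b j) x ^ 2 +
        2 * (K * τ * (R * (j + 2))) ^ 2) ∂ν =
      2 * ∫ x in closedBall (0 : Eu d) R, dP (V j) (b j) x ^ 2 ∂ν +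
        ν.real (closedBall 0 R) * (2 * (K * τ * (R * (j + 2))) ^ 2) := by
    rw [integral_add (hint2.const_mul 2) (integrableOn_const hfin.ne), integral_const_mul,
      setIntegral_const, smul_eq_mul]
  have h3 : ∫ x in closedBall (0 : Eu d) R, dP (V j) (b j) x ^ 2 ∂ν ≤
      t ^ 2 * (2 * R) ^ (n + 2) := by
    have h4 : ∫ x in closedBall (0 : Eu d) R, dP (V j) (b j) x ^ 2 ∂ν ≤
        ∫ x in ball (0 : Eu d) (2 ^ j), dP (V j) (b j) x ^ 2 ∂ν := by
      refine setIntegral_mono_set ((integrableOn_dP_sq hν _ _ _).mono_set ball_subset_closedBall)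
        (Eventually.of_forall fun x => sq_nonneg _) (LE.le.eventuallyLE ?_)
      exact closedBall_subset_ball hm2
    refine h4.trans ((hI j).trans ?_)
    (clear * - ht hj2; gcongr)
  have h5 : (K * τ * (R * (j + 2))) ^ 2 ≤ 18 * K ^ 2 * τ ^ 2 * R ^ 3 := by
    have h6 := sq_le_two_pow j
    have h7 : ((j : ℝ) + 2) ^ 2 ≤ 18 * R := by linarith only [hj2, h6]
    calc (K * τ * (R * (j + 2))) ^ 2 = K ^ 2 * τ ^ 2 * R ^ 2 * ((j : ℝ) + 2) ^ 2 := by ring
      _ ≤ K ^ 2 * τ ^ 2 * R ^ 2 * (18 * R) := by (clear * - hK ht hR h7; gcongr)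
      _ = 18 * K ^ 2 * τ ^ 2 * R ^ 3 := by ring
  have h6 : ν.real (closedBall 0 R) * (2 * (K * τ * (R * (j + 2))) ^ 2) ≤
      C * R ^ n * (2 * (18 * K ^ 2 * τ ^ 2 * R ^ 3)) := by
    (clear * - hC hK ht hR hvol h5; gcongr)
  have h7 : R ^ (n + 2) ≤ R ^ (n + 3) := pow_le_pow_right₀ hR (by (clear * -; omega))
  calc ∫ x in closedBall (0 : Eu d) R, dP (V 0) (b 0) x ^ 2 ∂ν
      ≤ 2 * (t ^ 2 * (2 * R) ^ (n + 2)) + C * R ^ n * (2 * (18 * K ^ 2 * τ ^ 2 * R ^ 3)) := by
        rw [h2] at h1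
        linarith only [h1, h3, h6]
    _ = 2 ^ (n + 3) * t ^ 2 * R ^ (n + 2) +
        36 * C * K ^ 2 * (2 ^ (n + 2)) ^ 2 * t ^ 2 * R ^ (n + 3) := by
        rw [hτ]; ring
    _ ≤ 2 ^ (n + 3) * t ^ 2 * R ^ (n + 3) +
        36 * C * K ^ 2 * (2 ^ (n + 2)) ^ 2 * t ^ 2 * R ^ (n + 3) := by (clear * - ht h7; gcongr)
    _ = (2 ^ (n + 3) + 36 * C * K ^ 2 * (2 ^ (n + 2)) ^ 2) * t ^ 2 * R ^ (n + 3) := by ring

end Vale.Agent.P120
end
end

section

section

/-! Rotation of the plane to a fixed plane.  Owner: helper647 -/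

open MeasureTheory Metric Set Filter Topology
open scoped ENNReal NNReal

namespace Vale.Agent.P120

variable {d n : ℕ} {c C : ℝ}

theorem dP_map_iso (O : Eu d ≃ₗᵢ[ℝ] Eu d) (W : Submodule ℝ (Eu d)) (b x : Eu d) :
    dP (W.map (O.toLinearEquiv : Eu d →ₗ[ℝ] Eu d)) (O b) (O x) = dP W b x := by
  unfold dP
  rw [Submodule.starProjection_orthogonal_val, Submodule.starProjection_orthogonal_val,
    Submodule.starProjection_map_apply, ← map_sub, O.symm_apply_apply, ← map_sub, O.norm_map]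

theorem finrank_map_iso (O : Eu d ≃ₗᵢ[ℝ] Eu d) (W : Submodule ℝ (Eu d)) :
    Module.finrank ℝ (W.map (O.toLinearEquiv : Eu d →ₗ[ℝ] Eu d)) = Module.finrank ℝ W :=
  LinearEquiv.finrank_map_eq O.toLinearEquiv W

theorem setIntegral_map_iso (O : Eu d ≃ₗᵢ[ℝ] Eu d) (ν : Measure (Eu d)) (f : Eu d → ℝ)
    (s : Set (Eu d)) :
    ∫ x in s, f x ∂(ν.map O) = ∫ x in O ⁻¹' s, f (O x) ∂ν := by
  have h : MeasurableEmbedding (O : Eu d → Eu d) := O.toHomeomorph.measurableEmbedding
  exact h.setIntegral_map f s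

theorem preimage_ball_iso (O : Eu d ≃ₗᵢ[ℝ] Eu d) (R : ℝ) :
    (O : Eu d → Eu d) ⁻¹' (ball 0 R) = ball 0 R := by
  ext x
  simp

theorem preimage_closedBall_iso (O : Eu d ≃ₗᵢ[ℝ] Eu d) (R : ℝ) :
    (O : Eu d → Eu d) ⁻¹' (closedBall 0 R) = closedBall 0 R := by
  ext x
  simp only [LinearIsometryEquiv.preimage_closedBall, map_zero, mem_closedBall, dist_zero_right]

theorem FlatL2.map_iso_of (O : Eu d ≃ₗᵢ[ℝ] Eu d) {ν : Measure (Eu d)} {R t : ℝ}
    (h : FlatL2 n ν R t) : FlatL2 n (ν.map O) R t := by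
  obtain ⟨W, b, hW, hint⟩ := h
  refine ⟨W.map (O.toLinearEquiv : Eu d →ₗ[ℝ] Eu d), O b, by rw [finrank_map_iso, hW], ?_⟩
  rw [setIntegral_map_iso, preimage_ball_iso]
  simpa only [dP_map_iso] using hint

theorem FlatL2.map_isometry (O : Eu d ≃ₗᵢ[ℝ] Eu d) (ν : Measure (Eu d)) (R t : ℝ) :
    FlatL2 n (ν.map O) R t ↔ FlatL2 n ν R t := by
  refine ⟨fun h => ?_, fun h => h.map_iso_of O⟩
  have h1 := h.map_iso_of O.symm
  rw [Measure.map_map O.symm.continuous.measurable O.continuous.measurable] at h1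
  have h2 : (O.symm : Eu d → Eu d) ∘ (O : Eu d → Eu d) = id := by
    funext x; simp only [Function.comp_apply, LinearIsometryEquiv.symm_apply_apply, id_eq]
  rwa [h2, Measure.map_id] at h1

/-- a rotation moving `W` to `W₀` -/
theorem exists_iso_map (W W₀ : Submodule ℝ (Eu d)) (h : Module.finrank ℝ W = Module.finrank ℝ W₀) :
    ∃ O : Eu d ≃ₗᵢ[ℝ] Eu d, W.map (O.toLinearEquiv : Eu d →ₗ[ℝ] Eu d) = W₀ := by
  let e : W ≃ₗᵢ[ℝ] W₀ :=
    (stdOrthonormalBasis ℝ W).equiv (stdOrthonormalBasis ℝ W₀) (finCongr h)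
  let L : W →ₗᵢ[ℝ] Eu d := W₀.subtypeₗᵢ.comp e.toLinearIsometry
  let O : Eu d ≃ₗᵢ[ℝ] Eu d := L.extend.toLinearIsometryEquiv rfl
  refine ⟨O, Submodule.eq_of_le_of_finrank_eq ?_ (by rw [finrank_map_iso, h])⟩
  rintro _ ⟨w, hw, rfl⟩
  have h1 : O w = L ⟨w, hw⟩ := L.extend_apply ⟨w, hw⟩
  have h2 : L ⟨w, hw⟩ ∈ W₀ := (e ⟨w, hw⟩).2
  rw [← h1] at h2
  exact h2

theorem map_iso_orthogonal {W W₀ : Submodule ℝ (Eu d)} {O : Eu d ≃ₗᵢ[ℝ] Eu d}
    (hO : W.map (O.toLinearEquiv : Eu d →ₗ[ℝ] Eu d) = W₀) {b : Eu d} (hb : b ∈ Wᗮ) :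
    O b ∈ W₀ᗮ := by
  rw [← hO, Submodule.mem_orthogonal]
  rintro _ ⟨w, hw, rfl⟩
  have h1 := (Submodule.mem_orthogonal W b).mp hb w hw
  rw [← h1]
  exact O.inner_map_map w b

theorem mem_support_map_iso {ν : Measure (Eu d)} (O : Eu d ≃ₗᵢ[ℝ] Eu d)
    (h0 : (0 : Eu d) ∈ ν.support) : (0 : Eu d) ∈ (ν.map O).support := by
  rw [Measure.mem_support_iff_forall] at h0 ⊢
  intro U hU
  have h1 : (O : Eu d → Eu d) ⁻¹' U ∈ 𝓝 (0 : Eu d) := by
    apply O.continuous.continuousAt.preimage_mem_nhds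
    rwa [map_zero]
  refine (h0 _ h1).trans_le ?_
  exact Measure.le_map_apply O.continuous.aemeasurable U

/-- the plane passes close to a point of the support -/
theorem norm_le_of_growth {ν : Measure (Eu d)} (hν : AR n c C ⊤ ν)
    (h0 : (0 : Eu d) ∈ ν.support) {W : Submodule ℝ (Eu d)} {b : Eu d} (hb : b ∈ Wᗮ) {M : ℝ}
    (hM : M < c) (h : ∫ x in closedBall (0 : Eu d) 1, dP W b x ^ 2 ∂ν ≤ M) :
    c * (‖b‖ / 2) ^ (n + 2) ≤ M := by
  have hlf := hν.isLocallyFiniteMeasure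
  have hc := hν.c_pos
  -- lower bound of the distance
  have hdist : ∀ x : Eu d, ‖b‖ - ‖x‖ ≤ dP W b x := by
    intro x
    unfold dP
    have h1 : Wᗮ.starProjection (x - b) = Wᗮ.starProjection x - b := by
      rw [map_sub, Submodule.starProjection_eq_self_iff.mpr hb]
    rw [h1]
    have h2 := norm_sub_norm_le b (Wᗮ.starProjection x)
    rw [norm_sub_rev] at h2
    have h3 : ‖Wᗮ.starProjection x‖ ≤ ‖x‖ := Submodule.norm_starProjection_apply_le _ _
    linarith only [h2, h3]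
  have key : ∀ ρ : ℝ, 0 < ρ → ρ ≤ 1 → 2 * ρ ≤ ‖b‖ → c * ρ ^ (n + 2) ≤ M := by
    intro ρ hρ hρ1 hρb
    refine le_trans ?_ h
    have hcomp := isCompact_closedBall (0 : Eu d) 1
    have hcont : Continuous fun x => dP W b x ^ 2 := (continuous_dP W b).pow 2
    have i1 : IntegrableOn (fun x => dP W b x ^ 2) (closedBall (0 : Eu d) 1) ν :=
      hcont.continuousOn.integrableOn_compact hcomp
    have hsub : ball (0 : Eu d) ρ ⊆ closedBall (0 : Eu d) 1 :=
      ball_subset_closedBall.trans (closedBall_subset_closedBall hρ1)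
    have h1 : ∫ x in ball (0 : Eu d) ρ, dP W b x ^ 2 ∂ν ≤
        ∫ x in closedBall (0 : Eu d) 1, dP W b x ^ 2 ∂ν :=
      setIntegral_mono_set i1 (ae_of_all _ fun x => sq_nonneg _) hsub.eventuallyLE
    refine le_trans ?_ h1
    have hfin : ν (ball (0 : Eu d) ρ) ≠ ⊤ := measure_ball_lt_top.ne
    have h2 : ∫ _x in ball (0 : Eu d) ρ, ρ ^ 2 ∂ν ≤ ∫ x in ball (0 : Eu d) ρ, dP W b x ^ 2 ∂ν := by
      refine setIntegral_mono_on (integrableOn_const hfin) (i1.mono_set hsub)
        measurableSet_ball fun x hx => ?_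
      rw [mem_ball_zero_iff] at hx
      have h3 := hdist x
      exact pow_le_pow_left₀ hρ.le (by linarith only [hρb, hx, h3]) 2
    refine le_trans ?_ h2
    rw [setIntegral_const, smul_eq_mul]
    have h4 : c * ρ ^ n ≤ ν.real (ball (0 : Eu d) ρ) := by
      rw [measureReal_def]
      exact (ENNReal.ofReal_le_iff_le_toReal hfin).mp (hν.lower 0 h0 ρ hρ le_top)
    calc c * ρ ^ (n + 2) = c * ρ ^ n * ρ ^ 2 := by ring
      _ ≤ _ := mul_le_mul_of_nonneg_right h4 (sq_nonneg _)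
  rcases (norm_nonneg b).eq_or_lt with h5 | h5
  · rw [← h5]
    have : (0 : ℝ) ≤ M := le_trans (setIntegral_nonneg measurableSet_closedBall
      fun x _ => sq_nonneg _) h
    simpa only [zero_div, ne_eq, Nat.add_eq_zero_iff, OfNat.ofNat_ne_zero, and_false, not_false_eq_true, zero_pow,     mul_zero, ge_iff_le] using this
  by_cases h6 : ‖b‖ ≤ 2
  · exact key (‖b‖ / 2) (by linarith only [h5]) (by linarith) (by linarith only [])
  · exfalso
    have := key 1 one_pos le_rfl (by linarith only [h6])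
    rw [one_pow, mul_one] at this
    linarith only [hM, this]

theorem rot_setup (n d : ℕ) (hn : 1 ≤ n) (c C : ℝ) (hc : 0 < c) (hC : 0 < C) :
    ∃ K ε : ℝ, 0 < K ∧ 0 < ε ∧
    ∀ (W₀ : Submodule ℝ (Eu d)), Module.finrank ℝ W₀ = n →
    ∀ (ν : Measure (Eu d)), AR n c C ⊤ ν → (0 : Eu d) ∈ ν.support →
    ∀ t : ℝ, 0 < t → t ≤ ε → (∀ R : ℝ, 1 ≤ R → FlatL2 n ν R t) →
    ∃ (O : Eu d ≃ₗᵢ[ℝ] Eu d) (b : Eu d), b ∈ W₀ᗮ ∧ ‖b‖ ^ (n + 2) ≤ K * t ^ 2 ∧
      (0 : Eu d) ∈ (ν.map O).support ∧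
      ∀ R : ℝ, 1 ≤ R → ∫ x in closedBall (0 : Eu d) R, dP W₀ b x ^ 2 ∂(ν.map O) ≤
        K * t ^ 2 * R ^ (n + 3) := by
  obtain ⟨K, ε, hK, hε, hfg⟩ := flat_growth n hn c C hc hC
  refine ⟨K + 2 ^ (n + 2) * K / c, min ε (min 1 (c / (2 * K))), by (clear * - hK hc; positivity),
    by (clear * - hε hc hK; positivity), ?_⟩
  intro W₀ hW₀ ν hν h0 t ht htε hflat
  obtain ⟨W, b, hW, hb, hgr⟩ := hfg d ν hν h0 t ht (htε.trans (min_le_left _ _)) hflat
  obtain ⟨O, hO⟩ := exists_iso_map W W₀ (by rw [hW, hW₀])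
  have ht1 : t ≤ 1 := htε.trans ((min_le_right _ _).trans (min_le_left _ _))
  have ht2 : t ≤ c / (2 * K) := htε.trans ((min_le_right _ _).trans (min_le_right _ _))
  have hM : K * t ^ 2 < c := by
    have h1 : t * (2 * K) ≤ c := by rwa [le_div_iff₀ (by positivity)] at ht2
    nlinarith only [mul_pos hK ht, hc, hK, ht, ht1, h1]
  have hg1 := hgr 1 le_rfl
  rw [one_pow, mul_one] at hg1
  have hb2 := norm_le_of_growth hν h0 hb hM hg1
  refine ⟨O, O b, map_iso_orthogonal hO hb, ?_, mem_support_map_iso O h0, ?_⟩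
  · rw [O.norm_map]
    have h1 : ‖b‖ ^ (n + 2) ≤ 2 ^ (n + 2) * K / c * t ^ 2 := by
      rw [div_pow] at hb2
      have h2 : c * ‖b‖ ^ (n + 2) ≤ K * t ^ 2 * 2 ^ (n + 2) := by
        rw [← mul_div_assoc, div_le_iff₀ (by positivity)] at hb2
        exact hb2
      have h3 : 2 ^ (n + 2) * K / c * t ^ 2 = (K * t ^ 2 * 2 ^ (n + 2)) / c := by ring
      rw [h3, le_div_iff₀ hc]
      linarith only [h2]
    have h4 : 0 ≤ K * t ^ 2 := by (clear * - hK ht; positivity)
    linarith only [h1, h4]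
  · intro R hR
    rw [setIntegral_map_iso, preimage_closedBall_iso, ← hO]
    simp only [dP_map_iso]
    refine (hgr R hR).trans ?_
    have h1 : 0 ≤ 2 ^ (n + 2) * K / c := by (clear * - hK hc; positivity)
    gcongr
    linarith only [h1]

end Vale.Agent.P120
end
end

section

section

/-! The vague limit of flatter and flatter reflectionless measures is planar.
Owner: helper647 -/

open MeasureTheory Metric Set Filter Topology
open scoped ENNReal NNReal

namespace Vale.Agent.P120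

variable {d n : ℕ} {c C : ℝ}

theorem dP_zero_sq_le (W : Submodule ℝ (Eu d)) (b y : Eu d) :
    dP W 0 y ^ 2 ≤ 2 * dP W b y ^ 2 + 2 * ‖b‖ ^ 2 := by
  have h1 : dP W 0 y ≤ dP W b y + ‖b‖ := by
    unfold dP
    have h2 : y - 0 = (y - b) + b := by abel
    rw [h2, map_add]
    refine (norm_add_le _ _).trans ?_
    gcongr
    exact Submodule.norm_starProjection_apply_le _ _
  have h0 : 0 ≤ dP W 0 y := norm_nonneg _
  have h3 : dP W 0 y ^ 2 ≤ (dP W b y + ‖b‖) ^ 2 := pow_le_pow_left₀ h0 h1 2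
  nlinarith only [sq_nonneg (dP W b y - ‖b‖), h3]

theorem continuous_dP_pl (W : Submodule ℝ (Eu d)) (b : Eu d) : Continuous (dP W b) := by
  unfold dP
  (clear * -; fun_prop)

theorem planar_limit (n d : ℕ) (hn : 1 ≤ n) (hnd : n ≤ d) (c C C₁ C₂ : ℝ) (hC : 0 < C)
    (W : Submodule ℝ (Eu d)) (hW : Module.finrank ℝ W = n) (ν : ℕ → Measure (Eu d))
    (hν : ∀ k, Lim n c C C₁ C₂ (ν k)) (h0 : ∀ k, (0 : Eu d) ∈ (ν k).support)
    (t : ℕ → ℝ) (ht : Tendsto t (UU : Filter ℕ) (𝓝 0)) (b : ℕ → Eu d)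
    (hb : Tendsto b (UU : Filter ℕ) (𝓝 0)) (K : ℝ)
    (hgr : ∀ k, ∀ R : ℝ, 1 ≤ R → ∫ x in closedBall (0 : Eu d) R, dP W (b k) x ^ 2 ∂(ν k) ≤
      K * t k ^ 2 * R ^ (n + 3))
    (ν' : Measure (Eu d)) (hlf : IsLocallyFiniteMeasure ν') (hvl : VagueLim UU ν ν') :
    AR n c C ⊤ ν' ∧ ∃ (ι : Eu n →ₗᵢ[ℝ] Eu d) (g : ℝ), LinearMap.range ι.toLinearMap = W ∧
      0 < g ∧ ∀ f : Eu d → ℝ, Continuous f → HasCompactSupport f →
        ∫ x, f x ∂ν' = g * ∫ v : Eu n, f (ι v) := by
  obtain ⟨C₂', _, hlim⟩ := lim_of_lim n hn C hC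
  have hL : Lim n c C C₁ C₂' ν' := hlim d c C₁ C₂ ν ν' hν hlf hvl h0
  have hAR : ∀ k, AR n c C ⊤ (ν k) := fun k => (hν k).ar
  have hD : Tendsto (fun _ : ℕ => (⊤ : ℝ≥0∞)) (UU : Filter ℕ) (𝓝 ⊤) := tendsto_const_nhds
  have h0ν : (0 : Eu d) ∈ ν'.support :=
    mem_support_lim hAR hD hlf hvl (x := fun _ => 0) (Eventually.of_forall h0) tendsto_const_nhds
  -- the limit lives on `W`
  have hs : ∀ x ∈ ν'.support, dP W 0 x = 0 := by
    intro x hx
    by_contra hne
    set R : ℝ := ‖x‖ + 1 with hR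
    have hR1 : 1 ≤ R := by have := norm_nonneg x; linarith only [this]
    have hR0 : 0 < R := by linarith only [hR1]
    set F : Eu d → ℝ := fun y => cut 0 R y * dP W 0 y ^ 2 with hF
    have hFc : Continuous F := by
      have h1 : Continuous (cut (0 : Eu d) R) := by
        unfold cut
        (clear * -; fun_prop)
      exact h1.mul ((continuous_dP_pl W 0).pow 2)
    have hcut0 : ∀ y : Eu d, 2 * R < ‖y‖ → cut 0 R y = 0 := by
      intro y hy
      unfold cut
      rw [dist_zero_right]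
      have h2 : 2 < ‖y‖ / R := by rw [lt_div_iff₀ hR0]; exact hy
      rw [max_eq_left]
      exact (min_le_right _ _).trans (by linarith only [h2])
    have hF0 : ∀ y, F y ≠ 0 → y ∈ closedBall (0 : Eu d) (2 * R) := by
      intro y hy
      rw [mem_closedBall_zero_iff]
      by_contra hcon
      apply hy
      simp only [hF]
      rw [hcut0 y (not_le.mp hcon), zero_mul]
    have hFcs : HasCompactSupport F := by
      refine HasCompactSupport.intro (isCompact_closedBall (0 : Eu d) (2 * R)) fun y hy => ?_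
      by_contra hcon
      exact hy (hF0 y hcon)
    have hFnn : ∀ y, 0 ≤ F y := fun y => mul_nonneg (le_max_left _ _) (sq_nonneg _)
    have hlimF := hvl F hFc hFcs
    have hbound : ∀ k, ∫ y, F y ∂(ν k) ≤
        2 * (K * t k ^ 2 * (2 * R) ^ (n + 3)) + 2 * ‖b k‖ ^ 2 * (C * (2 * R) ^ n) := by
      intro k
      have hlfk := (hAR k).isLocallyFiniteMeasure
      have hsub : ∫ y, F y ∂(ν k) = ∫ y in closedBall (0 : Eu d) (2 * R), F y ∂(ν k) := by
        refine (setIntegral_eq_integral_of_forall_compl_eq_zero fun y hy => ?_).symm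
        by_contra hcon
        exact hy (hF0 y hcon)
      rw [hsub]
      have hcomp := isCompact_closedBall (0 : Eu d) (2 * R)
      have hi1 : IntegrableOn (fun y => dP W (b k) y ^ 2) (closedBall (0 : Eu d) (2 * R)) (ν k) :=
        ((continuous_dP_pl W (b k)).pow 2).continuousOn.integrableOn_compact hcomp
      have hi2 : IntegrableOn (fun _ : Eu d => ‖b k‖ ^ 2) (closedBall (0 : Eu d) (2 * R)) (ν k) :=
        continuous_const.continuousOn.integrableOn_compact hcomp
      have h1 : ∫ y in closedBall (0 : Eu d) (2 * R), F y ∂(ν k) ≤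
          ∫ y in closedBall (0 : Eu d) (2 * R),
            (2 * dP W (b k) y ^ 2 + 2 * ‖b k‖ ^ 2) ∂(ν k) := by
        refine setIntegral_mono_on (hFc.continuousOn.integrableOn_compact hcomp)
          ((hi1.const_mul 2).add (hi2.const_mul 2)) measurableSet_closedBall fun y _ => ?_
        refine le_trans ?_ (dP_zero_sq_le W (b k) y)
        simp only [hF]
        refine (mul_le_mul_of_nonneg_right (b := cut 0 R y) (c := 1) ?_ (sq_nonneg _)).trans
          (one_mul _).le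
        unfold cut
        exact max_le zero_le_one (min_le_left _ _)
      refine h1.trans ?_
      rw [integral_add (hi1.const_mul 2) (hi2.const_mul 2), integral_const_mul,
        integral_const_mul]
      have h2 := hgr k (2 * R) (by linarith only [hR1])
      have h3 : ∫ _y in closedBall (0 : Eu d) (2 * R), ‖b k‖ ^ 2 ∂(ν k) ≤
          ‖b k‖ ^ 2 * (C * (2 * R) ^ n) := by
        rw [setIntegral_const, smul_eq_mul, mul_comm]
        refine mul_le_mul_of_nonneg_left ?_ (sq_nonneg _)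
        rw [measureReal_def]
        exact ENNReal.toReal_le_of_le_ofReal (by (clear * - hC; (clear * - hC; positivity)))
          ((hAR k).upper 0 (2 * R) (by linarith only [hR1]))
      nlinarith only [h2, h3]
    have hto0 : Tendsto (fun k => 2 * (K * t k ^ 2 * (2 * R) ^ (n + 3)) +
        2 * ‖b k‖ ^ 2 * (C * (2 * R) ^ n)) (UU : Filter ℕ) (𝓝 0) := by
      have h1 : Tendsto (fun k => 2 * (K * t k ^ 2 * (2 * R) ^ (n + 3))) (UU : Filter ℕ)
          (𝓝 (2 * (K * 0 ^ 2 * (2 * R) ^ (n + 3)))) :=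
        (((ht.pow 2).const_mul K).mul_const _).const_mul 2
      have h2 : Tendsto (fun k => 2 * ‖b k‖ ^ 2 * (C * (2 * R) ^ n)) (UU : Filter ℕ)
          (𝓝 (2 * ‖(0 : Eu d)‖ ^ 2 * (C * (2 * R) ^ n))) :=
        ((hb.norm.pow 2).const_mul 2).mul_const _
      have h3 := h1.add h2
      simpa only [ne_eq, OfNat.ofNat_ne_zero, not_false_eq_true, zero_pow, mul_zero, zero_mul, norm_zero,     add_zero] using h3
    have hF' : ∫ y, F y ∂ν' = 0 := by
      refine le_antisymm ?_ (integral_nonneg hFnn)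
      exact le_of_tendsto_of_tendsto hlimF hto0 (Eventually.of_forall hbound)
    have hint : Integrable F ν' := hFc.integrable_of_hasCompactSupport hFcs
    have hae := (integral_eq_zero_iff_of_nonneg hFnn hint).mp hF'
    have hFx : F x ≠ 0 := by
      simp only [hF]
      refine mul_ne_zero ?_ (pow_ne_zero 2 hne)
      unfold cut
      rw [dist_zero_right]
      have h2 : ‖x‖ / R ≤ 1 := by rw [div_le_one hR0]; linarith only []
      have h3 : (1 : ℝ) ≤ min 1 (2 - ‖x‖ / R) := le_min le_rfl (by linarith only [h2])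
      have h4 : (1 : ℝ) ≤ max 0 (min 1 (2 - ‖x‖ / R)) := h3.trans (le_max_right _ _)
      linarith only [h4]
    have hopen : IsOpen {y | F y ≠ 0} := isOpen_ne_fun hFc continuous_const
    have hpos := (Measure.mem_support_iff_forall x).mp hx _ (hopen.mem_nhds hFx)
    have hz : ν' {y | F y ≠ 0} = 0 := by
      have := ae_iff.mp hae
      simpa only [ne_eq, Pi.zero_apply] using this
    exact hpos.ne' hz
  obtain ⟨ι, g, hι, _, _, hg, _, hf⟩ :=
    liouville_plane n d hn hnd c C C₁ C₂' ν' hL ⟨0, h0ν⟩ W 0 hW hs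
  refine ⟨hL.ar, ι, g, hι, hg, fun f hfc hfs => ?_⟩
  have := hf f hfc hfs
  simpa only [zero_add] using this

end Vale.Agent.P120
end
end

section

section

/-! Improvement of flatness (Lemma 10): assembly.  Owner: helper892 -/

open MeasureTheory Metric Set Filter Topology
open scoped ENNReal NNReal

namespace Vale.Agent.P120

variable {d n : ℕ} {c C : ℝ}

theorem exists_subspace_finrank (n d : ℕ) (hnd : n ≤ d) :
    ∃ W : Submodule ℝ (Eu d), Module.finrank ℝ W = n := by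
  have h1 : n ≤ Module.finrank ℝ (Eu d) := by rwa [finrank_euclideanSpace_fin]
  obtain ⟨f, hf⟩ := exists_linearIndependent_of_le_finrank (R := ℝ) (M := Eu d) h1
  refine ⟨Submodule.span ℝ (Set.range f), ?_⟩
  rw [finrank_span_eq_card hf, Fintype.card_fin]

theorem improvement_main (n d : ℕ) (hn : 1 ≤ n) (hnd : n ≤ d) (c C C₁ C₂ : ℝ) (hc : 0 < c)
    (hC : 0 < C) : ∃ ε₁ : ℝ, 0 < ε₁ ∧ ∀ (ν : Measure (Eu d)), Lim n c C C₁ C₂ ν →
    (0 : Eu d) ∈ ν.support → ∀ t : ℝ, 0 < t → t ≤ ε₁ → (∀ R : ℝ, 1 ≤ R → FlatL2 n ν R t) →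
    FlatL2 n ν 1 (t / 2) := by
  by_contra hcon
  push Not at hcon
  obtain ⟨K, ε, hK, hε, hrot⟩ := rot_setup n d hn c C hc hC
  obtain ⟨W₀, hW₀⟩ := exists_subspace_finrank n d hnd
  have hex : ∀ k : ℕ, ∃ (μ : Measure (Eu d)) (t : ℝ) (O : Eu d ≃ₗᵢ[ℝ] Eu d) (b : Eu d),
      Lim n c C C₁ C₂ μ ∧ 0 < t ∧ t ≤ 1 / ((k : ℝ) + 1) ∧ ¬ FlatL2 n μ 1 (t / 2) ∧
      b ∈ W₀ᗮ ∧ ‖b‖ ^ (n + 2) ≤ K * t ^ 2 ∧ (0 : Eu d) ∈ (μ.map O).support ∧
      ∀ R : ℝ, 1 ≤ R → ∫ x in closedBall (0 : Eu d) R, dP W₀ b x ^ 2 ∂(μ.map O) ≤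
        K * t ^ 2 * R ^ (n + 3) := by
    intro k
    obtain ⟨μ, hμ, h0, t, ht, htε, hfl, hnf⟩ := hcon (min ε (1 / ((k : ℝ) + 1)))
      (lt_min hε (by (clear * -; (clear * -; positivity))))
    obtain ⟨O, b, hb, hbK, h0', hgr⟩ := hrot W₀ hW₀ μ hμ.ar h0 t ht
      (htε.trans (min_le_left _ _)) hfl
    exact ⟨μ, t, O, b, hμ, ht, htε.trans (min_le_right _ _), hnf, hb, hbK, h0', hgr⟩
  choose μ t O b hμ ht htk hnf hb hbK h0 hgr using hex
  set ν : ℕ → Measure (Eu d) := fun k => (μ k).map (O k) with hνdef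
  have hν : ∀ k, Lim n c C C₁ C₂ (ν k) := fun k => (hμ k).map_isometry (O k)
  obtain ⟨ν', hlf', hvl⟩ := exists_vagueLim n C ν (fun k x r hr => (hν k).ar.upper x r hr)
  have ht0 : Tendsto t atTop (𝓝 0) :=
    squeeze_zero (fun k => (ht k).le) htk tendsto_one_div_add_atTop_nhds_zero_nat
  have hUU : (UU : Filter ℕ) ≤ atTop := by
    rw [← Nat.cofinite_eq_atTop]
    exact Filter.hyperfilter_le_cofinite
  have hb0 : Tendsto b atTop (𝓝 0) := by
    have h1 : Tendsto (fun k => ‖b k‖ ^ (n + 2)) atTop (𝓝 0) := by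
      have h2 : Tendsto (fun k => K * t k ^ 2) atTop (𝓝 (K * 0 ^ 2)) :=
        (ht0.pow 2).const_mul K
      rw [zero_pow two_ne_zero, mul_zero] at h2
      exact squeeze_zero (fun k => by (clear * -; (clear * -; positivity))) hbK h2
    rw [tendsto_zero_iff_norm_tendsto_zero]
    rw [Metric.tendsto_atTop] at h1 ⊢
    intro δ hδ
    obtain ⟨N, hN⟩ := h1 (δ ^ (n + 2)) (by (clear * - hδ; positivity))
    refine ⟨N, fun k hk => ?_⟩
    have h3 := hN k hk
    rw [Real.dist_0_eq_abs, abs_of_nonneg (by (clear * -; positivity))] at h3 ⊢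
    exact lt_of_pow_lt_pow_left₀ _ hδ.le h3
  obtain ⟨har', ι, g, hι, hg, hplanar⟩ := planar_limit n d hn hnd c C C₁ C₂ hC W₀ hW₀ ν hν h0 t
    (ht0.mono_left hUU) b (hb0.mono_left hUU) K hgr ν' hlf' hvl
  subst hι
  -- the heights
  have hHt : ∀ (i : Fin d) (k : ℕ), Ht n K (ν k) (fun x =>
      inner ℝ ((t k)⁻¹ • (LinearMap.range ι.toLinearMap)ᗮ.starProjection (EuclideanSpace.single i (1 : ℝ))) x +
        (-((t k)⁻¹ * b k i))) := by
    intro i k
    refine Ht.of_lim hn (hν k) _ _ hK.le ?_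
    intro R hR
    have htk0 := ht k
    have hpt : ∀ x : Eu d, (inner ℝ ((t k)⁻¹ • (LinearMap.range ι.toLinearMap)ᗮ.starProjection
        (EuclideanSpace.single i (1 : ℝ))) x + (-((t k)⁻¹ * b k i))) ^ 2 ≤
        ((t k)⁻¹) ^ 2 * dP (LinearMap.range ι.toLinearMap) (b k) x ^ 2 := by
      intro x
      rw [height_eq (LinearMap.range ι.toLinearMap) (hb k), mul_pow]
      apply mul_le_mul_of_nonneg_left _ (by (clear * - htk0; positivity))
      unfold dP
      rw [← sq_abs]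
      exact pow_le_pow_left₀ (abs_nonneg _) (abs_coord_le _ _) 2
    have hi1 : IntegrableOn (fun x => dP (LinearMap.range ι.toLinearMap) (b k) x ^ 2) (closedBall (0 : Eu d) R) (ν k) :=
      integrableOn_dP_sq (hν k).ar (LinearMap.range ι.toLinearMap) (b k) R
    calc ∫ x in closedBall (0 : Eu d) R, (inner ℝ ((t k)⁻¹ • (LinearMap.range ι.toLinearMap)ᗮ.starProjection
          (EuclideanSpace.single i (1 : ℝ))) x + (-((t k)⁻¹ * b k i))) ^ 2 ∂(ν k)
        ≤ ∫ x in closedBall (0 : Eu d) R, ((t k)⁻¹) ^ 2 * dP (LinearMap.range ι.toLinearMap) (b k) x ^ 2 ∂(ν k) := by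
          refine integral_mono_of_nonneg (ae_of_all _ fun x => sq_nonneg _)
            (hi1.const_mul _) (ae_of_all _ hpt)
      _ = ((t k)⁻¹) ^ 2 * ∫ x in closedBall (0 : Eu d) R, dP (LinearMap.range ι.toLinearMap) (b k) x ^ 2 ∂(ν k) := by
          rw [integral_const_mul]
      _ ≤ ((t k)⁻¹) ^ 2 * (K * t k ^ 2 * R ^ (n + 3)) := by
          apply mul_le_mul_of_nonneg_left (hgr k R hR) (by (clear * - htk0; positivity))
      _ = K * R ^ (n + 3) := by (clear * - hK hR htk0; (clear * - htk0 hR hK; field_simp))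
  have hst : ∀ i : Fin d, ∃ (β : ℝ) (a : Eu n), Tendsto (fun k => ∫ x in ball (0 : Eu d) 1,
      ((inner ℝ ((t k)⁻¹ • (LinearMap.range ι.toLinearMap)ᗮ.starProjection (EuclideanSpace.single i (1 : ℝ))) x +
        (-((t k)⁻¹ * b k i))) - (β + inner ℝ a (adj ι x))) ^ 2 ∂(ν k)) (UU : Filter ℕ) (𝓝 0) := by
    intro i
    obtain ⟨σp, σm, H⟩ := exists_impSeq hn (fun k => (hν k).ar) h0 hvl har' hg hplanar (hHt i)
    exact H.strong_affine hn
  choose β a hβa using hst
  have hfin := flat_of_affine (𝒰 := UU) ι ν (fun k => (hν k).ar) t ht b hb β a hβa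
  obtain ⟨k, hk⟩ := hfin.exists
  exact hnf k ((FlatL2.map_isometry (O k) (μ k) 1 (t k / 2)).1 hk)

end Vale.Agent.P120
end
end

section

section

/-! Lemma 11 (`liouville2`) from the improvement of flatness.  Owner: helper120 -/

open MeasureTheory Metric Set Filter Topology
open scoped ENNReal NNReal RealInnerProductSpace

namespace Vale.Agent.P120

variable {d n : ℕ} {c C C₁ C₂ : ℝ}

theorem dP_smul_inv (W : Submodule ℝ (Eu d)) (b x : Eu d) {r : ℝ} (hr : 0 < r) :
    dP W b (r⁻¹ • x) = r⁻¹ * dP W (r • b) x := by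
  unfold dP
  have h1 : r⁻¹ • x - b = r⁻¹ • (x - r • b) := by
    rw [smul_sub, smul_smul, inv_mul_cancel₀ hr.ne', one_smul]
  rw [h1, map_smul, norm_smul, Real.norm_of_nonneg (inv_nonneg.2 hr.le)]

theorem setIntegral_dP_simM (n : ℕ) (W : Submodule ℝ (Eu d)) (b : Eu d) {r : ℝ} (hr : 0 < r)
    (ν : Measure (Eu d)) (R : ℝ) :
    ∫ x in ball (0 : Eu d) R, dP W b x ^ 2 ∂(simM n (LinearIsometryEquiv.refl ℝ (Eu d)) 0 r ν) =
      (r ^ (n + 2))⁻¹ * ∫ x in ball (0 : Eu d) (r * R), dP W (r • b) x ^ 2 ∂ν := by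
  rw [← integral_indicator measurableSet_ball, ← integral_indicator measurableSet_ball,
    integral_simM _ _ n hr, smul_eq_mul, ← integral_const_mul, ← integral_const_mul]
  apply integral_congr_ae
  filter_upwards with x
  have hT : simT (LinearIsometryEquiv.refl ℝ (Eu d)) 0 r x = r⁻¹ • x := by
    simp only [simT, sub_zero, map_smul, LinearIsometryEquiv.coe_refl, id_eq]
  rw [hT]
  by_cases hx : x ∈ ball (0 : Eu d) (r * R)
  · have hx' : r⁻¹ • x ∈ ball (0 : Eu d) R := by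
      rw [mem_ball_zero_iff] at hx ⊢
      rw [norm_smul, Real.norm_of_nonneg (inv_nonneg.2 hr.le), inv_mul_lt_iff₀ hr]
      exact hx
    rw [indicator_of_mem hx', indicator_of_mem hx, dP_smul_inv W b x hr, mul_pow, pow_add,
      mul_inv, inv_pow]
    ring
  · have hx' : r⁻¹ • x ∉ ball (0 : Eu d) R := by
      rw [mem_ball_zero_iff] at hx ⊢
      rw [norm_smul, Real.norm_of_nonneg (inv_nonneg.2 hr.le), inv_mul_lt_iff₀ hr]
      exact hx
    rw [indicator_of_notMem hx', indicator_of_notMem hx, mul_zero, mul_zero]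

theorem FlatL2.rescale {ν : Measure (Eu d)} {r R t : ℝ} (hr : 0 < r)
    (h : FlatL2 n ν (r * R) t) :
    FlatL2 n (simM n (LinearIsometryEquiv.refl ℝ (Eu d)) 0 r ν) R t := by
  obtain ⟨W, b, hW, hb⟩ := h
  refine ⟨W, r⁻¹ • b, hW, ?_⟩
  rw [setIntegral_dP_simM n W _ hr, smul_smul, mul_inv_cancel₀ hr.ne', one_smul,
    inv_mul_le_iff₀ (by positivity)]
  refine hb.trans (le_of_eq ?_)
  rw [mul_pow]; ring

theorem FlatL2.of_rescale {ν : Measure (Eu d)} {r R t : ℝ} (hr : 0 < r)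
    (h : FlatL2 n (simM n (LinearIsometryEquiv.refl ℝ (Eu d)) 0 r ν) R t) :
    FlatL2 n ν (r * R) t := by
  obtain ⟨W, b, hW, hb⟩ := h
  refine ⟨W, r • b, hW, ?_⟩
  rw [setIntegral_dP_simM n W _ hr, inv_mul_le_iff₀ (by positivity)] at hb
  refine hb.trans (le_of_eq ?_)
  rw [mul_pow]; ring

/-- iteration of the improvement of flatness over all scales -/
theorem flat_iterate {ε₁ : ℝ} (hε : 0 < ε₁)
    (imp : ∀ (ν : Measure (Eu d)), Lim n c C C₁ C₂ ν →
      (0 : Eu d) ∈ ν.support → ∀ t : ℝ, 0 < t → t ≤ ε₁ → (∀ R : ℝ, 1 ≤ R → FlatL2 n ν R t) →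
      FlatL2 n ν 1 (t / 2)) {ν : Measure (Eu d)} (hν : Lim n c C C₁ C₂ ν)
    (h0 : (0 : Eu d) ∈ ν.support) (hfl : ∀ R : ℝ, 1 ≤ R → FlatL2 n ν R ε₁) (k : ℕ) :
    ∀ R : ℝ, 1 ≤ R → FlatL2 n ν R (ε₁ / 2 ^ k) := by
  induction k with
  | zero => simpa only [pow_zero, div_one] using hfl
  | succ k ih =>
    intro R hR
    have hR0 : 0 < R := by linarith only [hR]
    have hlim : Lim n c C C₁ C₂ (simM n (LinearIsometryEquiv.refl ℝ (Eu d)) 0 R ν) :=
      hν.simM _ _ hR0
    have h0' : (0 : Eu d) ∈ (simM n (LinearIsometryEquiv.refl ℝ (Eu d)) 0 R ν).support := by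
      rw [mem_support_simM _ _ n hR0]
      simpa only [simTi, map_zero, smul_zero, add_zero] using h0
    have h2 := imp _ hlim h0' (ε₁ / 2 ^ k) (by (clear * - hε; positivity))
      (div_le_self hε.le (one_le_pow₀ (by norm_num))) (fun R' hR' =>
        (ih (R * R') (by nlinarith only [hR, hR'])).rescale hR0)
    have h3 := FlatL2.of_rescale hR0 h2
    rw [mul_one] at h3
    have h4 : ε₁ / 2 ^ k / 2 = ε₁ / 2 ^ (k + 1) := by
      rw [pow_succ]; field_simp
    rwa [h4] at h3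

/-- pointwise estimate of the distance to a plane by the `L²` mean -/
theorem dP_point {D : ℝ≥0∞} {ν : Measure (Eu d)} (hν : AR n c C D ν)
    (W : Submodule ℝ (Eu d)) (b x : Eu d) {r R : ℝ} (hr : 0 < r) (hrD : ENNReal.ofReal r ≤ D)
    (hx : x ∈ ν.support) (hsub : ball x r ⊆ ball 0 R) (hle : r ≤ dP W b x) :
    (dP W b x - r) ^ 2 * (c * r ^ n) ≤ ∫ y in ball (0 : Eu d) R, dP W b y ^ 2 ∂ν := by
  have hint : IntegrableOn (fun y => dP W b y ^ 2) (ball 0 R) ν :=
    (integrableOn_dP_sq hν W b R).mono_set ball_subset_closedBall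
  have hfin : ν (ball x r) ≠ ⊤ :=
    (lt_of_le_of_lt (measure_mono ball_subset_closedBall) (hν.measure_ball_lt_top x r)).ne
  have h1 : ∫ y in ball x r, dP W b y ^ 2 ∂ν ≤ ∫ y in ball (0 : Eu d) R, dP W b y ^ 2 ∂ν :=
    setIntegral_mono_set hint (ae_of_all _ fun y => sq_nonneg _) (ae_of_all _ hsub)
  have h2 : (dP W b x - r) ^ 2 * ν.real (ball x r) ≤ ∫ y in ball x r, dP W b y ^ 2 ∂ν := by
    have h3 : ∫ y in ball x r, (dP W b x - r) ^ 2 ∂ν = (dP W b x - r) ^ 2 * ν.real (ball x r) := by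
      rw [setIntegral_const, smul_eq_mul, mul_comm]
    rw [← h3]
    apply setIntegral_mono_on _ (hint.mono_set hsub) measurableSet_ball
    · intro y hy
      have h4 : dP W b x ≤ dP W b y + dist x y := by
        unfold dP
        have h5 : x - b = (y - b) + (x - y) := by abel
        rw [h5, map_add]
        refine (norm_add_le _ _).trans (add_le_add le_rfl ?_)
        rw [dist_eq_norm]
        exact Submodule.norm_starProjection_apply_le _ _
      rw [mem_ball, dist_comm] at hy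
      have h6 : 0 ≤ dP W b x - r := by linarith only [hle]
      have h7 : dP W b x - r ≤ dP W b y := by linarith only [hy, h4]
      (clear * - hle h7; gcongr)
    · exact integrableOn_const hfin
  refine le_trans ?_ (h2.trans h1)
  apply mul_le_mul_of_nonneg_left _ (sq_nonneg _)
  have h8 := hν.lower x hx r hr hrD
  exact (ENNReal.ofReal_le_iff_le_toReal hfin).1 h8

/-- arbitrarily good flatness at all large scales gives an exact plane -/
theorem exists_plane_of_flat {ν : Measure (Eu d)} (hν : AR n c C ⊤ ν)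
    (h0 : (0 : Eu d) ∈ ν.support) {ε₁ : ℝ} (hε : 0 < ε₁)
    (hfl : ∀ k : ℕ, ∀ R : ℝ, 1 ≤ R → FlatL2 n ν R (ε₁ / 2 ^ k)) :
    ∃ (W : Submodule ℝ (Eu d)) (b : Eu d), Module.finrank ℝ W = n ∧
      ∀ x ∈ ν.support, dP W b x = 0 := by
  have hc := hν.c_pos
  -- planes at scale `k + 1`
  have hex : ∀ k : ℕ, ∃ (e : Fin n → Eu d) (b : Eu d), Orthonormal ℝ e ∧
      (Submodule.span ℝ (range e))ᗮ.starProjection b = b ∧
      ∫ x in ball (0 : Eu d) ((k : ℝ) + 1), dP (Submodule.span ℝ (range e)) b x ^ 2 ∂ν ≤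
        1 / ((k : ℝ) + 1) := by
    intro k
    obtain ⟨j, hj⟩ : ∃ j : ℕ, (ε₁ / 2 ^ j) ^ 2 * ((k : ℝ) + 1) ^ (n + 2) ≤ 1 / ((k : ℝ) + 1) := by
      have hlim : Tendsto (fun j : ℕ => (ε₁ / 2 ^ j) ^ 2 * ((k : ℝ) + 1) ^ (n + 2)) atTop
          (𝓝 ((ε₁ * 0) ^ 2 * ((k : ℝ) + 1) ^ (n + 2))) := by
        have h1 : Tendsto (fun j : ℕ => ((1 : ℝ) / 2) ^ j) atTop (𝓝 0) :=
          tendsto_pow_atTop_nhds_zero_of_lt_one (by norm_num) (by norm_num)
        have h2 : (fun j : ℕ => (ε₁ / 2 ^ j) ^ 2 * ((k : ℝ) + 1) ^ (n + 2)) =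
            fun j : ℕ => (ε₁ * ((1 : ℝ) / 2) ^ j) ^ 2 * ((k : ℝ) + 1) ^ (n + 2) := by
          funext j
          rw [one_div, inv_pow, div_eq_mul_inv]
        rw [h2]
        exact ((h1.const_mul ε₁).pow 2).mul_const _
      rw [mul_zero, zero_pow (by norm_num), zero_mul] at hlim
      have hpos : (0 : ℝ) < 1 / ((k : ℝ) + 1) := by (clear * -; (clear * -; positivity))
      exact ((hlim.eventually (gt_mem_nhds hpos)).exists).imp fun j hj => hj.le
    obtain ⟨W, b, hW, hb⟩ := hfl j ((k : ℝ) + 1) (by linarith only [])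
    obtain ⟨e, he, heW⟩ := exists_orthonormal_span W hW
    have h2 : Wᗮ.starProjection (Wᗮ.starProjection b) = Wᗮ.starProjection b :=
      (Submodule.starProjection_eq_self_iff).2 (Submodule.starProjection_apply_mem _ _)
    refine ⟨e, Wᗮ.starProjection b, he, by rw [heW]; exact h2, ?_⟩
    have h3 : ∀ x, dP (Submodule.span ℝ (range e)) (Wᗮ.starProjection b) x = dP W b x := by
      intro x
      rw [heW, dP, dP, map_sub, h2, map_sub]
    simp_rw [h3]
    exact hb.trans hj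
  choose e b he hbP hint using hex
  -- boundedness of the base points
  have hbM : ∀ k, ‖b k‖ ≤ 1 + Real.sqrt (1 / c) := by
    intro k
    by_contra hcon
    push Not at hcon
    have hs : 0 ≤ Real.sqrt (1 / c) := Real.sqrt_nonneg _
    have h1 : dP (Submodule.span ℝ (range (e k))) (b k) 0 = ‖b k‖ := by
      rw [dP, zero_sub, map_neg, norm_neg, hbP]
    have h2 := dP_point hν (Submodule.span ℝ (range (e k))) (b k) 0 one_pos le_top h0
      (ball_subset_ball (by linarith only [] :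
        (1 : ℝ) ≤ (k : ℝ) + 1)) (by rw [h1]; linarith only [hcon, hs])
    rw [h1, one_pow, mul_one] at h2
    have h3 : (1 : ℝ) / ((k : ℝ) + 1) ≤ 1 := by
      rw [div_le_one (by (clear * -; positivity))]
      linarith only []
    have h4 : Real.sqrt (1 / c) ^ 2 < (‖b k‖ - 1) ^ 2 := by
      apply pow_lt_pow_left₀ (by linarith only [hcon]) hs (by norm_num)
    rw [Real.sq_sqrt (by positivity), div_lt_iff₀ hc] at h4
    linarith [hint k]
  set 𝒰 : Ultrafilter ℕ := UU with h𝒰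
  have hlim : ∀ i, ∃ l : Eu d, Tendsto (fun k => e k i) (𝒰 : Filter ℕ) (𝓝 l) := fun i =>
    exists_tendsto_of_norm_le 𝒰 (M := 1) fun k => ((he k).1 i).le
  choose e' he' using hlim
  obtain ⟨b', hb'⟩ := exists_tendsto_of_norm_le 𝒰 hbM
  have he'o : Orthonormal ℝ e' := by
    rw [orthonormal_iff_ite]
    intro i j
    refine tendsto_nhds_unique ((he' i).inner (he' j)) ?_
    have h1 : (fun k => ⟪e k i, e k j⟫) = fun _ => if i = j then (1 : ℝ) else 0 := by
      funext k
      exact orthonormal_iff_ite.1 (he k) i j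
    rw [h1]
    exact tendsto_const_nhds
  refine ⟨Submodule.span ℝ (range e'), b', ?_, fun x hx => ?_⟩
  · rw [finrank_span_eq_card he'o.linearIndependent, Fintype.card_fin]
  · rw [dP_span_eq he'o]
    have hlim : Tendsto (fun k => ‖(x - b k) - ∑ i, ⟪e k i, x - b k⟫ • e k i‖) (𝒰 : Filter ℕ)
        (𝓝 ‖(x - b') - ∑ i, ⟪e' i, x - b'⟫ • e' i‖) := by
      refine Tendsto.norm ((tendsto_const_nhds.sub hb').sub ?_)
      refine tendsto_finsetSum _ fun i _ => ?_
      exact ((he' i).inner (tendsto_const_nhds.sub hb')).smul (he' i)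
    refine le_antisymm ?_ (norm_nonneg _)
    refine le_of_forall_pos_le_add fun η hη => ?_
    rw [zero_add]
    refine le_of_tendsto hlim ?_
    -- for large `k` the distance is at most `η`
    have hev : ∀ᶠ k : ℕ in atTop, dP (Submodule.span ℝ (range (e k))) (b k) x ≤ η := by
      have hpos : 0 < (η / 2) ^ 2 * (c * (η / 2) ^ n) := by (clear * - hc hη; positivity)
      have h1 : ∀ᶠ k : ℕ in atTop, 1 / ((k : ℝ) + 1) < (η / 2) ^ 2 * (c * (η / 2) ^ n) :=
        tendsto_one_div_add_atTop_nhds_zero_nat.eventually (gt_mem_nhds hpos)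
      have h2 : ∀ᶠ k : ℕ in atTop, ‖x‖ + η ≤ (k : ℝ) := by
        exact (tendsto_natCast_atTop_atTop (R := ℝ)).eventually_ge_atTop _
      filter_upwards [h1, h2] with k hk1 hk2
      by_contra hcon
      push Not at hcon
      have h3 := dP_point hν (Submodule.span ℝ (range (e k))) (b k) x (half_pos hη) le_top hx
        (R := (k : ℝ) + 1) (by
          intro y hy
          rw [mem_ball] at hy
          rw [mem_ball_zero_iff]
          have h4 : ‖y‖ ≤ dist y x + ‖x‖ := by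
            rw [dist_eq_norm]
            calc ‖y‖ = ‖(y - x) + x‖ := by rw [sub_add_cancel]
              _ ≤ _ := norm_add_le _ _
          linarith only [hη, hk2, hy, h4]) (by linarith only [hη, hcon])
      have h5 : (η / 2) ^ 2 * (c * (η / 2) ^ n) ≤
          (dP (Submodule.span ℝ (range (e k))) (b k) x - η / 2) ^ 2 * (c * (η / 2) ^ n) := by
        have h6 : η / 2 ≤ dP (Submodule.span ℝ (range (e k))) (b k) x - η / 2 := by linarith only [hcon]
        (clear * - hη h6 hc; gcongr)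
      linarith only [hint k, hint, hk1, h3, h5]
    have hev' : ∀ᶠ k in (𝒰 : Filter ℕ), dP (Submodule.span ℝ (range (e k))) (b k) x ≤ η := by
      have hle : (𝒰 : Filter ℕ) ≤ atTop := by
        rw [h𝒰, UU, ← Nat.cofinite_eq_atTop]
        exact Filter.hyperfilter_le_cofinite
      exact hle hev
    filter_upwards [hev'] with k hk
    rwa [dP_span_eq (he k)] at hk

/-- Lemma 11 from Lemma 10 -/
theorem liouville2_of (n d : ℕ) (hn : 1 ≤ n) (hnd : n ≤ d) (c C C₁ C₂ : ℝ) (_hc : 0 < c)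
    (_hC : 0 < C)
    (imp : ∃ ε₁ : ℝ, 0 < ε₁ ∧ ∀ (ν : Measure (Eu d)), Lim n c C C₁ C₂ ν →
      (0 : Eu d) ∈ ν.support → ∀ t : ℝ, 0 < t → t ≤ ε₁ → (∀ R : ℝ, 1 ≤ R → FlatL2 n ν R t) →
      FlatL2 n ν 1 (t / 2)) :
    ∃ ε₁ : ℝ, 0 < ε₁ ∧ ∀ (ν : Measure (Eu d)), Lim n c C C₁ C₂ ν →
    (0 : Eu d) ∈ ν.support → (∀ R : ℝ, 1 ≤ R → FlatL2 n ν R ε₁) →
    ∃ (b : Eu d) (ι : Eu n →ₗᵢ[ℝ] Eu d) (g : ℝ), c / kap n ≤ g ∧ g ≤ C / kap n ∧
      ∀ f : Eu d → ℝ, Continuous f → HasCompactSupport f →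
        ∫ x, f x ∂ν = g * ∫ v, f (b + ι v) := by
  obtain ⟨ε₁, hε, himp⟩ := imp
  refine ⟨ε₁, hε, fun ν hν h0 hfl => ?_⟩
  obtain ⟨W, b, hW, hWb⟩ := exists_plane_of_flat hν.ar h0 hε
    (flat_iterate hε himp hν h0 hfl)
  obtain ⟨ι, g, _, hg1, hg2, _, _, hf⟩ :=
    liouville_plane n d hn hnd c C C₁ C₂ ν hν ⟨0, h0⟩ W b hW hWb
  exact ⟨b, ι, g, hg1, hg2, hf⟩

end Vale.Agent.P120
end
end

section

section

/-! Improvement of flatness (Lemmas 10, 11). Owner module: IMP -/

open MeasureTheory Metric Set Filter Topology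
open scoped ENNReal NNReal

namespace Vale.Agent.P120

/-- Lemma 10: improvement of flatness -/
theorem improvement (n d : ℕ) (hn : 1 ≤ n) (hnd : n ≤ d) (c C C₁ C₂ : ℝ) (hc : 0 < c)
    (hC : 0 < C) : ∃ ε₁ : ℝ, 0 < ε₁ ∧ ∀ (ν : Measure (Eu d)), Lim n c C C₁ C₂ ν →
    (0 : Eu d) ∈ ν.support → ∀ t : ℝ, 0 < t → t ≤ ε₁ → (∀ R : ℝ, 1 ≤ R → FlatL2 n ν R t) →
    FlatL2 n ν 1 (t / 2) :=
  improvement_main n d hn hnd c C C₁ C₂ hc hC

/-- Lemma 11: flat at infinity implies flat -/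
theorem liouville2 (n d : ℕ) (hn : 1 ≤ n) (hnd : n ≤ d) (c C C₁ C₂ : ℝ) (hc : 0 < c)
    (hC : 0 < C) : ∃ ε₁ : ℝ, 0 < ε₁ ∧ ∀ (ν : Measure (Eu d)), Lim n c C C₁ C₂ ν →
    (0 : Eu d) ∈ ν.support → (∀ R : ℝ, 1 ≤ R → FlatL2 n ν R ε₁) →
    ∃ (b : Eu d) (ι : Eu n →ₗᵢ[ℝ] Eu d) (g : ℝ), c / kap n ≤ g ∧ g ≤ C / kap n ∧
      ∀ f : Eu d → ℝ, Continuous f → HasCompactSupport f →
        ∫ x, f x ∂ν = g * ∫ v, f (b + ι v) :=
  liouville2_of n d hn hnd c C C₁ C₂ hc hC (improvement n d hn hnd c C C₁ C₂ hc hC)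

end Vale.Agent.P120
end
end

section

section

/-! Lemma P: persistence of flatness. Owner module: PERS (helper794) -/

open MeasureTheory Metric Set Filter Topology
open scoped ENNReal NNReal

namespace Vale.Agent.P120

variable {d n : ℕ} {c C C₁ : ℝ} {D : ℝ≥0∞} {μ : Measure (Eu d)}

theorem simTi_refl (a : Eu d) (r : ℝ) (x : Eu d) :
    simTi (LinearIsometryEquiv.refl ℝ (Eu d)) a r x = a + r • x := rfl

/-- scaling of `Flat` -/
theorem Flat.simM {m : ℕ} {a : Eu d} {r R δ : ℝ} (n : ℕ) (hr : 0 < r)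
    (h : Flat m μ a (r * R) δ) :
    Flat m (simM n (LinearIsometryEquiv.refl ℝ (Eu d)) a r μ) 0 R δ := by
  obtain ⟨W, b, hW, hb⟩ := h
  refine ⟨W, r⁻¹ • (b - a), hW, fun x hx hxR => ?_⟩
  have hx' := (mem_support_simM (LinearIsometryEquiv.refl ℝ (Eu d)) a n hr μ x).1 hx
  rw [simTi_refl] at hx'
  have h1 := hb _ hx' (by
    rw [dist_eq_norm, add_sub_cancel_left, norm_smul, Real.norm_of_nonneg hr.le]
    rw [dist_zero_right] at hxR
    (clear * - hxR hr; gcongr))
  have h2 : x - r⁻¹ • (b - a) = r⁻¹ • ((a + r • x) - b) := by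
    have : (a + r • x) - b = r • x - (b - a) := by abel
    rw [this, smul_sub r⁻¹ (r • x), smul_smul, inv_mul_cancel₀ hr.ne', one_smul]
  unfold dP at h1 ⊢
  rw [h2, map_smul, norm_smul, Real.norm_of_nonneg (inv_nonneg.2 hr.le), inv_mul_le_iff₀ hr]
  refine h1.trans (le_of_eq ?_)
  ring

/-- scaling of `NearFlat` -/
theorem NearFlat.of_simM {g₀ g₁ K ε : ℝ} {a : Eu d} {r : ℝ} (hr : 0 < r)
    (h : NearFlat n (simM n (LinearIsometryEquiv.refl ℝ (Eu d)) a r μ) g₀ g₁ 0 1 K ε) :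
    NearFlat n μ g₀ g₁ a r K ε := by
  obtain ⟨b, ι, g, hg₀, hg₁, hN⟩ := h
  refine ⟨a + r • b, ι, g, hg₀, hg₁, fun φ hφ hφK => ?_⟩
  have hrn : 0 < r ^ n := by positivity
  have h1 := hN (fun x => φ (a + r • x)) (fun x y => by
      refine (hφ _ _).trans (le_of_eq ?_)
      rw [dist_add_left, dist_smul₀, Real.norm_of_nonneg hr.le]
      field_simp)
    (fun x hx => by
      refine hφK _ ?_
      rw [dist_eq_norm, add_sub_cancel_left, norm_smul, Real.norm_of_nonneg hr.le]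
      rw [dist_zero_right, mul_one] at hx
      rw [mul_comm]
      (clear * - hr hx; gcongr))
  rw [integral_simM _ a n hr, smul_eq_mul] at h1
  have h2 : ∀ x : Eu d, a + r • simT (LinearIsometryEquiv.refl ℝ (Eu d)) a r x = x := by
    intro x
    rw [← simTi_refl, simTi_simT _ a hr]
  simp only [h2] at h1
  have h3 : ∫ v : Eu n, φ (a + r • (b + ι v)) = (r ^ n)⁻¹ * ∫ v : Eu n, φ (a + r • b + ι v) := by
    have h4 := Measure.integral_comp_smul (volume : Measure (Eu n))
      (fun v => φ (a + r • b + ι v)) r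
    have h5 : ∀ v : Eu n, φ (a + r • (b + ι v)) = φ (a + r • b + ι (r • v)) := by
      intro v
      rw [smul_add, ← add_assoc, map_smul]
    simp only [h5]
    rw [h4, finrank_euclideanSpace_fin, abs_of_pos (by (clear * - hr; positivity)), smul_eq_mul]
  rw [h3] at h1
  have h6 : (r ^ n)⁻¹ * ∫ x, φ x ∂μ - g * ((r ^ n)⁻¹ * ∫ v : Eu n, φ (a + r • b + ι v)) =
      (r ^ n)⁻¹ * (∫ x, φ x ∂μ - g * ∫ v : Eu n, φ (a + r • b + ι v)) := by ring
  rw [h6, abs_mul, abs_of_pos (by (clear * - hr; positivity)), inv_mul_le_iff₀ hrn] at h1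
  refine h1.trans (le_of_eq ?_)
  ring

/-- sup-flatness gives `L^2`-flatness -/
theorem Flat.flatL2 (h : AR n c C D μ) {R δ ε : ℝ} (hR : 0 < R) (hδε : C * δ ^ 2 ≤ ε ^ 2)
    (hf : Flat n μ 0 R δ) : FlatL2 n μ R ε := by
  obtain ⟨W, b, hW, hb⟩ := hf
  have := h.isLocallyFiniteMeasure
  have hC := h.C_pos
  refine ⟨W, b, hW, ?_⟩
  have hfin : μ (ball 0 R) < ⊤ := measure_ball_lt_top
  have h1 : ∫ x in ball (0 : Eu d) R, dP W b x ^ 2 ∂μ ≤
      ∫ x in ball (0 : Eu d) R, (δ * R) ^ 2 ∂μ := by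
    refine setIntegral_mono_on_ae ((integrableOn_dP_sq h W b R).mono_set ball_subset_closedBall)
      (integrableOn_const hfin.ne) measurableSet_ball ?_
    have h2 : ∀ᵐ x ∂μ, x ∈ μ.support := by
      rw [ae_iff]
      exact Measure.measure_compl_support
    filter_upwards [h2] with x hx hxR
    have h3 := hb x hx (by simpa using hxR)
    have h4 : 0 ≤ dP W b x := norm_nonneg _
    exact pow_le_pow_left₀ h4 h3 2
  rw [setIntegral_const, smul_eq_mul] at h1
  have h2 : μ.real (ball 0 R) ≤ C * R ^ n := by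
    rw [measureReal_def]
    refine ENNReal.toReal_le_of_le_ofReal (by (clear * - hC hR; positivity)) ?_
    exact (measure_mono ball_subset_closedBall).trans (h.upper 0 R hR)
  calc ∫ x in ball (0 : Eu d) R, dP W b x ^ 2 ∂μ ≤ μ.real (ball 0 R) * (δ * R) ^ 2 := h1
    _ ≤ C * R ^ n * (δ * R) ^ 2 := by (clear * - h2; (clear * - h2; gcongr))
    _ = (C * δ ^ 2) * R ^ (n + 2) := by ring
    _ ≤ ε ^ 2 * R ^ (n + 2) := by (clear * - hδε hR; gcongr)

theorem persistence (n d : ℕ) (hn : 1 ≤ n) (hnd : n ≤ d) (c C C₁ : ℝ) (hc : 0 < c)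
    (hC : 0 < C) : ∃ ε₀ : ℝ, 0 < ε₀ ∧ ∀ K ε : ℝ, 0 < K → 0 < ε → ∃ M : ℝ, 1 ≤ M ∧
    ∀ (μ : Measure (Eu d)) (D : ℝ≥0∞), AR n c C D μ → RB n C₁ μ →
    ∀ a ∈ μ.support, ∀ r : ℝ, 0 < r → ENNReal.ofReal (M * r) ≤ D →
    ∀ θ : Eu d → ℝ, LipC θ → (∀ x, 0 ≤ θ x ∧ θ x ≤ 1) → (∀ x, dist x a ≤ M * r → θ x = 1) →
      Good n M μ θ a r → (∀ R : ℝ, r ≤ R → R ≤ M * r → Flat n μ a R ε₀) →
      NearFlat n μ (c / kap n) (C / kap n) a r K ε := by
  obtain ⟨C₂, hC₂, hlim⟩ := lim_of_good n hn C hC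
  obtain ⟨ε₁, hε₁, hliou⟩ := liouville2 n d hn hnd c C C₁ C₂ hc hC
  set ε₀ : ℝ := ε₁ / (1 + C) with hε₀
  have hε₀pos : 0 < ε₀ := by (clear * - hε₁ hC; positivity)
  have hε₀1 : C * ε₀ ^ 2 ≤ ε₁ ^ 2 := by
    have h1 : ε₁ = ε₀ * (1 + C) := by rw [hε₀]; (clear * - hC hε₁; field_simp)
    rw [h1, mul_pow, mul_comm]
    gcongr
    nlinarith only [hC]
  refine ⟨ε₀, hε₀pos, ?_⟩
  intro K ε hK hε
  by_contra hcon
  have hseq : ∀ k : ℕ, ∃ (μ : Measure (Eu d)) (θ : Eu d → ℝ),
      AR n c C (ENNReal.ofReal ((k : ℝ) + 1)) μ ∧ RB n C₁ μ ∧ (0 : Eu d) ∈ μ.support ∧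
      LipC θ ∧ (∀ x, 0 ≤ θ x ∧ θ x ≤ 1) ∧ (∀ x, dist x 0 ≤ (k : ℝ) + 1 → θ x = 1) ∧
      Good n ((k : ℝ) + 1) μ θ 0 1 ∧ (∀ R : ℝ, 1 ≤ R → R ≤ (k : ℝ) + 1 → Flat n μ 0 R ε₀) ∧
      ¬ NearFlat n μ (c / kap n) (C / kap n) 0 1 K ε := by
    intro k
    by_contra hk
    apply hcon
    have hk1 : (1 : ℝ) ≤ (k : ℝ) + 1 := by
      have : (0 : ℝ) ≤ k := Nat.cast_nonneg k
      linarith only []
    refine ⟨(k : ℝ) + 1, hk1, ?_⟩
    intro μ D hAR hRB a ha r hr hD θ hθ hθ01 hθ1 hG hF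
    by_contra hN
    apply hk
    have hlf := hAR.isLocallyFiniteMeasure
    set O := LinearIsometryEquiv.refl ℝ (Eu d) with hO
    have hcomp : ∀ x, (fun y => θ (a + r • y)) (simT O a r x) = θ x := by
      intro x
      change θ (a + r • simT O a r x) = θ x
      congr 1
      exact simTi_simT O a hr x
    refine ⟨simM n O a r μ, fun y => θ (a + r • y), ?_, hRB.simM O a hr, ?_, ?_,
      fun x => hθ01 _, ?_, ?_, ?_, ?_⟩
    · refine hAR.simM O a hr fun ρ hρ hρD => (ENNReal.ofReal_le_ofReal ?_).trans hD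
      rw [mul_comm]
      gcongr
      exact (ENNReal.ofReal_le_ofReal_iff (by linarith only [])).1 hρD
    · rw [mem_support_simM O a n hr]
      have : simTi O a r 0 = a := by
        rw [hO, simTi_refl, smul_zero, add_zero]
      rwa [this]
    · obtain ⟨L, hL0, hL⟩ := hθ.exists_lip
      obtain ⟨S, hS0, hS⟩ := hθ.exists_ball a
      refine lipC_of_bound (L := L * r) (R := (S + 1) / r) (a := 0) ?_ ?_
      · intro x y
        refine (hL _ _).trans (le_of_eq ?_)
        rw [dist_add_left, dist_smul₀, Real.norm_of_nonneg hr.le]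
        ring
      · intro x hx
        apply hS
        rw [dist_eq_norm, add_sub_cancel_left, norm_smul, Real.norm_of_nonneg hr.le]
        rw [dist_zero_right, div_le_iff₀ hr] at hx
        linarith only [hx]
    · intro x hx
      apply hθ1
      rw [dist_eq_norm, add_sub_cancel_left, norm_smul, Real.norm_of_nonneg hr.le]
      rw [dist_zero_right] at hx
      rw [mul_comm]
      (clear * - hr hx; gcongr)
    · refine Good.simM O a hr one_pos ?_
      have h1 : simTi O a r 0 = a := by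
        rw [hO, simTi_refl, smul_zero, add_zero]
      rw [h1, mul_one]
      simp only [hcomp]
      exact hG
    · intro R hR1 hR2
      refine Flat.simM n hr (hF (r * R) ?_ ?_)
      · nlinarith only [hr, hR1]
      · rw [mul_comm]; (clear * - hr hR2; (clear * - hR2 hr; gcongr))
    · intro hNF
      exact hN (NearFlat.of_simM hr hNF)
  choose μ θ hAR hRB h0 hθL hθ01 hθ1 hG hF hN using hseq
  obtain ⟨ν, hν, hl⟩ := exists_vagueLim n C μ (fun k => (hAR k).upper)
  have hM : Tendsto (fun k : ℕ => (k : ℝ) + 1) (UU : Filter ℕ) atTop := by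
    have h1 : Tendsto (fun k : ℕ => (k : ℝ) + 1) atTop atTop :=
      tendsto_atTop_add_const_right _ _ tendsto_natCast_atTop_atTop
    refine h1.mono_left ?_
    rw [← Nat.cofinite_eq_atTop]
    exact Filter.hyperfilter_le_cofinite
  have hD : Tendsto (fun k : ℕ => ENNReal.ofReal ((k : ℝ) + 1)) (UU : Filter ℕ) (𝓝 ⊤) :=
    ENNReal.tendsto_ofReal_atTop.comp hM
  have hLim := hlim d c C₁ μ _ ν _ θ hAR hRB hD hν hl h0 hM hθL hθ01 hθ1 hG
  have h0ν : (0 : Eu d) ∈ ν.support :=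
    mem_support_lim hAR hD hν hl (x := fun _ => 0) (Eventually.of_forall h0) tendsto_const_nhds
  obtain ⟨b, ι, g, hg₀, hg₁, hg⟩ := hliou ν hLim h0ν (fun R hR => by
    refine Flat.flatL2 hLim.ar (by linarith only [hR]) hε₀1 ?_
    refine flat_lim hnd hAR hD hν hl h0 R ε₀ (by linarith only [hR]) hε₀pos.le ?_
    filter_upwards [hM.eventually_ge_atTop R] with k hk
    exact hF k R hR hk)
  have hNF := nf_of_lim hn hAR hν hl b ι g hg K ε hK hε
  obtain ⟨k, hk⟩ := hNF.exists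
  exact hN k ⟨b, ι, g, hg₀, hg₁, hk⟩

end Vale.Agent.P120
end
end

section

section

/-! Abstract cube systems used in Theorem A. Owner: helper492 -/

open MeasureTheory Metric Set Filter Topology
open scoped ENNReal NNReal

namespace Vale.Agent.P120

variable {d n : ℕ} {μ : Measure (Eu d)} {c C : ℝ} {D : ℝ≥0∞}

/-- scale of generation `j` -/
noncomputable def sc (A : ℕ) (l₀ : ℝ) (j : ℕ) : ℝ := l₀ * ((A : ℝ) ^ j)⁻¹

theorem sc_pos {A : ℕ} (hA : 16 ≤ A) {l₀ : ℝ} (hl : 0 < l₀) (j : ℕ) : 0 < sc A l₀ j := by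
  unfold sc
  have : (0 : ℝ) < A := by
    have : (16 : ℝ) ≤ A := by exact_mod_cast hA
    linarith only [this]
  (clear * - hl hA; positivity)

theorem sc_zero (A : ℕ) (l₀ : ℝ) : sc A l₀ 0 = l₀ := by simp only [sc, pow_zero, inv_one, mul_one]

theorem sc_add {A : ℕ} (hA : 16 ≤ A) (l₀ : ℝ) (j k : ℕ) :
    sc A l₀ j = sc A l₀ (j + k) * (A : ℝ) ^ k := by
  unfold sc
  have : (0 : ℝ) < A := by
    have : (16 : ℝ) ≤ A := by exact_mod_cast hA
    linarith only [this]
  rw [pow_add]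
  field_simp

theorem sc_succ {A : ℕ} (hA : 16 ≤ A) (l₀ : ℝ) (j : ℕ) :
    sc A l₀ j = sc A l₀ (j + 1) * A := by
  have := sc_add hA l₀ j 1
  simpa only [pow_one] using this

theorem sc_anti {A : ℕ} (hA : 16 ≤ A) {l₀ : ℝ} (hl : 0 < l₀) {i j : ℕ} (hij : i ≤ j) :
    sc A l₀ j ≤ sc A l₀ i := by
  obtain ⟨k, rfl⟩ := Nat.exists_eq_add_of_le hij
  rw [sc_add hA l₀ i k]
  have h1 : (1 : ℝ) ≤ (A : ℝ) ^ k := by
    apply one_le_pow₀
    have : (16 : ℝ) ≤ A := by exact_mod_cast hA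
    linarith only [this]
  have := sc_pos hA hl (i + k)
  nlinarith only [h1, this]

theorem sc_le {A : ℕ} (hA : 16 ≤ A) {l₀ : ℝ} (hl : 0 < l₀) (j : ℕ) : sc A l₀ j ≤ l₀ := by
  have := sc_anti hA hl (Nat.zero_le j)
  rwa [sc_zero] at this

/-- choice of an intermediate scale -/
theorem scale_find {A : ℕ} (hA : 16 ≤ A) {l₀ : ℝ} {j m : ℕ} (hm : 1 ≤ m)
    (hmj : m ≤ j) {R : ℝ} (h1 : sc A l₀ j ≤ R) (h2 : R ≤ sc A l₀ (j - m)) :
    ∃ i, j - m ≤ i ∧ i < j ∧ R ≤ sc A l₀ i ∧ sc A l₀ i ≤ A * R := by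
  classical
  have hex : ∃ k, 1 ≤ k ∧ R ≤ sc A l₀ (j - k) := ⟨m, hm, h2⟩
  set k := Nat.find hex with hk
  obtain ⟨hk1, hk2⟩ := Nat.find_spec hex
  rw [← hk] at hk1 hk2
  have hkm : k ≤ m := Nat.find_min' hex ⟨hm, h2⟩
  have hA0 : (0 : ℝ) < A := by
    have : (16 : ℝ) ≤ A := by exact_mod_cast hA
    linarith only [this]
  refine ⟨j - k, by (clear * - hmj hex hkm; omega), by omega, hk2, ?_⟩
  have hs : sc A l₀ (j - k) = sc A l₀ (j - k + 1) * A := sc_succ hA l₀ _
  have h3 : sc A l₀ (j - k + 1) ≤ R := by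
    rcases Nat.eq_or_lt_of_le hk1 with h | h
    · rw [← h]
      have : j - 1 + 1 = j := by omega
      rw [this]; exact h1
    · have hnot := Nat.find_min hex (m := k - 1) (by omega)
      push Not at hnot
      have h4 := hnot (by omega)
      have h5 : j - (k - 1) = j - k + 1 := by (clear * - hmj hex hkm h; omega)
      rw [h5] at h4
      exact h4.le
  rw [hs, mul_comm]
  (clear * - h3 hA; gcongr)

/-- separated subsets of bounded sets are finite -/
theorem finite_of_sep (S : Set (Eu d)) (x₀ : Eu d) (R δ : ℝ) (hδ : 0 < δ)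
    (hS : S ⊆ closedBall x₀ R) (hsep : ∀ x ∈ S, ∀ y ∈ S, x ≠ y → δ ≤ dist x y) : S.Finite := by
  obtain ⟨t, -, ht, hcov⟩ := (isCompact_closedBall x₀ R).finite_cover_balls (half_pos hδ)
  have hch : ∀ x : S, ∃ y ∈ t, (x : Eu d) ∈ ball y (δ / 2) := by
    intro x
    have := hcov (hS x.2)
    simpa only [mem_ball, mem_iUnion, exists_prop] using this
  choose f hf1 hf2 using hch
  have hinj : Function.Injective f := by
    intro x y hxy
    by_contra hne
    have h1 := hsep x x.2 y y.2 (fun h => hne (Subtype.ext h))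
    have h2 := hf2 x
    have h3 := hf2 y
    rw [← hxy] at h3
    rw [mem_ball] at h2 h3
    have : dist (x : Eu d) y < δ := by
      calc dist (x : Eu d) y ≤ dist (x : Eu d) (f x) + dist (f x) (y : Eu d) := dist_triangle _ _ _
        _ = dist (x : Eu d) (f x) + dist (y : Eu d) (f x) := by rw [dist_comm (f x)]
        _ < δ := by linarith only [h2, h3]
    linarith only [h1, this]
  have : Finite S := by
    have := ht.to_subtype
    exact Finite.of_injective (fun x => (⟨f x, hf1 x⟩ : t))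
      (fun x y h => hinj (congrArg Subtype.val h))
  exact Set.toFinite S

/-- abstract nested cube system on the support of `μ`; `p j x` is the centre of the generation
`j` cube of `x` -/
structure Sys (μ : Measure (Eu d)) (A : ℕ) (l₀ : ℝ) (x₀ : Eu d) (p : ℕ → Eu d → Eu d) : Prop where
  meas : ∀ j z, MeasurableSet {x | x ∈ μ.support ∧ p j x = z}
  mem : ∀ j, ∀ x ∈ μ.support, p j x ∈ μ.support
  near : ∀ j, ∀ x ∈ μ.support, dist x (p j x) ≤ 2 * sc A l₀ j
  nest : ∀ j, ∀ x ∈ μ.support, ∀ y ∈ μ.support, p (j + 1) x = p (j + 1) y → p j x = p j y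
  sep : ∀ j, ∀ x ∈ μ.support, ∀ y ∈ μ.support, p j x ≠ p j y →
    sc A l₀ j ≤ dist (p j x) (p j y)
  inner : ∀ j, ∀ x ∈ μ.support, ∀ y ∈ μ.support, dist y (p j x) < sc A l₀ j / 4 →
    p j y = p j x
  root : p 0 x₀ = x₀

/-- the root cube -/
def rootC {d : ℕ} (μ : Measure (Eu d)) (x₀ : Eu d) (p : ℕ → Eu d → Eu d) : Set (Eu d) :=
  {x | x ∈ μ.support ∧ p 0 x = x₀}

variable {A : ℕ} {l₀ : ℝ} {x₀ : Eu d} {p : ℕ → Eu d → Eu d}

theorem Sys.nest_le (h : Sys μ A l₀ x₀ p) {i j : ℕ} (hij : i ≤ j) {x y : Eu d}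
    (hx : x ∈ μ.support) (hy : y ∈ μ.support) (hxy : p j x = p j y) : p i x = p i y := by
  induction j, hij using Nat.le_induction with
  | base => exact hxy
  | succ j hij ih => exact ih (h.nest j x hx y hy hxy)

theorem Sys.idem (h : Sys μ A l₀ x₀ p) (hA : 16 ≤ A) (hl : 0 < l₀) (j : ℕ) {x : Eu d}
    (hx : x ∈ μ.support) : p j (p j x) = p j x := by
  apply h.inner j x hx _ (h.mem j x hx)
  rw [dist_self]
  have := sc_pos hA hl j
  linarith only [this]

theorem Sys.p_p (h : Sys μ A l₀ x₀ p) (hA : 16 ≤ A) (hl : 0 < l₀) {i j : ℕ} (hij : i ≤ j)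
    {x : Eu d} (hx : x ∈ μ.support) : p i (p j x) = p i x :=
  h.nest_le hij (h.mem j x hx) hx (h.idem hA hl j hx)

theorem Sys.dist_p (h : Sys μ A l₀ x₀ p) (hA : 16 ≤ A) (hl : 0 < l₀) {i j : ℕ} (hij : i ≤ j)
    {x : Eu d} (hx : x ∈ μ.support) : dist (p j x) (p i x) ≤ 2 * sc A l₀ i := by
  have := h.near i (p j x) (h.mem j x hx)
  rwa [h.p_p hA hl hij hx] at this

theorem Sys.mem_root (h : Sys μ A l₀ x₀ p) (hx₀ : x₀ ∈ μ.support) : x₀ ∈ rootC μ x₀ p :=
  ⟨hx₀, h.root⟩

theorem Sys.p_mem_root (h : Sys μ A l₀ x₀ p) (hA : 16 ≤ A) (hl : 0 < l₀) (j : ℕ)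
    {x : Eu d} (hx : x ∈ rootC μ x₀ p) : p j x ∈ rootC μ x₀ p := by
  refine ⟨h.mem j x hx.1, ?_⟩
  rw [h.p_p hA hl (Nat.zero_le j) hx.1, hx.2]

theorem Sys.dist_root (h : Sys μ A l₀ x₀ p) {x : Eu d} (hx : x ∈ rootC μ x₀ p) :
    dist x x₀ ≤ 2 * l₀ := by
  have := h.near 0 x hx.1
  rwa [hx.2, sc_zero] at this

theorem Sys.finite (h : Sys μ A l₀ x₀ p) (hA : 16 ≤ A) (hl : 0 < l₀) (j : ℕ) :
    (p j '' rootC μ x₀ p).Finite := by
  apply finite_of_sep _ x₀ (2 * l₀) (sc A l₀ j) (sc_pos hA hl j)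
  · rintro _ ⟨x, hx, rfl⟩
    rw [mem_closedBall]
    exact h.dist_root (h.p_mem_root hA hl j hx)
  · rintro _ ⟨x, hx, rfl⟩ _ ⟨y, hy, rfl⟩ hne
    exact h.sep j x hx.1 y hy.1 hne

theorem Sys.measurableSet_root (h : Sys μ A l₀ x₀ p) : MeasurableSet (rootC μ x₀ p) := h.meas 0 x₀

theorem Sys.hmeas (h : Sys μ A l₀ x₀ p) (j : ℕ) (z : Eu d) :
    MeasurableSet {x | x ∈ rootC μ x₀ p ∧ p j x = z} := by
  have : {x | x ∈ rootC μ x₀ p ∧ p j x = z} =
      rootC μ x₀ p ∩ {x | x ∈ μ.support ∧ p j x = z} := by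
    ext x
    constructor
    · rintro ⟨h1, h2⟩; exact ⟨h1, h1.1, h2⟩
    · rintro ⟨h1, h2⟩; exact ⟨h1, h2.2⟩
  rw [this]
  exact h.measurableSet_root.inter (h.meas j z)

theorem Sys.measure_cell_le (h : Sys μ A l₀ x₀ p) (hAR : AR n c C D μ) (hA : 16 ≤ A)
    (hl : 0 < l₀) (j : ℕ) (z : Eu d) :
    μ.real {x | x ∈ rootC μ x₀ p ∧ p j x = z} ≤ C * (2 * sc A l₀ j) ^ n := by
  have hs := sc_pos hA hl j
  have h1 : μ {x | x ∈ rootC μ x₀ p ∧ p j x = z} ≤ ENNReal.ofReal (C * (2 * sc A l₀ j) ^ n) := by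
    refine (measure_mono ?_).trans (hAR.upper z (2 * sc A l₀ j) (by (clear * - hs; positivity)))
    rintro x ⟨hx1, rfl⟩
    exact h.near j x hx1.1
  have hC := hAR.C_pos
  exact ENNReal.toReal_le_of_le_ofReal (by (clear * - hC hs; positivity)) h1

theorem Sys.le_measure_cell (h : Sys μ A l₀ x₀ p) (hAR : AR n c C D μ) (hA : 16 ≤ A)
    (hl : 0 < l₀) (hD : ENNReal.ofReal l₀ ≤ D) (j : ℕ) {y : Eu d} (hy : y ∈ rootC μ x₀ p) :
    c * (sc A l₀ j / 4) ^ n ≤ μ.real (cell (rootC μ x₀ p) p j y) := by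
  have hs := sc_pos hA hl j
  have hlf := hAR.isLocallyFiniteMeasure
  have h1 : ENNReal.ofReal (c * (sc A l₀ j / 4) ^ n) ≤ μ (cell (rootC μ x₀ p) p j y) := by
    refine (hAR.lower (p j y) (h.mem j y hy.1) (sc A l₀ j / 4) (by (clear * - hs; positivity)) ?_).trans ?_
    · refine (ENNReal.ofReal_le_ofReal ?_).trans hD
      have := sc_le hA hl j
      linarith only [hl, this]
    · have h2 : μ (ball (p j y) (sc A l₀ j / 4)) =
          μ (ball (p j y) (sc A l₀ j / 4) ∩ μ.support) := by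
        apply le_antisymm
        · calc μ (ball (p j y) (sc A l₀ j / 4)) ≤
              μ ((ball (p j y) (sc A l₀ j / 4) ∩ μ.support) ∪ μ.supportᶜ) := by
                apply measure_mono
                intro x hx
                by_cases hxs : x ∈ μ.support
                · exact Or.inl ⟨hx, hxs⟩
                · exact Or.inr hxs
            _ ≤ _ := measure_union_le _ _
            _ = _ := by rw [Measure.measure_compl_support, add_zero]
        · exact measure_mono inter_subset_left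
      rw [h2]
      apply measure_mono
      rintro x ⟨hx1, hx2⟩
      rw [mem_ball] at hx1
      have h3 : p j x = p j y := h.inner j y hy.1 x hx2 hx1
      refine ⟨⟨hx2, ?_⟩, h3⟩
      rw [h.nest_le (Nat.zero_le j) hx2 hy.1 h3]
      exact hy.2
  have h4 : μ (cell (rootC μ x₀ p) p j y) ≠ ⊤ := by
    refine ((measure_mono ?_).trans_lt (hAR.measure_ball_lt_top x₀ (2 * l₀))).ne
    intro x hx
    rw [mem_closedBall]
    exact h.dist_root hx.1
  exact (ENNReal.ofReal_le_iff_le_toReal h4).1 h1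

end Vale.Agent.P120
end
end

section

section

/-! Theorem A: the cubes which are not near-flat are Carleson packed. Owner: helper492 -/

open MeasureTheory Metric Set Filter Topology
open scoped ENNReal NNReal

namespace Vale.Agent.P120

variable {n d : ℕ} {μ : Measure (Eu d)} {c C : ℝ} {D : ℝ≥0∞}
  {A : ℕ} {l₀ : ℝ} {x₀ : Eu d} {p : ℕ → Eu d → Eu d}

theorem NF.mono {a : Eu d} {r K K' ε ε' : ℝ} {b : Eu d} {ι : Eu n →ₗᵢ[ℝ] Eu d} {g : ℝ}
    (hr : 0 < r) (hK : K ≤ K') (hε : ε' ≤ ε) (h : NF n μ a r K' ε' b ι g) :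
    NF n μ a r K ε b ι g := by
  intro φ h1 h2
  refine (h φ h1 (fun x hx => h2 x (le_trans ?_ hx))).trans ?_
  · (clear * - hK hr; gcongr)
  · (clear * - hε hr; gcongr)

theorem NearFlat.mono {g₀ g₁ : ℝ} {a : Eu d} {r K K' ε ε' : ℝ}
    (hr : 0 < r) (hK : K ≤ K') (hε : ε' ≤ ε) (h : NearFlat n μ g₀ g₁ a r K' ε') :
    NearFlat n μ g₀ g₁ a r K ε := by
  obtain ⟨b, ι, g, h1, h2, h3⟩ := h
  exact ⟨b, ι, g, h1, h2, h3.mono hr hK hε⟩

theorem cnt_mono {X ι : Type*} (p : ℕ → X → ι) {P Q : ℕ → ι → Prop} (h : ∀ j z, P j z → Q j z)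
    (j J : ℕ) (x : X) : cnt p P j J x ≤ cnt p Q j J x := by
  classical
  unfold cnt
  apply Finset.sum_le_sum
  intro i _
  by_cases hP : P i (p i x)
  · rw [if_pos hP, if_pos (h _ _ hP)]
  · rw [if_neg hP]
    by_cases hQ : Q i (p i x)
    · rw [if_pos hQ]; norm_num
    · rw [if_neg hQ]

theorem cut_nonneg_ta (a : Eu d) (S : ℝ) (x : Eu d) : 0 ≤ cut a S x := le_max_left _ _

theorem cut_le_one_ta (a : Eu d) (S : ℝ) (x : Eu d) : cut a S x ≤ 1 :=
  max_le zero_le_one (min_le_left _ _)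

theorem cut_eq_one_ta {a : Eu d} {S : ℝ} (hS : 0 < S) {x : Eu d} (hx : dist x a ≤ S) :
    cut a S x = 1 := by
  have h1 : dist x a / S ≤ 1 := (div_le_one hS).2 hx
  unfold cut
  rw [min_eq_left (by linarith only [h1]), max_eq_right zero_le_one]

theorem cut_eq_zero_ta (a : Eu d) {S : ℝ} (hS : 0 < S) {x : Eu d} (hx : 2 * S ≤ dist x a) :
    cut a S x = 0 := by
  have h1 : 2 ≤ dist x a / S := (le_div_iff₀ hS).2 hx
  unfold cut
  rw [max_eq_left ((min_le_right _ _).trans (by linarith only [h1]))]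

/-- packing of bad cubes -/
theorem bad_cubes (n d A : ℕ) (hn : 1 ≤ n) (hA : 16 ≤ A) (c C C₁ M : ℝ) (hC : 0 < C)
    (hM : 1 ≤ M) :
    ∃ CB : ℝ, 0 < CB ∧ ∀ (μ : Measure (Eu d)) (D : ℝ≥0∞), AR n c C D μ → RB n C₁ μ →
    ∀ x₀ ∈ μ.support, ∀ l₀ : ℝ, 0 < l₀ → ENNReal.ofReal l₀ ≤ D → ∀ p : ℕ → Eu d → Eu d,
    Sys μ A l₀ x₀ p → ∀ J : ℕ,
      ∫ x in rootC μ x₀ p,
        cnt p (fun j z => ¬ Good n M μ (cut x₀ (3 * l₀)) z (sc A l₀ j)) 0 J x ∂μ ≤
        CB * l₀ ^ n := by
  classical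
  obtain ⟨Cp, hCp, hpack⟩ := packing n d A hn (by omega) c C C₁ M hM
  have hA0 : (16 : ℝ) ≤ A := by exact_mod_cast hA
  have hAp : (0 : ℝ) < A := by linarith only [hA0]
  refine ⟨C * 2 ^ n * (Cp * (A : ℝ) ^ n), by (clear * - hC hCp hA; positivity), ?_⟩
  intro μ D hAR hRB x₀ hx₀ l₀ hl hlD p hS J
  set θ := cut x₀ (3 * l₀) with hθ
  set S₀ := rootC μ x₀ p with hS₀
  set Bad : ℕ → Eu d → Prop := fun j z => ¬ Good n M μ θ z (sc A l₀ j) with hBad
  have hfin : ∀ j, (p j '' S₀).Finite := fun j => hS.finite hA hl j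
  set Z : ℕ → Finset (Eu d) := fun j => ((hfin j).toFinset).filter (fun z => Bad j z) with hZ
  -- the measure of the bad part at generation `j`
  have hμS₀ : μ S₀ ≠ ⊤ := by
    refine ((measure_mono ?_).trans_lt (hAR.measure_ball_lt_top x₀ (2 * l₀))).ne
    intro x hx
    rw [mem_closedBall]
    exact hS.dist_root hx
  have hfm : IsFiniteMeasure (μ.restrict S₀) := ⟨by
    rw [Measure.restrict_apply_univ]; exact lt_top_iff_ne_top.2 hμS₀⟩
  have hpred : ∀ j, MeasurableSet {x | x ∈ S₀ ∧ Bad j (p j x)} := fun j =>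
    measurable_pred (J := j) (fun i _ => hfin i) (fun i _ z => hS.hmeas i z) Bad le_rfl
  have h1 : ∀ j, ∫ x in S₀, (if Bad j (p j x) then (1 : ℝ) else 0) ∂μ =
      μ.real {x | x ∈ S₀ ∧ Bad j (p j x)} := by
    intro j
    have e1 : ∫ x in S₀, (if Bad j (p j x) then (1 : ℝ) else 0) ∂μ =
        ∫ x in S₀, Set.indicator {x | x ∈ S₀ ∧ Bad j (p j x)} (fun _ => (1 : ℝ)) x ∂μ := by
      apply setIntegral_congr_fun hS.measurableSet_root
      intro x hx
      by_cases hP : Bad j (p j x)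
      · have hm : x ∈ {x | x ∈ S₀ ∧ Bad j (p j x)} := ⟨hx, hP⟩
        simp only [Set.indicator_of_mem hm, if_pos hP]
      · have hm : x ∉ {x | x ∈ S₀ ∧ Bad j (p j x)} := fun h => hP h.2
        simp only [Set.indicator_of_notMem hm, if_neg hP]
    rw [e1, setIntegral_indicator (hpred j), setIntegral_const, smul_eq_mul, mul_one]
    congr 1
    ext x
    constructor
    · rintro ⟨-, h⟩; exact h
    · intro h; exact ⟨h.1, h⟩
  have h2 : ∀ j, μ.real {x | x ∈ S₀ ∧ Bad j (p j x)} ≤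
      ∑ z ∈ Z j, C * (2 * sc A l₀ j) ^ n := by
    intro j
    have e1 : {x | x ∈ S₀ ∧ Bad j (p j x)} = ⋃ z ∈ Z j, {x | x ∈ S₀ ∧ p j x = z} := by
      ext x
      simp only [mem_iUnion, hZ, Finset.mem_filter, Set.Finite.mem_toFinset, mem_image]
      constructor
      · rintro ⟨hx, hP⟩
        exact ⟨p j x, ⟨⟨x, hx, rfl⟩, hP⟩, hx, rfl⟩
      · rintro ⟨z, ⟨-, hP⟩, hx, rfl⟩
        exact ⟨hx, hP⟩
    rw [e1]
    refine (measureReal_biUnion_finset_le _ _).trans ?_
    apply Finset.sum_le_sum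
    intro z _
    exact hS.measure_cell_le hAR hA hl j z
  have h3 : ∫ x in S₀, cnt p Bad 0 J x ∂μ ≤
      ∑ j ∈ Finset.Icc 0 J, ∑ z ∈ Z j, C * (2 * sc A l₀ j) ^ n := by
    have e1 : ∫ x in S₀, cnt p Bad 0 J x ∂μ =
        ∑ j ∈ Finset.Icc 0 J, ∫ x in S₀, (if Bad j (p j x) then (1 : ℝ) else 0) ∂μ := by
      unfold cnt
      rw [integral_finsetSum]
      · apply Finset.sum_congr rfl
        intro j _
        congr 1
        ext x
        congr 1
      · intro j _
        have hi : IntegrableOn (Set.indicator {x | x ∈ S₀ ∧ Bad j (p j x)}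
            (fun _ => (1 : ℝ))) S₀ μ :=
          (integrable_const (1 : ℝ)).indicator (hpred j)
        refine IntegrableOn.congr_fun hi ?_ hS.measurableSet_root
        intro x hx
        by_cases hP : Bad j (p j x)
        · have hm : x ∈ {x | x ∈ S₀ ∧ Bad j (p j x)} := ⟨hx, hP⟩
          simp only [Set.indicator_of_mem hm, if_pos hP]
        · have hm : x ∉ {x | x ∈ S₀ ∧ Bad j (p j x)} := fun h => hP h.2
          simp only [Set.indicator_of_notMem hm, if_neg hP]
    rw [e1]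
    apply Finset.sum_le_sum
    intro j _
    rw [h1 j]
    exact h2 j
  refine h3.trans ?_
  -- apply packing
  set r₀ : ℝ := A * l₀ with hr₀
  have hr₀p : 0 < r₀ := by (clear * - hA hl; positivity)
  have hsc : ∀ j, r₀ * ((A : ℝ) ^ (j + 1))⁻¹ = sc A l₀ j := by
    intro j
    rw [hr₀, sc, pow_succ]
    (clear * - hA hl; field_simp)
  set I : Finset (Eu d × ℕ) := (Finset.Icc 0 J).biUnion
    (fun j => (Z j).image (fun z => (z, j + 1))) with hI
  have hmemI : ∀ i ∈ I, ∃ j, i.2 = j + 1 ∧ i.1 ∈ Z j := by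
    intro i hi
    rw [hI, Finset.mem_biUnion] at hi
    obtain ⟨j, -, hj⟩ := hi
    rw [Finset.mem_image] at hj
    obtain ⟨z, hz, rfl⟩ := hj
    exact ⟨j, rfl, hz⟩
  have hmemZ : ∀ j, ∀ z ∈ Z j, z ∈ S₀ ∧ p j z = z ∧ Bad j z := by
    intro j z hz
    simp only [hZ, Finset.mem_filter, Set.Finite.mem_toFinset, mem_image] at hz
    obtain ⟨⟨x, hx, rfl⟩, hb⟩ := hz
    exact ⟨hS.p_mem_root hA hl j hx, hS.idem hA hl j hx.1, hb⟩
  have h4 := hpack μ D hAR hRB x₀ r₀ θ hr₀p (lipC_cut x₀ (3 * l₀) (by (clear * - hl; positivity)))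
    (fun x => ⟨cut_nonneg_ta _ _ x, cut_le_one_ta _ _ x⟩) (by
      intro x hx
      apply cut_eq_zero_ta _ (by (clear * - hl; positivity))
      rw [hr₀] at hx
      nlinarith only [hA0, hl, hr₀p, hx]) I (by
      intro i hi
      obtain ⟨j, hj, hz⟩ := hmemI i hi
      obtain ⟨z1, z2, z3⟩ := hmemZ j _ hz
      refine ⟨z1.1, ?_, ?_, ?_⟩
      · refine (hS.dist_root z1).trans ?_
        rw [hr₀]; nlinarith only [hA0, hl]
      · rw [hj, hsc]
        exact (ENNReal.ofReal_le_ofReal (sc_le hA hl j)).trans hlD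
      · rw [hj, hsc]
        exact z3) (by
      intro i hi i' hi' hne heq
      obtain ⟨j, hj, hz⟩ := hmemI i hi
      obtain ⟨j', hj', hz'⟩ := hmemI i' hi'
      have hjj : j = j' := by (clear * - heq hj hj'; omega)
      subst hjj
      obtain ⟨z1, z2, -⟩ := hmemZ j _ hz
      obtain ⟨z1', z2', -⟩ := hmemZ j _ hz'
      rw [hj, hsc]
      have hne' : i.1 ≠ i'.1 := fun h => hne (Prod.ext h heq)
      have := hS.sep j i.1 z1.1 i'.1 z1'.1 (by rw [z2, z2']; exact hne')
      rwa [z2, z2'] at this)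
  have h5 : ∑ i ∈ I, (r₀ * ((A : ℝ) ^ i.2)⁻¹) ^ n =
      ∑ j ∈ Finset.Icc 0 J, ∑ z ∈ Z j, (sc A l₀ j) ^ n := by
    rw [hI, Finset.sum_biUnion]
    · apply Finset.sum_congr rfl
      intro j _
      rw [Finset.sum_image]
      · apply Finset.sum_congr rfl
        intro z _
        simp only
        rw [hsc]
      · intro z _ w _ hzw
        exact (Prod.ext_iff.1 hzw).1
    · intro j _ j' _ hne
      simp only [Function.onFun]
      rw [Finset.disjoint_left]
      intro i hi hi'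
      rw [Finset.mem_image] at hi hi'
      obtain ⟨z, -, rfl⟩ := hi
      obtain ⟨w, -, hw⟩ := hi'
      have := (Prod.ext_iff.1 hw).2
      simp only at this
      omega
  rw [h5] at h4
  calc ∑ j ∈ Finset.Icc 0 J, ∑ z ∈ Z j, C * (2 * sc A l₀ j) ^ n
      = C * 2 ^ n * ∑ j ∈ Finset.Icc 0 J, ∑ z ∈ Z j, (sc A l₀ j) ^ n := by
        rw [Finset.mul_sum]
        apply Finset.sum_congr rfl
        intro j _
        rw [Finset.mul_sum]
        apply Finset.sum_congr rfl
        intro z _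
        rw [mul_pow]; ring
    _ ≤ C * 2 ^ n * (Cp * r₀ ^ n) := by (clear * - hC h4; (clear * - h4 hC; gcongr))
    _ = C * 2 ^ n * (Cp * (A : ℝ) ^ n) * l₀ ^ n := by rw [hr₀, mul_pow]; ring

/-- persistence step of the counting argument -/
theorem per_step (hA : 16 ≤ A) {C₁ : ℝ} {ε₀ K' ε' MP : ℝ} (hK' : 4 ≤ K')
    (hP : ∀ (μ : Measure (Eu d)) (D : ℝ≥0∞), AR n c C D μ → RB n C₁ μ →
      ∀ a ∈ μ.support, ∀ r : ℝ, 0 < r → ENNReal.ofReal (MP * r) ≤ D →
      ∀ θ : Eu d → ℝ, LipC θ → (∀ x, 0 ≤ θ x ∧ θ x ≤ 1) → (∀ x, dist x a ≤ MP * r → θ x = 1) →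
      Good n MP μ θ a r → (∀ R : ℝ, r ≤ R → R ≤ MP * r → Flat n μ a R ε₀) →
      NearFlat n μ (c / kap n) (C / kap n) a r K' ε')
    {τ : ℝ} (hτ : 0 < τ) (hτ1 : τ ≤ 1) (hτε : τ * A ≤ ε₀) (hε' : ε' < c * (τ / 2) ^ (n + 1))
    {m₁ : ℕ} (hm₁ : 1 ≤ m₁) (hMm : MP ≤ (A : ℝ) ^ m₁)
    (hAR : AR n c C D μ) (hRB : RB n C₁ μ) (hl : 0 < l₀)
    (hlD : ENNReal.ofReal l₀ ≤ D) (hS : Sys μ A l₀ x₀ p) {j : ℕ} (hj : m₁ ≤ j) {y : Eu d}
    (hy : y ∈ rootC μ x₀ p)
    (hF : ∀ i, j - m₁ ≤ i → i < j →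
      NearFlat n μ (c / kap n) (C / kap n) (p i y) (sc A l₀ i) K' ε')
    (hG : Good n MP μ (cut x₀ (3 * l₀)) (p j y) (sc A l₀ j)) :
    NearFlat n μ (c / kap n) (C / kap n) (p j y) (sc A l₀ j) K' ε' := by
  have hsj := sc_pos hA hl j
  have hz := hS.p_mem_root hA hl j hy
  have hle : MP * sc A l₀ j ≤ sc A l₀ (j - m₁) := by
    have h1 := sc_add hA l₀ (j - m₁) m₁
    have h2 : j - m₁ + m₁ = j := by omega
    rw [h2] at h1
    rw [h1, mul_comm]
    (clear * - hMm hsj; gcongr)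
  have hle0 : MP * sc A l₀ j ≤ l₀ := hle.trans (sc_le hA hl _)
  refine hP μ D hAR hRB (p j y) hz.1 (sc A l₀ j) hsj
    ((ENNReal.ofReal_le_ofReal hle0).trans hlD) (cut x₀ (3 * l₀))
    (lipC_cut x₀ _ (by (clear * - hl; positivity))) (fun x => ⟨cut_nonneg_ta _ _ x, cut_le_one_ta _ _ x⟩) ?_ hG ?_
  · intro x hx
    apply cut_eq_one_ta (by positivity)
    have h1 := hS.dist_root hz
    have := dist_triangle x (p j y) x₀
    linarith only [hle0, hx, h1, this]
  · intro R hR1 hR2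
    obtain ⟨i, hi1, hi2, hi3, hi4⟩ := scale_find hA hm₁ hj hR1 (hR2.trans hle)
    have hsi := sc_pos hA hl i
    refine (hF i hi1 hi2).flat hAR hsi hK'
      ((ENNReal.ofReal_le_ofReal (sc_le hA hl i)).trans hlD) hτ hτ1 hε' hi3
      (hS.dist_p hA hl hi2.le hy.1) ?_
    calc τ * sc A l₀ i ≤ τ * (A * R) := by (clear * - hτ hi4; gcongr)
      _ = (τ * A) * R := by ring
      _ ≤ ε₀ * R := by
        have : 0 < R := lt_of_lt_of_le hsj hR1
        (clear * - hτε this; (clear * - hτε this; gcongr))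

/-- abundance step of the counting argument -/
theorem ab_step (hA : 16 ≤ A) {C₁ : ℝ} {ε₀ K' ε' MP : ℝ}
    (hε₀ : 0 < ε₀) (hMP : 1 ≤ MP)
    (hP : ∀ (μ : Measure (Eu d)) (D : ℝ≥0∞), AR n c C D μ → RB n C₁ μ →
      ∀ a ∈ μ.support, ∀ r : ℝ, 0 < r → ENNReal.ofReal (MP * r) ≤ D →
      ∀ θ : Eu d → ℝ, LipC θ → (∀ x, 0 ≤ θ x ∧ θ x ≤ 1) → (∀ x, dist x a ≤ MP * r → θ x = 1) →
      Good n MP μ θ a r → (∀ R : ℝ, r ≤ R → R ≤ MP * r → Flat n μ a R ε₀) →
      NearFlat n μ (c / kap n) (C / kap n) a r K' ε')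
    {m₁ m₂ : ℕ} {ρ Ct MT Q δ M : ℝ} (hρ : 0 < ρ)
    (hQ : Q = (MP + 2) * (A : ℝ) ^ m₁) (hδ : δ = ε₀ / Q)
    (hT : ∀ (μ : Measure (Eu d)) (D : ℝ≥0∞), AR n c C D μ →
      ∀ (a : Eu d) (r : ℝ) (θ : Eu d → ℝ), 0 < r → ENNReal.ofReal r ≤ D → LipC θ →
      (∀ x, 0 ≤ θ x ∧ θ x ≤ 1) → (∀ x, dist x a ≤ 8 * r → θ x = 1) → Good n MT μ θ a r →
      ∀ x ∈ μ.support, dist x a < r → ∀ s S : ℝ, ρ * r ≤ s → s ≤ S → S ≤ r →
      ‖Trunc n μ s S x‖ ≤ Ct)
    (hab : ∀ (μ : Measure (Eu d)) (D : ℝ≥0∞), AR n c C D μ →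
      ∀ a ∈ μ.support, ∀ r : ℝ, 0 < r → ENNReal.ofReal r ≤ D →
      (∀ x ∈ μ.support, dist x a < r → ∀ s S : ℝ, ρ * r ≤ s → s ≤ S → S ≤ r →
        ‖Trunc n μ s S x‖ ≤ Ct) →
      ∃ a' ∈ μ.support, ∃ r' : ℝ, dist a' a < r ∧ ρ * r ≤ r' ∧ r' ≤ r ∧ Flat n μ a' r' δ)
    (hg1 : ∀ (d : ℕ) (μ : Measure (Eu d)) (θ : Eu d → ℝ)
      (a x : Eu d) (l r : ℝ), 0 < l → (1 / 8) * l ≤ r → r ≤ l → dist x a ≤ 0 * l →
      Good n M μ θ a l → Good n MT μ θ x r)
    (hg2 : ∀ (d : ℕ) (μ : Measure (Eu d)) (θ : Eu d → ℝ)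
      (a x : Eu d) (l r : ℝ), 0 < l → (ρ / (8 * Q)) * l ≤ r → r ≤ l → dist x a ≤ 3 * l →
      Good n M μ θ a l → Good n MP μ θ x r)
    (hm₂ : Q ≤ ρ / 8 * (A : ℝ) ^ m₂)
    (hAR : AR n c C D μ) (hRB : RB n C₁ μ) (hl : 0 < l₀)
    (hlD : ENNReal.ofReal l₀ ≤ D) (hS : Sys μ A l₀ x₀ p) {j : ℕ} {y : Eu d}
    (hy : y ∈ rootC μ x₀ p)
    (hG : Good n M μ (cut x₀ (3 * l₀)) (p j y) (sc A l₀ j)) :
    ∃ i, ∃ y' ∈ rootC μ x₀ p, j + m₁ ≤ i ∧ i ≤ j + m₂ ∧ p j y' = p j y ∧
        (∀ i', i - m₁ ≤ i' → i' < i →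
          NearFlat n μ (c / kap n) (C / kap n) (p i' y') (sc A l₀ i') K' ε') := by
  classical
  have hA0 : (16 : ℝ) ≤ A := by exact_mod_cast hA
  have hAp : (0 : ℝ) < A := by linarith only [hA0]
  have hA1 : (1 : ℝ) ≤ A := by linarith only [hA0]
  have hQp : 0 < Q := by rw [hQ]; (clear * - hMP hA; positivity)
  have hAm : 1 ≤ (A : ℝ) ^ m₁ := one_le_pow₀ hA1
  have hQ1 : (A : ℝ) ^ m₁ ≤ Q := by rw [hQ]; nlinarith only [hMP, hAm]
  have hQ2 : 1 ≤ Q := hAm.trans hQ1
  have hsj := sc_pos hA hl j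
  have hz := hS.p_mem_root hA hl j hy
  have hz0 := hS.dist_root hz
  set z := p j y with hzdef
  set L := sc A l₀ j with hL
  have hLl : L ≤ l₀ := sc_le hA hl j
  set r := L / 8 with hr
  have hrp : 0 < r := by (clear * - hsj; positivity)
  have hrD : ENNReal.ofReal r ≤ D := (ENNReal.ofReal_le_ofReal (by rw [hr]; linarith only [hl, hLl])).trans hlD
  have hθ01 : ∀ x, 0 ≤ cut x₀ (3 * l₀) x ∧ cut x₀ (3 * l₀) x ≤ 1 :=
    fun x => ⟨cut_nonneg_ta _ _ x, cut_le_one_ta _ _ x⟩
  have hθL : LipC (cut x₀ (3 * l₀)) := lipC_cut x₀ _ (by positivity)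
  have hT' := hT μ D hAR z r (cut x₀ (3 * l₀)) hrp hrD hθL hθ01 (by
      intro x hx
      apply cut_eq_one_ta (by (clear * - hl; positivity))
      have := dist_triangle x z x₀
      rw [hr] at hx
      linarith only [hz0, hLl, hx, this])
    (hg1 d μ (cut x₀ (3 * l₀)) z z L r hsj (by rw [hr]; linarith only []) (by rw [hr]; linarith only [hsj])
      (by rw [dist_self]; linarith only []) hG)
  obtain ⟨a', ha', r', har, hr1, hr2, hfl⟩ := hab μ D hAR z hz.1 r hrp hrD hT'
  have hr'p : 0 < r' := lt_of_lt_of_le (by (clear * - hρ hsj; positivity)) hr1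
  -- `a'` lies in the cube of `z`
  have hpa : p j a' = z := by
    apply hS.inner j y hy.1 a' ha'
    change dist a' z < L / 4
    linarith only [hsj, hr, har]
  have ha'R : a' ∈ rootC μ x₀ p := by
    refine ⟨ha', ?_⟩
    have h1 : p j a' = p j y := hpa
    rw [hS.nest_le (Nat.zero_le j) ha' hy.1 h1]
    exact hy.2
  -- the generation
  have hex : ∃ k, Q * sc A l₀ (j + k) ≤ r' := by
    refine ⟨m₂, ?_⟩
    have h1 := sc_add hA l₀ j m₂
    have h2 := sc_pos hA hl (j + m₂)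
    calc Q * sc A l₀ (j + m₂) ≤ (ρ / 8 * (A : ℝ) ^ m₂) * sc A l₀ (j + m₂) := by (clear * - hm₂ h2; gcongr)
      _ = ρ * (L / 8) := by rw [hL, h1]; ring
      _ ≤ r' := hr1
  set k := Nat.find hex with hk
  have hk1 : Q * sc A l₀ (j + k) ≤ r' := Nat.find_spec hex
  have hkm : k ≤ m₂ := Nat.find_min' hex (by
    have h1 := sc_add hA l₀ j m₂
    have h2 := sc_pos hA hl (j + m₂)
    calc Q * sc A l₀ (j + m₂) ≤ (ρ / 8 * (A : ℝ) ^ m₂) * sc A l₀ (j + m₂) := by (clear * - hm₂ h2; gcongr)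
      _ = ρ * (L / 8) := by rw [hL, h1]; ring
      _ ≤ r' := hr1)
  have hmk : m₁ < k := by
    by_contra hcon
    push Not at hcon
    have h1 := sc_add hA l₀ j k
    have h2 := sc_pos hA hl (j + k)
    have h3 : (A : ℝ) ^ k ≤ (A : ℝ) ^ m₁ := pow_le_pow_right₀ hA1 hcon
    have h4 : L ≤ r' := by
      calc L = sc A l₀ (j + k) * (A : ℝ) ^ k := h1
        _ ≤ sc A l₀ (j + k) * Q := by
          gcongr
          exact h3.trans hQ1
        _ = Q * sc A l₀ (j + k) := mul_comm _ _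
        _ ≤ r' := hk1
    linarith only [hr, hrp, hr2, h4]
  have hk2 : r' < Q * sc A l₀ (j + (k - 1)) := by
    have := Nat.find_min hex (m := k - 1) (by (clear * - hex hmk; omega))
    push Not at this
    exact this
  refine ⟨j + k, a', ha'R, by omega, by omega, hpa, ?_⟩
  intro i hi1 hi2
  have hsi := sc_pos hA hl i
  set l := sc A l₀ i with hl'
  -- upper bound for `l`
  have hup : (MP + 2) * l ≤ r' := by
    have h1 : l ≤ sc A l₀ (j + k - m₁) := sc_anti hA hl hi1
    have h2 := sc_add hA l₀ (j + k - m₁) m₁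
    have h3 : j + k - m₁ + m₁ = j + k := by omega
    rw [h3] at h2
    calc (MP + 2) * l ≤ (MP + 2) * (sc A l₀ (j + k) * (A : ℝ) ^ m₁) := by
          rw [← h2]; (clear * - hMP h1; gcongr)
      _ = Q * sc A l₀ (j + k) := by rw [hQ]; ring
      _ ≤ r' := hk1
  -- lower bound for `l`
  have hlow : r' < Q * l := by
    have h1 : sc A l₀ (j + (k - 1)) ≤ l := sc_anti hA hl (by omega)
    calc r' < Q * sc A l₀ (j + (k - 1)) := hk2
      _ ≤ Q * l := by (clear * - hQp h1; (clear * - h1 hQp; gcongr))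
  have hlr : l ≤ r' := by nlinarith only [hMP, hsi, hup]
  have hMl : MP * l ≤ r' := by nlinarith only [hsi, hup]
  have hja : j ≤ i := by omega
  have hz' := hS.p_mem_root hA hl i ha'R
  have hz'0 := hS.dist_root hz'
  have hz'a := hS.near i a' ha'
  rw [dist_comm] at hz'a
  refine hP μ D hAR hRB (p i a') hz'.1 l hsi ?_ (cut x₀ (3 * l₀)) hθL hθ01 ?_ ?_ ?_
  · refine (ENNReal.ofReal_le_ofReal ?_).trans hlD
    linarith only [hl, hLl, hr, hr2, hsi, hup]
  · intro x hx
    apply cut_eq_one_ta (by positivity)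
    have := dist_triangle x (p i a') x₀
    linarith only [hl, hLl, hr, hr2, hsi, hup, hz'0, hx, this]
  · apply hg2 d μ (cut x₀ (3 * l₀)) z (p i a') L l hsj
    · rw [div_mul_eq_mul_div, div_le_iff₀ (by (clear * - hQp; positivity))]
      have : ρ * L ≤ 8 * r' := by
        rw [hr] at hr1; linarith only [hr1]
      nlinarith only [hlow, this]
    · linarith only [hr, hrp, hr2, hlr]
    · have := dist_triangle (p i a') a' z
      linarith only [hr, hrp, har, hr2, hlr, hz'a, this]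
    · exact hG
  · intro R hR1 hR2
    have hRp : 0 < R := lt_of_lt_of_le hsi hR1
    obtain ⟨W, b, hW, hWb⟩ := hfl
    refine ⟨W, b, hW, ?_⟩
    intro x hx hxR
    refine (hWb x hx ?_).trans ?_
    · calc dist x a' ≤ dist x (p i a') + dist (p i a') a' := dist_triangle _ _ _
        _ < MP * l + 2 * l := by linarith only [hz'a, hR2, hxR]
        _ ≤ r' := by linarith only [hup]
    · calc δ * r' ≤ δ * (Q * l) := by
            have : 0 ≤ δ := by rw [hδ]; positivity
            (clear * - hlow this; gcongr)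
        _ = ε₀ * l := by rw [hδ]; (clear * - hε₀ hQp hsi; (clear * - hQp hsi hε₀; field_simp))
        _ ≤ ε₀ * R := by (clear * - hε₀ hR1; gcongr)

/-- Theorem A -/
theorem theoremA (n d A : ℕ) (hn : 1 ≤ n) (hnd : n ≤ d) (hA : 16 ≤ A) (c C C₁ : ℝ) (hc : 0 < c)
    (hC : 0 < C) (K ε : ℝ) (hK : 0 < K) (hε : 0 < ε) :
    ∃ CA : ℝ, 0 < CA ∧ ∀ (μ : Measure (Eu d)) (D : ℝ≥0∞), AR n c C D μ → RB n C₁ μ →
    ∀ x₀ ∈ μ.support, ∀ l₀ : ℝ, 0 < l₀ → ENNReal.ofReal l₀ ≤ D → ∀ p : ℕ → Eu d → Eu d,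
    Sys μ A l₀ x₀ p → ∀ J : ℕ,
      ∫ x in rootC μ x₀ p,
        cnt p (fun j z => ¬ NearFlat n μ (c / kap n) (C / kap n) z (sc A l₀ j) K ε) 0 J x ∂μ ≤
        CA * l₀ ^ n := by
  classical
  have hA0 : (16 : ℝ) ≤ A := by exact_mod_cast hA
  have hAp : (0 : ℝ) < A := by linarith only [hA0]
  have hA1 : (1 : ℝ) < A := by linarith only [hA0]
  obtain ⟨ε₀, hε₀, hP⟩ := persistence n d hn hnd c C C₁ hc hC
  set τ : ℝ := min 1 (ε₀ / A) with hτdef
  have hτ : 0 < τ := lt_min one_pos (by (clear * - hε₀ hA; positivity))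
  have hτ1 : τ ≤ 1 := min_le_left _ _
  have hτε : τ * A ≤ ε₀ := by
    calc τ * A ≤ (ε₀ / A) * A := by
          gcongr; exact min_le_right _ _
      _ = ε₀ := by field_simp
  set K' : ℝ := max K 4 with hK'def
  have hK' : 4 ≤ K' := le_max_right _ _
  set ε' : ℝ := min ε (c * (τ / 2) ^ (n + 1) / 2) with hε'def
  have hε'p : 0 < ε' := lt_min hε (by (clear * - hc hε₀ hA; positivity))
  have hε'2 : ε' < c * (τ / 2) ^ (n + 1) := by
    have h1 : 0 < c * (τ / 2) ^ (n + 1) := by positivity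
    calc ε' ≤ c * (τ / 2) ^ (n + 1) / 2 := min_le_right _ _
      _ < c * (τ / 2) ^ (n + 1) := by linarith only [h1]
  obtain ⟨MP, hMP, hP⟩ := hP K' ε' (by positivity) hε'p
  obtain ⟨m₀, hm₀⟩ := pow_unbounded_of_one_lt MP hA1
  set m₁ : ℕ := max m₀ 1 with hm₁def
  have hm₁ : 1 ≤ m₁ := le_max_right _ _
  have hMm : MP ≤ (A : ℝ) ^ m₁ :=
    hm₀.le.trans (pow_le_pow_right₀ hA1.le (le_max_left _ _))
  obtain ⟨Ct, hCt, hT⟩ := trunc_bound n d hn c C hc hC
  set Q : ℝ := (MP + 2) * (A : ℝ) ^ m₁ with hQ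
  have hQp : 0 < Q := by (clear * - hMP hA; positivity)
  set δ : ℝ := ε₀ / Q with hδ
  obtain ⟨ρ, hρ, hρ1, hab⟩ := abundance n d hn hnd c C Ct hc hC δ (by (clear * - hε₀ hMP hA; positivity))
  obtain ⟨MT, hMT, hT⟩ := hT ρ hρ hρ1
  have hT' := hT MT le_rfl
  obtain ⟨M1, hM1, hg1⟩ := Good.change n MT 0 (1 / 8) hMT le_rfl (by norm_num) (by norm_num)
  have hAm : 1 ≤ (A : ℝ) ^ m₁ := one_le_pow₀ hA1.le
  have hQ2 : 1 ≤ Q := by rw [hQ]; nlinarith only [hMP, hMm]
  obtain ⟨M2, hM2, hg2⟩ := Good.change n MP 3 (ρ / (8 * Q)) hMP (by norm_num) (by (clear * - hA hMP hρ; positivity)) (by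
    rw [div_le_one (by (clear * - hMP hA; positivity))]
    linarith only [hQp, hρ1, hQ2])
  set M : ℝ := max M1 M2 with hM
  have hMM1 : M1 ≤ M := le_max_left _ _
  have hMM2 : M2 ≤ M := le_max_right _ _
  have hM1' : 1 ≤ M := hMT.trans (hM1.trans hMM1)
  have hMPM : MP ≤ M := hM2.trans hMM2
  obtain ⟨m₂, hm₂⟩ := pow_unbounded_of_one_lt (8 * Q / ρ) hA1
  have hm₂' : Q ≤ ρ / 8 * (A : ℝ) ^ m₂ := by
    have h1 : Q = ρ / 8 * (8 * Q / ρ) := by (clear * - hQp hρ; (clear * - hρ hQp; field_simp))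
    rw [h1]
    have : 0 < ρ / 8 := by (clear * - hρ; positivity)
    (clear * - hρ hm₂; gcongr)
  obtain ⟨CB, hCB, hbad⟩ := bad_cubes n d A hn hA c C C₁ M hC hM1'
  set c₀ : ℝ := min 1 (c / (C * 8 ^ n * ((A : ℝ) ^ m₂) ^ n)) with hc₀
  have hc₀p : 0 < c₀ := lt_min one_pos (by (clear * - hc hC hA; positivity))
  have hc₀1 : c₀ ≤ 1 := min_le_left _ _
  refine ⟨(1 + (m₂ + 1) / c₀) * CB + (m₂ + 1) / c₀ * (C * 2 ^ n), by (clear * - hA hc hC hCB; positivity), ?_⟩
  intro μ D hAR hRB x₀ hx₀ l₀ hl hlD p hS J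
  set S₀ := rootC μ x₀ p with hS₀
  have hlf := hAR.isLocallyFiniteMeasure
  have hμS₀ : μ S₀ ≠ ⊤ := by
    refine ((measure_mono ?_).trans_lt (hAR.measure_ball_lt_top x₀ (2 * l₀))).ne
    intro x hx
    rw [mem_closedBall]
    exact hS.dist_root hx
  have hfm : IsFiniteMeasure (μ.restrict S₀) := ⟨by
    rw [Measure.restrict_apply_univ]; exact lt_top_iff_ne_top.2 hμS₀⟩
  have hrestr : ∀ T : Set (Eu d), T ⊆ S₀ → (μ.restrict S₀).real T = μ.real T := by
    intro T hT
    rw [Measure.real, Measure.restrict_eq_self _ hT, Measure.real]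
  set F : ℕ → Eu d → Prop :=
    fun j z => NearFlat n μ (c / kap n) (C / kap n) z (sc A l₀ j) K' ε' with hF
  set Bad : ℕ → Eu d → Prop :=
    fun j z => ¬ Good n M μ (cut x₀ (3 * l₀)) z (sc A l₀ j) with hBad
  have hcount := counting (μ.restrict S₀) S₀ J m₁ m₂ p F Bad c₀ hc₀p hc₀1
    (fun j _ => hS.finite hA hl j) (fun j _ z => hS.hmeas j z)
    (fun j _ x hx y hy h => hS.nest j x hx.1 y hy.1 h)
    (by
      intro j hj _ y hy hFy hB
      have hG : Good n M μ (cut x₀ (3 * l₀)) (p j y) (sc A l₀ j) := not_not.1 hB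
      exact per_step hA hK' hP hτ hτ1 hτε hε'2 hm₁ hMm hAR hRB hl hlD hS hj hy hFy
        (hG.mono (sc_pos hA hl j) hMP hMPM))
    (by
      intro j hj y hy hB
      have hG : Good n M μ (cut x₀ (3 * l₀)) (p j y) (sc A l₀ j) := not_not.1 hB
      obtain ⟨i, y', hy', h1, h2, h3, h4⟩ := ab_step (m₂ := m₂) hA hε₀ hMP hP hρ hQ hδ hT' hab
        (hg1 M hMM1) (hg2 M hMM2) hm₂' hAR hRB hl hlD hS hy hG
      refine ⟨i, y', hy', h1, h2, h3, h4, ?_⟩
      rw [hrestr _ (cell_subset_S₀ _ _), hrestr _ (cell_subset_S₀ _ _)]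
      have h5 : μ.real (cell S₀ p j y) ≤ C * (2 * sc A l₀ j) ^ n :=
        hS.measure_cell_le hAR hA hl j (p j y)
      have h6 := hS.le_measure_cell hAR hA hl hlD i hy'
      refine le_trans ?_ h6
      have hsj := sc_pos hA hl j
      have hsi := sc_pos hA hl i
      have h7 : sc A l₀ j ≤ sc A l₀ i * (A : ℝ) ^ m₂ := by
        rw [sc_add hA l₀ j m₂]
        have := sc_anti hA hl h2
        (clear * - hA this; gcongr)
      calc c₀ * μ.real (cell S₀ p j y)
          ≤ (c / (C * 8 ^ n * ((A : ℝ) ^ m₂) ^ n)) * (C * (2 * sc A l₀ j) ^ n) := by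
            gcongr
            exact min_le_right _ _
        _ ≤ (c / (C * 8 ^ n * ((A : ℝ) ^ m₂) ^ n)) *
            (C * (2 * (sc A l₀ i * (A : ℝ) ^ m₂)) ^ n) := by (clear * - hA hc hC hsj h7; gcongr)
        _ = c * (sc A l₀ i / 4) ^ n := by
            have h8 : (8 : ℝ) ^ n = 2 ^ n * 4 ^ n := by rw [← mul_pow]; norm_num
            rw [mul_pow, mul_pow, div_pow, h8]
            (clear * - hA hc hC hsi; (clear * - hC hA hsi hc; field_simp)))
    x₀ (hS.mem_root hx₀)
  have hcell : cell S₀ p 0 x₀ = S₀ := by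
    ext x
    constructor
    · intro hx; exact hx.1
    · intro hx
      exact ⟨hx, by rw [hx.2, hS.root]⟩
  rw [hcell, Measure.restrict_restrict hS.measurableSet_root, inter_self,
    hrestr _ subset_rfl] at hcount
  have hB := hbad μ D hAR hRB x₀ hx₀ l₀ hl hlD p hS J
  have hmS : μ.real S₀ ≤ C * 2 ^ n * l₀ ^ n := by
    have h1 := hS.measure_cell_le hAR hA hl 0 x₀
    have h2 : {x | x ∈ rootC μ x₀ p ∧ p 0 x = x₀} = S₀ := by
      ext x
      constructor
      · intro hx; exact hx.1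
      · intro hx; exact ⟨hx, hx.2⟩
    rw [h2, sc_zero, mul_pow] at h1
    linarith only [h1]
  have hint : ∀ P : ℕ → Eu d → Prop, IntegrableOn (cnt p P 0 J) S₀ μ := by
    intro P
    have h1 := integrableOn_cnt (μ := μ.restrict S₀) (S₀ := S₀) (J := J) (p := p)
      (fun j _ => hS.finite hA hl j) (fun j _ z => hS.hmeas j z) P (j := 0) (k := J) le_rfl
      subset_rfl hS.measurableSet_root
    rw [IntegrableOn, Measure.restrict_restrict hS.measurableSet_root, inter_self] at h1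
    exact h1
  calc ∫ x in S₀, cnt p
        (fun j z => ¬ NearFlat n μ (c / kap n) (C / kap n) z (sc A l₀ j) K ε) 0 J x ∂μ
      ≤ ∫ x in S₀, cnt p (fun i z => ¬ F i z) 0 J x ∂μ := by
        apply setIntegral_mono (hint _) (hint _)
        intro x
        apply cnt_mono
        intro j z hjz hF'
        exact hjz (hF'.mono (sc_pos hA hl j) (le_max_left _ _) (min_le_left _ _))
    _ ≤ (1 + (m₂ + 1) / c₀) * ∫ x in S₀, cnt p Bad 0 J x ∂μ + (m₂ + 1) / c₀ * μ.real S₀ :=
        hcount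
    _ ≤ (1 + (m₂ + 1) / c₀) * (CB * l₀ ^ n) + (m₂ + 1) / c₀ * (C * 2 ^ n * l₀ ^ n) := by
        (clear * - hA hc hC hB hmS; (clear * - hB hc hC hA hmS; gcongr))
    _ = ((1 + (m₂ + 1) / c₀) * CB + (m₂ + 1) / c₀ * (C * 2 ^ n)) * l₀ ^ n := by ring

end Vale.Agent.P120
end
end

section

section

/-! Near-flatness gives bilateral flatness. Owner: helper492 -/

open MeasureTheory Metric Set Filter Topology
open scoped ENNReal NNReal

namespace Vale.Agent.P120

variable {d n : ℕ} {μ : Measure (Eu d)} {c C : ℝ} {D : ℝ≥0∞}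

theorem kap_pos (n : ℕ) : 0 < kap n := by
  unfold kap
  exact ENNReal.toReal_pos (measure_ball_pos _ _ one_pos).ne' measure_ball_lt_top.ne

theorem NF.dP_le' (h : AR n c C D μ) {a : Eu d} {r K K' ε : ℝ} {b : Eu d}
    {ι : Eu n →ₗᵢ[ℝ] Eu d}
    {g : ℝ} (hr : 0 < r) (hK : K + 1 ≤ K') (hrD : ENNReal.ofReal r ≤ D) {τ : ℝ} (hτ : 0 < τ)
    (hτ1 : τ ≤ 1) (hε : ε < c * (τ / 2) ^ (n + 1)) (hN : NF n μ a r K' ε b ι g) {x : Eu d}
    (hx : x ∈ μ.support) (hxa : dist x a ≤ K * r) :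
    dP (LinearMap.range ι.toLinearMap) b x ≤ τ * r := by
  by_contra hcon
  push Not at hcon
  have hlf := h.isLocallyFiniteMeasure
  set φ : Eu d → ℝ := fun y => max 0 (τ - dist y x / r) with hφ
  have h1 := hN φ (fun y z => scaled_tent_lip x τ r hr y z) (by
    intro y hy
    have hd : (K' * r : ℝ) ≤ dist y x + dist x a := hy.trans (dist_triangle _ _ _)
    have : τ ≤ dist y x / r := by
      rw [le_div_iff₀ hr]
      nlinarith only [hr, hK, hτ1, hxa, hd]
    simp only [hφ]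
    apply max_eq_left
    linarith only [this])
  have h2 : ∀ v : Eu n, φ (b + ι v) = 0 := by
    intro v
    have hd : dP (LinearMap.range ι.toLinearMap) b x ≤ dist x (b + ι v) := by
      apply dP_le_dist
      simp
    have : τ ≤ dist (b + ι v) x / r := by
      rw [le_div_iff₀ hr, dist_comm]
      linarith only [hcon, hd]
    simp only [hφ]
    apply max_eq_left
    linarith only [this]
  have h3 : ∫ v, φ (b + ι v) = 0 := by
    simp [h2]
  rw [h3, mul_zero, sub_zero] at h1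
  have hφ0 : ∀ y, 0 ≤ φ y := fun y => le_max_left _ _
  have hφc : Continuous φ := by
    simp only [hφ]; (clear * -; fun_prop)
  have hφcs : HasCompactSupport φ := by
    apply HasCompactSupport.intro (isCompact_closedBall x (τ * r))
    intro y hy
    rw [mem_closedBall, not_le] at hy
    simp only [hφ]
    apply max_eq_left
    have : τ < dist y x / r := by rw [lt_div_iff₀ hr]; exact hy
    linarith only [this]
  have hφi : Integrable φ μ := hφc.integrable_of_hasCompactSupport hφcs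
  have h4 : (τ / 2) * μ.real (ball x (τ / 2 * r)) ≤ ∫ y, φ y ∂μ := by
    calc (τ / 2) * μ.real (ball x (τ / 2 * r)) = ∫ y in ball x (τ / 2 * r), (τ / 2) ∂μ := by
          rw [setIntegral_const, smul_eq_mul, mul_comm]
      _ ≤ ∫ y in ball x (τ / 2 * r), φ y ∂μ := by
          apply setIntegral_mono_on
          · have hc : ‖(τ / 2 : ℝ)‖ₑ ≠ ⊤ := enorm_ne_top
            exact integrableOn_const (measure_ball_lt_top).ne hc
          · exact hφi.integrableOn
          · exact measurableSet_ball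
          · intro y hy
            rw [mem_ball] at hy
            simp only [hφ]
            refine le_max_of_le_right ?_
            have : dist y x / r < τ / 2 := by rw [div_lt_iff₀ hr]; exact hy
            linarith only [this]
      _ ≤ ∫ y, φ y ∂μ := setIntegral_le_integral hφi (Eventually.of_forall hφ0)
  have h5 : c * (τ / 2 * r) ^ n ≤ μ.real (ball x (τ / 2 * r)) := by
    have hl := h.lower x hx (τ / 2 * r) (by (clear * - hτ hr; positivity)) (by
      refine (ENNReal.ofReal_le_ofReal ?_).trans hrD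
      nlinarith only [hr, hτ1])
    have h6 : ENNReal.ofReal (c * (τ / 2 * r) ^ n) ≤ ENNReal.ofReal (μ.real (ball x (τ / 2 * r))) := by
      rw [ofReal_measureReal (measure_ball_lt_top).ne]
      exact hl
    exact (ENNReal.ofReal_le_ofReal_iff measureReal_nonneg).1 h6
  have h6 : (τ / 2) * (c * (τ / 2 * r) ^ n) ≤ ε * r ^ n := by
    calc (τ / 2) * (c * (τ / 2 * r) ^ n) ≤ (τ / 2) * μ.real (ball x (τ / 2 * r)) := by (clear * - hτ h5; gcongr)
      _ ≤ ∫ y, φ y ∂μ := h4
      _ ≤ |∫ y, φ y ∂μ| := le_abs_self _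
      _ ≤ ε * r ^ n := h1
  have h7 : (τ / 2) * (c * (τ / 2 * r) ^ n) = c * (τ / 2) ^ (n + 1) * r ^ n := by
    rw [mul_pow, pow_succ]; ring
  rw [h7] at h6
  have h8 : ε * r ^ n < c * (τ / 2) ^ (n + 1) * r ^ n := by
    apply mul_lt_mul_of_pos_right hε (by positivity)
  linarith only [h6, h8]

theorem volume_real_ball (n : ℕ) (v : Eu n) {r : ℝ} (hr : 0 < r) :
    (volume : Measure (Eu n)).real (ball v r) = kap n * r ^ n := by
  rw [Measure.real, Measure.addHaar_ball_of_pos _ _ hr, ENNReal.toReal_mul, kap,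
    ENNReal.toReal_ofReal (by positivity)]
  simp only [finrank_euclideanSpace, Fintype.card_fin]
  ring

/-- points of the plane are close to the support -/
theorem NF.exists_near {a : Eu d} {r K K' ε : ℝ} {b : Eu d}
    {ι : Eu n →ₗᵢ[ℝ] Eu d}
    {g g₀ : ℝ} (hg₀ : 0 < g₀) (hg : g₀ ≤ g) (hr : 0 < r) (hK : K + 1 ≤ K')
    {τ : ℝ} (hτ : 0 < τ)
    (hτ1 : τ ≤ 1) (hε : ε < g₀ * kap n * (τ / 2) ^ (n + 1)) (hN : NF n μ a r K' ε b ι g)
    (v : Eu n)
    (hv : dist (b + ι v) a ≤ K * r) : ∃ x ∈ μ.support, dist x (b + ι v) ≤ τ * r := by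
  by_contra hcon
  push Not at hcon
  set w := b + ι v with hw
  set φ : Eu d → ℝ := fun y => max 0 (τ - dist y w / r) with hφ
  have h1 := hN φ (fun y z => scaled_tent_lip w τ r hr y z) (by
    intro y hy
    have hd : (K' * r : ℝ) ≤ dist y w + dist w a := hy.trans (dist_triangle _ _ _)
    have : τ ≤ dist y w / r := by
      rw [le_div_iff₀ hr]
      nlinarith only [hr, hK, hτ1, hv, hd]
    simp only [hφ]
    apply max_eq_left
    linarith only [this])
  have h3 : ∫ x, φ x ∂μ = 0 := by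
    apply integral_eq_zero_of_ae
    have hs : ∀ᵐ x ∂μ, x ∈ μ.support := by
      rw [ae_iff]
      exact Measure.measure_compl_support
    filter_upwards [hs] with x hx
    have := hcon x hx
    simp only [hφ, Pi.zero_apply]
    apply max_eq_left
    have h' : τ < dist x w / r := by rw [lt_div_iff₀ hr]; exact this
    linarith only [h']
  rw [h3, zero_sub, abs_neg] at h1
  set ψ : Eu n → ℝ := fun u => φ (b + ι u) with hψ
  have hψe : ∀ u, ψ u = max 0 (τ - dist u v / r) := by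
    intro u
    simp only [hψ, hφ, hw]
    rw [dist_add_left, ι.dist_map]
  have hψ0 : ∀ u, 0 ≤ ψ u := fun u => by rw [hψe]; exact le_max_left _ _
  have hψc : Continuous ψ := by
    have : ψ = fun u => max 0 (τ - dist u v / r) := funext hψe
    rw [this]; (clear * -; fun_prop)
  have hψcs : HasCompactSupport ψ := by
    apply HasCompactSupport.intro (isCompact_closedBall v (τ * r))
    intro y hy
    rw [mem_closedBall, not_le] at hy
    rw [hψe]
    apply max_eq_left
    have : τ < dist y v / r := by rw [lt_div_iff₀ hr]; exact hy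
    linarith only [this]
  have hψi : Integrable ψ := hψc.integrable_of_hasCompactSupport hψcs
  have h4 : (τ / 2) * (volume : Measure (Eu n)).real (ball v (τ / 2 * r)) ≤ ∫ u, ψ u := by
    calc (τ / 2) * (volume : Measure (Eu n)).real (ball v (τ / 2 * r))
        = ∫ y in ball v (τ / 2 * r), (τ / 2) := by
          rw [setIntegral_const, smul_eq_mul, mul_comm]
      _ ≤ ∫ y in ball v (τ / 2 * r), ψ y := by
          apply setIntegral_mono_on
          · have hc : ‖(τ / 2 : ℝ)‖ₑ ≠ ⊤ := enorm_ne_top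
            exact integrableOn_const (measure_ball_lt_top).ne hc
          · exact hψi.integrableOn
          · exact measurableSet_ball
          · intro y hy
            rw [mem_ball] at hy
            rw [hψe]
            refine le_max_of_le_right ?_
            have : dist y v / r < τ / 2 := by rw [div_lt_iff₀ hr]; exact hy
            linarith only [this]
      _ ≤ ∫ y, ψ y := setIntegral_le_integral hψi (Eventually.of_forall hψ0)
  rw [volume_real_ball n v (by (clear * - hτ hr; positivity))] at h4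
  have hkap := kap_pos n
  have h5 : g₀ * ((τ / 2) * (kap n * (τ / 2 * r) ^ n)) ≤ ε * r ^ n := by
    have h6 : 0 ≤ ∫ u, ψ u := integral_nonneg hψ0
    calc g₀ * ((τ / 2) * (kap n * (τ / 2 * r) ^ n)) ≤ g₀ * ∫ u, ψ u := by (clear * - hg₀ h4; (clear * - h4 hg₀; gcongr))
      _ ≤ g * ∫ u, ψ u := by (clear * - hg; gcongr)
      _ ≤ |g * ∫ u, ψ u| := le_abs_self _
      _ ≤ ε * r ^ n := h1
  have h7 : g₀ * ((τ / 2) * (kap n * (τ / 2 * r) ^ n)) =
      g₀ * kap n * (τ / 2) ^ (n + 1) * r ^ n := by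
    rw [mul_pow, pow_succ]; ring
  rw [h7] at h5
  have h8 : ε * r ^ n < g₀ * kap n * (τ / 2) ^ (n + 1) * r ^ n := by
    apply mul_lt_mul_of_pos_right hε (by positivity)
  linarith only [h5, h8]

/-- bilateral flatness with a plane through the centre -/
theorem NearFlat.bilateral (h : AR n c C D μ) {g₀ g₁ : ℝ} (hg₀ : 0 < g₀) {a : Eu d}
    {r K δ ε τ : ℝ} (hr : 0 < r) (hrD : ENNReal.ofReal r ≤ D) (ha : a ∈ μ.support) (hK : 0 ≤ K)
    (hτ : 0 < τ) (hτ1 : τ ≤ 1) (hτδ : 2 * τ ≤ δ)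
    (hε : ε < c * (τ / 2) ^ (n + 1)) (hε2 : ε < g₀ * kap n * (τ / 2) ^ (n + 1))
    (hN : NearFlat n μ g₀ g₁ a r (K + 2) ε) :
    ∃ ι : Eu n →ₗᵢ[ℝ] Eu d,
      (∀ x ∈ μ.support, dist x a ≤ K * r → ∃ v, dist x (a + ι v) ≤ δ * r) ∧
      (∀ v, ‖v‖ ≤ K * r → ∃ x ∈ μ.support, dist x (a + ι v) ≤ δ * r) := by
  obtain ⟨b, ι, g, hg, -, hN⟩ := hN
  refine ⟨ι, ?_, ?_⟩
  all_goals
    have ha1 := hN.dP_le' (K := K) h hr (by linarith only []) hrD hτ hτ1 hε ha
      (by rw [dist_self]; (clear * - hr hK; positivity))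
    rw [dP_eq_dist] at ha1
    obtain ⟨va, hva⟩ : ∃ va, ι va =
        (LinearMap.range ι.toLinearMap).starProjection (a - b) := by
      have := Submodule.starProjection_apply_mem (LinearMap.range ι.toLinearMap) (a - b)
      simpa using this
    rw [← hva] at ha1
  · intro x hx hxa
    have hx1 := hN.dP_le' (K := K) h hr (by linarith only []) hrD hτ hτ1 hε hx hxa
    rw [dP_eq_dist] at hx1
    obtain ⟨vx, hvx⟩ : ∃ vx, ι vx =
        (LinearMap.range ι.toLinearMap).starProjection (x - b) := by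
      have := Submodule.starProjection_apply_mem (LinearMap.range ι.toLinearMap) (x - b)
      simpa using this
    rw [← hvx] at hx1
    refine ⟨vx - va, ?_⟩
    have h1 : dist x (a + ι (vx - va)) ≤ dist x (b + ι vx) + dist (b + ι vx) (a + ι (vx - va)) :=
      dist_triangle _ _ _
    have h2 : dist (b + ι vx) (a + ι (vx - va)) = dist a (b + ι va) := by
      rw [dist_comm, dist_eq_norm, dist_eq_norm, map_sub]
      congr 1
      abel
    rw [h2] at h1
    nlinarith only [hr, hτδ, ha1, hx1, h1]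
  · intro v hv
    have h0 : dist (b + ι (va + v)) (a + ι v) = dist a (b + ι va) := by
      rw [dist_comm, dist_eq_norm, dist_eq_norm, map_add]
      congr 1
      abel
    obtain ⟨x, hx, hx1⟩ := hN.exists_near hg₀ hg hr (K := K + 1) (by linarith only []) hτ hτ1 hε2
      (va + v) (by
        have h1 : dist (b + ι (va + v)) a ≤
          dist (b + ι (va + v)) (a + ι v) + dist (a + ι v) a := dist_triangle _ _ _
        rw [h0] at h1
        have h2 : dist (a + ι v) a = ‖v‖ := by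
          rw [dist_eq_norm, add_sub_cancel_left, ι.norm_map]
        rw [h2] at h1
        nlinarith only [hr, hτ1, ha1, hv, h1])
    refine ⟨x, hx, ?_⟩
    have h1 : dist x (a + ι v) ≤ dist x (b + ι (va + v)) + dist (b + ι (va + v)) (a + ι v) :=
      dist_triangle _ _ _
    rw [h0] at h1
    nlinarith only [hr, hτδ, ha1, hx1, h1]

end Vale.Agent.P120
end
end

section

section

/-! Theorem A in terms of bilateral flatness and the infinite-depth cubes. Owner: helper492 -/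

open MeasureTheory Metric Set Filter Topology
open scoped ENNReal NNReal

namespace Vale.Agent.P120

variable {n d : ℕ}

theorem Cubes.sys {μ : Measure (Eu d)} {A : ℕ} {l₀ : ℝ} (Q : Cubes μ.support A l₀) {z : Eu d}
    (hz : z ∈ Q.N 0) : Sys μ A l₀ z Q.p where
  meas := Q.p_meas
  mem := fun j x hx => Q.N_sub j (Q.p_mem j x hx)
  near := fun j x hx => by
    have := Q.p_dist j x hx
    rwa [div_eq_mul_inv] at this
  nest := fun j x hx y hy h => by
    rw [← Q.p_par j x hx, ← Q.p_par j y hy, h]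
  sep := fun j x hx y hy h => by
    have := Q.N_sep j _ (Q.p_mem j x hx) _ (Q.p_mem j y hy) h
    rwa [div_eq_mul_inv] at this
  inner := fun j x hx y hy h => by
    apply Q.p_core j _ (Q.p_mem j x hx) y hy
    rwa [sc, ← div_eq_mul_inv] at h
  root := Q.p_self hz

/-- Theorem A, bilateral form -/
theorem theoremA_bilateral (n d A : ℕ) (hn : 1 ≤ n) (hnd : n ≤ d) (hA : 16 ≤ A) (c C C₁ : ℝ)
    (hc : 0 < c) (hC : 0 < C) (K δ : ℝ) (hK : 0 ≤ K) (hδ : 0 < δ) :
    ∃ CA : ℝ, 0 < CA ∧ ∀ (μ : Measure (Eu d)) (D : ℝ≥0∞), AR n c C D μ → RB n C₁ μ →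
    ∀ l₀ : ℝ, ENNReal.ofReal l₀ ≤ D → ∀ Q : Cubes μ.support A l₀, ∀ z ∈ Q.N 0, ∀ J : ℕ,
      ∑ j ∈ Finset.range J, μ {x | x ∈ Q.cube 0 z ∧ ¬ ∃ ι : Eu n →ₗᵢ[ℝ] Eu d,
        (∀ y ∈ μ.support, dist y (Q.p j x) ≤ K * Q.l j →
          ∃ v, dist y (Q.p j x + ι v) ≤ δ * Q.l j) ∧
        (∀ v, ‖v‖ ≤ K * Q.l j → ∃ y ∈ μ.support, dist y (Q.p j x + ι v) ≤ δ * Q.l j)} ≤
      ENNReal.ofReal (CA * l₀ ^ n) := by
  classical
  have hkap := kap_pos n
  set τ : ℝ := min 1 (δ / 2) with hτdef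
  have hτ : 0 < τ := lt_min one_pos (by (clear * - hδ; positivity))
  have hτ1 : τ ≤ 1 := min_le_left _ _
  have hτδ : 2 * τ ≤ δ := by
    have : τ ≤ δ / 2 := min_le_right _ _
    linarith only [this]
  have hg₀ : 0 < c / kap n := by (clear * - hc hkap; positivity)
  set ε : ℝ := min (c * (τ / 2) ^ (n + 1)) (c / kap n * kap n * (τ / 2) ^ (n + 1)) / 2 with hε
  have hm : 0 < min (c * (τ / 2) ^ (n + 1)) (c / kap n * kap n * (τ / 2) ^ (n + 1)) :=
    lt_min (by positivity) (by positivity)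
  have hεp : 0 < ε := by positivity
  have hε1 : ε < c * (τ / 2) ^ (n + 1) := lt_of_lt_of_le (by rw [hε]; linarith only [hε, hεp]) (min_le_left _ _)
  have hε2 : ε < c / kap n * kap n * (τ / 2) ^ (n + 1) :=
    lt_of_lt_of_le (by rw [hε]; linarith only [hε, hεp]) (min_le_right _ _)
  obtain ⟨CA, hCA, H⟩ := theoremA n d A hn hnd hA c C C₁ hc hC (K + 2) ε (by (clear * - hK; positivity)) hεp
  refine ⟨CA, hCA, ?_⟩
  intro μ D hAR hRB l₀ hlD Q z hz J
  have hl := Q.l_pos
  have hS := Q.sys hz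
  have hzs : z ∈ μ.support := Q.N_sub 0 hz
  have hint := H μ D hAR hRB z hzs l₀ hl hlD Q.p hS J
  set S₀ := rootC μ z Q.p with hS₀
  have hlf := hAR.isLocallyFiniteMeasure
  set P : ℕ → Eu d → Prop :=
    fun j z => ¬ NearFlat n μ (c / kap n) (C / kap n) z (sc A l₀ j) (K + 2) ε with hP
  have hfin : ∀ j, (Q.p j '' S₀).Finite := fun j => hS.finite hA hl j
  have hμS₀ : μ S₀ ≠ ⊤ := by
    refine ((measure_mono ?_).trans_lt (hAR.measure_ball_lt_top z (2 * l₀))).ne
    intro x hx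
    rw [mem_closedBall]
    exact hS.dist_root hx
  have hfm : IsFiniteMeasure (μ.restrict S₀) := ⟨by
    rw [Measure.restrict_apply_univ]; exact lt_top_iff_ne_top.2 hμS₀⟩
  have hpred : ∀ j, MeasurableSet {x | x ∈ S₀ ∧ P j (Q.p j x)} := fun j =>
    measurable_pred (J := j) (fun i _ => hfin i) (fun i _ z => hS.hmeas i z) P le_rfl
  have hnt : ∀ j, μ {x | x ∈ S₀ ∧ P j (Q.p j x)} ≠ ⊤ := fun j =>
    ((measure_mono (fun x hx => hx.1)).trans_lt (lt_top_iff_ne_top.2 hμS₀)).ne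
  have h1 : ∀ j, ∫ x in S₀, (if P j (Q.p j x) then (1 : ℝ) else 0) ∂μ =
      μ.real {x | x ∈ S₀ ∧ P j (Q.p j x)} := by
    intro j
    have e1 : ∫ x in S₀, (if P j (Q.p j x) then (1 : ℝ) else 0) ∂μ =
        ∫ x in S₀, Set.indicator {x | x ∈ S₀ ∧ P j (Q.p j x)} (fun _ => (1 : ℝ)) x ∂μ := by
      apply setIntegral_congr_fun hS.measurableSet_root
      intro x hx
      by_cases hP : P j (Q.p j x)
      · have hm : x ∈ {x | x ∈ S₀ ∧ P j (Q.p j x)} := ⟨hx, hP⟩
        simp only [Set.indicator_of_mem hm, if_pos hP]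
      · have hm : x ∉ {x | x ∈ S₀ ∧ P j (Q.p j x)} := fun h => hP h.2
        simp only [Set.indicator_of_notMem hm, if_neg hP]
    rw [e1, setIntegral_indicator (hpred j), setIntegral_const, smul_eq_mul, mul_one]
    congr 1
    ext x
    constructor
    · rintro ⟨-, h⟩; exact h
    · intro h; exact ⟨h.1, h⟩
  have h2 : ∫ x in S₀, cnt Q.p P 0 J x ∂μ =
      ∑ j ∈ Finset.Icc 0 J, μ.real {x | x ∈ S₀ ∧ P j (Q.p j x)} := by
    unfold cnt
    rw [integral_finsetSum]
    · apply Finset.sum_congr rfl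
      intro j _
      rw [← h1 j]
      congr 1
      ext x
      congr 1
    · intro j _
      have hi : IntegrableOn (Set.indicator {x | x ∈ S₀ ∧ P j (Q.p j x)}
          (fun _ => (1 : ℝ))) S₀ μ :=
        (integrable_const (1 : ℝ)).indicator (hpred j)
      refine IntegrableOn.congr_fun hi ?_ hS.measurableSet_root
      intro x hx
      by_cases hP : P j (Q.p j x)
      · have hm : x ∈ {x | x ∈ S₀ ∧ P j (Q.p j x)} := ⟨hx, hP⟩
        simp only [Set.indicator_of_mem hm, if_pos hP]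
      · have hm : x ∉ {x | x ∈ S₀ ∧ P j (Q.p j x)} := fun h => hP h.2
        simp only [Set.indicator_of_notMem hm, if_neg hP]
  rw [h2] at hint
  calc _ ≤ ∑ j ∈ Finset.range J, μ {x | x ∈ S₀ ∧ P j (Q.p j x)} := by
        apply Finset.sum_le_sum
        intro j _
        apply measure_mono
        rintro x ⟨hx, hbf⟩
        refine ⟨hx, ?_⟩
        intro hNF
        apply hbf
        have hlj : sc A l₀ j = Q.l j := by rw [sc, Cubes.l, div_eq_mul_inv]
        rw [hlj] at hNF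
        exact hNF.bilateral hAR hg₀ (Q.l_pos' j)
          ((ENNReal.ofReal_le_ofReal (by rw [← hlj]; exact sc_le hA hl j)).trans hlD)
          (Q.p_memE hx.1) hK hτ hτ1 hτδ hε1 hε2
    _ ≤ ∑ j ∈ Finset.Icc 0 J, μ {x | x ∈ S₀ ∧ P j (Q.p j x)} := by
        apply Finset.sum_le_sum_of_subset
        intro j hj
        rw [Finset.mem_range] at hj
        rw [Finset.mem_Icc]
        omega
    _ = ENNReal.ofReal (∑ j ∈ Finset.Icc 0 J, μ.real {x | x ∈ S₀ ∧ P j (Q.p j x)}) := by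
        rw [ENNReal.ofReal_sum_of_nonneg (fun j _ => measureReal_nonneg)]
        apply Finset.sum_congr rfl
        intro j _
        rw [ofReal_measureReal (hnt j)]
    _ ≤ ENNReal.ofReal (CA * l₀ ^ n) := ENNReal.ofReal_le_ofReal hint

end Vale.Agent.P120
end
end

section

section

/-! Final assembly. Owner: helper492 -/

open MeasureTheory Metric Set Filter Topology
open scoped ENNReal NNReal

namespace Vale.Agent.P120

/-- quantitative form: the constants depend only on `n`, `d`, the regularity constant and the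
norm of the Riesz transform -/
theorem main_quant (n d : ℕ) (hn : 1 ≤ n) (hnd : n ≤ d) (C₀ Cb : ℝ) (hC₀ : 1 ≤ C₀)
    (hCb : 0 ≤ Cb) : ∃ (θ : ℝ) (M : ℝ≥0), 0 < θ ∧ ∀ μ : Measure (Eu d),
      (∀ x ∈ μ.support, ∀ r : ℝ, 0 < r → ENNReal.ofReal r ≤ ediam μ.support →
        ENNReal.ofReal (C₀⁻¹ * r ^ n) ≤ μ (ball x r) ∧
        μ (ball x r) ≤ ENNReal.ofReal (C₀ * r ^ n)) →
      (∀ f : Eu d → ℝ, MemLp f 2 μ → ∀ ε : ℝ, 0 < ε →
        eLpNorm (truncRiesz n μ ε f) 2 μ ≤ ENNReal.ofReal Cb * eLpNorm f 2 μ) →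
      ∀ x ∈ μ.support, ∀ r : ℝ, 0 < r → ENNReal.ofReal r ≤ ediam μ.support →
        ∃ g : Eu n → Eu d, LipschitzWith M g ∧
          ENNReal.ofReal (θ * r ^ n) ≤ μ (ball x r ∩ g '' ball 0 r) := by
  have hC₀p : 0 < C₀ := by linarith only [hC₀]
  obtain ⟨C, hC, hAR⟩ := ar_quant n d C₀ hC₀
  obtain ⟨C₁, hRB⟩ := rb_quant n hn C Cb hC hCb
  have hc : 0 < C₀⁻¹ := inv_pos.2 hC₀p
  obtain ⟨δ, hδ, hB⟩ := theoremB n d hn hnd C₀⁻¹ C hc hC
  obtain ⟨CA, hCA, hA⟩ := theoremA_bilateral n d 16 hn hnd le_rfl C₀⁻¹ C C₁ hc hC 10 δ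
    (by norm_num) hδ
  obtain ⟨θ, M, hθ, hB⟩ := hB CA hCA.le
  refine ⟨θ * ((4 : ℝ) ^ n)⁻¹, M, by (clear * - hθ; positivity), ?_⟩
  intro μ hreg hbdd x hx r hr hrD
  have hDpos : 0 < ediam μ.support := lt_of_lt_of_le (ENNReal.ofReal_pos.2 hr) hrD
  have hAR' := hAR μ hDpos hreg
  have hRB' := hRB d μ _ _ hAR' hbdd
  have hl : 0 < r / 4 := by (clear * - hr; positivity)
  have hlD : ENNReal.ofReal (r / 4) ≤ ediam μ.support :=
    (ENNReal.ofReal_le_ofReal (by linarith only [hr])).trans hrD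
  obtain ⟨Q, hQ⟩ := exists_cubes (E := μ.support) Measure.isClosed_support.measurableSet hx
    (le_refl 16) hl
  obtain ⟨g, hg, hmeas⟩ := hB μ _ hAR' (r / 4) hlD Q x hQ
    (fun J => hA μ _ hAR' hRB' (r / 4) hlD Q x hQ J)
  refine ⟨g, hg, ?_⟩
  have h1 : θ * ((4 : ℝ) ^ n)⁻¹ * r ^ n = θ * (r / 4) ^ n := by
    rw [div_pow]; ring
  rw [h1]
  refine hmeas.trans (measure_mono ?_)
  apply inter_subset_inter
  · apply closedBall_subset_ball
    linarith only [hr]
  · apply image_mono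
    apply ball_subset_ball
    linarith only [hr]

theorem main (n d : ℕ) (hn : 1 ≤ n) (hnd : n < d) (μ : Measure (Eu d))
    (_hlf : IsLocallyFiniteMeasure μ) (hreg : ADRegular n μ) (hb : RieszBounded n μ) :
    UniformlyRectifiable n μ := by
  obtain ⟨C₀, hC₀, hreg⟩ := hreg
  obtain ⟨Cb, hCb, hb⟩ := hb
  obtain ⟨θ, M, hθ, H⟩ := main_quant n d hn hnd.le C₀ Cb hC₀ hCb
  refine ⟨θ, hθ, M, fun x hx r hr hrD => ?_⟩
  obtain ⟨g, hg, hm⟩ := H μ hreg (fun f hf ε hε => (hb f hf ε hε).2) x hx r hr hrD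
  exact ⟨g, hg.lipschitzOnWith, hm⟩

end Vale.Agent.P120
end
end
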